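import Vale.Agent.P201.Bd3.MathlibUsed

set_option linter.all false

section

/-!
P201 (and P194, P186): the general machine for an abstract system of ports (captain helper201).
Same as `Z/Defs.lean`, `Z/PC.lean` with `(p : Pat) (n : Nat)` replaced by a system `S : Sys`:
row/copy label `rc`, block `blk`, height `ht` are functions of the port.
-/

namespace Vale.Agent.P201.S

open Finset

/-- A system of ports: `C x Bool` are the ports, the ports `(c, true)` and `(σ c, false)` get matched. -/
structure Sys where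
  C : Type
  R : Type
  B : Type
  [fC : Fintype C]
  [fR : Fintype R]
  [fB : Fintype B]
  [dC : DecidableEq C]
  [dR : DecidableEq R]
  [dB : DecidableEq B]
  rc : C × Bool → R
  blk : C × Bool → B
  ht : C × Bool → ℤ
  inj : ∀ q q', rc q = rc q' → blk q = blk q' → ht q = ht q' → q = q'
  cp : ∀ q q', rc q = rc q' → q.2 = q'.2

attribute [instance] Sys.fC Sys.fR Sys.fB Sys.dC Sys.dR Sys.dB

/-- a port -/
abbrev Port (S : Sys) : Type := S.C × Bool

variable {S : Sys}

/-- the matching involution on ports: `(c, true)` with `(σ c, false)` -/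
def mt (σ : Equiv.Perm S.C) (q : Port S) : Port S :=
  if q.2 then (σ q.1, false) else (σ.symm q.1, true)

/-- reduced walk of the matching graph, given by its leaving ports -/
def IsWalk (σ : Equiv.Perm S.C) (l : List (Port S)) : Prop :=
  l.IsChain (fun a b => S.blk (mt σ a) = S.blk b ∧ b ≠ mt σ a)

/-- closed cyclically reduced walk -/
def IsCWalk (σ : Equiv.Perm S.C) (l : List (Port S)) : Prop :=
  IsWalk σ l ∧ ∀ a ∈ l.getLast?, ∀ b ∈ l.head?, S.blk (mt σ a) = S.blk b ∧ b ≠ mt σ a

/-- girth at least `g` -/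
def Girth (σ : Equiv.Perm S.C) (g : ℕ) : Prop :=
  ∀ l : List (Port S), l ≠ [] → IsCWalk σ l → g ≤ l.length

/-! ## Part B -/

/-- graph of a permutation as a finset of pairs -/
def gr (σ : Equiv.Perm S.C) : Finset (S.C × S.C) := univ.image (fun c => (c, σ c))

/-- PART B. `D` bounds the number of ports of a block. -/
def StmtB : Prop :=
  ∀ (S : Sys) (g D s : ℕ), (∀ b : S.B, (univ.filter (fun q : Port S => S.blk q = b)).card ≤ D) →
    (2 * D + 2) ^ (g + 3) + s < Fintype.card S.C →
    ∀ Q : Finset (S.C × S.C) → ℝ, (∀ E, 0 ≤ Q E) → (∑ E, Q E ≤ 1) →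
      (∀ E, Q E ≠ 0 → E.card ≤ s) →
      ∃ σ : Equiv.Perm S.C, Girth σ g ∧
        ∀ E ⊆ gr σ, Q E * ((Fintype.card S.C : ℝ) - (2 * D + 2) ^ (g + 3) - s) ^ E.card ≤ 1

/-! ## Partial injections and cycles -/

/-- `k`-th iterate of a partial injection -/
def pit {T : Type} (f : T ≃. T) : ℕ → T → Option T
  | 0, s => some s
  | k + 1, s => (f s).bind (pit f k)

/-- `s` lies on a cycle of `f` -/
def Per {T : Type} (f : T ≃. T) (s : T) : Prop := ∃ k, 0 < k ∧ pit f k s = some s

open Classical in
/-- forward orbit -/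
noncomputable def orb {T : Type} [Fintype T] (f : T ≃. T) (s : T) : Finset T :=
  univ.filter (fun t => ∃ k, pit f k s = some t)

open Classical in
/-- number of cycles -/
noncomputable def cyc {T : Type} [Fintype T] (f : T ≃. T) : ℕ :=
  ((univ.filter (Per f)).image (orb f)).card

open Classical in
noncomputable def domc {T : Type} [Fintype T] (f : T ≃. T) : ℕ :=
  (univ.filter (fun s => (f s).isSome)).card

/-! ## Gluing data: squares with partial injections `X`, `Y`

`ε s` is the port of the start corner of the (oriented) square `s`, `mt σ (ε s)` the port of its end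
corner.  `Y s = some s'`: the end y-side of `s` is glued to the start y-side of `s'`.
`X s = some s'`: the start x-side of `s` is glued to the end x-side of `s'`. -/

structure Glue (σ : Equiv.Perm S.C) where
  Q : Type
  [fQ : Fintype Q]
  [dQ : DecidableEq Q]
  ε : Q → Port S
  X : Q ≃. Q
  Y : Q ≃. Q

attribute [instance] Glue.fQ Glue.dQ

namespace Glue

variable {σ : Equiv.Perm S.C} (G : Glue σ)

/-- `Y ∘ X` (first `X`, then `Y`) -/
def XY : G.Q ≃. G.Q := G.X.trans G.Y

/-- sides are glued to sides with the same letter and there is no mirror pair -/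
structure Red : Prop where
  y : ∀ s s', G.Y s = some s' → S.blk (mt σ (G.ε s)) = S.blk (G.ε s') ∧ G.ε s' ≠ mt σ (G.ε s)
  x : ∀ s s', G.X s = some s' → S.rc (G.ε s) = S.rc (mt σ (G.ε s')) ∧ G.ε s ≠ mt σ (G.ε s')

/-- the label increment of one step `s ↦ X s = u ↦ Y u = v`: `ht (mt (ε u)) - ht (ε v)` -/
noncomputable def inc (s : G.Q) : ℤ :=
  match G.X s with
  | none => 0
  | some u => match G.Y u with
    | none => 0
    | some v => S.ht (mt σ (G.ε u)) - S.ht (G.ε v)

/-- all cycles of `XY` except at most one have label sum zero -/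
def Lab : Prop := ∃ E : Finset G.Q, (∀ s s', s ∈ E → s' ∈ E → orb G.XY s = orb G.XY s') ∧
  ∀ s, Per G.XY s → s ∉ E → ∑ t ∈ orb G.XY s, G.inc t = 0

/-- Euler inequality -/
def Eul : Prop :=
  domc G.X + domc G.Y ≤ Fintype.card G.Q + cyc G.X + cyc G.Y + cyc G.XY

end Glue

/-- the local isoperimetric inequality up to area `M`, with weight `Y` of a y-letter -/
def LocIso (σ : Equiv.Perm S.C) (M Y : ℕ) (e1 : ℝ) : Prop :=
  ∀ G : Glue σ, G.Red → G.Lab → G.Eul → Fintype.card G.Q ≤ M →
    e1 * (Fintype.card G.Q : ℝ) ≤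
      ((Fintype.card G.Q : ℝ) - domc G.X) + Y * ((Fintype.card G.Q : ℝ) - domc G.Y)

/-- units with label `(r, r', d)`: ordered pairs of distinct ports of one block -/
def nu (S : Sys) (r r' : S.R) (d : ℤ) : ℕ :=
  (univ.filter (fun x : Port S × Port S => S.blk x.1 = S.blk x.2 ∧ x.1 ≠ x.2 ∧ S.rc x.1 = r ∧
    S.rc x.2 = r' ∧ S.ht x.2 - S.ht x.1 = d)).card

/-- number of pairs of units with the same label: `∑_l nu(l)^2` -/
def nu2 (S : Sys) : ℕ :=
  (univ.filter (fun x : (Port S × Port S) × (Port S × Port S) =>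
    S.blk x.1.1 = S.blk x.1.2 ∧ x.1.1 ≠ x.1.2 ∧ S.blk x.2.1 = S.blk x.2.2 ∧ x.2.1 ≠ x.2.2 ∧
    S.rc x.1.1 = S.rc x.2.1 ∧ S.rc x.1.2 = S.rc x.2.2 ∧
    S.ht x.1.2 - S.ht x.1.1 = S.ht x.2.2 - S.ht x.2.1)).card

/-- quantitative hypotheses on a system: at most `D` ports in a block, at most `D * #C` blocks, every
occurring unit label occurs at least `#C / D` times, and `2 ∑ nu^2 ≤ (#C)^2`. -/
structure Sys.Ok (S : Sys) (D : ℕ) : Prop where
  ports : ∀ b : S.B, (univ.filter (fun q : Port S => S.blk q = b)).card ≤ D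
  blocks : Fintype.card S.B ≤ D * Fintype.card S.C
  labels : ∀ q q' : Port S, S.blk q = S.blk q' → q ≠ q' →
    Fintype.card S.C ≤ D * nu S (S.rc q) (S.rc q') (S.ht q' - S.ht q)
  w : 2 * nu2 S ≤ (Fintype.card S.C) ^ 2

/-- PARTS B + C + LA: existence of good matchings for large systems. -/
def StmtLoc : Prop :=
  ∀ D : ℕ, ∃ c e1 : ℝ, 0 < c ∧ 0 < e1 ∧ ∀ K Y0 : ℕ, ∃ N0 : ℕ, ∀ S : Sys, S.Ok D →
    N0 ≤ Fintype.card S.C → ∃ Y : ℕ, Y0 ≤ Y ∧ ∃ σ : Equiv.Perm S.C, ∃ g : ℕ, c * Y ≤ g ∧
      Girth σ g ∧ LocIso σ (K * Y) Y e1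

/-! ## The group -/

inductive Let (S : Sys)
  | t : Let S
  | x : S.R → Let S
  | y : S.B → Let S

/-- the word `t^h` as a list of signed letters -/
def tw (S : Sys) (h : ℤ) : List (Let S × Bool) :=
  List.replicate h.natAbs (Let.t, decide (0 ≤ h))

/-- inverse of a list word -/
def winv {A : Type} (l : List (A × Bool)) : List (A × Bool) := (l.map (fun a => (a.1, !a.2))).reverse

/-- half relator of a port: `x_{row,copy} t^{ht} y_{blk}` -/
def half (q : Port S) : List (Let S × Bool) :=
  (Let.x (S.rc q), true) :: (tw S (S.ht q) ++ [(Let.y (S.blk q), true)])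

/-- the relator of a port (oriented square, read from the o-vertex):
`half q * (half (mt σ q))⁻¹`.  The relator of `mt σ q` is the inverse of that of `q`. -/
def relw (σ : Equiv.Perm S.C) (q : Port S) : List (Let S × Bool) :=
  half q ++ winv (half (mt σ q))

/-- value of a list word in the free group -/
def val {A : Type} (l : List (A × Bool)) : FreeGroup A := FreeGroup.mk l

/-- the set of relators -/
def rels (σ : Equiv.Perm S.C) : Set (FreeGroup (Let S)) := Set.range (fun q => val (relw σ q))

abbrev Gp (σ : Equiv.Perm S.C) : Type := PresentedGroup (rels σ)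

/-- weight of a letter: `t` 0, `x` 1, `y` Y -/
def wtl (Y : ℕ) : Let S → ℕ
  | .t => 0
  | .x _ => 1
  | .y _ => Y

def wtw (Y : ℕ) (l : List (Let S × Bool)) : ℕ := (l.map (fun a => wtl Y a.1)).sum

/-- chains: `ℤ[Gp]^{cells}`; the square of a port `(c,true)` is `+[g,c]`, of `(σ c,false)` is `-[g,c]`. -/
abbrev Chn (σ : Equiv.Perm S.C) : Type := (Gp σ × S.C) →₀ ℤ

noncomputable def pch (σ : Equiv.Perm S.C) (g : Gp σ) (q : Port S) : Chn σ :=
  if q.2 then Finsupp.single (g, q.1) 1 else Finsupp.single (g, σ.symm q.1) (-1)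

/-- `Expr σ k u z`: the element `u` of the free group is a product of `k` conjugates of relators with
chain `z`. -/
inductive Expr (σ : Equiv.Perm S.C) : ℕ → FreeGroup (Let S) → Chn σ → Prop
  | nil : Expr σ 0 1 0
  | cons (k : ℕ) (u : FreeGroup (Let S)) (z : Chn σ) (v : FreeGroup (Let S)) (q : Port S) :
      Expr σ k u z →
      Expr σ (k + 1) (v * val (relw σ q) * v⁻¹ * u) (pch σ (PresentedGroup.mk (rels σ) v) q + z)

/-- PARTS D + F: asphericity, injectivity for short words, infinite order of `t`, and the linear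
isoperimetric inequality.  `L` bounds the length of the relators. -/
def StmtGlob : Prop :=
  ∀ (c e1 : ℝ) (L : ℕ), 0 < c → 0 < e1 → ∃ K Y0 : ℕ, ∀ S : Sys, (∀ q : Port S, (S.ht q).natAbs ≤ L) →
    ∀ Y : ℕ, Y0 ≤ Y → ∀ (σ : Equiv.Perm S.C) (g : ℕ), c * Y ≤ g → Girth σ g →
      LocIso σ (K * Y) Y e1 →
      (∀ k z, Expr σ k 1 z → z = 0) ∧
      (∀ l : List (Let S × Bool), (∀ a ∈ l, ∀ j, a.1 ≠ Let.y j) → wtw Y l ≤ 2 →
        PresentedGroup.mk (rels σ) (val l) = 1 → val l = 1) ∧
      (∀ l : List (Let S × Bool), PresentedGroup.mk (rels σ) (val l) = 1 →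
        ∃ k z, Expr σ k (val l) z ∧ e1 / 2 * k ≤ wtw Y l)

/-- PART G, torsion -/
def StmtTor : Prop :=
  ∀ (S : Sys) (σ : Equiv.Perm S.C), (∀ k z, Expr σ k 1 z → z = 0) →
    ∀ g : Gp σ, ∀ m : ℕ, 0 < m → g ^ m = 1 → g = 1

/-- The machine: for every `D`, `L` and every sufficiently large `Ok` system there is a matching. -/
theorem machine (hL : StmtLoc) (hG : StmtGlob) (hT : StmtTor) (D L : ℕ) : ∃ N0 : ℕ, ∀ S : Sys, S.Ok D →
    (∀ q : Port S, (S.ht q).natAbs ≤ L) → N0 ≤ Fintype.card S.C →
    ∃ (e1 : ℝ) (_ : 0 < e1) (Y : ℕ) (σ : Equiv.Perm S.C),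
      (∀ g : Gp σ, ∀ m : ℕ, 0 < m → g ^ m = 1 → g = 1) ∧
      (∀ l : List (Let S × Bool), (∀ a ∈ l, ∀ j, a.1 ≠ Let.y j) → wtw Y l ≤ 2 →
        PresentedGroup.mk (rels σ) (val l) = 1 → val l = 1) ∧
      (∀ l : List (Let S × Bool), PresentedGroup.mk (rels σ) (val l) = 1 →
        ∃ k z, Expr σ k (val l) z ∧ e1 / 2 * k ≤ wtw Y l) := by
  obtain ⟨c, e1, hc, he1, h⟩ := hL D
  obtain ⟨K, Y0, h2⟩ := hG c e1 L hc he1
  obtain ⟨N0, h⟩ := h K Y0
  refine ⟨N0, fun S hS hH hN => ?_⟩
  obtain ⟨Y, hY, σ, g, hg, hgi, hloc⟩ := h S hS hN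
  obtain ⟨h3, h4, h5⟩ := h2 S hH Y hY σ g hg hgi hloc
  exact ⟨e1, he1, Y, σ, hT S σ h3, h4, h5⟩

end Vale.Agent.P201.S
end

section

/-!
P201: evaluation of the weight of letters.  All unfoldings of `wtl` by the simplifier are made in this file
(otherwise every module which unfolds `wtl` makes its own private copy of the same auxiliary lemmas).
-/

namespace Vale.Agent.P201.S

theorem wtl_t {S : Sys} (Y : ℕ) : wtl Y (Let.t : Let S) = 0 := by simp only [wtl]

theorem wtl_x {S : Sys} (Y : ℕ) (r : S.R) : wtl Y (Let.x r : Let S) = 1 := by simp [wtl]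

theorem wtl_y {S : Sys} (Y : ℕ) (b : S.B) : wtl Y (Let.y b : Let S) = Y := by simp [wtl]

/-- powers of `t` have weight zero -/
theorem wtw_tw_zero {S : Sys} (Y : ℕ) (m : ℤ) : wtw Y (tw S m) = 0 := by
  simp only [wtw, wtl, tw, List.map_replicate, List.sum_replicate, nsmul_zero]

/-- weight of a relator -/
theorem wtw_relw {S : Sys} {σ : Equiv.Perm S.C} (Y : ℕ) (q : Port S) :
    wtw Y (relw σ q) = 2 + 2 * Y := by
  unfold relw half winv tw wtw
  simp only [wtl, List.map_cons, Bool.not_true, List.map_append, List.map_replicate, List.map_nil, List.reverse_cons, List.reverse_append, List.reverse_nil, List.nil_append, List.reverse_replicate, List.cons_append, List.append_assoc, List.sum_cons, List.sum_append, List.sum_replicate, nsmul_zero, List.sum_nil, add_zero, zero_add]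
  ring

end Vale.Agent.P201.S
end

section

/-! # P186: group algebras of residually finite groups are directly finite -/

namespace Vale.Agent.P186.Hyp.RF

/-- A finite-dimensional algebra over a field is directly finite. -/
theorem mul_eq_one_comm_of_finite {K A : Type*} [Field K] [Ring A] [Algebra K A]
    [FiniteDimensional K A] {a b : A} (h : a * b = 1) : b * a = 1 := by
  have h1 : LinearMap.mulLeft K a * LinearMap.mulLeft K b = 1 := by
    ext x
    simp [← mul_assoc, h]
  have h2 : LinearMap.mulLeft K b * LinearMap.mulLeft K a = 1 := mul_eq_one_comm.1 h1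
  have h3 := LinearMap.congr_fun h2 1
  simpa only [Module.End.mul_apply, LinearMap.mulLeft_apply, mul_one, Module.End.one_apply] using h3

/-- In a residually finite group a finite set of nontrivial elements is avoided by some normal
subgroup of finite index. -/
theorem exists_normal_avoid {G : Type*} [Group G] [Group.ResiduallyFinite G] (s : Finset G)
    (hs : (1 : G) ∉ s) : ∃ N : Subgroup G, N.Normal ∧ N.FiniteIndex ∧ ∀ g ∈ s, g ∉ N := by
  classical
  induction s using Finset.induction_on with
  | empty => exact ⟨⊤, inferInstance, inferInstance, by simp⟩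
  | insert g s hg ih =>
    obtain ⟨N, h1, h2, h3⟩ := ih fun h => hs (Finset.mem_insert_of_mem h)
    have hg1 : g ≠ 1 := fun h => hs (h ▸ Finset.mem_insert_self g s)
    obtain ⟨H, hH⟩ := Group.exists_finiteIndexNormalSubgroup_notMem g hg1
    refine ⟨N ⊓ H.toSubgroup, inferInstance, inferInstance, ?_⟩
    intro x hx
    rcases Finset.mem_insert.1 hx with rfl | hx
    · exact fun h => hH h.2
    · exact fun h => h3 x hx h.1

/-- The group algebra over a field of a residually finite group is directly finite. -/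
theorem directlyFinite_of_residuallyFinite {G : Type*} [Group G] [Group.ResiduallyFinite G]
    {K : Type*} [Field K] {a b : MonoidAlgebra K G} (h : a * b = 1) : b * a = 1 := by
  classical
  by_contra hne
  set c := b * a - 1 with hc
  have hc0 : c ≠ 0 := sub_ne_zero.2 hne
  obtain ⟨g, hg⟩ : ∃ g, c.coeff g ≠ 0 := by
    by_contra hall
    push Not at hall
    exact hc0 (MonoidAlgebra.ext (Finsupp.ext hall))
  obtain ⟨N, hN1, hN2, hN3⟩ := exists_normal_avoid
    ((c.coeff.support.erase g).image fun x => g⁻¹ * x) (by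
      rw [Finset.mem_image]
      rintro ⟨x, hx, hx1⟩
      exact (Finset.mem_erase.1 hx).1 (inv_mul_eq_one.1 hx1).symm)
  let π : G →* G ⧸ N := QuotientGroup.mk' N
  let f := MonoidAlgebra.mapDomainRingHom K π
  have hfin : Finite (G ⧸ N) := inferInstance
  have h1 : f b * f a = 1 := by
    refine mul_eq_one_comm_of_finite (K := K) ?_
    rw [← map_mul, h, map_one]
  have h2 : f c = 0 := by rw [hc, map_sub, map_mul, h1, map_one, sub_self]
  have h3 : (f c).coeff (π g) = c.coeff g := by
    change Finsupp.mapDomain π c.coeff (π g) = c.coeff g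
    rw [Finsupp.mapDomain, Finsupp.sum_apply, Finsupp.sum, Finset.sum_eq_single g]
    · simp
    · intro x hx hxg
      rw [Finsupp.single_apply, if_neg]
      intro heq
      refine hN3 (g⁻¹ * x) (Finset.mem_image.2 ⟨x, Finset.mem_erase.2 ⟨hxg, hx⟩, rfl⟩) ?_
      exact QuotientGroup.eq.1 heq.symm
    · intro hg'
      rw [Finsupp.notMem_support_iff.1 hg', Finsupp.single_zero, Finsupp.zero_apply]
  rw [h2] at h3
  exact hg h3.symm

end Vale.Agent.P186.Hyp.RF

namespace Vale.Agent.P186.Hyp

/-- (RF) The group algebra over `F_2` of a residually finite group is directly finite. -/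
theorem rf_df {G : Type} [Group G] [Group.ResiduallyFinite G] (a b : MonoidAlgebra (ZMod 2) G)
    (h : a * b = 1) : b * a = 1 := RF.directlyFinite_of_residuallyFinite h

/-- The statement `RFStmt` of `Final/Asm.lean`. -/
theorem rf : ∀ (G : Type) [Group G], Group.ResiduallyFinite G → ∀ a b : MonoidAlgebra (ZMod 2) G,
    a * b = 1 → b * a = 1 := fun _ _ hG a b h =>
  haveI := hG
  RF.directlyFinite_of_residuallyFinite h

end Vale.Agent.P186.Hyp
end

section

/-!
P194, instance of the machine for a family of Laurent polynomials (helper22).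

`PS` = rows with a copy and a Laurent polynomial, blocks with a Laurent polynomial; the ports are the
triples `(r, b, h)`, `h ∈ supp (P r * Q b)`; there is one more port in copy `true`, and the port `q0`
stays unmatched.
-/

namespace Vale.Agent.P194.M

open Finset Vale.Agent.P201.S

/-- rows and blocks with Laurent polynomials over `F_2` -/
structure PS where
  R : Type
  B : Type
  [fR : Fintype R]
  [fB : Fintype B]
  [dR : DecidableEq R]
  [dB : DecidableEq B]
  cpy : R → Bool
  P : R → AddMonoidAlgebra (ZMod 2) ℤ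
  Q : B → AddMonoidAlgebra (ZMod 2) ℤ

attribute [instance] PS.fR PS.fB PS.dR PS.dB

namespace PS

variable (p : PS)

/-- heights of the ports in row `r` and block `b` -/
noncomputable def S (r : p.R) (b : p.B) : Finset ℤ := (p.P r * p.Q b).coeff.support

/-- all ports -/
abbrev Pt : Type := (x : p.R × p.B) × {h : ℤ // h ∈ p.S x.1 x.2}

/-- number of ports of a copy -/
noncomputable def num (a : Bool) : ℕ :=
  ∑ r ∈ univ.filter (fun r => p.cpy r = a), ∑ b, (p.S r b).card

variable {p}

theorem pt_ext {q q' : p.Pt} (h1 : q.1.1 = q'.1.1) (h2 : q.1.2 = q'.1.2)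
    (h3 : (q.2 : ℤ) = (q'.2 : ℤ)) : q = q' := by
  obtain ⟨⟨r, b⟩, h⟩ := q
  obtain ⟨⟨r', b'⟩, h'⟩ := q'
  simp only at h1 h2
  subst h1 h2
  simp only at h3
  congr 1
  exact Subtype.ext h3

theorem mem_S {q : p.Pt} {r : p.R} {b : p.B} (h1 : q.1.1 = r) (h2 : q.1.2 = b) :
    (q.2 : ℤ) ∈ p.S r b := by
  obtain ⟨⟨r', b'⟩, h⟩ := q
  simp only at h1 h2
  subst h1 h2
  exact h.2

theorem card_copy (a : Bool) : Fintype.card {q : p.Pt // p.cpy q.1.1 = a} = p.num a := by
  classical
  rw [Fintype.card_subtype, Finset.card_filter]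
  unfold num
  rw [Fintype.sum_sigma, Fintype.sum_prod_type, Finset.sum_filter]
  refine Finset.sum_congr rfl fun r _ => ?_
  by_cases h : p.cpy r = a
  · simp only [univ_eq_attach, h, ↓reduceIte, sum_const, card_attach, smul_eq_mul, mul_one]
  · simp only [univ_eq_attach, h, ↓reduceIte, sum_const_zero]

/-- the removed port belongs to copy `true` and copy `true` has one port more -/
structure Bal (q0 : p.Pt) : Prop where
  num : p.num true = p.num false + 1
  cpy : p.cpy q0.1.1 = true

variable (q0 : p.Pt)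

/-- cells: ports of copy `true` except `q0` -/
abbrev CC : Type := {q : p.Pt // p.cpy q.1.1 = true ∧ q ≠ q0}

theorem card_CC (hb : Bal q0) : Fintype.card (CC q0) = p.num false := by
  classical
  have h1 : Fintype.card (CC q0) + 1 = p.num true := by
    rw [← card_copy true, Fintype.card_subtype, Fintype.card_subtype]
    have h2 : (univ.filter (fun q : p.Pt => p.cpy q.1.1 = true)) =
        insert q0 (univ.filter (fun q : p.Pt => p.cpy q.1.1 = true ∧ q ≠ q0)) := by
      ext q
      simp only [Finset.mem_filter, Finset.mem_univ, true_and, Finset.mem_insert]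
      constructor
      · intro h
        by_cases hq : q = q0
        · exact Or.inl hq
        · exact Or.inr ⟨h, hq⟩
      · rintro (rfl | h)
        · exact hb.cpy
        · exact h.1
    rw [h2, Finset.card_insert_of_notMem (by simp only [ne_eq, mem_filter, mem_univ, not_true_eq_false, and_false, not_false_eq_true])]
  have := hb.num
  omega

/-- the ports of copy `false` are numbered by the cells -/
noncomputable def ee (hb : Bal q0) : CC q0 ≃ {q : p.Pt // p.cpy q.1.1 = false} :=
  Fintype.equivOfCardEq (by rw [card_CC q0 hb, card_copy])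

/-- port map -/
noncomputable def pm (hb : Bal q0) (x : CC q0 × Bool) : p.Pt :=
  if x.2 then x.1.1 else (ee q0 hb x.1).1

theorem pm_true (hb : Bal q0) (c : CC q0) : pm q0 hb (c, true) = c.1 := rfl

theorem pm_false (hb : Bal q0) (c : CC q0) : pm q0 hb (c, false) = (ee q0 hb c).1 := rfl

theorem cpy_pm (hb : Bal q0) (x : CC q0 × Bool) : p.cpy (pm q0 hb x).1.1 = x.2 := by
  obtain ⟨c, a⟩ := x
  cases a
  · exact (ee q0 hb c).2
  · exact c.2.1

theorem pm_inj (hb : Bal q0) : Function.Injective (pm q0 hb) := by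
  intro x x' h
  have h2 : x.2 = x'.2 := by rw [← cpy_pm q0 hb x, ← cpy_pm q0 hb x', h]
  obtain ⟨c, a⟩ := x
  obtain ⟨c', a'⟩ := x'
  simp only at h2
  subst h2
  cases a
  · rw [pm_false, pm_false] at h
    have := (ee q0 hb).injective (Subtype.ext h)
    rw [this]
  · rw [pm_true, pm_true] at h
    rw [Subtype.ext h]

theorem pm_ne (hb : Bal q0) (x : CC q0 × Bool) : pm q0 hb x ≠ q0 := by
  obtain ⟨c, a⟩ := x
  cases a
  · intro h
    have h1 := cpy_pm q0 hb (c, false)
    rw [h, hb.cpy] at h1
    cases h1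
  · exact c.2.2

theorem exists_pm (hb : Bal q0) {q : p.Pt} (hq : q ≠ q0) : ∃ x, pm q0 hb x = q := by
  cases h : p.cpy q.1.1
  · refine ⟨((ee q0 hb).symm ⟨q, h⟩, false), ?_⟩
    rw [pm_false, Equiv.apply_symm_apply]
  · exact ⟨(⟨q, h, hq⟩, true), rfl⟩

/-- the system of ports -/
noncomputable def toSys (hb : Bal q0) : Sys where
  C := CC q0
  R := p.R
  B := p.B
  dC := Classical.decEq _
  rc x := (pm q0 hb x).1.1
  blk x := (pm q0 hb x).1.2
  ht x := (pm q0 hb x).2.1
  inj q q' h1 h2 h3 := pm_inj q0 hb (pt_ext h1 h2 h3)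
  cp q q' h := by
    have h1 := cpy_pm q0 hb q
    have h2 := cpy_pm q0 hb q'
    rw [← h1, ← h2, h]

theorem toSys_card (hb : Bal q0) : Fintype.card (toSys q0 hb).C = p.num false := card_CC q0 hb

theorem toSys_rc (hb : Bal q0) (x : Port (toSys q0 hb)) :
    (toSys q0 hb).rc x = (pm q0 hb x).1.1 := rfl

theorem toSys_blk (hb : Bal q0) (x : Port (toSys q0 hb)) :
    (toSys q0 hb).blk x = (pm q0 hb x).1.2 := rfl

theorem toSys_ht (hb : Bal q0) (x : Port (toSys q0 hb)) :
    (toSys q0 hb).ht x = (pm q0 hb x).2.1 := rfl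

theorem card_blk (b : p.B) :
    (univ.filter (fun q : p.Pt => q.1.2 = b)).card = ∑ r, (p.S r b).card := by
  classical
  rw [Finset.card_filter, Fintype.sum_sigma, Fintype.sum_prod_type]
  refine Finset.sum_congr rfl fun r _ => ?_
  rw [Finset.sum_eq_single b]
  · simp only [univ_eq_attach, ↓reduceIte, sum_const, card_attach, smul_eq_mul, mul_one]
  · intro b' _ hne
    simp only [univ_eq_attach, hne, ↓reduceIte, sum_const_zero]
  · intro h
    exact absurd (Finset.mem_univ _) h

/-- number of ports of a block -/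
theorem ports_le (hb : Bal q0) {D : ℕ} (hD : ∀ b, ∑ r, (p.S r b).card ≤ D) (b : (toSys q0 hb).B) :
    (univ.filter (fun q : Port (toSys q0 hb) => (toSys q0 hb).blk q = b)).card ≤ D := by
  classical
  refine le_trans ?_ (hD b)
  rw [← card_blk (p := p) b]
  refine Finset.card_le_card_of_injOn (pm q0 hb) ?_ ?_
  · intro q hq
    simp only [coe_filter, mem_univ, true_and, Set.mem_ofPred_eq] at hq ⊢
    exact hq
  · intro a _ a' _ h
    exact pm_inj q0 hb h

/-- the pairs of units with the same label are additive quadruples -/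
theorem nu2_le (hb : Bal q0) : nu2 (toSys q0 hb) ≤ ∑ b : p.B, ∑ b' : p.B, ∑ r : p.R, ∑ r' : p.R,
    (((p.S r b ×ˢ p.S r' b) ×ˢ (p.S r b' ×ˢ p.S r' b')).filter
      (fun x : (ℤ × ℤ) × (ℤ × ℤ) => x.1.2 - x.1.1 = x.2.2 - x.2.1)).card := by
  classical
  let F : p.B × p.B × p.R × p.R → Finset ((ℤ × ℤ) × (ℤ × ℤ)) := fun y =>
    ((p.S y.2.2.1 y.1 ×ˢ p.S y.2.2.2 y.1) ×ˢ (p.S y.2.2.1 y.2.1 ×ˢ p.S y.2.2.2 y.2.1)).filter
      (fun x : (ℤ × ℤ) × (ℤ × ℤ) => x.1.2 - x.1.1 = x.2.2 - x.2.1)
  have h1 : (∑ b : p.B, ∑ b' : p.B, ∑ r : p.R, ∑ r' : p.R,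
      (((p.S r b ×ˢ p.S r' b) ×ˢ (p.S r b' ×ˢ p.S r' b')).filter
        (fun x : (ℤ × ℤ) × (ℤ × ℤ) => x.1.2 - x.1.1 = x.2.2 - x.2.1)).card) =
      (Finset.sigma univ F).card := by
    rw [Finset.card_sigma, Fintype.sum_prod_type]
    refine Finset.sum_congr rfl fun b _ => ?_
    rw [Fintype.sum_prod_type]
    refine Finset.sum_congr rfl fun b' _ => ?_
    rw [Fintype.sum_prod_type]
  rw [h1]
  unfold nu2
  refine Finset.card_le_card_of_injOn (fun x =>
    (⟨((pm q0 hb x.1.1).1.2, (pm q0 hb x.2.1).1.2, (pm q0 hb x.1.1).1.1, (pm q0 hb x.1.2).1.1),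
      (((pm q0 hb x.1.1).2.1, (pm q0 hb x.1.2).2.1), ((pm q0 hb x.2.1).2.1, (pm q0 hb x.2.2).2.1))⟩ :
      (_ : p.B × p.B × p.R × p.R) × ((ℤ × ℤ) × (ℤ × ℤ)))) ?_ ?_
  · rintro ⟨⟨a, a'⟩, ⟨c, c'⟩⟩ hx
    simp only [Finset.coe_filter, Finset.mem_univ, true_and, Set.mem_ofPred_eq] at hx
    obtain ⟨h2, _, h4, _, h6, h7, h8⟩ := hx
    simp only [toSys_rc, toSys_blk, toSys_ht] at h2 h4 h6 h7 h8
    simp only [Finset.coe_sigma, Set.mem_sigma_iff, Finset.coe_univ, Set.mem_univ, true_and]
    simp only [F, Finset.mem_coe, Finset.mem_filter, Finset.mem_product]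
    exact ⟨⟨⟨(pm q0 hb a).2.2, mem_S rfl h2.symm⟩, mem_S h6.symm rfl,
      mem_S h7.symm h4.symm⟩, h8⟩
  · rintro ⟨⟨a, a'⟩, ⟨c, c'⟩⟩ hx ⟨⟨e, e'⟩, ⟨g, g'⟩⟩ hy h
    simp only [Finset.coe_filter, Finset.mem_univ, true_and, Set.mem_ofPred_eq] at hx hy
    obtain ⟨x2, _, x4, _, x6, x7, _⟩ := hx
    obtain ⟨y2, _, y4, _, y6, y7, _⟩ := hy
    simp only [toSys_rc, toSys_blk] at x2 x4 x6 x7 y2 y4 y6 y7
    simp only [Sigma.mk.injEq, Prod.mk.injEq] at h
    obtain ⟨⟨k1, k2, k3, k4⟩, h5⟩ := h
    simp only [heq_eq_eq, Prod.mk.injEq] at h5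
    obtain ⟨⟨k5, k6⟩, k7, k8⟩ := h5
    have e1 : a = e := pm_inj q0 hb (pt_ext k3 k1 k5)
    have e2 : a' = e' := pm_inj q0 hb (pt_ext k4 (by rw [← x2, ← y2, k1]) k6)
    have e3 : c = g := pm_inj q0 hb (pt_ext (by rw [← x6, ← y6, k3]) k2 k7)
    have e4 : c' = g' := pm_inj q0 hb (pt_ext (by rw [← x7, ← y7, k4]) (by rw [← x4, ← y4, k2]) k8)
    rw [e1, e2, e3, e4]

/-- lower bound for the number of units with a given label -/
theorem le_nu (hb : Bal q0) (r r' : p.R) (d : ℤ) (hne : r ≠ r' ∨ d ≠ 0) :
    (univ.filter (fun b : p.B => b ≠ q0.1.2 ∧ ∃ h ∈ p.S r b, h + d ∈ p.S r' b)).card ≤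
      nu (toSys q0 hb) r r' d := by
  classical
  have key : ∀ b : p.B, (b ≠ q0.1.2 ∧ ∃ h ∈ p.S r b, h + d ∈ p.S r' b) →
      ∃ x : Port (toSys q0 hb) × Port (toSys q0 hb), (toSys q0 hb).blk x.1 = b ∧
        (toSys q0 hb).blk x.2 = b ∧ x.1 ≠ x.2 ∧ (toSys q0 hb).rc x.1 = r ∧
        (toSys q0 hb).rc x.2 = r' ∧ (toSys q0 hb).ht x.2 - (toSys q0 hb).ht x.1 = d := by
    rintro b ⟨hbq, h, hh, hh'⟩
    obtain ⟨x, hx⟩ := exists_pm q0 hb (q := ⟨(r, b), ⟨h, hh⟩⟩) (by
      intro h2; apply hbq; rw [← h2])
    obtain ⟨x', hx'⟩ := exists_pm q0 hb (q := ⟨(r', b), ⟨h + d, hh'⟩⟩) (by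
      intro h2; apply hbq; rw [← h2])
    have a1 : (pm q0 hb x).1 = (r, b) := by rw [hx]
    have a2 : (pm q0 hb x').1 = (r', b) := by rw [hx']
    have a3 : ((pm q0 hb x).2 : ℤ) = h := by rw [hx]
    have a4 : ((pm q0 hb x').2 : ℤ) = h + d := by rw [hx']
    refine ⟨(x, x'), ?_, ?_, ?_, ?_, ?_, ?_⟩
    · rw [toSys_blk, a1]
    · rw [toSys_blk, a2]
    · intro h2
      simp only at h2
      rw [h2, a2] at a1
      rw [h2, a4] at a3
      rcases hne with h3 | h3
      · apply h3
        simp only [Prod.mk.injEq, and_true] at a1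
        exact a1.symm
      · apply h3
        omega
    · rw [toSys_rc, a1]
    · rw [toSys_rc, a2]
    · rw [toSys_ht, toSys_ht, a3, a4]
      omega
  rcases isEmpty_or_nonempty (Port (toSys q0 hb) × Port (toSys q0 hb)) with hE | hE
  · rw [Finset.filter_false_of_mem]
    · simp only [card_empty, zero_le]
    · intro b _ h
      obtain ⟨x, _⟩ := key b h
      exact hE.elim x
  choose! f hf using key
  unfold nu
  refine Finset.card_le_card_of_injOn f ?_ ?_
  · intro b hb'
    simp only [Finset.coe_filter, Finset.mem_univ, true_and, Set.mem_ofPred_eq] at hb' ⊢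
    obtain ⟨h1, h2, h3, h4, h5, h6⟩ := hf b hb'
    exact ⟨by rw [h1, h2], h3, h4, h5, h6⟩
  · intro b hb' c hc' h
    simp only [Finset.coe_filter, Finset.mem_univ, true_and, Set.mem_ofPred_eq] at hb' hc'
    rw [← (hf b hb').1, ← (hf c hc').1, h]

end PS

end Vale.Agent.P194.M
end

section

/-! P194: bound of `nu2` for a system with a few extra rows and special blocks (helper477). -/

namespace Vale.Agent.P194.M

open Finset Vale.Agent.P201.S

section Abs

variable {U L : Type} [DecidableEq U] [DecidableEq L] (lab : U → L)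

/-- pairs with the same label -/
def E2 (V : Finset U) : ℕ := ((V ×ˢ V).filter (fun x => lab x.1 = lab x.2)).card

theorem E2_eq (V : Finset U) (I : Finset L) (hI : ∀ u ∈ V, lab u ∈ I) :
    E2 lab V = ∑ l ∈ I, (V.filter (fun u => lab u = l)).card ^ 2 := by
  unfold E2
  rw [Finset.card_eq_sum_card_fiberwise (f := fun x => lab x.1) (t := I)]
  · refine Finset.sum_congr rfl fun l _ => ?_
    rw [sq, ← Finset.card_product]
    congr 1
    ext ⟨a, b⟩
    simp only [mem_filter, mem_product]
    constructor
    · rintro ⟨⟨⟨h1, h2⟩, h3⟩, h4⟩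
      exact ⟨⟨h1, h4⟩, h2, h3 ▸ h4⟩
    · rintro ⟨⟨h1, h2⟩, h3, h4⟩
      exact ⟨⟨⟨h1, h3⟩, h2.trans h4.symm⟩, h2⟩
  · intro x hx
    have hx' := mem_filter.1 (Finset.mem_coe.1 hx)
    exact hI _ (mem_product.1 hx'.1).1

theorem E2_split (V : Finset U) (P : U → Prop) [DecidablePred P] :
    49 * E2 lab V ≤ 50 * E2 lab (V.filter P) + 2450 * E2 lab (V.filter (fun u => ¬ P u)) := by
  have hI : ∀ u ∈ V, lab u ∈ V.image lab := fun u hu => mem_image_of_mem _ hu
  rw [E2_eq lab V (V.image lab) hI,
    E2_eq lab (V.filter P) (V.image lab) (fun u hu => hI u (mem_filter.1 hu).1),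
    E2_eq lab (V.filter (fun u => ¬ P u)) (V.image lab) (fun u hu => hI u (mem_filter.1 hu).1),
    mul_sum, mul_sum, mul_sum, ← sum_add_distrib]
  refine sum_le_sum fun l _ => ?_
  have h1 : (V.filter (fun u => lab u = l)).card =
      ((V.filter P).filter (fun u => lab u = l)).card +
        ((V.filter (fun u => ¬ P u)).filter (fun u => lab u = l)).card := by
    rw [← Finset.card_filter_add_card_filter_not (s := V.filter (fun u => lab u = l)) P]
    congr 1 <;>
    · congr 1
      ext u
      simp only [mem_filter]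
      (clear * -; tauto)
  rw [h1]
  generalize ((V.filter P).filter (fun u => lab u = l)).card = a
  generalize ((V.filter (fun u => ¬ P u)).filter (fun u => lab u = l)).card = b
  zify
  nlinarith only [sq_nonneg ((a : ℤ) - 49 * b)]

theorem E2_le (V : Finset U) (Q : U → Prop) [DecidablePred Q] (m1 m2 : ℕ)
    (h1 : ∀ u ∈ V, Q u → (V.filter (fun u' => lab u' = lab u)).card ≤ m1)
    (h2 : ∀ u ∈ V, ¬ Q u → (V.filter (fun u' => lab u' = lab u)).card ≤ m2) :
    E2 lab V ≤ (V.filter Q).card * m1 + (V.filter (fun u => ¬ Q u)).card * m2 := by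
  have h3 : E2 lab V = ∑ u ∈ V, (V.filter (fun u' => lab u' = lab u)).card := by
    unfold E2
    rw [Finset.card_eq_sum_card_fiberwise (f := fun x => x.1) (t := V)]
    · refine Finset.sum_congr rfl fun u hu => ?_
      refine Finset.card_bij (fun x _ => x.2) ?_ ?_ ?_
      · rintro ⟨a, b⟩ hx
        simp only [mem_filter, mem_product] at hx ⊢
        obtain ⟨⟨⟨_, h5⟩, h6⟩, rfl⟩ := hx
        exact ⟨h5, h6.symm⟩
      · rintro ⟨a, b⟩ hx ⟨c, d⟩ hy h
        simp only [mem_filter, mem_product] at hx hy h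
        rw [Prod.mk.injEq]
        exact ⟨hx.2.trans hy.2.symm, h⟩
      · intro b hb
        simp only [mem_filter] at hb
        refine ⟨(u, b), ?_, rfl⟩
        simp only [mem_filter, mem_product]
        exact ⟨⟨⟨hu, hb.1⟩, hb.2.symm⟩, trivial⟩
    · intro x hx
      have hx' := mem_filter.1 (Finset.mem_coe.1 hx)
      exact (mem_product.1 hx'.1).1
  rw [h3, ← Finset.sum_filter_add_sum_filter_not V Q]
  refine Nat.add_le_add ?_ ?_
  · refine (Finset.sum_le_sum (g := fun _ => m1) fun u hu => ?_).trans ?_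
    · exact h1 u (mem_filter.1 hu).1 (mem_filter.1 hu).2
    · rw [sum_const, smul_eq_mul]
  · refine (Finset.sum_le_sum (g := fun _ => m2) fun u hu => ?_).trans ?_
    · exact h2 u (mem_filter.1 hu).1 (mem_filter.1 hu).2
    · rw [sum_const, smul_eq_mul]

end Abs

variable (S : Sys)

/-- the units of a system -/
def Un : Finset (Port S × Port S) := univ.filter (fun x => S.blk x.1 = S.blk x.2 ∧ x.1 ≠ x.2)

/-- the label of a unit -/
def lb (x : Port S × Port S) : S.R × S.R × ℤ := (S.rc x.1, S.rc x.2, S.ht x.2 - S.ht x.1)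

theorem nu2_eq : nu2 S = E2 (lb S) (Un S) := by
  unfold nu2 E2 Un lb
  congr 1
  ext ⟨⟨a, b⟩, ⟨c, d⟩⟩
  simp only [mem_filter, mem_univ, true_and, mem_product, Prod.mk.injEq]
  tauto

theorem nu2_le (mr : S.R → Bool) (mb : S.B → Bool) (A e x s t m : ℕ)
    (hA : E2 (lb S) ((Un S).filter (fun u =>
      mr (S.rc u.1) = true ∧ mr (S.rc u.2) = true ∧ mb (S.blk u.1) = true)) ≤ A)
    (he : ∀ b, (univ.filter (fun q : Port S => S.blk q = b ∧ mr (S.rc q) = false)).card ≤ e)
    (hx : ∀ r, mr r = false → (univ.filter (fun q : Port S => S.rc q = r)).card ≤ x)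
    (hs : (univ.filter (fun b : S.B => mb b = false)).card ≤ s)
    (ht : ∀ r b, mr r = true → mb b = false →
      (univ.filter (fun q : Port S => S.rc q = r ∧ S.blk q = b)).card ≤ t)
    (hm : (univ.filter (fun r : S.R => mr r = true)).card ≤ m) :
    49 * nu2 S ≤ 50 * A + 2450 * (s * (m * t) ^ 2 * (s * t) + 4 * e * Fintype.card S.C * x) := by
  classical
  rw [nu2_eq]
  refine (E2_split (lb S) (Un S) (fun u =>
      mr (S.rc u.1) = true ∧ mr (S.rc u.2) = true ∧ mb (S.blk u.1) = true)).trans ?_
  refine Nat.add_le_add (Nat.mul_le_mul_left _ hA) (Nat.mul_le_mul_left _ ?_)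
  set V := (Un S).filter (fun u => ¬ (mr (S.rc u.1) = true ∧ mr (S.rc u.2) = true ∧
    mb (S.blk u.1) = true)) with hV
  have hVm : ∀ u : Port S × Port S, u ∈ V ↔ (S.blk u.1 = S.blk u.2 ∧ u.1 ≠ u.2) ∧
      ¬ (mr (S.rc u.1) = true ∧ mr (S.rc u.2) = true ∧ mb (S.blk u.1) = true) := by
    intro u
    simp only [hV, not_and, Bool.not_eq_true, Un, ne_eq, mem_filter, mem_univ, true_and]
  -- uniqueness of the second and the first port
  have hdet2 : ∀ u v : Port S × Port S, u ∈ V → v ∈ V → lb S u = lb S v → u.1 = v.1 → u = v := by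
    intro u v hu hv hl h1
    have h2 := ((hVm u).1 hu).1.1
    have h3 := ((hVm v).1 hv).1.1
    simp only [lb, Prod.mk.injEq] at hl
    refine Prod.ext h1 (S.inj _ _ hl.2.1 ?_ ?_)
    · rw [← h2, ← h3, h1]
    · have := hl.2.2
      rw [h1] at this
      linarith only [this]
  have hdet1 : ∀ u v : Port S × Port S, u ∈ V → v ∈ V → lb S u = lb S v → u.2 = v.2 → u = v := by
    intro u v hu hv hl h1
    have h2 := ((hVm u).1 hu).1.1
    have h3 := ((hVm v).1 hv).1.1
    simp only [lb, Prod.mk.injEq] at hl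
    refine Prod.ext (S.inj _ _ hl.1 ?_ ?_) h1
    · rw [h2, h3, h1]
    · have := hl.2.2
      rw [h1] at this
      linarith only [this]
  -- main ports of special blocks
  have hmt : ∀ b, mb b = false →
      (univ.filter (fun q : Port S => S.blk q = b ∧ mr (S.rc q) = true)).card ≤ m * t := by
    intro b hb
    rw [Finset.card_eq_sum_card_fiberwise (f := fun q => S.rc q)
      (t := univ.filter (fun r : S.R => mr r = true))]
    · refine (Finset.sum_le_sum (g := fun _ => t) fun r hr => ?_).trans ?_
      · refine le_trans (card_le_card ?_) (ht r b (mem_filter.1 hr).2 hb)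
        intro q hq
        simp only [mem_filter, mem_univ, true_and] at hq ⊢
        exact ⟨hq.2, hq.1.1⟩
      · rw [sum_const, smul_eq_mul]
        exact Nat.mul_le_mul_right _ hm
    · intro q hq
      have := mem_filter.1 (Finset.mem_coe.1 hq)
      exact Finset.mem_coe.2 (mem_filter.2 ⟨mem_univ _, this.2.2⟩)
  refine (E2_le (lb S) V (fun u => mr (S.rc u.1) = true ∧ mr (S.rc u.2) = true) (s * t) x
    ?_ ?_).trans (Nat.add_le_add (Nat.mul_le_mul_right _ ?_) (Nat.mul_le_mul_right _ ?_))
  · -- both rows main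
    intro u hu hq
    have h1 : (V.filter (fun u' => lb S u' = lb S u)).card ≤
        (univ.filter (fun q : Port S => S.rc q = S.rc u.1 ∧ mb (S.blk q) = false)).card := by
      refine card_le_card_of_injOn (fun v => v.1) ?_ ?_
      · intro v hv
        have hv' := mem_filter.1 (Finset.mem_coe.1 hv)
        have h2 := hv'.2
        simp only [lb, Prod.mk.injEq] at h2
        refine Finset.mem_coe.2 (mem_filter.2 ⟨mem_univ _, h2.1, ?_⟩)
        have h3 := ((hVm v).1 hv'.1).2
        by_contra h4
        apply h3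
        refine ⟨?_, ?_, ?_⟩
        · rw [h2.1]; exact hq.1
        · rw [h2.2.1]; exact hq.2
        · simpa using h4
      · intro v hv w hw hvw
        have hv' := mem_filter.1 (Finset.mem_coe.1 hv)
        have hw' := mem_filter.1 (Finset.mem_coe.1 hw)
        exact hdet2 v w hv'.1 hw'.1 (hv'.2.trans hw'.2.symm) hvw
    refine h1.trans ?_
    rw [Finset.card_eq_sum_card_fiberwise (f := fun q => S.blk q)
      (t := univ.filter (fun b : S.B => mb b = false))]
    · refine (Finset.sum_le_sum (g := fun _ => t) fun b hb => ?_).trans ?_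
      · refine le_trans (card_le_card ?_) (ht (S.rc u.1) b hq.1 (mem_filter.1 hb).2)
        intro q hq
        simp only [mem_filter, mem_univ, true_and] at hq ⊢
        exact ⟨hq.1.1, hq.2⟩
      · rw [sum_const, smul_eq_mul]
        exact Nat.mul_le_mul_right _ hs
    · intro q hq
      have := mem_filter.1 (Finset.mem_coe.1 hq)
      exact Finset.mem_coe.2 (mem_filter.2 ⟨mem_univ _, this.2.2⟩)
  · -- some row is extra
    intro u hu hq
    have hq' : mr (S.rc u.1) = false ∨ mr (S.rc u.2) = false := by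
      by_contra h
      push Not at h
      apply hq
      simpa only [ne_eq, Bool.not_eq_false] using h
    rcases hq' with h1 | h1
    · refine le_trans ?_ (hx (S.rc u.1) h1)
      refine card_le_card_of_injOn (fun v => v.1) ?_ ?_
      · intro v hv
        have hv' := mem_filter.1 (Finset.mem_coe.1 hv)
        have h2 := hv'.2
        simp only [lb, Prod.mk.injEq] at h2
        exact Finset.mem_coe.2 (mem_filter.2 ⟨mem_univ _, h2.1⟩)
      · intro v hv w hw hvw
        have hv' := mem_filter.1 (Finset.mem_coe.1 hv)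
        have hw' := mem_filter.1 (Finset.mem_coe.1 hw)
        exact hdet2 v w hv'.1 hw'.1 (hv'.2.trans hw'.2.symm) hvw
    · refine le_trans ?_ (hx (S.rc u.2) h1)
      refine card_le_card_of_injOn (fun v => v.2) ?_ ?_
      · intro v hv
        have hv' := mem_filter.1 (Finset.mem_coe.1 hv)
        have h2 := hv'.2
        simp only [lb, Prod.mk.injEq] at h2
        exact Finset.mem_coe.2 (mem_filter.2 ⟨mem_univ _, h2.2.1⟩)
      · intro v hv w hw hvw
        have hv' := mem_filter.1 (Finset.mem_coe.1 hv)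
        have hw' := mem_filter.1 (Finset.mem_coe.1 hw)
        exact hdet1 v w hv'.1 hw'.1 (hv'.2.trans hw'.2.symm) hvw
  · -- number of units with main rows in special blocks
    have h1 : (V.filter (fun u => mr (S.rc u.1) = true ∧ mr (S.rc u.2) = true)).card ≤
        ∑ b ∈ univ.filter (fun b : S.B => mb b = false),
          ((univ.filter (fun q : Port S => S.blk q = b ∧ mr (S.rc q) = true)) ×ˢ
            (univ.filter (fun q : Port S => S.blk q = b ∧ mr (S.rc q) = true))).card := by
      rw [Finset.card_eq_sum_card_fiberwise (f := fun u => S.blk u.1)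
        (t := univ.filter (fun b : S.B => mb b = false))]
      · refine Finset.sum_le_sum fun b hb => card_le_card ?_
        intro u hu
        simp only [mem_filter, mem_univ, true_and, mem_product] at hu ⊢
        have h2 := ((hVm u).1 hu.1.1).1.1
        exact ⟨⟨hu.2, hu.1.2.1⟩, h2 ▸ hu.2, hu.1.2.2⟩
      · intro u hu
        have h2 := mem_filter.1 (Finset.mem_coe.1 hu)
        have h3 := ((hVm u).1 h2.1).2
        refine Finset.mem_coe.2 (mem_filter.2 ⟨mem_univ _, ?_⟩)
        by_contra h4
        exact h3 ⟨h2.2.1, h2.2.2, by simpa using h4⟩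
    refine h1.trans ?_
    refine (Finset.sum_le_sum (g := fun _ => (m * t) ^ 2) fun b hb => ?_).trans ?_
    · rw [card_product, sq]
      have := hmt b (mem_filter.1 hb).2
      exact Nat.mul_le_mul this this
    · rw [sum_const, smul_eq_mul]
      exact Nat.mul_le_mul_right _ hs
  · -- number of units with an extra row
    have h1 : V.filter (fun u => ¬ (mr (S.rc u.1) = true ∧ mr (S.rc u.2) = true)) ⊆
        (univ.filter (fun u : Port S × Port S => S.blk u.2 = S.blk u.1 ∧ mr (S.rc u.2) = false)) ∪
        (univ.filter (fun u : Port S × Port S => S.blk u.1 = S.blk u.2 ∧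
          mr (S.rc u.1) = false)) := by
      intro u hu
      have h2 := mem_filter.1 hu
      have h3 := ((hVm u).1 h2.1).1.1
      have hq' : mr (S.rc u.1) = false ∨ mr (S.rc u.2) = false := by
        by_contra h
        push Not at h
        apply h2.2
        simpa only [ne_eq, Bool.not_eq_false] using h
      rw [mem_union]
      rcases hq' with h4 | h4
      · exact Or.inr (mem_filter.2 ⟨mem_univ _, h3, h4⟩)
      · exact Or.inl (mem_filter.2 ⟨mem_univ _, h3.symm, h4⟩)
    have hcard : Fintype.card (Port S) = 2 * Fintype.card S.C := by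
      rw [Fintype.card_prod, Fintype.card_bool, mul_comm]
    have h2 : (univ.filter (fun u : Port S × Port S => S.blk u.2 = S.blk u.1 ∧
        mr (S.rc u.2) = false)).card ≤ 2 * e * Fintype.card S.C := by
      rw [Finset.card_eq_sum_card_fiberwise (f := fun u => u.1) (t := univ) (fun _ _ => by simp only [coe_univ, Set.mem_univ])]
      refine (Finset.sum_le_sum (g := fun _ => e) fun q _ => ?_).trans ?_
      · refine le_trans ?_ (he (S.blk q))
        refine card_le_card_of_injOn (fun u => u.2) ?_ ?_
        · intro u hu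
          have := mem_filter.1 (Finset.mem_coe.1 hu)
          have h5 := (mem_filter.1 this.1).2
          have h6 := this.2
          refine Finset.mem_coe.2 (mem_filter.2 ⟨mem_univ _, ?_, h5.2⟩)
          rw [h5.1, h6]
        · intro u hu v hv huv
          have h3 := (mem_filter.1 (Finset.mem_coe.1 hu)).2
          have h4 := (mem_filter.1 (Finset.mem_coe.1 hv)).2
          exact Prod.ext (h3.trans h4.symm) huv
      · rw [sum_const, smul_eq_mul, card_univ, hcard]
        apply le_of_eq
        ring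
    have h3 : (univ.filter (fun u : Port S × Port S => S.blk u.1 = S.blk u.2 ∧
        mr (S.rc u.1) = false)).card ≤ 2 * e * Fintype.card S.C := by
      rw [Finset.card_eq_sum_card_fiberwise (f := fun u => u.2) (t := univ) (fun _ _ => by simp only [coe_univ, Set.mem_univ])]
      refine (Finset.sum_le_sum (g := fun _ => e) fun q _ => ?_).trans ?_
      · refine le_trans ?_ (he (S.blk q))
        refine card_le_card_of_injOn (fun u => u.1) ?_ ?_
        · intro u hu
          have := mem_filter.1 (Finset.mem_coe.1 hu)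
          have h5 := (mem_filter.1 this.1).2
          have h6 := this.2
          refine Finset.mem_coe.2 (mem_filter.2 ⟨mem_univ _, ?_, h5.2⟩)
          rw [h5.1, h6]
        · intro u hu v hv huv
          have h3 := (mem_filter.1 (Finset.mem_coe.1 hu)).2
          have h4 := (mem_filter.1 (Finset.mem_coe.1 hv)).2
          exact Prod.ext huv (h3.trans h4.symm)
      · rw [sum_const, smul_eq_mul, card_univ, hcard]
        apply le_of_eq
        ring
    refine (card_le_card h1).trans ((card_union_le _ _).trans ?_)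
    calc _ ≤ 2 * e * Fintype.card S.C + 2 * e * Fintype.card S.C := Nat.add_le_add h2 h3
      _ = 4 * e * Fintype.card S.C := by ring

end Vale.Agent.P194.M
end

section

/-!
P201, part G2 for a general system: asphericity of the presentation implies that the group is
torsion-free.
-/

namespace Vale.Agent.P201.S

open Finset

namespace TF

universe u v

section Act

variable {H : Type u} [Group H] {A : Type v}

/-- left translation on chains -/
noncomputable def sm (g : H) : ((H × A) →₀ ℤ) →+ ((H × A) →₀ ℤ) :=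
  Finsupp.mapDomain.addMonoidHom (fun x => (g * x.1, x.2))

theorem sm_single (g h : H) (a : A) (c : ℤ) :
    sm g (Finsupp.single (h, a) c) = Finsupp.single (g * h, a) c := by
  simp only [sm, Finsupp.mapDomain.addMonoidHom_apply, Finsupp.mapDomain_single]

theorem sm_one (f : (H × A) →₀ ℤ) : sm (1 : H) f = f := by
  induction f using Finsupp.induction_linear with
  | zero => simp
  | add f g hf hg => rw [map_add, hf, hg]
  | single x c => rw [sm_single, one_mul]

theorem sm_mul (g h : H) (f : (H × A) →₀ ℤ) : sm (g * h) f = sm g (sm h f) := by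
  induction f using Finsupp.induction_linear with
  | zero => simp
  | add f g hf hg => rw [map_add, map_add, map_add, hf, hg]
  | single x c =>
    obtain ⟨x, a⟩ := x
    rw [sm_single, sm_single, sm_single, mul_assoc]

/-- restriction to the elements with first coordinate in `T` -/
noncomputable def sel (T : Set H) : ((H × A) →₀ ℤ) →+ ((H × A) →₀ ℤ) := by
  classical
  exact Finsupp.filterAddHom (fun x => x.1 ∈ T)

theorem sel_single_mem {T : Set H} {h : H} (hh : h ∈ T) (a : A) (c : ℤ) :
    sel T (Finsupp.single (h, a) c) = Finsupp.single (h, a) c := by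
  classical
  simp only [sel, Finsupp.filterAddHom]
  exact Finsupp.filter_single_of_pos _ hh

theorem sel_single_not {T : Set H} {h : H} (hh : h ∉ T) (a : A) (c : ℤ) :
    sel T (Finsupp.single (h, a) c) = 0 := by
  classical
  simp only [sel, Finsupp.filterAddHom]
  exact Finsupp.filter_single_of_neg _ hh

/-- `T` is a set of representatives for left multiplication by the powers of `g` -/
def Rep (g : H) (q : ℕ) (T : Set H) : Prop :=
  ∀ h : H, ∃ i, i < q ∧ (g ^ i)⁻¹ * h ∈ T ∧ ∀ j, j < q → (g ^ j)⁻¹ * h ∈ T → j = i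

theorem exists_rep (g : H) (hq : 0 < orderOf g) : ∃ T : Set H, Rep g (orderOf g) T := by
  classical
  obtain ⟨T, hT, -⟩ := Subgroup.exists_isComplement_right (Subgroup.zpowers g) (1 : H)
  refine ⟨T, fun h => ?_⟩
  obtain ⟨s, hs, huniq⟩ := Subgroup.isComplement_iff_existsUnique_inv_mul_mem.1 hT h
  obtain ⟨⟨k, hk⟩, hk2⟩ : ∃ i : Fin (orderOf g), g ^ (i : ℕ) = (s : H) := by
    have h1 : (s : H) ∈ Subgroup.zpowers g := s.2
    have hfin : IsOfFinOrder g := orderOf_pos_iff.1 hq
    rw [← hfin.mem_powers_iff_mem_zpowers, hfin.mem_powers_iff_mem_range_orderOf] at h1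
    obtain ⟨i, hi, hi2⟩ := Finset.mem_image.1 h1
    exact ⟨⟨i, Finset.mem_range.1 hi⟩, hi2⟩
  refine ⟨k, hk, ?_, ?_⟩
  · have h2 : g ^ k = (s : H) := hk2
    rw [h2]
    exact hs
  · intro j hj hjT
    have h3 := huniq ⟨g ^ j, Subgroup.npow_mem_zpowers g j⟩ hjT
    have h4 : g ^ j = g ^ k := (congrArg Subtype.val h3).trans hk2.symm
    exact pow_injOn_Iio_orderOf hj hk h4

theorem decomp {g : H} {q : ℕ} {T : Set H} (hT : Rep g q T) (f : (H × A) →₀ ℤ) :
    ∑ i ∈ range q, sm (g ^ i) (sel T (sm (g ^ i)⁻¹ f)) = f := by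
  induction f using Finsupp.induction_linear with
  | zero => simp
  | add f g hf hg =>
    simp only [map_add, sum_add_distrib]
    rw [hf, hg]
  | single x c =>
    obtain ⟨h, a⟩ := x
    obtain ⟨i, hi, hi1, hi2⟩ := hT h
    rw [sum_eq_single i]
    · rw [sm_single, sel_single_mem hi1, sm_single, mul_inv_cancel_left]
    · intro j hj hji
      rw [sm_single, sel_single_not, map_zero]
      intro hmem
      exact hji (hi2 j (mem_range.1 hj) hmem)
    · intro hni
      exact absurd (mem_range.2 hi) hni

theorem sm_pow_fix {g : H} {f : (H × A) →₀ ℤ} (h : sm g f = f) (i : ℕ) : sm (g ^ i) f = f := by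
  induction i with
  | zero => rw [pow_zero, sm_one]
  | succ i ih => rw [pow_succ, sm_mul, h, ih]

theorem sm_inv_fix {g : H} {f : (H × A) →₀ ℤ} (h : sm g f = f) : sm g⁻¹ f = f := by
  conv_lhs => rw [← h]
  rw [← sm_mul, inv_mul_cancel, sm_one]

/-- invariants are norms -/
theorem inv_norm {g : H} {q : ℕ} {T : Set H} (hT : Rep g q T) {f : (H × A) →₀ ℤ}
    (h : sm g f = f) : ∃ f' : (H × A) →₀ ℤ, f = ∑ i ∈ range q, sm (g ^ i) f' := by
  refine ⟨sel T f, ?_⟩
  conv_lhs => rw [← decomp hT f]
  refine sum_congr rfl fun i _ => ?_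
  rw [sm_inv_fix (sm_pow_fix h i)]

theorem tele (g : H) (i : ℕ) (y : (H × A) →₀ ℤ) :
    ∃ b : (H × A) →₀ ℤ, sm (g ^ i) y - y = sm g b - b := by
  refine ⟨∑ j ∈ range i, sm (g ^ j) y, ?_⟩
  induction i with
  | zero => simp only [pow_zero, sm_one, sub_self, range_zero, sum_empty, map_zero]
  | succ i ih =>
    rw [sum_range_succ, map_add, ← sm_mul g, ← pow_succ']
    have : sm (g ^ (i + 1)) y - y = (sm (g ^ i) y - y) + (sm (g ^ (i + 1)) y - sm (g ^ i) y) := by
      abel
    rw [this, ih]
    abel

/-- elements of norm zero -/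
theorem norm_zero {g : H} {q : ℕ} {T : Set H} (hT : Rep g q T) {f : (H × A) →₀ ℤ}
    (h : ∑ i ∈ range q, sm (g ^ i) f = 0) : ∃ b : (H × A) →₀ ℤ, f = sm g b - b := by
  have h1 : ∑ i ∈ range q, sm (g ^ i)⁻¹ f = 0 := by
    rcases q with _ | q
    · simp only [range_zero, sum_empty]
    · rw [← sum_range_reflect]
      have h2 : ∀ i ∈ range (q + 1), sm (g ^ (q + 1 - 1 - i))⁻¹ f = sm (g ^ q)⁻¹ (sm (g ^ i) f) := by
        intro i hi
        rw [← sm_mul]
        congr 1
        have h3 : i ≤ q := Nat.lt_succ_iff.1 (mem_range.1 hi)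
        have h4 : g ^ q = g ^ i * g ^ (q - i) := by
          rw [← pow_add, Nat.add_sub_cancel' h3]
        have h5 : q + 1 - 1 - i = q - i := rfl
        rw [h5, h4, mul_inv_rev, inv_mul_cancel_right]
      rw [sum_congr rfl h2, ← map_sum, h, map_zero]
  choose b hb using fun i => tele g i (sel T (sm (g ^ i)⁻¹ f))
  refine ⟨∑ i ∈ range q, b i, ?_⟩
  rw [map_sum, ← sum_sub_distrib]
  have h6 : ∑ i ∈ range q, sel T (sm (g ^ i)⁻¹ f) = 0 := by
    rw [← map_sum, h1, map_zero]
  calc f = ∑ i ∈ range q, sm (g ^ i) (sel T (sm (g ^ i)⁻¹ f)) := (decomp hT f).symm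
    _ = ∑ i ∈ range q, sm (g ^ i) (sel T (sm (g ^ i)⁻¹ f)) -
        ∑ i ∈ range q, sel T (sm (g ^ i)⁻¹ f) := by rw [h6, sub_zero]
    _ = ∑ i ∈ range q, (sm g (b i) - b i) := by
        rw [← sum_sub_distrib]
        exact sum_congr rfl fun i _ => hb i

/-- augmentation -/
noncomputable def ag : ((H × A) →₀ ℤ) →+ ℤ := Finsupp.liftAddHom (fun _ => AddMonoidHom.id ℤ)

theorem ag_single (x : H × A) (c : ℤ) : ag (Finsupp.single x c) = c := by
  simp only [ag, Finsupp.liftAddHom_apply, AddMonoidHom.coe_id, id_eq, Finsupp.sum_single_index]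

theorem ag_sm (g : H) (f : (H × A) →₀ ℤ) : ag (sm g f) = ag f := by
  induction f using Finsupp.induction_linear with
  | zero => simp only [map_zero]
  | add f g hf hg => rw [map_add, map_add, map_add, hf, hg]
  | single x c =>
    obtain ⟨x, a⟩ := x
    rw [sm_single, ag_single, ag_single]

/-- translation as an automorphism -/
noncomputable def smE (g : H) : ((H × A) →₀ ℤ) ≃+ ((H × A) →₀ ℤ) where
  toFun := sm g
  invFun := sm g⁻¹
  left_inv f := by rw [← sm_mul, inv_mul_cancel, sm_one]
  right_inv f := by rw [← sm_mul, mul_inv_cancel, sm_one]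
  map_add' := map_add _

/-- the action on the multiplicative version -/
noncomputable def phi : H →* MulAut (Multiplicative ((H × A) →₀ ℤ)) where
  toFun g := AddEquiv.toMultiplicative (smE g)
  map_one' := by
    ext1 x
    exact congrArg Multiplicative.ofAdd (sm_one (Multiplicative.toAdd x))
  map_mul' g h := by
    ext1 x
    exact congrArg Multiplicative.ofAdd (sm_mul g h (Multiplicative.toAdd x))

end Act

section Fox

variable {H : Type u} [Group H] {L : Type v} (pr : FreeGroup L →* H)

/-- the Magnus-Fox homomorphism -/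
noncomputable def foxH : FreeGroup L →* SemidirectProduct (Multiplicative ((H × L) →₀ ℤ)) H phi :=
  FreeGroup.lift (fun l => ⟨Multiplicative.ofAdd (Finsupp.single (1, l) 1), pr (FreeGroup.of l)⟩)

theorem foxH_right (w : FreeGroup L) : (foxH pr w).right = pr w := by
  have h : (SemidirectProduct.rightHom.comp (foxH pr)) = pr := by
    ext l
    simp only [foxH, SemidirectProduct.mk_eq_inl_mul_inr, MonoidHom.coe_comp, SemidirectProduct.rightHom_eq_right, Function.comp_apply, FreeGroup.lift_apply_of, SemidirectProduct.mul_right, SemidirectProduct.right_inl, SemidirectProduct.right_inr, one_mul]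
  exact DFunLike.congr_fun h w

/-- Fox derivative -/
noncomputable def D (w : FreeGroup L) : (H × L) →₀ ℤ := Multiplicative.toAdd (foxH pr w).left

theorem D_of (l : L) : D pr (FreeGroup.of l) = Finsupp.single (1, l) 1 := by
  simp only [D, foxH, SemidirectProduct.mk_eq_inl_mul_inr, FreeGroup.lift_apply_of, SemidirectProduct.mul_left, SemidirectProduct.left_inl, SemidirectProduct.right_inl, map_one, SemidirectProduct.left_inr, MulAut.one_apply, mul_one, toAdd_ofAdd]

theorem D_one : D pr 1 = 0 := by
  simp [D]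

theorem D_mul (a b : FreeGroup L) : D pr (a * b) = D pr a + sm (pr a) (D pr b) := by
  have h : (foxH pr (a * b)).left = (foxH pr a).left * phi (foxH pr a).right (foxH pr b).left := by
    rw [map_mul, SemidirectProduct.mul_left]
  have h2 := congrArg Multiplicative.toAdd h
  rw [foxH_right] at h2
  exact h2

theorem D_inv (a : FreeGroup L) : D pr a⁻¹ = - sm (pr a)⁻¹ (D pr a) := by
  have h := D_mul pr a⁻¹ a
  rw [inv_mul_cancel, D_one, map_inv] at h
  exact eq_neg_of_add_eq_zero_left h.symm

/-- `f ↦ ∑ f_l (l - 1)` -/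
noncomputable def P1 : ((H × L) →₀ ℤ) →+ ((H × Unit) →₀ ℤ) :=
  Finsupp.liftAddHom (fun x => zmultiplesHom _
    (Finsupp.single (x.1 * pr (FreeGroup.of x.2), ()) 1 - Finsupp.single (x.1, ()) 1))

theorem P1_single (h : H) (l : L) (c : ℤ) : P1 pr (Finsupp.single (h, l) c) =
    c • (Finsupp.single (h * pr (FreeGroup.of l), ()) 1 - Finsupp.single (h, ()) 1) := by
  simp only [P1, Finsupp.liftAddHom_apply, zmultiplesHom_apply, zero_smul, Finsupp.sum_single_index]

theorem P1_sm (g : H) (f : (H × L) →₀ ℤ) : P1 pr (sm g f) = sm g (P1 pr f) := by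
  induction f using Finsupp.induction_linear with
  | zero => simp
  | add f g hf hg => simp only [map_add, hf, hg]
  | single x c =>
    obtain ⟨x, a⟩ := x
    rw [sm_single, P1_single, P1_single, map_zsmul, map_sub, sm_single, sm_single, mul_assoc]

theorem P1_D (w : FreeGroup L) :
    P1 pr (D pr w) = Finsupp.single (pr w, ()) 1 - Finsupp.single (1, ()) 1 := by
  induction w using FreeGroup.induction_on with
  | C1 => rw [D_one, map_zero, map_one, sub_self]
  | of l => rw [D_of, P1_single, one_smul, one_mul]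
  | inv_of l h =>
    rw [D_inv, map_neg, P1_sm, h, map_sub, sm_single, sm_single, map_inv, inv_mul_cancel, mul_one,
      neg_sub]
  | mul a b ha hb =>
    rw [D_mul, map_add, P1_sm, ha, hb, map_sub, sm_single, sm_single, map_mul, mul_one]
    abel

theorem ag_P1 (f : (H × L) →₀ ℤ) : ag (P1 pr f) = 0 := by
  induction f using Finsupp.induction_linear with
  | zero => simp
  | add f g hf hg => rw [map_add, map_add, hf, hg, add_zero]
  | single x c =>
    obtain ⟨x, a⟩ := x
    rw [P1_single, map_zsmul, map_sub, ag_single, ag_single, sub_self, smul_zero]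

theorem D_pow (w : FreeGroup L) (m : ℕ) : D pr (w ^ m) = ∑ i ∈ range m, sm (pr w ^ i) (D pr w) := by
  induction m with
  | zero => rw [pow_zero, D_one, range_zero, sum_empty]
  | succ m ih => rw [pow_succ, D_mul, ih, sum_range_succ, map_pow]

end Fox

section Main

variable {S : Sys} (σ : Equiv.Perm (S.C))

theorem mt_mt (q : Port S) : mt σ (mt σ q) = q := by
  obtain ⟨c, b⟩ := q
  cases b <;> simp [mt]

theorem val_winv {A : Type} (l : List (A × Bool)) : val (winv l) = (val l)⁻¹ := by
  rw [val, val, FreeGroup.inv_mk]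
  rfl

theorem val_relw (q : Port S) :
    val (relw σ q) = val (half q) * (val (half (mt σ q)))⁻¹ := by
  rw [← val_winv, relw]
  simp only [val, FreeGroup.mul_mk]

theorem val_relw_mt (q : Port S) : val (relw σ (mt σ q)) = (val (relw σ q))⁻¹ := by
  rw [val_relw, val_relw, mt_mt, mul_inv_rev, inv_inv]

theorem pch_mt (g : Gp σ) (q : Port S) : pch σ g (mt σ q) = - pch σ g q := by
  obtain ⟨c, b⟩ := q
  cases b <;> simp [mt, pch]

theorem sm_pch (h g : Gp σ) (q : Port S) : sm h (pch σ g q) = pch σ (h * g) q := by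
  unfold pch
  split_ifs
  · rw [sm_single]
  · rw [sm_single]

/-- the projection to the group -/
noncomputable abbrev prj : FreeGroup (Let S) →* Gp σ := PresentedGroup.mk (rels σ)

theorem prj_rel (q : Port S) : prj σ (val (relw σ q)) = 1 :=
  PresentedGroup.one_of_mem ⟨q, rfl⟩

theorem Expr.mul' {k k' : ℕ} {a b : FreeGroup (Let S)} {z z' : Chn σ} (h : Expr σ k a z)
    (h' : Expr σ k' b z') : Expr σ (k + k') (a * b) (z + z') := by
  induction h with
  | nil =>
    rw [zero_add, one_mul, zero_add]
    exact h'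
  | cons k u z v q _ ih =>
    have h1 := Expr.cons (k + k') (u * b) (z + z') v q ih
    have h2 : k + 1 + k' = k + k' + 1 := by omega
    rw [h2, mul_assoc _ u b, add_assoc (pch _ _ _)]
    exact h1

theorem Expr.conj' {k : ℕ} {a : FreeGroup (Let S)} {z : Chn σ} (h : Expr σ k a z)
    (w : FreeGroup (Let S)) : Expr σ k (w * a * w⁻¹) (sm (prj σ w) z) := by
  induction h with
  | nil =>
    rw [mul_one, mul_inv_cancel, map_zero]
    exact Expr.nil
  | cons k u z v q _ ih =>
    have h1 := Expr.cons k _ _ (w * v) q ih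
    have h2 : w * (v * val (relw σ q) * v⁻¹ * u) * w⁻¹ =
        (w * v) * val (relw σ q) * (w * v)⁻¹ * (w * u * w⁻¹) := by group
    rw [h2, map_add, sm_pch, ← map_mul]
    exact h1

theorem Expr.inv' {k : ℕ} {a : FreeGroup (Let S)} {z : Chn σ} (h : Expr σ k a z) :
    Expr σ k a⁻¹ (-z) := by
  induction h with
  | nil =>
    rw [inv_one, neg_zero]
    exact Expr.nil
  | cons k u z v q _ ih =>
    have h1 := Expr.cons 0 1 0 v (mt σ q) (Expr.nil (σ := σ))
    have h2 := Expr.mul' σ ih h1
    rw [val_relw_mt, pch_mt, zero_add, add_zero, mul_one] at h2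
    have h3 : (v * val (relw σ q) * v⁻¹ * u)⁻¹ = u⁻¹ * (v * (val (relw σ q))⁻¹ * v⁻¹) := by group
    rw [h3, neg_add, add_comm (-_) (-z)]
    exact h2

/-- elements with an expression form the normal closure of the relators -/
def exSub : Subgroup (FreeGroup (Let S)) where
  carrier := {w | ∃ k z, Expr σ k w z}
  mul_mem' := by
    rintro a b ⟨k, z, h⟩ ⟨k', z', h'⟩
    exact ⟨_, _, Expr.mul' σ h h'⟩
  one_mem' := ⟨0, 0, Expr.nil⟩
  inv_mem' := by
    rintro a ⟨k, z, h⟩
    exact ⟨_, _, Expr.inv' σ h⟩

theorem exists_expr {w : FreeGroup (Let S)} (h : prj σ w = 1) : ∃ k z, Expr σ k w z := by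
  have h1 : w ∈ Subgroup.normalClosure (rels σ) := (QuotientGroup.eq_one_iff w).1 h
  have hn : (exSub σ).Normal := ⟨by
    rintro a ⟨k, z, h⟩ g
    exact ⟨_, _, Expr.conj' σ h g⟩⟩
  have h2 : rels σ ⊆ (exSub σ : Set (FreeGroup (Let S))) := by
    rintro _ ⟨q, rfl⟩
    have h3 := Expr.cons 0 1 0 1 q (Expr.nil (σ := σ))
    rw [one_mul, inv_one, mul_one, mul_one] at h3
    exact ⟨_, _, h3⟩
  exact Subgroup.normalClosure_le_normal h2 h1

/-- boundary of a chain -/
noncomputable def bd : Chn σ →+ ((Gp σ × Let S) →₀ ℤ) :=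
  Finsupp.liftAddHom (fun x => zmultiplesHom _ (sm x.1 (D (prj σ) (val (relw σ (x.2, true))))))

theorem bd_single (g : Gp σ) (c : S.C) (m : ℤ) :
    bd σ (Finsupp.single (g, c) m) = m • sm g (D (prj σ) (val (relw σ (c, true)))) := by
  simp only [bd, Finsupp.liftAddHom_apply, zmultiplesHom_apply, zero_smul, Finsupp.sum_single_index]

theorem bd_sm (g : Gp σ) (f : Chn σ) : bd σ (sm g f) = sm g (bd σ f) := by
  induction f using Finsupp.induction_linear with
  | zero => simp
  | add f g hf hg => simp only [map_add, hf, hg]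
  | single x c =>
    obtain ⟨x, a⟩ := x
    rw [sm_single, bd_single, bd_single, map_zsmul, sm_mul]

theorem bd_pch (g : Gp σ) (q : Port S) :
    bd σ (pch σ g q) = sm g (D (prj σ) (val (relw σ q))) := by
  obtain ⟨c, b⟩ := q
  cases b
  · have h1 : pch σ g (c, false) = - pch σ g (σ.symm c, true) := by
      have h2 := pch_mt σ g (σ.symm c, true)
      have h3 : mt σ (σ.symm c, true) = (c, false) := by simp [mt]
      rw [h3] at h2
      exact h2
    have h4 : val (relw σ (c, false)) = (val (relw σ (σ.symm c, true)))⁻¹ := by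
      have h2 := val_relw_mt σ (σ.symm c, true)
      have h3 : mt σ (σ.symm c, true) = (c, false) := by simp [mt]
      rw [h3] at h2
      exact h2
    rw [h1, h4, D_inv, prj_rel, inv_one, sm_one, map_neg, map_neg]
    congr 1
    have h5 : pch σ g (σ.symm c, true) = Finsupp.single (g, σ.symm c) 1 := by simp [pch]
    rw [h5, bd_single, one_smul]
  · have h5 : pch σ g (c, true) = Finsupp.single (g, c) 1 := by simp [pch]
    rw [h5, bd_single, one_smul]

theorem D_expr {k : ℕ} {a : FreeGroup (Let S)} {z : Chn σ} (h : Expr σ k a z) :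
    D (prj σ) a = bd σ z := by
  induction h with
  | nil => rw [D_one, map_zero]
  | cons k u z v q _ ih =>
    have e1 : prj σ (v * val (relw σ q)) = prj σ v := by rw [map_mul, prj_rel, mul_one]
    have e2 : prj σ (v * val (relw σ q) * v⁻¹) = 1 := by
      rw [map_mul, e1, map_inv, mul_inv_cancel]
    rw [map_add, bd_pch, D_mul, D_mul, D_mul, D_inv, ih, e1, e2, sm_one, map_neg, ← sm_mul,
      mul_inv_cancel, sm_one]
    abel

theorem P1_bd (z : Chn σ) : P1 (prj σ) (bd σ z) = 0 := by
  induction z using Finsupp.induction_linear with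
  | zero => simp
  | add f g hf hg => rw [map_add, map_add, hf, hg, add_zero]
  | single x c =>
    obtain ⟨x, a⟩ := x
    rw [bd_single, map_zsmul, P1_sm, P1_D, prj_rel, sub_self, map_zero, smul_zero]

theorem no_prime_torsion (has : ∀ k z, Expr σ k 1 z → z = 0) (g : Gp σ) (q : ℕ)
    (hq : q.Prime) (ho : orderOf g = q) : False := by
  obtain ⟨w, rfl⟩ := QuotientGroup.mk_surjective g
  change orderOf (prj σ w) = q at ho
  obtain ⟨T, hT⟩ := exists_rep (prj σ w) (by rw [ho]; exact hq.pos)
  rw [ho] at hT
  have h1 : prj σ (w ^ q) = 1 := by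
    rw [map_pow, ← ho]
    exact pow_orderOf_eq_one _
  obtain ⟨k, z, hz⟩ := exists_expr σ h1
  have h2 := Expr.conj' σ hz w
  have h3 : w * w ^ q * w⁻¹ = w ^ q := by
    rw [← pow_succ', pow_succ, mul_inv_cancel_right]
  rw [h3] at h2
  have h4 := Expr.mul' σ hz (Expr.inv' σ h2)
  rw [mul_inv_cancel] at h4
  have h5 := has _ _ h4
  have h6 : sm (prj σ w) z = z := by
    rw [← sub_eq_add_neg, sub_eq_zero] at h5
    exact h5.symm
  obtain ⟨z', hz'⟩ := inv_norm hT h6
  have h7 : ∑ i ∈ range q, sm (prj σ w ^ i) (bd σ z' - D (prj σ) w) = 0 := by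
    simp only [map_sub, sum_sub_distrib]
    rw [← D_pow, D_expr σ hz, hz', map_sum, sub_eq_zero]
    refine sum_congr rfl fun i _ => ?_
    rw [bd_sm]
  obtain ⟨b, hb⟩ := norm_zero hT h7
  have h8 := congrArg (P1 (prj σ)) hb
  rw [map_sub, map_sub, P1_bd, P1_D, P1_sm] at h8
  have h9 : sm (prj σ w) (P1 (prj σ) b + Finsupp.single (1, ()) 1) =
      P1 (prj σ) b + Finsupp.single (1, ()) 1 := by
    rw [map_add, sm_single, mul_one]
    have h10 : sm (prj σ w) (P1 (prj σ) b) =
        P1 (prj σ) b + (0 - (Finsupp.single (prj σ w, ()) 1 - Finsupp.single (1, ()) 1)) := by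
      rw [h8]
      abel
    rw [h10]
    abel
  obtain ⟨a, ha⟩ := inv_norm hT h9
  have h11 := congrArg ag ha
  rw [map_add, ag_P1, ag_single, map_sum, zero_add] at h11
  simp only [ag_sm, sum_const, card_range, nsmul_eq_mul] at h11
  have h12 : (q : ℤ) ∣ 1 := ⟨_, h11⟩
  have h13 : q ∣ 1 := by exact_mod_cast h12
  exact hq.one_lt.ne' (Nat.dvd_one.1 h13)

theorem torsion_free (has : ∀ k z, Expr σ k 1 z → z = 0) :
    ∀ g : Gp σ, ∀ m : ℕ, 0 < m → g ^ m = 1 → g = 1 := by
  intro g m hm hg
  by_contra hne
  have hfin : IsOfFinOrder g := isOfFinOrder_iff_pow_eq_one.2 ⟨m, hm, hg⟩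
  have h1 : orderOf g ≠ 1 := fun h => hne (orderOf_eq_one_iff.1 h)
  obtain ⟨q, hq, hdvd⟩ := Nat.exists_prime_and_dvd h1
  obtain ⟨r, hr⟩ := hdvd
  have h2 : 0 < orderOf g := orderOf_pos_iff.2 hfin
  have hr0 : 0 < r := by
    rcases Nat.eq_zero_or_pos r with h | h
    · rw [h, mul_zero] at hr
      omega
    · exact h
  have h3 : orderOf (g ^ r) = q := by
    rw [orderOf_pow_of_dvd hr0.ne' ⟨q, by rw [hr, mul_comm]⟩, hr]
    exact Nat.mul_div_cancel q hr0
  exact no_prime_torsion σ has (g ^ r) q hq h3

end Main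

end TF

/-- PART G, torsion -/
theorem stmtTor : StmtTor := fun _ σ has => TF.torsion_free σ has

end Vale.Agent.P201.S
end

section

/-!
P201, parts D and F: planar complexes (captain helper201).  See `PROOF_DF.md`.
-/

namespace Vale.Agent.P201.S

open Finset

/-- reversed dart -/
def rv {E : Type} (d : E × Bool) : E × Bool := (d.1, !d.2)

/-- A planar complex (sphere with an outer face `none`); each dart lies on exactly one face boundary,
exactly once. -/
structure PC (A : Type) where
  V : Type
  E : Type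
  F : Type
  [fV : Fintype V]
  [fE : Fintype E]
  [fF : Fintype F]
  [dV : DecidableEq V]
  [dE : DecidableEq E]
  [dF : DecidableEq F]
  org : E × Bool → V
  lab : E → A
  bd : Option F → List (E × Bool)
  chain : ∀ f, (bd f).IsChain (fun a b => org b = org (rv a))
  closed : ∀ f, ∀ a ∈ (bd f).getLast?, ∀ b ∈ (bd f).head?, org b = org (rv a)
  once : ∀ d, ∑ f, (bd f).count d = 1
  ne : ∀ f : F, bd (some f) ≠ []
  conn : ∀ u v : V, Relation.ReflTransGen (fun a b => ∃ d, org d = a ∧ org (rv d) = b) u v
  dconn : ∀ f g : Option F, Relation.ReflTransGen (fun a b => ∃ d, d ∈ bd a ∧ rv d ∈ bd b) f g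
  euler : Fintype.card V + Fintype.card F = Fintype.card E + 1

attribute [instance] PC.fV PC.fE PC.fF PC.dV PC.dE PC.dF

namespace PC

variable {A : Type} (K : PC A)

/-- word of a face boundary -/
def wd (f : Option K.F) : List (A × Bool) := (K.bd f).map (fun d => (K.lab d.1, d.2))

/-- letter of a dart in the free group -/
def lt (d : K.E × Bool) : FreeGroup A := FreeGroup.mk [(K.lab d.1, d.2)]

/-- face of a dart -/
noncomputable def fc (d : K.E × Bool) : Option K.F :=
  Classical.epsilon (fun f => d ∈ K.bd f)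

open Classical in
/-- the boundary of a set of faces: edges with exactly one side in `C` -/
noncomputable def bdry (C : Finset K.F) : Finset K.E :=
  univ.filter (fun e => ¬ ((∃ f ∈ C, (e, true) ∈ K.bd (some f)) ↔ (∃ f ∈ C, (e, false) ∈ K.bd (some f))))

/-- edges on the outer boundary -/
noncomputable def outE : Finset K.E := ((K.bd none).map Prod.fst).toFinset

/-- `C` and its complement (with the outer face) are dual connected -/
def Bond (C : Finset K.F) : Prop :=
  C.Nonempty ∧
  (∀ f ∈ C, ∀ g ∈ C, Relation.ReflTransGen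
    (fun a b => b ∈ C ∧ ∃ d, d ∈ K.bd (some a) ∧ rv d ∈ K.bd (some b)) f g) ∧
  (∀ f g : Option K.F, (∀ x ∈ C, f ≠ some x) → (∀ x ∈ C, g ≠ some x) → Relation.ReflTransGen
    (fun a b => (∀ x ∈ C, b ≠ some x) ∧ ∃ d, d ∈ K.bd a ∧ rv d ∈ K.bd b) f g)

/-- A cotree: every inner face has a parent across the dart `dd f ∈ bd f`; potentials which are
trivial on all other edges. -/
structure Cotree where
  par : K.F → Option K.F
  dd : K.F → K.E × Bool
  rank : K.F → ℕ
  mem : ∀ f, dd f ∈ K.bd (some f)
  memr : ∀ f, rv (dd f) ∈ K.bd (par f)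
  dec : ∀ f g, par f = some g → rank g < rank f
  root : K.V
  pot : K.V → FreeGroup A
  pot_root : pot root = 1
  triv : ∀ d : K.E × Bool, (∀ f, (dd f).1 ≠ d.1) → pot (K.org d) * K.lt d = pot (K.org (rv d))

namespace Cotree

variable {K} (T : K.Cotree)

/-- `g` is a descendant of `f` (reflexive) -/
def Desc (f g : K.F) : Prop := Relation.ReflTransGen (fun a b => T.par a = some b) g f

open Classical in
noncomputable def sub (f : K.F) : Finset K.F := univ.filter (fun g => T.Desc f g)

/-- value of a dart -/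
def c (d : K.E × Bool) : FreeGroup A := T.pot (K.org d) * K.lt d * (T.pot (K.org (rv d)))⁻¹

end Cotree

/-- spanning tree by parent darts: `pd v = some d`, `org d = v`, the other end has smaller height -/
structure STree where
  pd : K.V → Option (K.E × Bool)
  hgt : K.V → ℕ
  root : K.V
  rt : ∀ v, pd v = none ↔ v = root
  or : ∀ v d, pd v = some d → K.org d = v
  dec : ∀ v d, pd v = some d → hgt (K.org (rv d)) < hgt v

namespace STree

variable {K} (T : K.STree)

def Step (v w : K.V) : Prop := ∃ d, T.pd v = some d ∧ K.org (rv d) = w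

/-- edges on the tree path from `v` to the root -/
def Anc (v : K.V) (e : K.E) : Prop :=
  ∃ w d, Relation.ReflTransGen T.Step v w ∧ T.pd w = some d ∧ d.1 = e

/-- edges of the tree -/
def Ed (e : K.E) : Prop := ∃ v d, T.pd v = some d ∧ d.1 = e

end STree

end PC

variable {S : Sys}

noncomputable instance instDecLet (S : Sys) : DecidableEq (Let S) := Classical.decEq _

/-- all inner faces are squares: face `f` is read from its o-vertex, the first dart -/
structure SqK (σ : Equiv.Perm S.C) extends PC (Let S) where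
  q : F → Port S
  sq : ∀ f : F, (bd (some f)).map (fun d => (lab d.1, d.2)) = relw σ (q f)

/-- no reduction possible -/
def NoRed (σ : Equiv.Perm S.C) (u : FreeGroup (Let S)) (k : ℕ) (z : Chn σ) : Prop :=
  ∀ k1 z1, 1 ≤ k1 → k1 ≤ k → Expr σ k1 1 z1 → ¬ Expr σ (k - k1) u (z - z1)

/-- `u` has area `k` -/
def MinA (σ : Equiv.Perm S.C) (u : FreeGroup (Let S)) (k : ℕ) : Prop :=
  (∃ z, Expr σ k u z) ∧ ∀ k' z', Expr σ k' u z' → k ≤ k'

namespace SqK

variable {σ : Equiv.Perm S.C} (K : SqK σ)

/-- the outer word (positive reading) -/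
def outw : List (Let S × Bool) := winv (K.toPC.wd none)

/-- group potentials: labelling of the vertices by group elements, consistent with the edges,
`1` at the base vertex of the outer face -/
structure GPot where
  π : K.V → Gp σ
  st : ∀ d : K.E × Bool, π (K.org d) * PresentedGroup.mk (rels σ) (K.toPC.lt d) = π (K.org (rv d))
  base : ∀ d ∈ (K.bd none).head?, π (K.org d) = 1

/-- chain of a set of faces -/
noncomputable def chn (P : K.GPot) (C : Finset K.F) : Chn σ :=
  ∑ f ∈ C, ∑ d ∈ ((K.bd (some f)).head?).toFinset, pch σ (P.π (K.org d)) (K.q f)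

end SqK

/-! ## Statements of part D -/

/-- (D1) van Kampen: realisation of an unreducible expression by a planar complex. -/
def StmtVK : Prop :=
  ∀ (S : Sys) (σ : Equiv.Perm S.C) (u : FreeGroup (Let S)) (k : ℕ) (z : Chn σ),
    Expr σ k u z → NoRed σ u k z →
    ∃ (K : SqK σ) (P : K.GPot), Fintype.card K.F = k ∧ K.outw = u.toWord ∧ K.chn P univ = z

/-- (D2) spanning tree gives cotree; boundary of a subtree is contained in the fundamental cycle. -/
def StmtT1 : Prop :=
  ∀ (A : Type) (K : PC A) (T : K.STree), ∃ C : K.Cotree, C.root = T.root ∧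
    (∀ e, T.Ed e ↔ ∀ f, (C.dd f).1 ≠ e) ∧
    ∀ f, ∀ e ∈ K.bdry (C.sub f), e = (C.dd f).1 ∨ T.Anc (K.org (C.dd f)) e ∨
      T.Anc (K.org (rv (C.dd f))) e

/-- (D3) values of cotree edges, with chains -/
def StmtRec : Prop :=
  ∀ (S : Sys) (σ : Equiv.Perm S.C) (K : SqK σ) (P : K.GPot) (C : K.toPC.Cotree),
    P.π C.root = 1 →
    (∀ v, PresentedGroup.mk (rels σ) (C.pot v) = P.π v) ∧
    (∀ f, Expr σ (C.sub f).card (C.c (C.dd f)) (K.chn P (C.sub f)))

/-- (D4) replacement: removing the subtree of `f` and inserting another expression of its value. -/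
def StmtRepl : Prop :=
  ∀ (S : Sys) (σ : Equiv.Perm S.C) (K : SqK σ) (P : K.GPot) (C : K.toPC.Cotree),
    P.π C.root = 1 → (∀ d ∈ (K.bd none).head?, K.org d = C.root) →
    ∀ f k z, Expr σ k (C.c (C.dd f)) z →
      Expr σ (Fintype.card K.F - (C.sub f).card + k) (val K.outw) (K.chn P univ - K.chn P (C.sub f) + z)

/-- (D5) bonds: a bond `C` is the subtree of a face in some cotree rooted at the base vertex of the
outer face, and the value of its edge is conjugate to a word of weight `Σ_{bdry C}`. -/
def StmtBond : Prop :=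
  ∀ (A : Type) (K : PC A) (C : Finset K.F), K.Bond C → ∃ (T : K.Cotree) (f : K.F) (l : List (K.E × Bool))
    (v : FreeGroup A), T.sub f = C ∧ (∀ d ∈ (K.bd none).head?, K.org d = T.root) ∧
      (l.map Prod.fst).Nodup ∧ (l.map Prod.fst).toFinset = K.bdry C ∧
      T.c (T.dd f) = v * FreeGroup.mk (l.map (fun d => (K.lab d.1, d.2))) * v⁻¹

/-- (D6) bridge to gluing data (disc version).  `tpow` : no power `t^m`, `m ≠ 0`, has an expression with
at most `card F` relators, or the outer word itself is a power of `t` and no `t^m`, `m ≠ 0`, has an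
expression with fewer than `card F` relators. -/
def StmtBridge : Prop :=
  ∀ (S : Sys) (σ : Equiv.Perm S.C) (K : SqK σ) (P : K.GPot),
    NoRed σ (val K.outw) (Fintype.card K.F) (K.chn P univ) →
    (∀ (m : ℤ) (k : ℕ) (z : Chn σ), m ≠ 0 → Expr σ k (val (tw S m)) z → Fintype.card K.F < k ∨
      (Fintype.card K.F ≤ k ∧ ∀ a ∈ K.outw, a.1 = Let.t)) →
    ∃ G : Glue σ, G.Red ∧ G.Lab ∧ G.Eul ∧ Fintype.card G.Q = Fintype.card K.F ∧
      ∀ Y : ℕ, 2 * (Fintype.card G.Q - domc G.X) + Y * (2 * (Fintype.card G.Q - domc G.Y)) ≤ wtw Y K.outw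

/-- (D7) bridge for spheres: the outer face is itself the inverse of a square and the total chain of all
squares is not zero, while all shorter identities have chain zero. -/
def StmtBridgeS : Prop :=
  ∀ (S : Sys) (σ : Equiv.Perm S.C) (K : SqK σ) (P : K.GPot) (q0 : Port S),
    K.outw = relw σ q0 →
    K.chn P univ - pch σ 1 q0 ≠ 0 →
    (∀ k z, k ≤ Fintype.card K.F → Expr σ k 1 z → z = 0) →
    (∀ (m : ℤ) (k : ℕ) (z : Chn σ), m ≠ 0 → ¬ Expr σ k (val (tw S m)) z) →
    ∃ G : Glue σ, G.Red ∧ G.Lab ∧ G.Eul ∧ Fintype.card G.Q = Fintype.card K.F + 1 ∧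
      domc G.X = Fintype.card G.Q ∧ domc G.Y = Fintype.card G.Q

end Vale.Agent.P201.S
end

section

/-!
P201, part D1 (StmtVK): sub-statements.  Sub-architect helper250.  See `Z/D/VK.md`.
-/

namespace Vale.Agent.P201.S

open Finset

/-- VK0 (O1)-(O3): every expression is realised by a complex (outer word not reduced) -/
def StmtVK0 : Prop :=
  ∀ (S : Sys) (σ : Equiv.Perm S.C) (u : FreeGroup (Let S)) (k : ℕ) (z : Chn σ), Expr σ k u z →
    ∃ (K : SqK σ) (P : K.GPot), Fintype.card K.F = k ∧ val K.outw = u ∧ K.chn P univ = z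

/-- conclusion of the folding steps: a complex with the two darts removed from the outer face -/
def Folded {S : Sys} {σ : Equiv.Perm S.C} (K : SqK σ) (P : K.GPot) (l : List (K.E × Bool)) : Prop :=
  ∃ (K' : SqK σ) (P' : K'.GPot), Fintype.card K'.F = Fintype.card K.F ∧
    K'.toPC.wd none = l.map (fun d => (K.lab d.1, d.2)) ∧ K'.chn P' univ = K.chn P univ

/-- VK3: case `d' = rv d` -/
def StmtVK3 : Prop :=
  ∀ (S : Sys) (σ : Equiv.Perm S.C) (K : SqK σ) (P : K.GPot)
    (l1 l2 : List (K.E × Bool)) (d : K.E × Bool),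
    K.bd none = l1 ++ d :: rv d :: l2 → Folded K P (l1 ++ l2)

/-- VK4: two different edges, different outer ends -/
def StmtVK4 : Prop :=
  ∀ (S : Sys) (σ : Equiv.Perm S.C) (K : SqK σ) (P : K.GPot)
    (l1 l2 : List (K.E × Bool)) (d d' : K.E × Bool),
    K.bd none = l1 ++ d :: d' :: l2 → K.lab d.1 = K.lab d'.1 → d'.2 = !d.2 → d.1 ≠ d'.1 →
    K.org d ≠ K.org (rv d') → Folded K P (l1 ++ l2)

/-- VK5: two different edges, same outer ends: impossible for unreducible expressions -/
def StmtVK5 : Prop :=
  ∀ (S : Sys) (σ : Equiv.Perm S.C) (K : SqK σ) (P : K.GPot)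
    (l1 l2 : List (K.E × Bool)) (d d' : K.E × Bool),
    K.bd none = l1 ++ d :: d' :: l2 → K.lab d.1 = K.lab d'.1 → d'.2 = !d.2 → d.1 ≠ d'.1 →
    K.org d = K.org (rv d') →
    ¬ NoRed σ (val K.outw) (Fintype.card K.F) (K.chn P univ)

end Vale.Agent.P201.S
end

section

/-!
P201, part D1: assembly of StmtVK from the folding steps (helper250).
-/

namespace Vale.Agent.P201.S

open Finset

private theorem vka_break {α : Type} (R : α → α → Prop) : ∀ l : List α, ¬ l.IsChain R →
    ∃ l1 a b l2, l = l1 ++ a :: b :: l2 ∧ ¬ R a b := by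
  intro l
  induction l with
  | nil => intro h; exact absurd List.isChain_nil h
  | cons a l ih =>
    intro h
    cases l with
    | nil => exact absurd (List.isChain_singleton a) h
    | cons b l =>
      by_cases hab : R a b
      · have : ¬ (b :: l).IsChain R := fun h' => h (List.isChain_cons_cons.2 ⟨hab, h'⟩)
        obtain ⟨l1, c, d, l2, he, hn⟩ := ih this
        exact ⟨a :: l1, c, d, l2, by rw [he]; rfl, hn⟩
      · exact ⟨[], a, b, l, rfl, hab⟩

private theorem vka_winv {A : Type} (l : List (A × Bool)) : winv l = FreeGroup.invRev l := rfl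

theorem stmtVK_of (h0 : StmtVK0) (h3 : StmtVK3) (h4 : StmtVK4) (h5 : StmtVK5) : StmtVK := by
  intro S σ u k z hE hN
  have key : ∀ m : ℕ, ∀ (K : SqK σ) (P : K.GPot), (K.bd none).length ≤ m →
      NoRed σ (val K.outw) (Fintype.card K.F) (K.chn P univ) →
      ∃ (K' : SqK σ) (P' : K'.GPot), Fintype.card K'.F = Fintype.card K.F ∧
        K'.outw = (val K.outw).toWord ∧ K'.chn P' univ = K.chn P univ := by
    intro m
    induction m with
    | zero =>
      intro K P hm hN
      refine ⟨K, P, rfl, ?_, rfl⟩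
      have h1 : K.bd none = [] := List.length_eq_zero_iff.1 (by (clear * - hm; omega))
      simp only [SqK.outw, winv, PC.wd, h1, List.map_nil, List.reverse_nil, val, FreeGroup.toWord_mk, FreeGroup.reduce_nil]
    | succ m ih =>
      intro K P hm hN
      by_cases hr : (K.bd none).IsChain (fun d d' => K.lab d.1 = K.lab d'.1 → d.2 = d'.2)
      · refine ⟨K, P, rfl, ?_, rfl⟩
        have h1 : FreeGroup.IsReduced (K.toPC.wd none) := by
          unfold FreeGroup.IsReduced PC.wd
          rw [List.isChain_map]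
          exact hr
        have h2 : FreeGroup.reduce K.outw = K.outw := by
          unfold SqK.outw
          rw [vka_winv, FreeGroup.reduce_invRev, h1.reduce_eq]
        unfold val
        rw [FreeGroup.toWord_mk, h2]
      · obtain ⟨l1, d, d', l2, he, hn⟩ := vka_break _ _ hr
        have hl : K.lab d.1 = K.lab d'.1 := by
          by_contra h
          exact hn (fun h' => absurd h' h)
        have hs : d'.2 = !d.2 := by
          have : d.2 ≠ d'.2 := fun h => hn (fun _ => h)
          revert this
          cases d.2 <;> cases d'.2 <;> simp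
        have hF : Folded K P (l1 ++ l2) := by
          by_cases hd : d.1 = d'.1
          · have : d' = rv d := Prod.ext hd.symm hs
            subst this
            exact h3 S σ K P l1 l2 d he
          · by_cases ho : K.org d = K.org (rv d')
            · exact absurd hN (h5 S σ K P l1 l2 d d' he hl hs hd ho)
            · exact h4 S σ K P l1 l2 d d' he hl hs hd ho
        obtain ⟨K', P', hc, hw, hz⟩ := hF
        have hv : val K'.outw = val K.outw := by
          unfold SqK.outw
          rw [vka_winv, vka_winv]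
          unfold val
          rw [← FreeGroup.inv_mk, ← FreeGroup.inv_mk, hw]
          congr 1
          have hwd : K.toPC.wd none = l1.map (fun d => (K.lab d.1, d.2)) ++
              (K.lab d.1, d.2) :: (K.lab d.1, !d.2) :: l2.map (fun d => (K.lab d.1, d.2)) := by
            unfold PC.wd
            rw [he]
            simp only [List.map_append, List.map_cons]
            rw [hs, hl]
          rw [hwd, List.map_append]
          exact (Quot.sound FreeGroup.Red.Step.not).symm
        have hlen : (K'.bd none).length ≤ m := by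
          have e1 : (K'.bd none).length = (K'.toPC.wd none).length := by
            unfold PC.wd; rw [List.length_map]
          rw [e1, hw, List.length_map]
          rw [he] at hm
          simp only [List.length_append, List.length_cons] at hm ⊢
          (clear * - hm; omega)
        obtain ⟨K2, P2, a1, a2, a3⟩ := ih K' P' hlen (by rw [hv, hc, hz]; exact hN)
        exact ⟨K2, P2, a1.trans hc, by rw [a2, hv], a3.trans hz⟩
  obtain ⟨K, P, hk, hu, hz⟩ := h0 S σ u k z hE
  obtain ⟨K', P', a1, a2, a3⟩ := key _ K P le_rfl (by rw [hu, hk, hz]; exact hN)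
  exact ⟨K', P', a1.trans hk, by rw [a2, hu], a3.trans hz⟩

end Vale.Agent.P201.S
end

section

/-!
P201, part D1: induction from the point complex, spurs and new faces to `StmtVK0` (helper250).
-/

namespace Vale.Agent.P201.S

open Finset

variable {S : Sys}

/-- the word `w` is the outer word of a planar complex with `k` squares and chain `z` -/
def Real (σ : Equiv.Perm S.C) (w : List (Let S × Bool)) (k : ℕ) (z : Chn σ) : Prop :=
  ∃ (K : SqK σ) (P : K.GPot), Fintype.card K.F = k ∧ K.outw = w ∧ K.chn P univ = z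

/-- VK1: spur -/
def StmtVK1 : Prop :=
  ∀ (S : Sys) (σ : Equiv.Perm S.C) (l1 l2 : List (Let S × Bool)) (a : Let S × Bool)
    (k : ℕ) (z : Chn σ), Real σ (l1 ++ l2) k z → Real σ (l1 ++ a :: (a.1, !a.2) :: l2) k z

/-- VK2: new face -/
def StmtVK2 : Prop :=
  ∀ (S : Sys) (σ : Equiv.Perm S.C) (l1 l2 : List (Let S × Bool)) (q : Port S)
    (k : ℕ) (z : Chn σ), Real σ (l1 ++ l2) k z →
    Real σ (l1 ++ relw σ q ++ l2) (k + 1) (pch σ (PresentedGroup.mk (rels σ) (val l1)) q + z)

private theorem vki_winv_cons {A : Type} (a : A × Bool) (l : List (A × Bool)) :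
    winv (a :: l) = winv l ++ [(a.1, !a.2)] := by
  simp [winv]

private theorem vki_spurs (h1 : StmtVK1) (σ : Equiv.Perm (S.C)) (k : ℕ)
    (z : Chn σ) : ∀ (l l1 w : List (Let S × Bool)), Real σ (l1 ++ w) k z →
      Real σ (l1 ++ l ++ (winv l ++ w)) k z := by
  intro l
  induction l with
  | nil => intro l1 w h; simpa [winv] using h
  | cons a l ih =>
    intro l1 w h
    have h2 := h1 S σ l1 w a k z h
    have h3 := ih (l1 ++ [a]) ((a.1, !a.2) :: w) (by simpa using h2)
    rw [vki_winv_cons]
    simpa using h3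

theorem stmtVK0_of (h0 : ∀ (S : Sys) (σ : Equiv.Perm (S.C)), Real σ [] 0 0)
    (h1 : StmtVK1) (h2 : StmtVK2) : StmtVK0 := by
  intro S σ u k z h
  have key : ∃ w, val w = u ∧ Real σ w k z := by
    induction h with
    | nil => exact ⟨[], rfl, h0 S σ⟩
    | cons k u z v q _ ih =>
      obtain ⟨w, hw, hr⟩ := ih
      have e1 := vki_spurs h1 σ k z v.toWord [] w (by simpa using hr)
      have e2 := h2 S σ v.toWord (winv v.toWord ++ w) q k z (by simpa using e1)
      refine ⟨_, ?_, by
        have : val v.toWord = v := FreeGroup.mk_toWord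
        rw [this] at e2
        exact e2⟩
      unfold val
      rw [← FreeGroup.mul_mk, ← FreeGroup.mul_mk, ← FreeGroup.mul_mk, FreeGroup.mk_toWord]
      have : FreeGroup.mk (winv v.toWord) = v⁻¹ := by
        have h3 : FreeGroup.mk (winv v.toWord) = (FreeGroup.mk v.toWord)⁻¹ := FreeGroup.inv_mk.symm
        rw [h3, FreeGroup.mk_toWord]
      rw [this]
      have hw' : FreeGroup.mk w = u := hw
      rw [hw']
      simp only [mul_assoc]
  obtain ⟨w, hw, K, P, hk, ho, hz⟩ := key
  exact ⟨K, P, hk, by rw [ho, hw], hz⟩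

end Vale.Agent.P201.S
end

section

/-!
P201, part D1 (O4): orthogonality of face boundaries and vertex coboundaries over `ZMod 2`, and the
inequality `V + F ≤ E + 1` for connected and dual connected complexes (no Euler hypothesis).
-/

namespace Vale.Agent.P201.S.Fold

open Finset

variable {V E F : Type}

theorem fold_z2 (a : ZMod 2) : a + a = 0 := CharTwo.add_self_eq_zero a

/-- telescoping along a chain -/
theorem fold_tele (org : E × Bool → V) (g : V → ZMod 2) : ∀ (t : List (E × Bool)) (a : E × Bool),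
    (a :: t).IsChain (fun a b => org b = org (rv a)) →
    ((a :: t).map (fun x => g (org x) + g (org (rv x)))).sum
      = g (org a) + g (org (rv ((a :: t).getLast (List.cons_ne_nil _ _))))
  | [], a, _ => by simp
  | b :: t, a, h => by
    have h1 : org b = org (rv a) := by
      have := List.isChain_cons_cons.1 h
      exact this.1
    have h2 : (b :: t).IsChain (fun a b => org b = org (rv a)) := (List.isChain_cons_cons.1 h).2
    have ih := fold_tele org g t b h2
    rw [List.map_cons, List.sum_cons, ih, h1, List.getLast_cons (List.cons_ne_nil _ _)]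
    have h3 := fold_z2 (g (org (rv a)))
    linear_combination h3

theorem fold_closed (org : E × Bool → V) (g : V → ZMod 2) (l : List (E × Bool))
    (hc : l.IsChain (fun a b => org b = org (rv a)))
    (hcl : ∀ a ∈ l.getLast?, ∀ b ∈ l.head?, org b = org (rv a)) :
    (l.map (fun x => g (org x) + g (org (rv x)))).sum = 0 := by
  cases l with
  | nil => simp
  | cons a t =>
    rw [fold_tele org g t a hc]
    have h := hcl ((a :: t).getLast (List.cons_ne_nil _ _))
      (by rw [List.getLast?_eq_getLast_of_ne_nil (List.cons_ne_nil _ _)]; exact rfl) a rfl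
    rw [← h]
    exact fold_z2 _

variable [Fintype V] [Fintype E] [Fintype F] [DecidableEq V] [DecidableEq E] [DecidableEq F]

omit [Fintype V] [Fintype F] [DecidableEq V] [DecidableEq F] in
theorem fold_count_sum (φ : E × Bool → ZMod 2) (l : List (E × Bool)) :
    ∑ x : E × Bool, (l.count x : ZMod 2) * φ x = (l.map φ).sum := by
  induction l with
  | nil => simp only [List.nodup_nil, List.count_nil, Nat.cast_zero, zero_mul, sum_const_zero, List.map_nil, List.sum_nil]
  | cons a t ih =>
    rw [List.map_cons, List.sum_cons, ← ih]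
    have : ∀ x : E × Bool, ((a :: t).count x : ZMod 2) * φ x
        = (if x = a then φ x else 0) + (t.count x : ZMod 2) * φ x := by
      intro x
      rw [List.count_cons]
      by_cases h : x = a
      · subst h; simp only [BEq.rfl, ↓reduceIte, Nat.cast_add, Nat.cast_one]; ring
      · have h' : ¬ (a == x) = true := by simpa using fun h2 : a = x => h h2.symm
        simp only [h', Bool.false_eq_true, ↓reduceIte, add_zero, h, zero_add]
    rw [Finset.sum_congr rfl (fun x _ => this x), Finset.sum_add_distrib]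
    simp only [sum_ite_eq', mem_univ, ↓reduceIte]

/-- weight of an edge in a face -/
def fw (bd : Option F → List (E × Bool)) (f : Option F) (e : E) : ZMod 2 :=
  ((bd f).count (e, true) : ZMod 2) + ((bd f).count (e, false) : ZMod 2)

omit [Fintype V] [Fintype F] [DecidableEq V] [DecidableEq F] in
theorem fold_orth (org : E × Bool → V) (bd : Option F → List (E × Bool))
    (chain : ∀ f, (bd f).IsChain (fun a b => org b = org (rv a)))
    (closed : ∀ f, ∀ a ∈ (bd f).getLast?, ∀ b ∈ (bd f).head?, org b = org (rv a))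
    (g : V → ZMod 2) (f : Option F) :
    ∑ e : E, fw bd f e * (g (org (e, true)) + g (org (e, false))) = 0 := by
  have h := fold_closed org g (bd f) (chain f) (closed f)
  rw [← fold_count_sum] at h
  rw [Fintype.sum_prod_type] at h
  rw [← h]
  refine Finset.sum_congr rfl fun e _ => ?_
  rw [Fintype.sum_bool]
  show fw bd f e * _ = ((bd f).count (e, true) : ZMod 2) * (g (org (e, true)) + g (org (e, false)))
    + ((bd f).count (e, false) : ZMod 2) * (g (org (e, false)) + g (org (e, true)))
  rw [fw]
  ring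

/-- a function on a connected set with equal values across edges is constant -/
theorem fold_const {X : Type} (R : X → X → Prop) (hR : ∀ u v, Relation.ReflTransGen R u v)
    (g : X → ZMod 2) (hg : ∀ u v, R u v → g u = g v) (u v : X) : g u = g v := by
  induction hR u v with
  | refl => rfl
  | tail _ h ih => exact ih.trans (hg _ _ h)

omit [Fintype V] [Fintype E] [Fintype F] [DecidableEq V] [DecidableEq E] [DecidableEq F] in
theorem fold_finrank_ker {X Y : Type} [Fintype X] [Fintype Y] [DecidableEq X]
    (M : Matrix Y X (ZMod 2)) (x0 : X)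
    (h : ∀ g : X → ZMod 2, M.mulVec g = 0 → ∀ u, g u = g x0) :
    Fintype.card X ≤ M.rank + 1 := by
  have h1 : Module.finrank (ZMod 2) (LinearMap.ker M.mulVecLin) ≤ 1 := by
    let ev : LinearMap.ker M.mulVecLin →ₗ[ZMod 2] ZMod 2 :=
      (LinearMap.proj x0).comp (Submodule.subtype _)
    have hinj : Function.Injective ev := by
      rw [← LinearMap.ker_eq_bot, LinearMap.ker_eq_bot']
      intro g hg
      ext u
      have h2 : M.mulVec g.1 = 0 := by
        have := g.2
        rwa [LinearMap.mem_ker, Matrix.mulVecLin_apply] at this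
      have h3 := h g.1 h2 u
      rw [h3]
      exact hg
    have := LinearMap.finrank_le_finrank_of_injective hinj
    rwa [Module.finrank_self] at this
  have h2 := LinearMap.finrank_range_add_finrank_ker M.mulVecLin
  rw [Module.finrank_fintype_fun_eq_card] at h2
  rw [Matrix.rank]
  omega

/-- `V + F ≤ E + 1` for connected and dual connected complexes -/
theorem fold_euler_le (org : E × Bool → V) (bd : Option F → List (E × Bool))
    (chain : ∀ f, (bd f).IsChain (fun a b => org b = org (rv a)))
    (closed : ∀ f, ∀ a ∈ (bd f).getLast?, ∀ b ∈ (bd f).head?, org b = org (rv a))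
    (once : ∀ d, ∑ f, (bd f).count d = 1) (v0 : V)
    (conn : ∀ u v : V, Relation.ReflTransGen (fun a b => ∃ d, org d = a ∧ org (rv d) = b) u v)
    (dconn : ∀ f g : Option F, Relation.ReflTransGen (fun a b => ∃ d, d ∈ bd a ∧ rv d ∈ bd b) f g) :
    Fintype.card V + Fintype.card F ≤ Fintype.card E + 1 := by
  classical
  let M : Matrix (Option F) E (ZMod 2) := fun f e => fw bd f e
  let N : Matrix E V (ZMod 2) := fun e v =>
    (if org (e, true) = v then 1 else 0) + (if org (e, false) = v then 1 else 0)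
  have hN : ∀ (g : V → ZMod 2) (e : E), N.mulVec g e = g (org (e, true)) + g (org (e, false)) := by
    intro g e
    show ∑ v, N e v * g v = _
    simp only [N, add_mul, Finset.sum_add_distrib, ite_mul, one_mul, zero_mul, Finset.sum_ite_eq,
      Finset.mem_univ, if_true]
  have hMN : M * N = 0 := by
    ext f v
    rw [Matrix.mul_apply, Matrix.zero_apply]
    have h := fold_orth org bd chain closed (fun u => if u = v then 1 else 0) f
    exact h
  have hrk := Matrix.rank_add_rank_le_card_of_mul_eq_zero hMN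
  have h1 : Fintype.card V ≤ N.rank + 1 := by
    refine fold_finrank_ker N v0 fun g hg u => ?_
    refine fold_const _ conn g ?_ u v0
    rintro a b ⟨d, rfl, rfl⟩
    have h2 : g (org (d.1, true)) + g (org (d.1, false)) = 0 := by
      rw [← hN, hg]; rfl
    have h3 := CharTwo.add_eq_zero.1 h2
    obtain ⟨e, b⟩ := d
    cases b
    · exact h3.symm
    · exact h3
  have h2 : Fintype.card (Option F) ≤ M.transpose.rank + 1 := by
    refine fold_finrank_ker M.transpose none fun h hh u => ?_
    refine fold_const _ dconn h ?_ u none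
    rintro a b ⟨d, hda, hdb⟩
    -- the column of the edge `d.1`
    have hcnt : ∀ (x : E × Bool) (f0 : Option F), x ∈ bd f0 →
        ∀ f, ((bd f).count x : ZMod 2) = if f = f0 then 1 else 0 := by
      intro x f0 hx f
      have h4 := once x
      have h5 : 1 ≤ (bd f0).count x := List.one_le_count_iff.2 hx
      rw [← Finset.add_sum_erase _ _ (Finset.mem_univ f0)] at h4
      have h6 : (bd f0).count x = 1 := by omega
      have h7 : ∑ f ∈ univ.erase f0, (bd f).count x = 0 := by omega
      by_cases hf : f = f0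
      · subst hf; rw [h6]; simp
      · rw [Finset.sum_eq_zero_iff] at h7
        rw [h7 f (Finset.mem_erase.2 ⟨hf, Finset.mem_univ _⟩), if_neg hf]
        simp
    have h3 : ∑ f : Option F, (((bd f).count (d.1, true) : ZMod 2)
        + ((bd f).count (d.1, false) : ZMod 2)) * h f = 0 := congrFun hh d.1
    simp only [add_mul, sum_add_distrib] at h3
    obtain ⟨e, b'⟩ := d
    cases b'
    · have e1 := hcnt _ _ hda
      have e2 := hcnt _ _ hdb
      simp only [rv, Bool.not_false] at e2
      simp only [e2, ite_mul, one_mul, zero_mul, sum_ite_eq', mem_univ, if_true, e1] at h3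
      exact (CharTwo.add_eq_zero.1 h3).symm
    · have e1 := hcnt _ _ hda
      have e2 := hcnt _ _ hdb
      simp only [rv, Bool.not_true] at e2
      simp only [e1, e2, ite_mul, one_mul, zero_mul, Finset.sum_ite_eq', Finset.mem_univ,
        if_true] at h3
      exact CharTwo.add_eq_zero.1 h3
  rw [Matrix.rank_transpose, Fintype.card_option] at h2
  omega

end Vale.Agent.P201.S.Fold
end

section

/-!
P201, part D1 (O4): construction of a smaller complex by deleting one vertex and one edge
(common part of the two folds).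
-/

namespace Vale.Agent.P201.S.Fold

open Finset

section sub

variable {A : Type} {K : PC A}

/-- data for deleting the vertex `v0` and the edge `e0`: new origins `o`, new face lists `B` -/
structure SubData (K : PC A) (v0 : K.V) (e0 : K.E) (o : K.E × Bool → K.V)
    (B : Option K.F → List (K.E × Bool)) : Prop where
  ho : ∀ x : K.E × Bool, x.1 ≠ e0 → o x ≠ v0
  hB : ∀ f, ∀ x ∈ B f, x.1 ≠ e0
  chain : ∀ f, (B f).IsChain (fun a b => o b = o (rv a))
  closed : ∀ f, ∀ a ∈ (B f).getLast?, ∀ b ∈ (B f).head?, o b = o (rv a)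
  once : ∀ x : K.E × Bool, x.1 ≠ e0 → ∑ f, (B f).count x = 1
  ne : ∀ f : K.F, B (some f) ≠ []
  conn : ∀ u v : K.V, u ≠ v0 → v ≠ v0 → Relation.ReflTransGen
    (fun a b => ∃ x : K.E × Bool, x.1 ≠ e0 ∧ o x = a ∧ o (rv x) = b) u v
  dconn : ∀ f g, Relation.ReflTransGen (fun a b => ∃ x, x ∈ B a ∧ rv x ∈ B b) f g

/-- embedding of darts -/
def emb {E : Type} (e0 : E) (x : {e : E // e ≠ e0} × Bool) : E × Bool := (x.1.1, x.2)

theorem emb_inj {E : Type} (e0 : E) : Function.Injective (emb e0) := by
  rintro ⟨⟨a, ha⟩, b⟩ ⟨⟨a', ha'⟩, b'⟩ h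
  simp only [emb, Prod.mk.injEq] at h
  obtain ⟨rfl, rfl⟩ := h
  rfl

/-- restriction of a list of darts -/
def low {E : Type} [DecidableEq E] (e0 : E) (l : List (E × Bool)) :
    List ({e : E // e ≠ e0} × Bool) :=
  l.filterMap (fun x => if h : x.1 ≠ e0 then some (⟨x.1, h⟩, x.2) else none)

theorem map_low {E : Type} [DecidableEq E] (e0 : E) (l : List (E × Bool))
    (h : ∀ x ∈ l, x.1 ≠ e0) : (low e0 l).map (emb e0) = l := by
  induction l with
  | nil => rfl
  | cons a t ih =>
    have h1 : a.1 ≠ e0 := h a (List.mem_cons_self ..)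
    have h2 : low e0 (a :: t) = (⟨a.1, h1⟩, a.2) :: low e0 t := by
      rw [low, List.filterMap_cons, dif_pos h1]
      rfl
    rw [h2, List.map_cons, ih (fun x hx => h x (List.mem_cons_of_mem _ hx))]
    rfl

theorem mem_low {E : Type} [DecidableEq E] (e0 : E) (l : List (E × Bool))
    (h : ∀ x ∈ l, x.1 ≠ e0) (y : {e : E // e ≠ e0} × Bool) : y ∈ low e0 l ↔ emb e0 y ∈ l := by
  constructor
  · intro hy
    rw [← map_low e0 l h]
    exact List.mem_map_of_mem hy
  · intro hy
    rw [← map_low e0 l h] at hy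
    obtain ⟨z, hz, hzy⟩ := List.mem_map.1 hy
    rwa [← emb_inj e0 hzy]

theorem fold_card_ne {X : Type} [Fintype X] [DecidableEq X] (x0 : X) :
    Fintype.card {x : X // x ≠ x0} + 1 = Fintype.card X := by
  have h := Fintype.card_subtype_compl (fun x : X => x = x0)
  have h1 : Fintype.card {x : X // x = x0} = 1 := Fintype.card_unique
  have h2 : 0 < Fintype.card X := Fintype.card_pos_iff.2 ⟨x0⟩
  have h3 : Fintype.card {x : X // x ≠ x0} = Fintype.card X - 1 := by
    rw [h1] at h
    exact h
  (clear * - h2 h3; omega)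

/-- the smaller complex -/
noncomputable def subPC {v0 : K.V} {e0 : K.E} {o : K.E × Bool → K.V}
    {B : Option K.F → List (K.E × Bool)} (D : SubData K v0 e0 o B) : PC A where
  V := {v : K.V // v ≠ v0}
  E := {e : K.E // e ≠ e0}
  F := K.F
  org x := ⟨o (emb e0 x), D.ho _ x.1.2⟩
  lab e := K.lab e.1
  bd f := low e0 (B f)
  chain f := by
    have h := D.chain f
    rw [← map_low e0 (B f) (D.hB f), List.isChain_map] at h
    exact h.imp (fun a b hab => Subtype.ext hab)
  closed f a ha b hb := by
    have h := D.closed f (emb e0 a) ?_ (emb e0 b) ?_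
    · exact Subtype.ext h
    · rw [← map_low e0 (B f) (D.hB f), List.getLast?_map]
      exact Option.mem_map_of_mem _ ha
    · rw [← map_low e0 (B f) (D.hB f), List.head?_map]
      exact Option.mem_map_of_mem _ hb
  once x := by
    rw [← D.once (emb e0 x) x.1.2]
    refine Finset.sum_congr rfl fun f _ => ?_
    conv_rhs => rw [← map_low e0 (B f) (D.hB f)]
    have h := List.count_map_of_injective (low e0 (B f)) (emb e0) (emb_inj e0) x
    rw [h]
    congr!
  ne f h := by
    apply D.ne f
    rw [← map_low e0 (B (some f)) (D.hB _), h]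
    rfl
  conn u v := by
    have key : ∀ b, Relation.ReflTransGen
        (fun a b => ∃ x : K.E × Bool, x.1 ≠ e0 ∧ o x = a ∧ o (rv x) = b) u.1 b → ∀ hb : b ≠ v0,
        Relation.ReflTransGen (fun a b : {v : K.V // v ≠ v0} =>
          ∃ x : {e : K.E // e ≠ e0} × Bool, (⟨o (emb e0 x), D.ho _ x.1.2⟩ : {v : K.V // v ≠ v0}) = a ∧
            (⟨o (emb e0 (rv x)), D.ho _ x.1.2⟩ : {v : K.V // v ≠ v0}) = b) u ⟨b, hb⟩ := by
      intro b hab
      induction hab with
      | refl => intro hb; exact Relation.ReflTransGen.refl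
      | tail _ hst ih =>
        intro hb
        obtain ⟨x, hx, hxa, hxb⟩ := hst
        have ha := D.ho x hx
        rw [hxa] at ha
        refine (ih ha).tail ⟨(⟨x.1, hx⟩, x.2), Subtype.ext ?_, Subtype.ext ?_⟩
        · exact hxa
        · exact hxb
    exact key v.1 (D.conn u.1 v.1 u.2 v.2) v.2
  dconn f g := by
    refine (D.dconn f g).lift id ?_
    rintro a b ⟨x, hxa, hxb⟩
    refine ⟨(⟨x.1, D.hB a x hxa⟩, x.2), ?_, ?_⟩
    · exact (mem_low _ _ (D.hB a) _).2 hxa
    · exact (mem_low _ _ (D.hB b) _).2 hxb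
  euler := by
    have h1 := fold_card_ne v0
    have h2 := fold_card_ne e0
    have h3 := K.euler
    omega

end sub

section sq

variable {S : Sys} {σ : Equiv.Perm (S.C)}

/-- the smaller complex as a complex of squares with the same chain -/
theorem subSq (K : SqK σ) (P : K.GPot) {v0 : K.V} {e0 : K.E} {o : K.E × Bool → K.V}
    {B : Option K.F → List (K.E × Bool)} (D : SubData K.toPC v0 e0 o B)
    (hlab : ∀ f : K.F, (B (some f)).map (fun x => (K.lab x.1, x.2))
      = (K.bd (some f)).map (fun x => (K.lab x.1, x.2)))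
    (hst : ∀ x : K.E × Bool, x.1 ≠ e0 →
      P.π (o x) * PresentedGroup.mk (rels σ) (K.toPC.lt x) = P.π (o (rv x)))
    (hbase : ∀ x ∈ (B none).head?, P.π (o x) = 1)
    (hhead : ∀ f : K.F, (B (some f)).head?.map (fun x => P.π (o x))
      = (K.bd (some f)).head?.map (fun x => P.π (K.org x))) :
    ∃ (K' : SqK σ) (P' : K'.GPot), Fintype.card K'.F = Fintype.card K.F ∧
      K'.toPC.wd none = (B none).map (fun x => (K.lab x.1, x.2)) ∧
      K'.chn P' univ = K.chn P univ := by
  let K' : SqK σ :=
    { toPC := subPC D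
      q := K.q
      sq := fun f => by
        rw [← K.sq f, ← hlab f]
        conv_rhs => rw [← map_low e0 (B (some f)) (D.hB _), List.map_map]
        rfl }
  let P' : K'.GPot :=
    { π := fun v => P.π v.1
      st := fun d => hst (emb e0 d) d.1.2
      base := fun d hd => by
        refine hbase (emb e0 d) ?_
        rw [← map_low e0 (B none) (D.hB _), List.head?_map]
        exact Option.mem_map_of_mem _ hd }
  refine ⟨K', P', rfl, ?_, ?_⟩
  · show (low e0 (B none)).map _ = _
    conv_rhs => rw [← map_low e0 (B none) (D.hB _), List.map_map]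
    rfl
  · show ∑ f ∈ univ, ∑ d ∈ ((low e0 (B (some f))).head?).toFinset,
      pch σ (P.π (o (emb e0 d))) (K.q f) = ∑ f ∈ univ, _
    refine Finset.sum_congr rfl fun f _ => ?_
    have h := hhead f
    rw [← map_low e0 (B (some f)) (D.hB _), List.head?_map] at h
    cases h1 : (low e0 (B (some f))).head? with
    | none =>
      rw [h1] at h
      cases h2 : (K.bd (some f)).head? with
      | none => simp only [ne_eq, Option.toFinset_none, sum_empty]
      | some y => rw [h2] at h; simp at h
    | some x =>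
      rw [h1] at h
      cases h2 : (K.bd (some f)).head? with
      | none => rw [h2] at h; simp at h
      | some y =>
        rw [h2] at h
        simp only [Option.map_some, Option.some.injEq] at h
        simp only [ne_eq, Option.toFinset_some, sum_singleton, h]

end sq

end Vale.Agent.P201.S.Fold
end

section

/-!
P201, D1 (O4)(ii): folding two consecutive outer darts with different end vertices (helper109).
-/

namespace Vale.Agent.P201.S

open Finset

namespace PC

variable {A : Type} (K : PC A)

@[simp] lemma fb_rv_rv {E : Type} (d : E × Bool) : rv (rv d) = d := by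
  simp [rv]

/-- closed walks: the origins are a permutation of the ends -/
lemma fb_perm_of_chain {V : Type} {E : Type} (o : E × Bool → V) :
    ∀ (a : E × Bool) (L : List (E × Bool)),
      (a :: L).IsChain (fun a b => o b = o (rv a)) →
      (a :: L).map (fun x => o (rv x)) = L.map o ++ [o (rv ((a :: L).getLast (by simp)))]
  | a, [] => by simp only [List.IsChain.singleton, List.map_cons, List.map_nil, List.getLast_singleton, List.nil_append, imp_self]
  | a, b :: L => by
      intro h
      rw [List.isChain_cons_cons] at h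
      have ih := fb_perm_of_chain o b L h.2
      rw [List.map_cons, ih]
      simp [h.1]

lemma fb_perm_bd (f : Option K.F) :
    ((K.bd f).map (fun x => K.org (rv x))).Perm ((K.bd f).map K.org) := by
  have hc := K.chain f
  have hcl := K.closed f
  generalize K.bd f = L at hc hcl
  cases L with
  | nil => simp
  | cons a L =>
    rw [fb_perm_of_chain K.org a L hc]
    have h1 : K.org a = K.org (rv ((a :: L).getLast (by simp))) :=
      hcl _ (by rw [List.getLast?_eq_some_getLast (by simp)]; simp) a (by simp)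
    rw [← h1, List.map_cons]
    exact (List.perm_append_comm (l₁ := L.map K.org) (l₂ := [K.org a]))

lemma fb_count_bd (f : Option K.F) (v : K.V) :
    ((K.bd f).countP (fun x => decide (K.org (rv x) = v))) =
      ((K.bd f).countP (fun x => decide (K.org x = v))) := by
  have h := (K.fb_perm_bd f).count_eq v
  simp only [List.count, List.countP_map] at h
  convert h using 2 <;> · ext x; simp only [Function.comp]; exact (beq_eq_decide _ _).symm

/-- number of occurrences of a dart in the faces of `C` -/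
def fb_occ (C : Finset (Option K.F)) (x : K.E × Bool) : ℤ := ∑ f ∈ C, ((K.bd f).count x : ℤ)

lemma fb_countP_eq_sum {X : Type} [Fintype X] [BEq X] [LawfulBEq X] (L : List X) (q : X → Bool) :
    (L.countP q : ℤ) = ∑ x, if q x then (L.count x : ℤ) else 0 := by
  classical
  induction L with
  | nil => simp
  | cons a L ih =>
    rw [List.countP_cons]
    push_cast
    rw [ih]
    have : ∀ x, (if q x then (((a :: L).count x : ℕ) : ℤ) else 0) =
        (if q x then (L.count x : ℤ) else 0) + (if a = x then (if q x then 1 else 0) else 0) := by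
      intro x
      rw [List.count_cons]
      by_cases h1 : q x <;> by_cases h2 : a = x <;> simp [h1, h2]
    rw [Finset.sum_congr rfl (fun x _ => this x), Finset.sum_add_distrib]
    simp only [sum_ite_eq, mem_univ, ↓reduceIte]

/-- the parity fact -/
lemma fb_flux (C : Finset (Option K.F)) (v : K.V) :
    ∑ x : K.E × Bool, (if K.org x = v then (K.fb_occ C x - K.fb_occ C (rv x)) else 0) = 0 := by
  have h1 : ∀ f, ∑ x : K.E × Bool, (if K.org (rv x) = v then ((K.bd f).count x : ℤ) else 0) =
      ∑ x : K.E × Bool, (if K.org x = v then ((K.bd f).count x : ℤ) else 0) := by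
    intro f
    have h := K.fb_count_bd f v
    have h2 := fb_countP_eq_sum (K.bd f) (fun x => decide (K.org (rv x) = v))
    have h3 := fb_countP_eq_sum (K.bd f) (fun x => decide (K.org x = v))
    simp only [decide_eq_true_eq] at h2 h3
    rw [← h2, ← h3, h]
  have h2 : ∀ f, ∑ x : K.E × Bool, (if K.org (rv x) = v then ((K.bd f).count x : ℤ) else 0) =
      ∑ x : K.E × Bool, (if K.org x = v then ((K.bd f).count (rv x) : ℤ) else 0) := by
    intro f
    let e : (K.E × Bool) ≃ (K.E × Bool) := ⟨rv, rv, fb_rv_rv, fb_rv_rv⟩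
    rw [← Equiv.sum_comp e]
    apply Finset.sum_congr rfl
    intro x _
    simp only [Equiv.coe_fn_mk, fb_rv_rv, e]
  have h3 : ∀ x : K.E × Bool, (if K.org x = v then (K.fb_occ C x - K.fb_occ C (rv x)) else 0) =
      ∑ f ∈ C, ((if K.org x = v then ((K.bd f).count x : ℤ) else 0) -
        (if K.org x = v then ((K.bd f).count (rv x) : ℤ) else 0)) := by
    intro x
    unfold fb_occ
    split_ifs
    · rw [Finset.sum_sub_distrib]
    · simp
  rw [Finset.sum_congr rfl (fun x _ => h3 x), Finset.sum_comm]
  apply Finset.sum_eq_zero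
  intro f _
  rw [Finset.sum_sub_distrib, ← h1, h2, sub_self]

lemma fb_count_of_mem {x : K.E × Bool} {f : Option K.F} (h : x ∈ K.bd f) (g : Option K.F) :
    (K.bd g).count x = if g = f then 1 else 0 := by
  have h1 := K.once x
  have h2 : 1 ≤ (K.bd f).count x := List.one_le_count_iff.mpr h
  rw [← Finset.add_sum_erase _ _ (Finset.mem_univ f)] at h1
  have h3 : ∑ g ∈ univ.erase f, (K.bd g).count x = 0 := by omega
  split_ifs with h4
  · subst h4; omega
  · exact (Finset.sum_eq_zero_iff.mp h3) g (by simp only [mem_erase, ne_eq, h4, not_false_eq_true, mem_univ, and_self])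

lemma fb_occ_of_mem {x : K.E × Bool} {f : Option K.F} (h : x ∈ K.bd f) (C : Finset (Option K.F)) :
    K.fb_occ C x = if f ∈ C then 1 else 0 := by
  unfold fb_occ
  rw [Finset.sum_congr rfl (fun g _ => by rw [K.fb_count_of_mem h g])]
  push_cast
  simp [Finset.sum_ite_eq']

lemma fb_exists_face (x : K.E × Bool) : ∃ f, x ∈ K.bd f := by
  by_contra h
  push Not at h
  have h1 := K.once x
  rw [Finset.sum_eq_zero (fun f _ => List.count_eq_zero.mpr (h f))] at h1
  omega

attribute [-instance] Subtype.instBEq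

/-- data for a fold -/
structure FbD (K : PC A) where
  d : K.E × Bool
  d' : K.E × Bool
  l1 : List (K.E × Bool)
  l2 : List (K.E × Bool)
  hbd : K.bd none = l1 ++ d :: d' :: l2
  hne : d.1 ≠ d'.1
  hl : K.lab d.1 = K.lab d'.1
  hs : d'.2 = !d.2
  hp : K.org d ≠ K.org (rv d')

namespace FbD

variable {K} (D : K.FbD)

/-- new vertices -/
abbrev V' : Type := {v : K.V // v ≠ K.org (rv D.d')}

/-- new edges -/
abbrev E' : Type := {e : K.E // e ≠ D.d'.1}

/-- vertex map -/
def φ (v : K.V) : D.V' := if h : v = K.org (rv D.d') then ⟨K.org D.d, D.hp⟩ else ⟨v, h⟩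

/-- edge map -/
def η (e : K.E) : D.E' := if h : e = D.d'.1 then ⟨D.d.1, D.hne⟩ else ⟨e, h⟩

/-- dart map -/
def ψ (x : K.E × Bool) : D.E' × Bool := (D.η x.1, x.2)

/-- origin -/
def org' (x : D.E' × Bool) : D.V' := D.φ (K.org (x.1.1, x.2))

lemma mid : K.org D.d' = K.org (rv D.d) := by
  have h := K.chain none
  rw [D.hbd, List.isChain_append] at h
  have h2 := h.2.1
  rw [List.isChain_cons_cons] at h2
  exact h2.1

lemma φ_p' : D.φ (K.org (rv D.d')) = D.φ (K.org D.d) := by
  unfold φ
  rw [dif_pos rfl, dif_neg D.hp]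

lemma φ_val (v : D.V') : D.φ v.1 = v := by
  unfold φ
  rw [dif_neg v.2]

lemma ψ_rv (x : K.E × Bool) : D.ψ (rv x) = rv (D.ψ x) := rfl

lemma org'_ψ (x : K.E × Bool) : D.org' (D.ψ x) = D.φ (K.org x) := by
  obtain ⟨e, b⟩ := x
  unfold org' ψ η
  by_cases h : e = D.d'.1
  · subst h
    simp only [dif_pos]
    by_cases hb : b = D.d.2
    · have h1 : (D.d.1, b) = D.d := by rw [hb]
      have h2 : (D.d'.1, b) = rv D.d' := by simp [rv, D.hs, hb]
      rw [h1, h2, D.φ_p']
    · have hb' : b = !D.d.2 := by
        revert hb; cases b <;> cases D.d.2 <;> simp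
      have h1 : (D.d.1, b) = rv D.d := by simp [rv, hb']
      have h2 : (D.d'.1, b) = D.d' := by
        rw [Prod.ext_iff]; simp [D.hs, hb']
      rw [h1, h2, D.mid]
  · simp only [dif_neg h]

lemma lab_η (e : K.E) : K.lab (D.η e).1 = K.lab e := by
  unfold η
  split_ifs with h
  · rw [h, D.hl]
  · rfl

/-- new boundaries -/
def bd' : Option K.F → List (D.E' × Bool)
  | none => (D.l1 ++ D.l2).map D.ψ
  | some f => (K.bd (some f)).map D.ψ

lemma chain' (f : Option K.F) : (D.bd' f).IsChain (fun a b => D.org' b = D.org' (rv a)) := by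
  cases f with
  | none =>
    have h := K.chain none
    rw [D.hbd] at h
    unfold bd'
    rw [List.isChain_map]
    have h0 : ∀ L : List (K.E × Bool), L.IsChain (fun a b => K.org b = K.org (rv a)) →
        L.IsChain (fun a b => D.org' (D.ψ b) = D.org' (rv (D.ψ a))) := by
      intro L hL
      refine hL.imp ?_
      intro a b hab
      rw [← D.ψ_rv, D.org'_ψ, D.org'_ψ, hab]
    rw [List.isChain_append] at h ⊢
    obtain ⟨h1, h2, h3⟩ := h
    rw [List.isChain_cons_cons] at h2
    refine ⟨h0 _ h1, h0 _ ?_, ?_⟩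
    · have := h2.2
      cases hl2 : D.l2 with
      | nil => simp
      | cons b l =>
        rw [hl2, List.isChain_cons_cons] at this
        exact this.2
    · intro a ha b hb
      rw [← D.ψ_rv, D.org'_ψ, D.org'_ψ]
      have e1 := h3 a ha D.d (by simp)
      have e2 : K.org b = K.org (rv D.d') := by
        have := h2.2
        cases hl2 : D.l2 with
        | nil => rw [hl2] at hb; simp at hb
        | cons b' l =>
          rw [hl2] at hb
          simp only [List.head?_cons, Option.mem_def, Option.some.injEq] at hb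
          rw [hl2, List.isChain_cons_cons] at this
          rw [← hb]
          exact this.1
      rw [e2, ← e1, D.φ_p']
  | some f =>
    unfold bd'
    rw [List.isChain_map]
    refine (K.chain (some f)).imp ?_
    intro a b hab
    rw [← D.ψ_rv, D.org'_ψ, D.org'_ψ, hab]

lemma closed' (f : Option K.F) : ∀ a ∈ (D.bd' f).getLast?, ∀ b ∈ (D.bd' f).head?,
    D.org' b = D.org' (rv a) := by
  cases f with
  | none =>
    have hcl := K.closed none
    have hch := K.chain none
    rw [D.hbd] at hcl hch
    rw [List.isChain_append] at hch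
    obtain ⟨_, h2, h3⟩ := hch
    unfold bd'
    intro a ha b hb
    simp only [List.getLast?_map, List.head?_map, Option.mem_def, Option.map_eq_some_iff] at ha hb
    obtain ⟨a0, ha0, rfl⟩ := ha
    obtain ⟨b0, hb0, rfl⟩ := hb
    rw [← D.ψ_rv, D.org'_ψ, D.org'_ψ]
    cases hl1 : D.l1 with
    | nil =>
      rw [hl1] at ha0 hb0 hcl
      simp only [List.nil_append] at ha0 hb0 hcl
      cases hl2 : D.l2 with
      | nil => rw [hl2] at hb0; simp at hb0
      | cons c l =>
        rw [hl2] at ha0 hb0 hcl h2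
        simp only [List.head?_cons, Option.some.injEq] at hb0
        subst hb0
        have e1 : K.org D.d = K.org (rv a0) := by
          apply hcl a0 _ D.d (by simp)
          rw [List.getLast?_cons_cons, List.getLast?_cons_cons]
          exact ha0
        rw [List.isChain_cons_cons, List.isChain_cons_cons] at h2
        rw [h2.2.1, ← e1, D.φ_p']
    | cons c l =>
      rw [hl1] at ha0 hb0 hcl h3
      simp only [List.cons_append, List.head?_cons, Option.some.injEq] at hb0
      subst hb0
      cases hl2 : D.l2 with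
      | nil =>
        rw [hl2] at ha0 hcl
        simp only [List.append_nil] at ha0
        have e1 : K.org c = K.org (rv D.d') := by
          apply hcl D.d' _ c (by simp only [List.cons_append, List.head?_cons, Option.mem_def])
          rw [List.getLast?_append]
          simp
        have e2 := h3 a0 ha0 D.d (by simp)
        rw [e1, ← e2, D.φ_p']
      | cons c' l' =>
        rw [hl2] at ha0 hcl
        have e1 : K.org c = K.org (rv a0) := by
          apply hcl a0 _ c (by simp)
          rw [List.getLast?_append] at ha0 ⊢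
          rw [List.getLast?_cons_cons, List.getLast?_cons_cons]
          exact ha0
        rw [e1]
  | some f =>
    unfold bd'
    intro a ha b hb
    simp only [List.getLast?_map, List.head?_map, Option.mem_def, Option.map_eq_some_iff] at ha hb
    obtain ⟨a0, ha0, rfl⟩ := ha
    obtain ⟨b0, hb0, rfl⟩ := hb
    rw [← D.ψ_rv, D.org'_ψ, D.org'_ψ, K.closed (some f) a0 ha0 b0 hb0]

lemma count_map_ψ (L : List (K.E × Bool)) (x : D.E' × Bool) :
    (L.map D.ψ).count x = L.count (x.1.1, x.2) + (if x.1.1 = D.d.1 then L.count (D.d'.1, x.2) else 0) := by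
  obtain ⟨⟨e, he⟩, b⟩ := x
  induction L with
  | nil => simp only [ne_eq, List.map_nil, List.nodup_nil, List.count_nil, ite_self, add_zero]
  | cons a L ih =>
    rw [List.map_cons, List.count_cons, ih, List.count_cons, List.count_cons]
    obtain ⟨e1, b1⟩ := a
    simp only [ψ, η]
    by_cases h1 : e1 = D.d'.1
    · subst h1
      have he' : D.d'.1 ≠ e := fun h => he h.symm
      simp only [dif_pos]
      by_cases h2 : e = D.d.1
      · subst h2
        by_cases h3 : b1 = b
        · subst h3; simp only [↓reduceIte, ne_eq, BEq.rfl, beq_iff_eq, Prod.mk.injEq, he', and_true, add_zero]; ring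
        · simp only [↓reduceIte, ne_eq, beq_iff_eq, Prod.mk.injEq, h3, and_false, add_zero, he', and_self, Nat.add_left_cancel_iff]
      · have h2' : D.d.1 ≠ e := fun h => h2 h.symm
        simp only [h2, ↓reduceIte, add_zero, ne_eq, beq_iff_eq, Prod.mk.injEq, Subtype.mk.injEq, h2', false_and, he']
    · simp only [dif_neg h1]
      by_cases h2 : e = D.d.1
      · subst h2
        by_cases h3 : e1 = D.d.1
        · subst h3
          by_cases h4 : b1 = b
          · subst h4; simp only [↓reduceIte, ne_eq, BEq.rfl, beq_iff_eq, Prod.mk.injEq, he, and_true, add_zero]; ring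
          · simp [h4, he]
        · simp [h3, h1]
      · simp only [if_neg h2]
        by_cases h3 : e1 = e
        · subst h3
          by_cases h4 : b1 = b
          · subst h4; simp
          · simp [h4]
        · simp [h3]

lemma once' (x : D.E' × Bool) : ∑ f, (D.bd' f).count x = 1 := by
  have hN : ∀ y : K.E × Bool, (D.l1 ++ D.l2).count y + ∑ f : K.F, (K.bd (some f)).count y +
      (if D.d = y then 1 else 0) + (if D.d' = y then 1 else 0) = 1 := by
    intro y
    have h := K.once y
    rw [Fintype.sum_option, D.hbd, List.count_append, List.count_cons, List.count_cons] at h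
    rw [List.count_append]
    simp only [beq_iff_eq] at h
    omega
  rw [Fintype.sum_option]
  simp only [bd', D.count_map_ψ]
  rw [Finset.sum_add_distrib]
  have h1 := hN (x.1.1, x.2)
  have h2 := hN (D.d'.1, x.2)
  have hx := x.1.2
  by_cases hd : x.1.1 = D.d.1
  · simp only [if_pos hd]
    have e1 : ¬ (D.d' = (x.1.1, x.2)) := by
      intro h; exact hx (congrArg Prod.fst h).symm
    have e2 : ¬ (D.d = (D.d'.1, x.2)) := by
      intro h; exact D.hne (by rw [h])
    by_cases hb : D.d.2 = x.2
    · have e3 : D.d = (x.1.1, x.2) := by rw [Prod.ext_iff]; exact ⟨hd.symm, hb⟩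
      have e4 : ¬ (D.d' = (D.d'.1, x.2)) := by
        intro h
        have : D.d'.2 = x.2 := congrArg Prod.snd h
        rw [D.hs, ← hb] at this
        simp at this
      rw [if_pos e3, if_neg e1] at h1
      rw [if_neg e2, if_neg e4] at h2
      omega
    · have e3 : ¬ (D.d = (x.1.1, x.2)) := by
        intro h; exact hb (congrArg Prod.snd h)
      have e4 : D.d' = (D.d'.1, x.2) := by
        rw [Prod.ext_iff]
        refine ⟨rfl, ?_⟩
        rw [D.hs]
        revert hb; cases D.d.2 <;> cases x.2 <;> simp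
      rw [if_neg e3, if_neg e1] at h1
      rw [if_neg e2, if_pos e4] at h2
      omega
  · simp only [if_neg hd]
    have e1 : ¬ (D.d' = (x.1.1, x.2)) := by
      intro h; exact hx (congrArg Prod.fst h).symm
    have e3 : ¬ (D.d = (x.1.1, x.2)) := by
      intro h; exact hd (congrArg Prod.fst h).symm
    rw [if_neg e3, if_neg e1] at h1
    simp only [Finset.sum_const_zero]
    omega

lemma mem_bd' {y : K.E × Bool} {f : Option K.F} (h : y ∈ K.bd f) (h1 : y ≠ D.d) (h2 : y ≠ D.d') :
    D.ψ y ∈ D.bd' f := by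
  cases f with
  | none =>
    unfold bd'
    apply List.mem_map_of_mem
    rw [D.hbd] at h
    simp only [List.mem_append, List.mem_cons] at h ⊢
    tauto
  | some f =>
    exact List.mem_map_of_mem h

lemma conn' (u v : D.V') :
    Relation.ReflTransGen (fun a b => ∃ x, D.org' x = a ∧ D.org' (rv x) = b) u v := by
  have h := K.conn u.1 v.1
  have h2 : Relation.ReflTransGen (fun a b => ∃ x, D.org' x = a ∧ D.org' (rv x) = b)
      (D.φ u.1) (D.φ v.1) := by
    refine Relation.ReflTransGen.lift D.φ ?_ _ _ h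
    rintro a b ⟨x, rfl, rfl⟩
    exact ⟨D.ψ x, D.org'_ψ x, by rw [← D.ψ_rv, D.org'_ψ]⟩
  rw [D.φ_val, D.φ_val] at h2
  exact h2

lemma euler' : Fintype.card D.V' + Fintype.card K.F = Fintype.card D.E' + 1 := by
  have h := K.euler
  have h1 : Fintype.card D.V' = Fintype.card K.V - 1 := by
    simp only [Fintype.card_subtype_compl, Fintype.card_unique]
  have h2 : Fintype.card D.E' = Fintype.card K.E - 1 := by
    simp only [Fintype.card_subtype_compl, Fintype.card_unique]
  have h3 : 0 < Fintype.card K.V := Fintype.card_pos_iff.mpr ⟨K.org D.d⟩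
  have h4 : 0 < Fintype.card K.E := Fintype.card_pos_iff.mpr ⟨D.d.1⟩
  rw [h1, h2]
  omega

/-- new dual adjacency -/
def Adj' (a b : Option K.F) : Prop := ∃ x, x ∈ D.bd' a ∧ rv x ∈ D.bd' b

lemma adj'_symm {a b : Option K.F} (h : D.Adj' a b) : D.Adj' b a := by
  obtain ⟨x, hx, hx'⟩ := h
  exact ⟨rv x, hx', by rw [fb_rv_rv]; exact hx⟩

lemma face_unique {x : K.E × Bool} {f g : Option K.F} (hf : x ∈ K.bd f) (hg : x ∈ K.bd g) :
    f = g := by
  have h := K.fb_count_of_mem hf g
  have h2 : 1 ≤ (K.bd g).count x := List.one_le_count_iff.mpr hg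
  by_contra hne
  rw [if_neg (fun h => hne h.symm)] at h
  omega

lemma d_mem : D.d ∈ K.bd none := by rw [D.hbd]; simp

lemma d'_mem : D.d' ∈ K.bd none := by rw [D.hbd]; simp

lemma rv_ne {E : Type} (x : E × Bool) : rv x ≠ x := by
  obtain ⟨e, b⟩ := x
  cases b <;> simp [rv]

lemma adj_keep {y : K.E × Bool} {a b : Option K.F} (ha : y ∈ K.bd a) (hb : rv y ∈ K.bd b)
    (h1 : y.1 ≠ D.d.1) (h2 : y.1 ≠ D.d'.1) : D.Adj' a b := by
  refine ⟨D.ψ y, D.mem_bd' ha ?_ ?_, ?_⟩
  · rintro rfl; exact h1 rfl
  · rintro rfl; exact h2 rfl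
  · rw [← D.ψ_rv]
    refine D.mem_bd' hb ?_ ?_
    · intro h
      have h' := congrArg Prod.fst h
      exact h1 h'
    · intro h
      have h' := congrArg Prod.fst h
      exact h2 h'

lemma ψ_d' : D.ψ (rv D.d') = D.ψ D.d := by
  unfold ψ η
  simp only [rv, D.hs, Bool.not_not, ↓reduceDIte, ne_eq, D.hne]

lemma dconn0 (g : Option K.F) : Relation.ReflTransGen D.Adj' none g := by
  classical
  by_contra hg
  obtain ⟨fd, hfd⟩ := K.fb_exists_face (rv D.d)
  obtain ⟨fd', hfd'⟩ := K.fb_exists_face (rv D.d')
  set C : Finset (Option K.F) := univ.filter (fun g => ¬ Relation.ReflTransGen D.Adj' none g) with hC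
  have hmem : ∀ a, a ∈ C ↔ ¬ Relation.ReflTransGen D.Adj' none a := by
    intro a; simp only [hC, mem_filter, mem_univ, true_and]
  have hcl : ∀ a b, D.Adj' a b → (a ∈ C ↔ b ∈ C) := by
    intro a b hab
    rw [hmem, hmem, not_iff_not]
    exact ⟨fun h => h.tail hab, fun h => h.tail (D.adj'_symm hab)⟩
  have hnone : (none : Option K.F) ∉ C := by
    rw [hmem]; exact fun h => h Relation.ReflTransGen.refl
  have hadj : D.Adj' fd' fd := by
    refine ⟨D.ψ (rv D.d'), D.mem_bd' hfd' ?_ (rv_ne _), ?_⟩
    · intro h; exact D.hne (congrArg Prod.fst h).symm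
    · rw [D.ψ_d', ← D.ψ_rv]
      refine D.mem_bd' hfd (rv_ne _) ?_
      intro h
      have h' := congrArg Prod.fst h
      exact D.hne h'
  have hω := hcl _ _ hadj
  -- fb_flux
  have hfl := K.fb_flux C (K.org (rv D.d'))
  have hz : ∀ x : K.E × Bool, x ∉ ({D.d, rv D.d, D.d', rv D.d'} : Finset (K.E × Bool)) →
      (if K.org x = K.org (rv D.d') then (K.fb_occ C x - K.fb_occ C (rv x)) else 0) = 0 := by
    intro x hx
    simp only [Finset.mem_insert, Finset.mem_singleton, not_or] at hx
    have hx1 : x.1 ≠ D.d.1 := by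
      intro h
      by_cases hb : x.2 = D.d.2
      · exact hx.1 (Prod.ext h hb)
      · refine hx.2.1 (Prod.ext h ?_)
        simp only [rv]
        revert hb; cases x.2 <;> cases D.d.2 <;> simp
    have hx2 : x.1 ≠ D.d'.1 := by
      intro h
      by_cases hb : x.2 = D.d'.2
      · exact hx.2.2.1 (Prod.ext h hb)
      · refine hx.2.2.2 (Prod.ext h ?_)
        simp only [rv]
        revert hb; cases x.2 <;> cases D.d'.2 <;> simp
    obtain ⟨a, ha⟩ := K.fb_exists_face x
    obtain ⟨b, hb⟩ := K.fb_exists_face (rv x)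
    rw [K.fb_occ_of_mem ha, K.fb_occ_of_mem hb]
    have := hcl a b (D.adj_keep ha hb hx1 hx2)
    by_cases hbC : b ∈ C <;> simp [this, hbC]
  rw [← Finset.sum_subset (Finset.subset_univ ({D.d, rv D.d, D.d', rv D.d'} : Finset (K.E × Bool)))
    (fun x _ hx => hz x hx)] at hfl
  have n1 : D.d ∉ ({rv D.d, D.d', rv D.d'} : Finset (K.E × Bool)) := by
    simp only [Finset.mem_insert, Finset.mem_singleton, not_or]
    refine ⟨fun h => rv_ne _ h.symm, fun h => D.hne (by rw [h]), fun h => ?_⟩
    have h' := congrArg Prod.fst h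
    exact D.hne h'
  have n2 : rv D.d ∉ ({D.d', rv D.d'} : Finset (K.E × Bool)) := by
    simp only [Finset.mem_insert, Finset.mem_singleton, not_or]
    refine ⟨fun h => ?_, fun h => ?_⟩ <;>
    · have h' := congrArg Prod.fst h
      exact D.hne h'
  have n3 : D.d' ∉ ({rv D.d'} : Finset (K.E × Bool)) := by
    simp only [Finset.mem_singleton]
    exact fun h => rv_ne _ h.symm
  rw [Finset.sum_insert n1, Finset.sum_insert n2, Finset.sum_insert n3, Finset.sum_singleton,
    fb_rv_rv, fb_rv_rv, K.fb_occ_of_mem D.d_mem, K.fb_occ_of_mem D.d'_mem, K.fb_occ_of_mem hfd,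
    K.fb_occ_of_mem hfd', if_neg D.hp, if_neg hnone, if_pos (rfl : K.org (rv D.d') = _), D.mid] at hfl
  have hfdC : fd ∉ C := by
    intro hin
    rw [if_pos hin, if_pos (hω.mpr hin)] at hfl
    split_ifs at hfl <;> norm_num at hfl
  have hfdC' : fd' ∉ C := fun h => hfdC (hω.mp h)
  -- every adjacency of K preserves the complement of C
  have hK : ∀ a b, (∃ x, x ∈ K.bd a ∧ rv x ∈ K.bd b) → a ∉ C → b ∉ C := by
    rintro a b ⟨x, hxa, hxb⟩ haC
    by_cases hx1 : x.1 = D.d.1
    · by_cases hb : x.2 = D.d.2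
      · have : x = D.d := Prod.ext hx1 hb
        rw [this] at hxb
        rw [face_unique hxb hfd]; exact hfdC
      · have : x = rv D.d := by
          refine Prod.ext hx1 ?_
          simp only [rv]
          revert hb; cases x.2 <;> cases D.d.2 <;> simp
        rw [this, fb_rv_rv] at hxb
        rw [face_unique hxb D.d_mem]; exact hnone
    · by_cases hx2 : x.1 = D.d'.1
      · by_cases hb : x.2 = D.d'.2
        · have : x = D.d' := Prod.ext hx2 hb
          rw [this] at hxb
          rw [face_unique hxb hfd']; exact hfdC'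
        · have : x = rv D.d' := by
            refine Prod.ext hx2 ?_
            simp only [rv]
            revert hb; cases x.2 <;> cases D.d'.2 <;> simp
          rw [this, fb_rv_rv] at hxb
          rw [face_unique hxb D.d'_mem]; exact hnone
      · exact fun h => haC ((hcl a b (D.adj_keep hxa hxb hx1 hx2)).mpr h)
  have hall : ∀ g, Relation.ReflTransGen (fun a b => ∃ x, x ∈ K.bd a ∧ rv x ∈ K.bd b) none g →
      g ∉ C := by
    intro g hg
    induction hg with
    | refl => exact hnone
    | tail _ h2 ih => exact hK _ _ h2 ih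
  exact hall g (K.dconn none g) ((hmem g).mpr hg)

lemma dconn' (f g : Option K.F) : Relation.ReflTransGen (fun a b => ∃ x, x ∈ D.bd' a ∧ rv x ∈ D.bd' b) f g := by
  have h1 : Relation.ReflTransGen D.Adj' f none := by
    have h := D.dconn0 f
    rw [← Relation.reflTransGen_swap] at h
    refine Relation.ReflTransGen.mono ?_ _ _ h
    intro a b hab
    exact D.adj'_symm hab
  exact h1.trans (D.dconn0 g)

lemma word_map (L : List (K.E × Bool)) :
    (L.map D.ψ).map (fun x => (K.lab x.1.1, x.2)) = L.map (fun x => (K.lab x.1, x.2)) := by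
  rw [List.map_map]
  apply List.map_congr_left
  intro x _
  simp only [Function.comp, ψ, D.lab_η]

/-- the folded complex -/
def fold : PC A where
  V := D.V'
  E := D.E'
  F := K.F
  org := D.org'
  lab := fun e => K.lab e.1
  bd := D.bd'
  chain := D.chain'
  closed := D.closed'
  once := D.once'
  ne := by
    intro f h
    exact K.ne f (List.map_eq_nil_iff.mp h)
  conn := D.conn'
  dconn := D.dconn'
  euler := D.euler'

end FbD

end PC

variable {S : Sys} {σ : Equiv.Perm S.C}

/-- the folded complex of squares -/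
noncomputable def fb_SqK (K : SqK σ) (D : K.toPC.FbD) : SqK σ where
  toPC := D.fold
  q := K.q
  sq := by
    intro f
    rw [← K.sq f]
    exact D.word_map _

lemma fb_π_φ (K : SqK σ) (P : K.GPot) (D : K.toPC.FbD) (v : K.V) : P.π (D.φ v).1 = P.π v := by
  unfold PC.FbD.φ
  split_ifs with h
  · subst h
    have h1 := P.st D.d
    have h2 := P.st D.d'
    rw [D.mid, ← h1, mul_assoc, ← map_mul] at h2
    have h3 : K.toPC.lt D.d * K.toPC.lt D.d' = 1 := by
      unfold PC.lt
      rw [← D.hl, D.hs]
      have : FreeGroup.mk [(K.lab D.d.1, !D.d.2)] = (FreeGroup.mk [(K.lab D.d.1, D.d.2)])⁻¹ := by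
        rw [FreeGroup.inv_mk]; simp [FreeGroup.invRev]
      rw [this, mul_inv_cancel]
    rw [h3, map_one, mul_one] at h2
    exact h2
  · rfl

/-- the potential of the folded complex -/
noncomputable def fb_GPot (K : SqK σ) (P : K.GPot) (D : K.toPC.FbD) : (fb_SqK K D).GPot where
  π := fun v => P.π v.1
  st := by
    intro x
    change P.π (D.φ (K.org (x.1.1, x.2))).1 * PresentedGroup.mk (rels σ) (K.toPC.lt (x.1.1, x.2)) =
      P.π (D.φ (K.org (rv (x.1.1, x.2)))).1
    rw [fb_π_φ, fb_π_φ]
    exact P.st _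
  base := by
    intro y hy
    change P.π (D.org' y).1 = 1
    have hy' : ((D.l1 ++ D.l2).map D.ψ).head? = some y := hy
    rw [List.head?_map] at hy'
    obtain ⟨y0, hy0, hyy⟩ := Option.map_eq_some_iff.mp hy'
    rw [← hyy, D.org'_ψ, fb_π_φ]
    have hb := P.base
    have hbd := D.hbd
    have hch := K.chain none
    cases hl1 : D.l1 with
    | nil =>
      rw [hl1] at hy0 hbd
      simp only [List.nil_append] at hy0 hbd
      have e1 : P.π (K.org D.d) = 1 := hb D.d (by rw [hbd]; simp)
      cases hl2 : D.l2 with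
      | nil => rw [hl2] at hy0; simp at hy0
      | cons c l =>
        rw [hl2] at hy0 hbd
        simp only [List.head?_cons, Option.some.injEq] at hy0
        subst hy0
        rw [hbd, List.isChain_cons_cons, List.isChain_cons_cons] at hch
        rw [hch.2.1, ← fb_π_φ K P D, D.φ_p', fb_π_φ, e1]
    | cons c l =>
      rw [hl1] at hy0 hbd
      simp only [List.cons_append, List.head?_cons, Option.some.injEq] at hy0
      subst hy0
      exact hb c (by rw [hbd]; simp)

lemma fb_chn (K : SqK σ) (P : K.GPot) (D : K.toPC.FbD) :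
    (fb_SqK K D).chn (fb_GPot K P D) univ = K.chn P univ := by
  unfold SqK.chn
  apply Finset.sum_congr rfl
  intro f _
  change ∑ d ∈ (((K.bd (some f)).map D.ψ).head?).toFinset,
    pch σ (P.π (D.org' d).1) (K.q f) = _
  rw [List.head?_map]
  cases (K.bd (some f)).head? with
  | none => simp only [Option.map_none, Option.toFinset_none, ne_eq, sum_empty]
  | some a =>
    simp only [Option.map_some, Option.toFinset_some, Finset.sum_singleton]
    rw [D.org'_ψ, fb_π_φ]

/-- **(O4)(ii)**: fold two consecutive outer darts whose outer end vertices are different. -/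
theorem fb_fold_ne (K : SqK σ) (P : K.GPot) (d d' : K.E × Bool) (l1 l2 : List (K.E × Bool))
    (hbd : K.bd none = l1 ++ d :: d' :: l2) (hne : d.1 ≠ d'.1) (hl : K.lab d.1 = K.lab d'.1)
    (hs : d'.2 = !d.2) (hp : K.org d ≠ K.org (rv d')) :
    ∃ (K' : SqK σ) (P' : K'.GPot), Fintype.card K'.F = Fintype.card K.F ∧
      K'.toPC.wd none = (l1 ++ l2).map (fun d => (K.lab d.1, d.2)) ∧
      K'.chn P' univ = K.chn P univ := by
  refine ⟨fb_SqK K ⟨d, d', l1, l2, hbd, hne, hl, hs, hp⟩,
    fb_GPot K P ⟨d, d', l1, l2, hbd, hne, hl, hs, hp⟩, rfl, ?_, fb_chn K P _⟩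
  generalize hD : (⟨d, d', l1, l2, hbd, hne, hl, hs, hp⟩ : K.toPC.FbD) = D
  have e1 : l1 ++ l2 = D.l1 ++ D.l2 := by rw [← hD]
  rw [e1]
  exact D.word_map _

end Vale.Agent.P201.S
end

section

/-!
P201, D1: VK4 (helper109).
-/

namespace Vale.Agent.P201.S

theorem vk4 : StmtVK4 := by
  intro S σ K P l1 l2 d d' h hl hs hne hp
  exact fb_fold_ne K P d d' l1 l2 h hne hl hs hp

end Vale.Agent.P201.S
end

section

/-!
P201, part D: closure properties of `Expr` (products, inverses, conjugates, one square).
-/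

namespace Vale.Agent.P201.S

open Finset

namespace EX

variable {S : Sys} {σ : Equiv.Perm (S.C)}

theorem val_append {A : Type} (l l' : List (A × Bool)) : val (l ++ l') = val l * val l' := by
  simp [val]

theorem val_winv {A : Type} (l : List (A × Bool)) : val (winv l) = (val l)⁻¹ := by
  simp [val, winv, FreeGroup.invRev]

theorem mt_mt (q : Port S) : mt σ (mt σ q) = q := by
  obtain ⟨c, b⟩ := q
  cases b <;> simp [mt]

theorem val_relw_mt (q : Port S) : val (relw σ (mt σ q)) = (val (relw σ q))⁻¹ := by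
  unfold relw
  rw [mt_mt, val_append, val_append, val_winv, val_winv, mul_inv_rev, inv_inv]

theorem pch_mt (g : Gp σ) (q : Port S) : pch σ g (mt σ q) = -pch σ g q := by
  obtain ⟨c, b⟩ := q
  cases b <;> simp [mt, pch]

theorem mk_relw (q : Port S) : PresentedGroup.mk (rels σ) (val (relw σ q)) = 1 :=
  (PresentedGroup.mk_eq_one_iff).2 (Subgroup.subset_normalClosure ⟨q, rfl⟩)

theorem cast {k k' : ℕ} {u u' : FreeGroup (Let S)} {z z' : Chn σ} (h : Expr σ k u z)
    (hk : k = k') (hu : u = u') (hz : z = z') : Expr σ k' u' z' := by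
  subst hk hu hz
  exact h

/-- one square -/
theorem sq (v : FreeGroup (Let S)) (q : Port S) :
    Expr σ 1 (v * val (relw σ q) * v⁻¹) (pch σ (PresentedGroup.mk (rels σ) v) q) :=
  cast (Expr.cons 0 1 0 v q Expr.nil) rfl (mul_one _) (add_zero _)

theorem mul {k k' : ℕ} {u u' : FreeGroup (Let S)} {z z' : Chn σ} (h : Expr σ k u z)
    (h' : Expr σ k' u' z') : Expr σ (k + k') (u * u') (z + z') := by
  induction h with
  | nil => exact cast h' (Nat.zero_add _).symm (one_mul _).symm (zero_add _).symm
  | cons k u z v q _ ih =>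
    exact cast (Expr.cons _ _ _ v q ih) (by omega) (mul_assoc _ _ _).symm (add_assoc _ _ _).symm

theorem inv {k : ℕ} {u : FreeGroup (Let S)} {z : Chn σ} (h : Expr σ k u z) :
    Expr σ k u⁻¹ (-z) := by
  induction h with
  | nil => exact cast Expr.nil rfl inv_one.symm neg_zero.symm
  | cons k u z v q _ ih =>
    refine cast (mul ih (sq v (mt σ q))) rfl ?_ ?_
    · rw [val_relw_mt]
      group
    · rw [pch_mt, neg_add, add_comm]

theorem mk_one {k : ℕ} {u : FreeGroup (Let S)} {z : Chn σ} (h : Expr σ k u z) :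
    PresentedGroup.mk (rels σ) u = 1 := by
  induction h with
  | nil => exact map_one _
  | cons k u z v q _ ih => rw [map_mul, ih, map_mul, map_mul, mk_relw, mul_one, mul_one, map_inv,
      mul_inv_cancel]

/-- action of the group on chains -/
noncomputable def act (g : Gp σ) : Chn σ →+ Chn σ :=
  Finsupp.mapDomain.addMonoidHom (fun x : Gp σ × S.C => (g * x.1, x.2))

theorem act_pch (g h : Gp σ) (q : Port S) : act g (pch σ h q) = pch σ (g * h) q := by
  unfold pch act
  split_ifs
  · exact Finsupp.mapDomain_single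
  · exact Finsupp.mapDomain_single

theorem conj {k : ℕ} {u : FreeGroup (Let S)} {z : Chn σ} (w : FreeGroup (Let S))
    (h : Expr σ k u z) :
    Expr σ k (w * u * w⁻¹) (act (PresentedGroup.mk (rels σ) w) z) := by
  induction h with
  | nil => exact cast Expr.nil rfl (by group) (map_zero _).symm
  | cons k u z v q _ ih =>
    refine cast (Expr.cons _ _ _ (w * v) q ih) rfl (by group) ?_
    rw [map_add, act_pch, map_mul]

end EX

end Vale.Agent.P201.S
end

section

/-!
P201, part D1, leaf VK5: two consecutive outer darts on different edges with the same outer ends are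
excluded by `NoRed` (`stmtVK5`).  General facts exported: existence of spanning trees, product of the
cotree values along a closed walk, expressions for sublists of the outer face.
-/

namespace Vale.Agent.P201.S

open Finset

namespace VK5

/-! ### darts -/

theorem rvrv {E : Type} (d : E × Bool) : rv (rv d) = d := by
  obtain ⟨e, b⟩ := d
  simp only [rv, Bool.not_not]

theorem eq_or {E : Type} {d d' : E × Bool} (h : d.1 = d'.1) : d = d' ∨ d = rv d' := by
  obtain ⟨e, b⟩ := d
  obtain ⟨e', b'⟩ := d'
  simp only at h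
  subst h
  cases b <;> cases b' <;> simp [rv]

section pc

variable {A : Type} (K : PC A)

theorem cle (d : K.E × Bool) (f : Option K.F) : (K.bd f).count d ≤ 1 := by
  rw [← K.once d]
  exact Finset.single_le_sum (f := fun f => (K.bd f).count d) (fun _ _ => Nat.zero_le _)
    (Finset.mem_univ f)

theorem nodup (f : Option K.F) : (K.bd f).Nodup :=
  List.nodup_iff_count_le_one.mpr fun d => cle K d f

theorem face_eq {d : K.E × Bool} {f g : Option K.F} (hf : d ∈ K.bd f) (hg : d ∈ K.bd g) : f = g := by
  by_contra h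
  have h1 : (K.bd f).count d + (K.bd g).count d ≤ 1 := by
    rw [← K.once d, ← Finset.sum_pair (f := fun f => (K.bd f).count d) h]
    exact Finset.sum_le_sum_of_subset (Finset.subset_univ _)
  have h2 := List.count_pos_iff.mpr hf
  have h3 := List.count_pos_iff.mpr hg
  omega

/-! ### spanning trees -/

/-- there is a walk of length `n` from `v` to `r` -/
def W (r : K.V) : ℕ → K.V → Prop
  | 0, v => v = r
  | m + 1, v => ∃ d, K.org d = v ∧ W r m (K.org (rv d))

theorem exW (r v : K.V) : ∃ m, W K r m v := by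
  have h := K.conn v r
  induction h using Relation.ReflTransGen.head_induction_on with
  | refl => exact ⟨0, rfl⟩
  | head h1 _ ih =>
    obtain ⟨d, hd, hd'⟩ := h1
    obtain ⟨m, hm⟩ := ih
    exact ⟨m + 1, d, hd, hd' ▸ hm⟩

open Classical in
theorem ex_stree (r : K.V) : ∃ T : K.STree, T.root = r := by
  let ht : K.V → ℕ := fun v => Nat.find (exW K r v)
  have hht : ∀ v, W K r (ht v) v := fun v => Nat.find_spec (exW K r v)
  have hmin : ∀ v m, W K r m v → ht v ≤ m := fun v m hm => Nat.find_min' (exW K r v) hm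
  have hstep : ∀ v, v ≠ r → ∃ d, K.org d = v ∧ ht (K.org (rv d)) < ht v := by
    intro v hv
    have h := hht v
    match hm : ht v with
    | 0 => rw [hm] at h; exact absurd h hv
    | m + 1 =>
      rw [hm] at h
      obtain ⟨d, hd, hd'⟩ := h
      exact ⟨d, hd, Nat.lt_succ_of_le (hmin _ _ hd')⟩
  choose g hg hg' using hstep
  refine ⟨⟨fun v => if h : v = r then none else some (g v h), ht, r, ?_, ?_, ?_⟩, rfl⟩
  · intro v
    by_cases hv : v = r <;> simp [hv]
  · intro v d hd
    by_cases hv : v = r
    · simp [hv] at hd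
    · simp only [hv, dif_neg, not_false_eq_true, Option.some.injEq] at hd
      rw [← hd]
      exact hg v hv
  · intro v d hd
    by_cases hv : v = r
    · simp [hv] at hd
    · simp only [hv, dif_neg, not_false_eq_true, Option.some.injEq] at hd
      rw [← hd]
      exact hg' v hv

/-- two different edges with the same pair of ends are not both in a tree -/
theorem not_both (T : K.STree) {d d' : K.E × Bool} (hne : d.1 ≠ d'.1) (h1 : K.org (rv d) = K.org d')
    (h2 : K.org d = K.org (rv d')) (hd : T.Ed d.1) (hd' : T.Ed d'.1) : False := by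
  obtain ⟨v, e, hv, he⟩ := hd
  obtain ⟨v', e', hv', he'⟩ := hd'
  have o1 := T.or v e hv
  have o2 := T.or v' e' hv'
  have k1 := T.dec v e hv
  have k2 := T.dec v' e' hv'
  have hvv : v ≠ v' := by
    intro h
    rw [h, hv'] at hv
    exact hne (by rw [← he, ← he', Option.some.inj hv])
  rcases eq_or he with h | h <;> rcases eq_or he' with h' | h' <;> subst h <;> subst h' <;>
    try simp only [rvrv] at o1 o2 k1 k2
  · -- e = d, e' = d'
    rw [h1, o2] at k1
    rw [← h2, o1] at k2
    omega
  · -- e = d, e' = rv d'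
    exact hvv (by rw [← o1, ← o2, h2])
  · -- e = rv d, e' = d'
    exact hvv (by rw [← o1, ← o2, h1])
  · -- e = rv d, e' = rv d'
    rw [h2, o2] at k1
    rw [← h1, o1] at k2
    omega

/-! ### values along walks -/

variable {K} (C : K.Cotree)

theorem c_tree {d : K.E × Bool} (h : ∀ f, (C.dd f).1 ≠ d.1) : C.c d = 1 := by
  unfold PC.Cotree.c
  rw [C.triv d h, mul_inv_cancel]

theorem c_rv' (d : K.E × Bool) : C.c (rv d) = (C.c d)⁻¹ := by
  unfold PC.Cotree.c
  have : K.lt (rv d) = (K.lt d)⁻¹ := by
    simp [PC.lt, rv, FreeGroup.inv_mk, FreeGroup.invRev]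
  rw [this, rvrv, mul_inv_rev, mul_inv_rev, inv_inv, mul_assoc]

/-- product of the values along a walk -/
theorem prod_walk (a : K.E × Bool) (L : List (K.E × Bool))
    (h : (a :: L).IsChain (fun a b => K.org b = K.org (rv a))) :
    ((a :: L).map C.c).prod = C.pot (K.org a) *
      FreeGroup.mk ((a :: L).map fun d => (K.lab d.1, d.2)) *
        (C.pot (K.org (rv ((a :: L).getLast (List.cons_ne_nil a L)))))⁻¹ := by
  induction L generalizing a with
  | nil =>
    simp only [List.map_cons, PC.Cotree.c, PC.lt, List.map_nil, List.prod_cons, List.prod_nil, mul_one, List.getLast_singleton]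
  | cons b L ih =>
    rw [List.isChain_cons_cons] at h
    rw [List.map_cons, List.prod_cons, ih b h.2]
    have e1 : C.c a = C.pot (K.org a) * FreeGroup.mk [(K.lab a.1, a.2)] * (C.pot (K.org b))⁻¹ := by
      rw [h.1]
      rfl
    have e2 : FreeGroup.mk ((a :: b :: L).map fun d => (K.lab d.1, d.2)) =
        FreeGroup.mk [(K.lab a.1, a.2)] * FreeGroup.mk ((b :: L).map fun d => (K.lab d.1, d.2)) := by
      rw [FreeGroup.mul_mk]
      rfl
    rw [e1, e2, List.getLast_cons (List.cons_ne_nil b L)]
    group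

/-- the faces are distributed over the children of the outer face -/
theorem desc_exists (g : K.F) : ∃ f, C.par f = none ∧ C.Desc f g := by
  induction hr : C.rank g using Nat.strong_induction_on generalizing g with
  | _ r ih =>
    rcases hp : C.par g with _ | g'
    · exact ⟨g, hp, Relation.ReflTransGen.refl⟩
    · obtain ⟨f, hf, hd⟩ := ih (C.rank g') (hr ▸ C.dec g g' hp) g' rfl
      exact ⟨f, hf, Relation.ReflTransGen.head hp hd⟩

theorem desc_top {f g : K.F} (hf : C.par f = none) (h : C.Desc g f) : g = f := by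
  rcases Relation.ReflTransGen.cases_head h with h1 | ⟨x, hx, _⟩
  · exact h1.symm
  · rw [hf] at hx
    cases hx

theorem desc_unique {f f' g : K.F} (hf : C.par f = none) (hf' : C.par f' = none) (h : C.Desc f g)
    (h' : C.Desc f' g) : f = f' := by
  have hu : Relator.RightUnique (fun a b => C.par a = some b) := by
    intro a b c hb hc
    rw [hb] at hc
    exact Option.some.inj hc
  rcases Relation.ReflTransGen.total_of_right_unique hu h h' with h1 | h1
  · exact (desc_top C hf h1).symm
  · exact desc_top C hf' h1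

open Classical in
/-- faces whose dart towards the parent is the reverse of a member of `L` -/
noncomputable def SF (L : List (K.E × Bool)) : Finset K.F := univ.filter (fun f => rv (C.dd f) ∈ L)

open Classical in
theorem sum_children {M : Type} [AddCommMonoid M] (w : K.F → M) :
    ∑ f ∈ univ.filter (fun f => C.par f = none), ∑ g ∈ C.sub f, w g = ∑ g, w g := by
  rw [← Finset.sum_biUnion]
  · refine Finset.sum_congr ?_ fun _ _ => rfl
    ext g
    simp only [Finset.mem_biUnion, Finset.mem_filter, Finset.mem_univ, true_and, iff_true]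
    obtain ⟨f, hf, hd⟩ := desc_exists C g
    exact ⟨f, hf, by simp only [PC.Cotree.sub, mem_filter, mem_univ, hd, and_self]⟩
  · intro f hf f' hf' hne
    simp only [Finset.coe_filter, Finset.mem_univ, true_and, Set.mem_ofPred_eq] at hf hf'
    rw [Function.onFun, Finset.disjoint_left]
    intro g hg hg'
    simp only [PC.Cotree.sub, Finset.mem_filter, Finset.mem_univ, true_and] at hg hg'
    exact hne (desc_unique C hf hf' hg hg')

theorem mem_S_iff_par (f : K.F) : rv (C.dd f) ∈ K.bd none ↔ C.par f = none := by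
  constructor
  · intro h
    exact face_eq K (C.memr f) h
  · intro h
    rw [← h]
    exact C.memr f

theorem S_none : SF C (K.bd none) = (by classical exact univ.filter (fun f => C.par f = none)) := by
  classical
  ext f
  simp only [SF, mem_S_iff_par, mem_filter, mem_univ, true_and]

theorem dd_inj {f g : K.F} (h : C.dd f = C.dd g) : f = g :=
  Option.some_injective _ (face_eq K (C.mem f) (h ▸ C.mem g))

end pc

section sq

variable {S : Sys} {σ : Equiv.Perm (S.C)} (K : SqK σ) (P : K.GPot) (C : K.toPC.Cotree)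

open Classical in
/-- expression for a list of outer darts -/
theorem expr_list (hE : ∀ f, Expr σ (C.sub f).card (C.c (C.dd f)) (K.chn P (C.sub f)))
    (L : List (K.E × Bool)) (hL : L.Nodup) (hsub : ∀ d ∈ L, d ∈ K.bd none) :
    Expr σ (∑ f ∈ SF C L, (C.sub f).card) ((L.map C.c).prod)⁻¹ (∑ f ∈ SF C L, K.chn P (C.sub f)) := by
  induction L with
  | nil =>
    have : SF C ([] : List (K.E × Bool)) = ∅ := by
      ext f
      simp [SF]
    rw [this]
    simpa only [sum_empty, List.map_nil, List.prod_nil, inv_one] using (Expr.nil (σ := σ))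
  | cons d L ih =>
    have hd : d ∈ K.bd none := hsub d (List.mem_cons_self)
    have ih' := ih (List.nodup_cons.mp hL).2 fun x hx => hsub x (List.mem_cons_of_mem _ hx)
    by_cases h : ∀ f, (C.dd f).1 ≠ d.1
    · have hS : SF C (d :: L) = SF C L := by
        ext f
        simp only [SF, List.mem_cons, mem_filter, mem_univ, true_and]
        constructor
        · rintro (h1 | h1)
          · exact absurd (congrArg Prod.fst h1) (h f)
          · exact h1
        · exact Or.inr
      rw [hS, List.map_cons, List.prod_cons, c_tree C h, one_mul]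
      exact ih'
    · push Not at h
      obtain ⟨f, hf⟩ := h
      have hdd : rv (C.dd f) = d := by
        rcases eq_or hf with h1 | h1
        · exact absurd (face_eq K.toPC (h1 ▸ C.mem f : d ∈ K.bd (some f)) hd) (by simp)
        · rw [h1, rvrv]
      have hS : SF C (d :: L) = insert f (SF C L) := by
        ext g
        simp only [SF, List.mem_cons, mem_filter, mem_univ, true_and, mem_insert]
        constructor
        · rintro (h1 | h1)
          · left
            apply dd_inj C
            rw [← rvrv (C.dd g), ← rvrv (C.dd f), h1, hdd]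
          · exact Or.inr h1
        · rintro (h1 | h1)
          · left
            rw [h1, hdd]
          · exact Or.inr h1
      have hnot : f ∉ SF C L := by
        simp only [SF, Finset.mem_filter, Finset.mem_univ, true_and]
        rw [hdd]
        exact (List.nodup_cons.mp hL).1
      rw [hS, Finset.sum_insert hnot, Finset.sum_insert hnot, List.map_cons, List.prod_cons,
        mul_inv_rev]
      have hc : (C.c d)⁻¹ = C.c (C.dd f) := by
        rw [← hdd, c_rv', inv_inv]
      rw [hc]
      refine EX.cast (EX.mul ih' (hE f)) (add_comm _ _) rfl (add_comm _ _)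

end sq

end VK5

open VK5 in
theorem stmtVK5 (hT1 : StmtT1) (hRec : StmtRec) : StmtVK5 := by
  classical
  intro S σ K P l1 l2 d d' h hlab hsgn hne hends hN
  -- base vertex, tree, cotree
  obtain ⟨d0, L0, hL0⟩ : ∃ d0 L0, K.bd none = d0 :: L0 := by
    cases h1 : K.bd none with
    | nil => rw [h1] at h; simp at h
    | cons a L => exact ⟨a, L, rfl⟩
  obtain ⟨T, hT⟩ := ex_stree K.toPC (K.org d0)
  obtain ⟨C, hroot, htree, -⟩ := hT1 _ K.toPC T
  have hbase : P.π C.root = 1 := by
    rw [hroot, hT]
    exact P.base d0 (by rw [hL0]; rfl)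
  obtain ⟨-, hE⟩ := hRec S σ K P C hbase
  have hnd : (K.bd none).Nodup := nodup K.toPC none
  have hnd' := hnd
  rw [h] at hnd'
  -- the outer product
  have hprod : ((K.bd none).map C.c).prod = (val K.outw)⁻¹ := by
    have hch := K.chain none
    have hcl := K.closed none
    rw [hL0] at hch hcl
    have h1 := prod_walk C d0 L0 hch
    have hlast : K.org (rv ((d0 :: L0).getLast (List.cons_ne_nil d0 L0))) = K.org d0 := by
      refine (hcl _ ?_ d0 rfl).symm
      rw [List.getLast?_eq_some_getLast (List.cons_ne_nil d0 L0)]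
      rfl
    rw [hL0, h1, hlast]
    have hp1 : C.pot (K.org d0) = 1 := by
      rw [← hT, ← hroot, C.pot_root]
    rw [hp1, one_mul, inv_one, mul_one]
    unfold SqK.outw
    rw [EX.val_winv, inv_inv]
    unfold PC.wd
    rw [hL0]
    rfl
  -- consecutive
  have hcons : K.org d' = K.org (rv d) := by
    have hch := K.chain none
    rw [h, List.isChain_append] at hch
    exact (List.isChain_cons_cons.mp hch.2.1).1
  -- values of d, d'
  have hcc : C.c d * C.c d' = 1 := by
    have e1 : K.lt d' = (K.lt d)⁻¹ := by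
      simp only [PC.lt, hsgn, ← hlab]
      simp [FreeGroup.inv_mk, FreeGroup.invRev]
    unfold PC.Cotree.c
    rw [e1, hcons, ← hends]
    group
  have hsplit : (((l1 ++ l2).map C.c).prod)⁻¹ = val K.outw := by
    rw [← inv_inj, inv_inv, ← hprod, h]
    simp only [List.map_append, List.map_cons, List.prod_append, List.prod_cons]
    rw [← mul_assoc (C.c d), hcc, one_mul]
  have X1 := expr_list K P C hE [d, d']
    (by
      have := (List.nodup_append.mp hnd').2.1
      have h2 : (d :: d' :: l2) = [d, d'] ++ l2 := rfl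
      rw [h2] at this
      exact (List.nodup_append.mp this).1)
    (by intro x hx; rw [h]; simp at hx ⊢; (clear * - hx; tauto))
  have X2 := expr_list K P C hE (l1 ++ l2)
    (by
      refine List.Nodup.sublist ?_ hnd'
      exact List.Sublist.append_left
        ((List.sublist_cons_self d' l2).trans (List.sublist_cons_self d (d' :: l2))) l1)
    (by intro x hx; rw [h]; simp at hx ⊢; (clear * - hx; tauto))
  rw [hsplit] at X2
  have hone : (([d, d'] : List (K.E × Bool)).map C.c).prod = 1 := by
    simp only [List.map_cons, List.map_nil, List.prod_cons, List.prod_nil, mul_one, hcc]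
  rw [hone, inv_one] at X1
  -- sums
  have hdisj : Disjoint (SF C [d, d']) (SF C (l1 ++ l2)) := by
    rw [Finset.disjoint_left]
    intro f hf hf'
    simp only [SF, Finset.mem_filter, Finset.mem_univ, true_and] at hf hf'
    have h3 : ∀ x, x ∈ [d, d'] → x ∈ l1 ++ l2 → False := by
      intro x hx hx'
      have hc1 : 2 ≤ (l1 ++ d :: d' :: l2).count x := by
        have e1 : (l1 ++ d :: d' :: l2).count x = (l1 ++ l2).count x + ([d, d'] : List _).count x := by
          have : (l1 ++ d :: d' :: l2) = l1 ++ ([d, d'] ++ l2) := rfl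
          rw [this, List.count_append, List.count_append, List.count_append]
          omega
        have := List.count_pos_iff.mpr hx
        have := List.count_pos_iff.mpr hx'
        omega
      have := List.nodup_iff_count_le_one.mp hnd' x
      omega
    exact h3 _ hf hf'
  have hunion : SF C [d, d'] ∪ SF C (l1 ++ l2) = univ.filter (fun f => C.par f = none) := by
    ext f
    simp only [SF, Finset.mem_union, Finset.mem_filter, Finset.mem_univ, true_and]
    rw [← mem_S_iff_par C f, h]
    simp only [List.mem_cons, List.mem_append, List.not_mem_nil, or_false]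
    (clear * -; tauto)
  have hcard : (∑ f ∈ SF C [d, d'], (C.sub f).card) + ∑ f ∈ SF C (l1 ++ l2), (C.sub f).card =
      Fintype.card K.F := by
    rw [← Finset.sum_union hdisj, hunion]
    have := sum_children C (fun _ => 1)
    simpa only [sum_const, smul_eq_mul, mul_one, card_univ] using this
  have hchn : (∑ f ∈ SF C [d, d'], K.chn P (C.sub f)) + ∑ f ∈ SF C (l1 ++ l2), K.chn P (C.sub f) =
      K.chn P univ := by
    rw [← Finset.sum_union hdisj, hunion]
    unfold SqK.chn
    exact sum_children C _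
  -- one of the two darts is a cotree dart
  have hpos : 1 ≤ ∑ f ∈ SF C [d, d'], (C.sub f).card := by
    by_contra hcon
    have hempty : ∀ f, f ∉ SF C [d, d'] := by
      intro f hf
      have h1 : 1 ≤ (C.sub f).card :=
        Finset.card_pos.mpr ⟨f, by
          unfold PC.Cotree.sub
          exact Finset.mem_filter.mpr ⟨Finset.mem_univ _, Relation.ReflTransGen.refl⟩⟩
      have h2 : (C.sub f).card ≤ ∑ f ∈ SF C [d, d'], (C.sub f).card :=
        Finset.single_le_sum (f := fun f => (C.sub f).card) (fun _ _ => Nat.zero_le _) hf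
      omega
    have hnt : ∀ x, x ∈ [d, d'] → ∀ f, (C.dd f).1 ≠ x.1 := by
      intro x hx f hfx
      have hx' : x ∈ K.bd none := by
        rw [h]
        simp at hx ⊢
        (clear * - hx; tauto)
      apply hempty f
      simp only [SF, Finset.mem_filter, Finset.mem_univ, true_and]
      rcases eq_or hfx with h1 | h1
      · exact absurd (face_eq K.toPC (h1 ▸ C.mem f : x ∈ K.bd (some f)) hx') (by simp)
      · rw [h1, rvrv]
        exact hx
    exact not_both K.toPC T hne hcons.symm hends
      ((htree d.1).mpr (hnt d (by simp))) ((htree d'.1).mpr (hnt d' (by simp)))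
  refine hN _ _ hpos (by omega) X1 (EX.cast X2 (by omega) rfl ?_)
  rw [← hchn]
  abel

end Vale.Agent.P201.S
end

section

/-!
P201, part D0 (a)(b): faces of darts, cycles mod 2 (`t0_dg_cr` = EVEN), and `STree.t0_eq_zero_of_tree`:
a cycle mod 2 whose support lies in a spanning tree is zero.  All names have the prefix `t0`.
-/

namespace Vale.Agent.P201.S

open Finset

theorem t0_rv_rv {E : Type} (d : E × Bool) : rv (rv d) = d := by
  cases d
  simp [rv]

theorem t0_rv_ne {E : Type} (d : E × Bool) : rv d ≠ d := by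
  intro h
  have := congrArg Prod.snd h
  simp [rv] at this

theorem t0_eq_or_rv {E : Type} {d d' : E × Bool} (h : d.1 = d'.1) : d = d' ∨ d' = rv d := by
  obtain ⟨e, b⟩ := d
  obtain ⟨e', b'⟩ := d'
  simp only at h
  subst h
  cases b <;> cases b' <;> simp [rv]

namespace PC

variable {A : Type} (K : PC A)

/-! ### faces of darts -/

theorem t0_exists_face (d : K.E × Bool) : ∃ f, d ∈ K.bd f := by
  by_contra h
  push Not at h
  have h1 := K.once d
  rw [Finset.sum_eq_zero fun f _ => List.count_eq_zero.2 (h f)] at h1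
  exact absurd h1 (by norm_num)

theorem t0_count_le_one (f : Option K.F) (d : K.E × Bool) : (K.bd f).count d ≤ 1 := by
  rw [← K.once d]
  exact Finset.single_le_sum (f := fun f => (K.bd f).count d) (fun _ _ => Nat.zero_le _)
    (Finset.mem_univ f)

theorem t0_face_unique {f g : Option K.F} {d : K.E × Bool} (hf : d ∈ K.bd f) (hg : d ∈ K.bd g) :
    f = g := by
  by_contra hne
  have h1 := K.once d
  have h2 : (K.bd f).count d + (K.bd g).count d ≤ ∑ f, (K.bd f).count d := by
    rw [← Finset.sum_pair hne (f := fun f => (K.bd f).count d)]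
    exact Finset.sum_le_sum_of_subset (Finset.subset_univ _)
  have h3 := List.count_pos_iff.2 hf
  have h4 := List.count_pos_iff.2 hg
  omega

theorem t0_bd_nodup (f : Option K.F) : (K.bd f).Nodup :=
  List.nodup_iff_count_le_one.2 fun d => K.t0_count_le_one f d

/-! ### cycles mod 2 -/

/-- degree mod 2 of a set of edges at a vertex -/
noncomputable def t0dg (χ : K.E → ZMod 2) (v : K.V) : ZMod 2 :=
  ∑ d : K.E × Bool, if K.org d = v then χ d.1 else 0

theorem t0_dg_add (χ χ' : K.E → ZMod 2) (v : K.V) :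
    K.t0dg (χ + χ') v = K.t0dg χ v + K.t0dg χ' v := by
  unfold t0dg
  rw [← Finset.sum_add_distrib]
  refine Finset.sum_congr rfl fun d _ => ?_
  split_ifs
  · rfl
  · rw [add_zero]

/-- one edge -/
noncomputable def t0ei (e : K.E) : K.E → ZMod 2 := fun e' => if e' = e then 1 else 0

theorem t0_dg_ei (d : K.E × Bool) (v : K.V) :
    K.t0dg (K.t0ei d.1) v = (if K.org d = v then 1 else 0) + if K.org (rv d) = v then 1 else 0 := by
  unfold t0dg t0ei
  have h : ∀ d' : K.E × Bool, (if K.org d' = v then (if d'.1 = d.1 then (1 : ZMod 2) else 0) else 0) =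
      (if d' = d then (if K.org d = v then 1 else 0) else 0) +
        if d' = rv d then (if K.org (rv d) = v then 1 else 0) else 0 := by
    intro d'
    by_cases h1 : d' = d
    · subst h1
      rw [if_pos rfl, if_pos rfl, if_neg (t0_rv_ne d').symm, add_zero]
    · rw [if_neg h1, zero_add]
      by_cases h2 : d' = rv d
      · subst h2
        rw [if_pos rfl]
        have : (rv d).1 = d.1 := rfl
        rw [this, if_pos rfl]
      · rw [if_neg h2]
        have h3 : ¬ d'.1 = d.1 := by
          intro h4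
          rcases t0_eq_or_rv h4.symm with h5 | h5
          · exact h1 h5.symm
          · exact h2 h5
        rw [if_neg h3]
        split_ifs <;> rfl
  rw [Finset.sum_congr rfl fun d' _ => h d', Finset.sum_add_distrib, Finset.sum_ite_eq',
    Finset.sum_ite_eq', if_pos (Finset.mem_univ _), if_pos (Finset.mem_univ _)]

open Classical in
/-- crossing edges of a set of faces -/
noncomputable def t0cr (C : Finset (Option K.F)) : K.E → ZMod 2 := fun e =>
  if ((∃ f ∈ C, (e, true) ∈ K.bd f) ↔ (∃ f ∈ C, (e, false) ∈ K.bd f)) then 0 else 1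

open Classical in
/-- membership in a set of faces -/
noncomputable def t0inn (C : Finset (Option K.F)) (d : K.E × Bool) : ℕ := ∑ f ∈ C, (K.bd f).count d

theorem t0_inn_le (C : Finset (Option K.F)) (d : K.E × Bool) : K.t0inn C d ≤ 1 := by
  rw [← K.once d]
  exact Finset.sum_le_sum_of_subset (Finset.subset_univ _)

theorem t0_inn_eq_one (C : Finset (Option K.F)) (d : K.E × Bool) :
    K.t0inn C d = 1 ↔ ∃ f ∈ C, d ∈ K.bd f := by
  have h := K.t0_inn_le C d
  constructor
  · intro h1
    by_contra hcon
    push Not at hcon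
    have : K.t0inn C d = 0 := Finset.sum_eq_zero fun f hf => List.count_eq_zero.2 (hcon f hf)
    omega
  · rintro ⟨f, hf, hd⟩
    have h1 : (K.bd f).count d ≤ K.t0inn C d :=
      Finset.single_le_sum (f := fun f => (K.bd f).count d) (fun _ _ => Nat.zero_le _) hf
    have h2 := List.count_pos_iff.2 hd
    omega

theorem t0_cr_eq (C : Finset (Option K.F)) (d : K.E × Bool) :
    K.t0cr C d.1 = (K.t0inn C d : ZMod 2) + (K.t0inn C (rv d) : ZMod 2) := by
  have key : ∀ d : K.E × Bool, (K.t0inn C d = 1 ∧ ∃ f ∈ C, d ∈ K.bd f) ∨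
      (K.t0inn C d = 0 ∧ ¬ ∃ f ∈ C, d ∈ K.bd f) := by
    intro d
    by_cases h : ∃ f ∈ C, d ∈ K.bd f
    · exact Or.inl ⟨(K.t0_inn_eq_one C d).2 h, h⟩
    · refine Or.inr ⟨?_, h⟩
      have h1 := K.t0_inn_le C d
      have h2 : K.t0inn C d ≠ 1 := fun h' => h ((K.t0_inn_eq_one C d).1 h')
      omega
  obtain ⟨e, b⟩ := d
  have h1 := key (e, true)
  have h2 := key (e, false)
  have h11 : (1 : ZMod 2) + 1 = 0 := by decide
  unfold t0cr
  cases b
  · change _ = (K.t0inn C (e, false) : ZMod 2) + (K.t0inn C (e, true) : ZMod 2)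
    rcases h1 with ⟨a1, b1⟩ | ⟨a1, b1⟩ <;> rcases h2 with ⟨a2, b2⟩ | ⟨a2, b2⟩ <;>
      rw [a1, a2] <;> simp only [b1, b2] <;> simp [h11]
  · change _ = (K.t0inn C (e, true) : ZMod 2) + (K.t0inn C (e, false) : ZMod 2)
    rcases h1 with ⟨a1, b1⟩ | ⟨a1, b1⟩ <;> rcases h2 with ⟨a2, b2⟩ | ⟨a2, b2⟩ <;>
      rw [a1, a2] <;> simp only [b1, b2] <;> simp [h11]

/-- closed walks -/
theorem t0_walk_perm {B V : Type} (o r : B → V) : ∀ (l : List B) (a : B),
    (a :: l).IsChain (fun a b => o b = r a) →
    ((a :: l).map r).Perm (l.map o ++ [r ((a :: l).getLast (List.cons_ne_nil _ _))])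
  | [], a, _ => by simp
  | b :: l, a, h => by
    rw [List.isChain_cons_cons] at h
    have ih := t0_walk_perm o r l b h.2
    rw [List.map_cons, List.getLast_cons (List.cons_ne_nil _ _), List.map_cons (f := o),
      List.cons_append, ← h.1]
    exact ih.cons _

theorem t0_face_perm (f : Option K.F) :
    ((K.bd f).map (fun d => K.org (rv d))).Perm ((K.bd f).map K.org) := by
  rcases hl : K.bd f with _ | ⟨a, l⟩
  · simp
  · have h1 := K.chain f
    have h2 := K.closed f
    rw [hl] at h1 h2
    have h3 := t0_walk_perm K.org (fun d => K.org (rv d)) l a h1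
    refine h3.trans ?_
    have h4 : K.org a = K.org (rv ((a :: l).getLast (List.cons_ne_nil _ _))) :=
      h2 _ (by rw [List.getLast?_eq_getLast_of_ne_nil (List.cons_ne_nil _ _)]; rfl) a rfl
    rw [← h4, List.map_cons]
    exact List.perm_append_singleton _ _

theorem t0_sum_count {B : Type} [Fintype B] [BEq B] [LawfulBEq B] (P : B → Prop) [DecidablePred P]
    (l : List B) :
    ∑ d : B, (if P d then l.count d else 0) = l.countP (fun d => decide (P d)) := by
  classical
  induction l with
  | nil => simp only [List.nodup_nil, List.count_nil, ite_self, sum_const_zero, List.countP_nil]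
  | cons a l ih =>
    rw [List.countP_cons, ← ih]
    have h : ∀ d : B, (if P d then (a :: l).count d else 0) =
        (if P d then l.count d else 0) + if d = a then (if P a then 1 else 0) else 0 := by
      intro d
      rw [List.count_cons]
      by_cases h1 : d = a
      · subst h1
        by_cases h2 : P d <;> simp [h2]
      · have h3 : ¬ (a == d) = true := by
          simpa only [beq_iff_eq] using fun h => h1 h.symm
        rw [if_neg h3, if_neg h1, add_zero, add_zero]
    rw [Finset.sum_congr rfl fun d _ => h d, Finset.sum_add_distrib, Finset.sum_ite_eq',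
      if_pos (Finset.mem_univ _)]
    by_cases h2 : P a <;> simp [h2]

theorem t0_face_sum (f : Option K.F) (v : K.V) :
    ∑ d : K.E × Bool, (if K.org d = v then (K.bd f).count d else 0) =
      ∑ d : K.E × Bool, (if K.org d = v then (K.bd f).count (rv d) else 0) := by
  have h1 : ∑ d : K.E × Bool, (if K.org d = v then (K.bd f).count (rv d) else 0) =
      ∑ d : K.E × Bool, (if K.org (rv d) = v then (K.bd f).count d else 0) := by
    refine Finset.sum_bij (fun d _ => rv d) (fun _ _ => Finset.mem_univ _) ?_ ?_ ?_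
    · intro a _ b _ h
      rw [← t0_rv_rv a, ← t0_rv_rv b]
      exact congrArg rv h
    · intro b _
      exact ⟨rv b, Finset.mem_univ _, t0_rv_rv b⟩
    · intro a _
      rw [t0_rv_rv]
  rw [h1, t0_sum_count (fun d => K.org d = v), t0_sum_count (fun d => K.org (rv d) = v)]
  have h2 := (K.t0_face_perm f).countP_eq (fun w => decide (w = v))
  rw [List.countP_map, List.countP_map] at h2
  exact h2.symm

/-- **EVEN**: the crossing edges of a set of faces form a cycle mod 2 -/
theorem t0_dg_cr (C : Finset (Option K.F)) (v : K.V) : K.t0dg (K.t0cr C) v = 0 := by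
  classical
  unfold t0dg
  have h1 : ∀ d : K.E × Bool, (if K.org d = v then K.t0cr C d.1 else 0) =
      (if K.org d = v then (K.t0inn C d : ZMod 2) else 0) +
        (if K.org d = v then (K.t0inn C (rv d) : ZMod 2) else 0) := by
    intro d
    rw [K.t0_cr_eq C d]
    split_ifs
    · rfl
    · rw [add_zero]
  rw [Finset.sum_congr rfl fun d _ => h1 d, Finset.sum_add_distrib]
  have h2 : ∑ d : K.E × Bool, (if K.org d = v then K.t0inn C d else 0) =
      ∑ d : K.E × Bool, (if K.org d = v then K.t0inn C (rv d) else 0) := by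
    have h3 : ∀ g : K.E × Bool → K.E × Bool,
        ∑ d : K.E × Bool, (if K.org d = v then K.t0inn C (g d) else 0) =
        ∑ f ∈ C, ∑ d : K.E × Bool, (if K.org d = v then (K.bd f).count (g d) else 0) := by
      intro g
      rw [Finset.sum_comm]
      refine Finset.sum_congr rfl fun d _ => ?_
      unfold t0inn
      split_ifs
      · rfl
      · rw [Finset.sum_const_zero]
    have h3a := h3 id
    simp only [id] at h3a
    rw [h3a, h3 rv]
    exact Finset.sum_congr rfl fun f _ => K.t0_face_sum f v
  have h4 : ∀ g : K.E × Bool → K.E × Bool,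
      ∑ d : K.E × Bool, (if K.org d = v then (K.t0inn C (g d) : ZMod 2) else 0) =
      ((∑ d : K.E × Bool, (if K.org d = v then K.t0inn C (g d) else 0) : ℕ) : ZMod 2) := by
    intro g
    push_cast
    exact Finset.sum_congr rfl fun d _ => by split_ifs <;> simp
  have h4a := h4 id
  simp only [id] at h4a
  rw [h4a, h4 rv, h2]
  exact CharTwo.add_self_eq_zero _

namespace STree

variable {K} (T : K.STree)

theorem t0_pd_inj {v w : K.V} {d d' : K.E × Bool} (h : T.pd v = some d) (h' : T.pd w = some d')
    (he : d.1 = d'.1) : v = w := by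
  rcases t0_eq_or_rv he with h1 | h1
  · rw [← T.or v d h, h1, T.or w d' h']
  · exfalso
    have a1 := T.dec v d h
    have a2 := T.dec w d' h'
    rw [← h1, T.or w d' h'] at a1
    rw [h1, t0_rv_rv, T.or v d h] at a2
    omega

/-- (D0 b): a cycle mod 2 inside a tree is empty -/
theorem t0_eq_zero_of_tree {χ : K.E → ZMod 2} (hc : ∀ v, K.t0dg χ v = 0)
    (ht : ∀ e, χ e ≠ 0 → T.Ed e) : χ = 0 := by
  classical
  by_contra hne
  obtain ⟨e0, he0⟩ : ∃ e, χ e ≠ 0 := by
    by_contra h
    push Not at h
    exact hne (funext h)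
  let B : Finset K.V := univ.filter fun v => ∃ d, T.pd v = some d ∧ χ d.1 ≠ 0
  have hB : B.Nonempty := by
    obtain ⟨v, d, h1, h2⟩ := ht e0 he0
    exact ⟨v, Finset.mem_filter.2 ⟨Finset.mem_univ _, d, h1, by rw [h2]; exact he0⟩⟩
  obtain ⟨v, hv, hmax⟩ := Finset.exists_max_image B T.hgt hB
  obtain ⟨d, hd, hχ⟩ := (Finset.mem_filter.1 hv).2
  have h1 := hc v
  unfold t0dg at h1
  rw [Finset.sum_eq_single d] at h1
  · rw [if_pos (T.or v d hd)] at h1
    exact hχ h1
  · intro d' _ hd'
    by_cases h2 : K.org d' = v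
    · rw [if_pos h2]
      by_contra h3
      obtain ⟨w, d'', h4, h5⟩ := ht _ h3
      rcases t0_eq_or_rv h5 with h6 | h6
      · rw [← h6, T.or w d'' h4] at h2
        rw [h2, hd] at h4
        exact hd' (h6.symm.trans (Option.some.inj h4).symm)
      · have h7 := T.dec w d'' h4
        rw [← h6, h2] at h7
        have h8 := hmax w (Finset.mem_filter.2 ⟨Finset.mem_univ _, d'', h4, by rw [h5]; exact h3⟩)
        omega
    · rw [if_neg h2]
  · intro h
    exact absurd (Finset.mem_univ _) h

end STree

end PC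

end Vale.Agent.P201.S
end

section

/-!
P201, part D3 (`StmtRec`): values of the cotree edges, with chains.
-/

namespace Vale.Agent.P201.S

open Finset

section expr
variable {S : Sys} {σ : Equiv.Perm S.C}

private theorem Expr.mul {k k' : ℕ} {u u' : FreeGroup (Let S)} {z z' : Chn σ} (h : Expr σ k u z)
    (h' : Expr σ k' u' z') : Expr σ (k + k') (u * u') (z + z') := by
  induction h with
  | nil => rw [zero_add, one_mul, zero_add]; exact h'
  | cons k u z v q _ ih =>
    rw [show k + 1 + k' = k + k' + 1 by omega, mul_assoc _ u u', add_assoc _ z z']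
    exact Expr.cons _ _ _ v q ih

private theorem Expr.rel (v : FreeGroup (Let S)) (q : Port S) :
    Expr σ 1 (v * val (relw σ q) * v⁻¹) (pch σ (PresentedGroup.mk (rels σ) v) q) := by
  have h := Expr.cons 0 1 0 v q (Expr.nil (σ := σ))
  rw [mul_one, add_zero] at h
  exact h

private theorem mk_relw (q : Port S) : PresentedGroup.mk (rels σ) (val (relw σ q)) = 1 :=
  PresentedGroup.mk_eq_one_iff.2 (Subgroup.subset_normalClosure ⟨q, rfl⟩)

private theorem Expr.mk_eq_one {k : ℕ} {u : FreeGroup (Let S)} {z : Chn σ} (h : Expr σ k u z) :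
    PresentedGroup.mk (rels σ) u = 1 := by
  induction h with
  | nil => exact map_one _
  | cons k u z v q _ ih =>
    rw [map_mul, map_mul, map_mul, mk_relw, ih, mul_one, mul_one, map_inv, mul_inv_cancel]

end expr

namespace PC

variable {A : Type} (K : PC A)

private theorem rec_rv_rv {E : Type} (d : E × Bool) : rv (rv d) = d := by
  rcases d with ⟨e, b⟩
  simp [rv]

/-- a dart lies on one face only -/
private theorem once_face {d : K.E × Bool} {f g : Option K.F} (hf : d ∈ K.bd f) (hg : d ∈ K.bd g) :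
    f = g := by
  by_contra h
  have h1 := K.once d
  have h2 : (K.bd f).count d + (K.bd g).count d ≤ ∑ f, (K.bd f).count d := by
    rw [← Finset.sum_pair (f := fun f => (K.bd f).count d) h]
    exact Finset.sum_le_sum_of_subset (Finset.subset_univ _)
  have h3 := List.count_pos_iff.2 hf
  have h4 := List.count_pos_iff.2 hg
  omega

private theorem once_count {d : K.E × Bool} {f : Option K.F} (hf : d ∈ K.bd f) : (K.bd f).count d = 1 := by
  have h1 := K.once d
  have h2 : (K.bd f).count d ≤ ∑ f, (K.bd f).count d :=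
    Finset.single_le_sum (f := fun f => (K.bd f).count d) (fun _ _ => Nat.zero_le _)
      (Finset.mem_univ f)
  have h3 := List.count_pos_iff.2 hf
  omega

private theorem rec_bd_nodup (f : Option K.F) : (K.bd f).Nodup := by
  rw [List.nodup_iff_count_eq_one]
  exact fun d hd => K.once_count hd

namespace Cotree

variable {K} (T : K.Cotree)

private theorem c_rv (d : K.E × Bool) : T.c (rv d) = (T.c d)⁻¹ := by
  unfold c
  rw [rec_rv_rv, mul_inv_rev, mul_inv_rev, inv_inv, mul_assoc]
  congr 2

private theorem c_triv {d : K.E × Bool} (h : ∀ f, (T.dd f).1 ≠ d.1) : T.c d = 1 := by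
  unfold c
  rw [T.triv d h, mul_inv_cancel]

/-- the darts of a face -/
private theorem dart_cases {f : K.F} {d : K.E × Bool} (hd : d ∈ K.bd (some f)) :
    (∀ g, (T.dd g).1 ≠ d.1) ∨ d = T.dd f ∨ ∃ g, T.par g = some f ∧ d = rv (T.dd g) := by
  by_cases h : ∀ g, (T.dd g).1 ≠ d.1
  · exact Or.inl h
  · push Not at h
    obtain ⟨g, hg⟩ := h
    right
    by_cases h2 : (T.dd g).2 = d.2
    · left
      have h3 : T.dd g = d := Prod.ext hg h2
      have h4 := K.once_face (h3 ▸ T.mem g) hd
      rw [← h3, Option.some.inj h4]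
    · right
      have h3 : d = rv (T.dd g) := by
        refine Prod.ext hg.symm ?_
        change d.2 = !(T.dd g).2
        cases h5 : d.2 <;> cases h6 : (T.dd g).2 <;> simp_all
      exact ⟨g, K.once_face (T.memr g) (h3 ▸ hd), h3⟩

private theorem dd_inj {f g : K.F} (h : T.dd f = T.dd g) : f = g :=
  Option.some.inj (K.once_face (T.mem f) (h ▸ T.mem g))

private theorem rv_dd_ne (f g : K.F) : rv (T.dd g) ≠ T.dd f := by
  intro h
  have h1 : T.par g = some f := K.once_face (T.memr g) (h ▸ T.mem f)
  have h2 : T.par f = some g := K.once_face (T.memr f) (by rw [← h, rec_rv_rv]; exact T.mem g)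
  have h3 := T.dec g f h1
  have h4 := T.dec f g h2
  omega

/-- the product of the values along a walk -/
private theorem prod_walk (L : List (K.E × Bool)) : ∀ d : K.E × Bool,
    (d :: L).IsChain (fun a b => K.org b = K.org (rv a)) → ∀ e ∈ (d :: L).getLast?,
    ((d :: L).map T.c).prod = T.pot (K.org d) *
      FreeGroup.mk ((d :: L).map fun d => (K.lab d.1, d.2)) * (T.pot (K.org (rv e)))⁻¹ := by
  induction L with
  | nil =>
    intro d _ e he
    simp only [List.getLast?_singleton, Option.mem_def, Option.some.injEq] at he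
    subst he
    simp only [List.map_cons, c, lt, List.map_nil, List.prod_cons, List.prod_nil, mul_one]
  | cons a L ih =>
    intro d hd e he
    rw [List.isChain_cons_cons] at hd
    have h1 := ih a hd.2 e (by rw [List.getLast?_cons_cons] at he; exact he)
    rw [List.map_cons, List.prod_cons, h1]
    have h2 : FreeGroup.mk ((d :: a :: L).map fun d => (K.lab d.1, d.2)) =
        K.lt d * FreeGroup.mk ((a :: L).map fun d => (K.lab d.1, d.2)) := by
      unfold lt
      rw [FreeGroup.mul_mk]
      rfl
    rw [h2, c, hd.1]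
    group

private theorem desc_self (f : K.F) : T.Desc f f := Relation.ReflTransGen.refl

private theorem desc_rank {f g : K.F} (h : T.Desc f g) : T.rank f ≤ T.rank g := by
  unfold Desc at h
  induction h with
  | refl => exact le_rfl
  | tail _ hbc ih => exact (T.dec _ _ hbc).le.trans ih

private theorem mem_sub {f g : K.F} : g ∈ T.sub f ↔ T.Desc f g := by
  unfold sub
  simp only [mem_filter, mem_univ, true_and]

open Classical in
/-- the children of a face -/
private noncomputable def kid (f : K.F) : Finset K.F := univ.filter fun g => T.par g = some f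

private theorem mem_kid {f g : K.F} : g ∈ T.kid f ↔ T.par g = some f := by
  unfold kid
  simp only [mem_filter, mem_univ, true_and]

private theorem sub_eq (f : K.F) : T.sub f = insert f ((T.kid f).biUnion T.sub) := by
  ext g
  rw [mem_sub, Finset.mem_insert, Finset.mem_biUnion]
  constructor
  · intro h
    unfold Desc at h
    rcases Relation.ReflTransGen.cases_tail h with h | ⟨h', h1, h2⟩
    · exact Or.inl h.symm
    · exact Or.inr ⟨h', T.mem_kid.2 h2, T.mem_sub.2 h1⟩
  · rintro (h | ⟨h', h1, h2⟩)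
    · rw [h]; exact T.desc_self f
    · exact Relation.ReflTransGen.tail (T.mem_sub.1 h2) (T.mem_kid.1 h1)

private theorem notMem_kid_sub (f : K.F) : f ∉ (T.kid f).biUnion T.sub := by
  intro h
  obtain ⟨g, hg, h2⟩ := Finset.mem_biUnion.1 h
  have h3 := T.desc_rank (T.mem_sub.1 h2)
  have h4 := T.dec _ _ (T.mem_kid.1 hg)
  omega

private theorem kid_disj (f : K.F) : Set.PairwiseDisjoint (T.kid f : Set K.F) T.sub := by
  intro g hg g' hg' hne
  change Disjoint _ _
  rw [Finset.disjoint_left]
  intro x hx hx'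
  have h1 := T.mem_sub.1 hx
  have h2 := T.mem_sub.1 hx'
  have hg1 := T.mem_kid.1 hg
  have hg2 := T.mem_kid.1 hg'
  have key : ∀ a b : K.F, T.par a = some f → T.par b = some f → a ≠ b →
      ¬ Relation.ReflTransGen (fun a b => T.par a = some b) a b := by
    intro a b ha hb hab h
    rcases Relation.ReflTransGen.cases_head h with h | ⟨y, h3, h4⟩
    · exact hab h
    · rw [ha] at h3
      have h5 := Option.some.inj h3
      subst h5
      have h6 := T.desc_rank (f := b) (g := f) h4
      have h7 := T.dec _ _ hb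
      omega
  rcases Relation.ReflTransGen.total_of_right_unique
    (r := fun a b => T.par a = some b) (fun a b c hab hac => Option.some.inj (hab.symm.trans hac))
    h1 h2 with h | h
  · exact key g g' hg1 hg2 hne h
  · exact key g' g hg2 hg1 hne.symm h

private theorem card_sub (f : K.F) : (T.sub f).card = 1 + ∑ g ∈ T.kid f, (T.sub g).card := by
  rw [T.sub_eq, Finset.card_insert_of_notMem (T.notMem_kid_sub f),
    Finset.card_biUnion (fun a ha b hb hab => T.kid_disj f ha hb hab), add_comm]

private theorem sum_sub {M : Type*} [AddCommMonoid M] (F : K.F → M) (f : K.F) :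
    ∑ x ∈ T.sub f, F x = F f + ∑ g ∈ T.kid f, ∑ x ∈ T.sub g, F x := by
  rw [T.sub_eq, Finset.sum_insert (T.notMem_kid_sub f), Finset.sum_biUnion (T.kid_disj f)]

end Cotree

end PC

section main
variable {S : Sys} {σ : Equiv.Perm S.C}

open PC

/-- the chain of the subtrees with the potentials of the cotree -/
private noncomputable def chT (K : SqK σ) (T : K.toPC.Cotree) (f : K.F) : Chn σ :=
  ∑ g ∈ T.sub f, ∑ d ∈ ((K.bd (some g)).head?).toFinset,
    pch σ (PresentedGroup.mk (rels σ) (T.pot (K.org d))) (K.q g)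

/-- the product of the values over the darts of a part of a face -/
private theorem expr_part (K : SqK σ) (T : K.toPC.Cotree) (f : K.F)
    (ih : ∀ g, T.par g = some f → Expr σ (T.sub g).card (T.c (T.dd g)) (chT K T g))
    (l : List (K.E × Bool)) (hn : l.Nodup) (hl : ∀ d ∈ l, d ∈ K.bd (some f) ∧ d ≠ T.dd f) :
    Expr σ (∑ g ∈ (T.kid f).filter (fun g => rv (T.dd g) ∈ l), (T.sub g).card)
      ((l.map T.c).prod)⁻¹ (∑ g ∈ (T.kid f).filter (fun g => rv (T.dd g) ∈ l), chT K T g) := by
  classical
  induction l with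
  | nil =>
    simp only [List.not_mem_nil, filter_false, sum_empty, List.map_nil, List.prod_nil, inv_one]
    exact Expr.nil
  | cons d l ihl =>
    have hn' := List.nodup_cons.1 hn
    have h1 := ihl hn'.2 (fun d hd => hl d (List.mem_cons_of_mem _ hd))
    rw [List.map_cons, List.prod_cons, mul_inv_rev]
    obtain ⟨hd, hdf⟩ := hl d List.mem_cons_self
    rcases T.dart_cases hd with h | h | ⟨g, hg, h⟩
    · rw [T.c_triv h, inv_one, mul_one]
      have h2 : (T.kid f).filter (fun g => rv (T.dd g) ∈ d :: l) =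
          (T.kid f).filter (fun g => rv (T.dd g) ∈ l) := by
        refine Finset.filter_congr fun g _ => ?_
        rw [List.mem_cons]
        constructor
        · rintro (h3 | h3)
          · exact absurd (congrArg Prod.fst h3) (h g)
          · exact h3
        · exact Or.inr
      rw [h2]
      exact h1
    · exact absurd h hdf
    · have h2 : (T.kid f).filter (fun g => rv (T.dd g) ∈ d :: l) =
          insert g ((T.kid f).filter (fun g => rv (T.dd g) ∈ l)) := by
        ext x
        rw [Finset.mem_insert, Finset.mem_filter, Finset.mem_filter, List.mem_cons, h]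
        constructor
        · rintro ⟨h3, h4 | h4⟩
          · left
            apply T.dd_inj
            rw [← PC.rec_rv_rv (T.dd x), h4, PC.rec_rv_rv]
          · exact Or.inr ⟨h3, h4⟩
        · rintro (h3 | ⟨h3, h4⟩)
          · rw [h3]
            exact ⟨T.mem_kid.2 hg, Or.inl rfl⟩
          · exact ⟨h3, Or.inr h4⟩
      have h3 : g ∉ (T.kid f).filter (fun g => rv (T.dd g) ∈ l) := by
        intro h4
        rw [Finset.mem_filter, ← h] at h4
        exact hn'.1 h4.2
      rw [h2, Finset.sum_insert h3, Finset.sum_insert h3, add_comm (T.sub g).card,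
        add_comm (chT K T g)]
      refine Expr.mul h1 ?_
      rw [h, T.c_rv, inv_inv]
      exact ih g hg

/-- the value of a cotree edge -/
private theorem expr_main (K : SqK σ) (T : K.toPC.Cotree) : ∀ (m : ℕ) (f : K.F),
    univ.sup T.rank - T.rank f = m → Expr σ (T.sub f).card (T.c (T.dd f)) (chT K T f) := by
  classical
  intro m
  induction m using Nat.strong_induction_on with
  | _ m ihm =>
    intro f hf
    have ih : ∀ g, T.par g = some f → Expr σ (T.sub g).card (T.c (T.dd g)) (chT K T g) := by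
      intro g hg
      have h1 := T.dec g f hg
      have h2 : T.rank g ≤ univ.sup T.rank := Finset.le_sup (f := T.rank) (Finset.mem_univ g)
      exact ihm (univ.sup T.rank - T.rank g) (by omega) g rfl
    obtain ⟨l1, l2, hl⟩ := List.append_of_mem (T.mem f)
    have hnd := K.toPC.rec_bd_nodup (some f)
    rw [hl] at hnd
    have hnd1 : l1.Nodup := (List.nodup_append.1 hnd).1
    have hnd2 : (T.dd f :: l2).Nodup := (List.nodup_append.1 hnd).2.1
    have hdis : ∀ a ∈ l1, ∀ b ∈ T.dd f :: l2, a ≠ b := (List.nodup_append.1 hnd).2.2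
    have h1 := expr_part K T f ih l1 hnd1 (fun d hd => ⟨by
      rw [hl]; exact List.mem_append_left _ hd, hdis d hd _ List.mem_cons_self⟩)
    have h2 := expr_part K T f ih l2 (List.nodup_cons.1 hnd2).2 (fun d hd => ⟨by
      rw [hl]; exact List.mem_append_right _ (List.mem_cons_of_mem _ hd), fun h =>
        (List.nodup_cons.1 hnd2).1 (h ▸ hd)⟩)
    -- the relator
    obtain ⟨d0, L, hdL⟩ := List.exists_cons_of_ne_nil (K.ne f)
    have hlast : ∃ e, e ∈ (d0 :: L).getLast? := by
      exact ⟨_, List.getLast?_eq_some_getLast (List.cons_ne_nil _ _)⟩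
    obtain ⟨e, he⟩ := hlast
    have hch := K.chain (some f)
    have hcl := K.closed (some f)
    rw [hdL] at hch hcl
    have h3 := T.prod_walk L d0 hch e he
    have h4 : K.org d0 = K.org (rv e) := hcl e he d0 rfl
    have h5 : ((d0 :: L).map fun d => (K.lab d.1, d.2)) = relw σ (K.q f) := by
      rw [← hdL]; exact K.sq f
    rw [h5, ← h4, ← hdL, hl, List.map_append, List.prod_append, List.map_cons, List.prod_cons] at h3
    have h6 : T.c (T.dd f) = ((l1.map T.c).prod)⁻¹ *
        (T.pot (K.org d0) * val (relw σ (K.q f)) * (T.pot (K.org d0))⁻¹) *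
        ((l2.map T.c).prod)⁻¹ := by
      unfold val
      rw [← h3]
      group
    rw [h6]
    have h7 := Expr.mul (Expr.mul h1 (Expr.rel (σ := σ) (T.pot (K.org d0)) (K.q f))) h2
    have hk : T.kid f = (T.kid f).filter (fun g => rv (T.dd g) ∈ l1) ∪
        (T.kid f).filter (fun g => rv (T.dd g) ∈ l2) := by
      ext g
      rw [Finset.mem_union, Finset.mem_filter, Finset.mem_filter]
      constructor
      · intro h
        have h8 := T.memr g
        rw [T.mem_kid.1 h, hl, List.mem_append, List.mem_cons] at h8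
        rcases h8 with h8 | h8 | h8
        · exact Or.inl ⟨h, h8⟩
        · exact absurd h8 (T.rv_dd_ne f g)
        · exact Or.inr ⟨h, h8⟩
      · rintro (h | h) <;> exact h.1
    have hkd : Disjoint ((T.kid f).filter (fun g => rv (T.dd g) ∈ l1))
        ((T.kid f).filter (fun g => rv (T.dd g) ∈ l2)) := by
      rw [Finset.disjoint_left]
      intro g h9 h10
      exact hdis _ (Finset.mem_filter.1 h9).2 _
        (List.mem_cons_of_mem _ (Finset.mem_filter.1 h10).2) rfl
    have hc : (T.sub f).card = (∑ g ∈ (T.kid f).filter (fun g => rv (T.dd g) ∈ l1),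
        (T.sub g).card) + 1 + ∑ g ∈ (T.kid f).filter (fun g => rv (T.dd g) ∈ l2),
        (T.sub g).card := by
      rw [T.card_sub]
      conv_lhs => rw [hk]
      rw [Finset.sum_union hkd]
      ring
    have hz : chT K T f = (∑ g ∈ (T.kid f).filter (fun g => rv (T.dd g) ∈ l1), chT K T g) +
        pch σ (PresentedGroup.mk (rels σ) (T.pot (K.org d0))) (K.q f) +
        ∑ g ∈ (T.kid f).filter (fun g => rv (T.dd g) ∈ l2), chT K T g := by
      have h8 : chT K T f = (∑ d ∈ ((K.bd (some f)).head?).toFinset,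
          pch σ (PresentedGroup.mk (rels σ) (T.pot (K.org d))) (K.q f)) +
          ∑ g ∈ T.kid f, chT K T g := T.sum_sub _ f
      rw [h8, hdL, List.head?_cons, Option.toFinset_some, Finset.sum_singleton]
      conv_lhs => rw [hk]
      rw [Finset.sum_union hkd]
      abel
    rw [hc, hz]
    exact h7

/-- (D3) -/
theorem stmtRec : StmtRec := by
  intro S σ K P T hroot
  have h0 : ∀ f, Expr σ (T.sub f).card (T.c (T.dd f)) (chT K T f) :=
    fun f => expr_main K T _ f rfl
  have h1 : ∀ d, PresentedGroup.mk (rels σ) (T.c d) = 1 := by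
    intro d
    by_cases h : ∀ f, (T.dd f).1 ≠ d.1
    · rw [T.c_triv h, map_one]
    · push Not at h
      obtain ⟨f, hf⟩ := h
      by_cases h2 : (T.dd f).2 = d.2
      · rw [← (Prod.ext hf h2 : T.dd f = d)]
        exact (h0 f).mk_eq_one
      · have h3 : d = rv (T.dd f) := by
          refine Prod.ext hf.symm ?_
          change d.2 = !(T.dd f).2
          cases h5 : d.2 <;> cases h6 : (T.dd f).2 <;> simp_all
        rw [h3, T.c_rv, map_inv, (h0 f).mk_eq_one, inv_one]
  have h2 : ∀ v, PresentedGroup.mk (rels σ) (T.pot v) = P.π v := by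
    intro v
    have h3 := K.conn T.root v
    induction h3 with
    | refl => rw [T.pot_root, map_one, hroot]
    | tail _ hbc ih =>
      obtain ⟨d, hd1, hd2⟩ := hbc
      have h4 := h1 d
      unfold PC.Cotree.c at h4
      rw [map_mul, map_mul, map_inv, mul_inv_eq_one] at h4
      rw [← hd2, ← h4, hd1, ih, ← P.st d, hd1]
  refine ⟨h2, fun f => ?_⟩
  have h3 := h0 f
  unfold chT at h3
  simp only [h2] at h3
  exact h3

end main

end Vale.Agent.P201.S
end

section

/-!
P201, part LA: ports, and cycles of partial injections.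
-/

namespace Vale.Agent.P201.S

open Finset

section port

variable {S : Sys} (σ : Equiv.Perm S.C)

theorem mt_mt (q : Port S) : mt σ (mt σ q) = q := by
  obtain ⟨c, e⟩ := q
  cases e <;> simp [mt]

theorem mt_snd (q : Port S) : (mt σ q).2 = !q.2 := by
  obtain ⟨c, e⟩ := q
  cases e <;> simp [mt]

theorem mt_ne (q : Port S) : mt σ q ≠ q := by
  intro h
  have h1 := mt_snd σ q
  rw [h] at h1
  cases h2 : q.2 <;> rw [h2] at h1 <;> simp at h1

theorem mt_inj {q q' : Port S} (h : mt σ q = mt σ q') : q = q' := by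
  rw [← mt_mt σ q, h, mt_mt]

end port

section cyc

variable {S : Type}

theorem pit_zero (f : S ≃. S) (s : S) : pit f 0 s = some s := rfl

theorem pit_succ (f : S ≃. S) (k : ℕ) (s : S) : pit f (k + 1) s = (f s).bind (pit f k) := rfl

theorem pit_one (f : S ≃. S) (s : S) : pit f 1 s = f s := by
  rw [pit_succ]
  cases h : f s <;> simp [pit_zero]

theorem pit_add (f : S ≃. S) (a b : ℕ) (s : S) :
    pit f (a + b) s = (pit f a s).bind (pit f b) := by
  induction a generalizing s with
  | zero => rw [Nat.zero_add, pit_zero]; rfl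
  | succ a ih =>
    rw [Nat.succ_add_eq_add_succ, Nat.add_succ, pit_succ, pit_succ]
    cases h : f s with
    | none => rfl
    | some t => exact ih t

theorem pit_succ' (f : S ≃. S) (k : ℕ) (s : S) : pit f (k + 1) s = (pit f k s).bind f := by
  rw [pit_add]
  congr 1
  funext t
  exact pit_one f t

theorem pit_inj {f : S ≃. S} {k : ℕ} {s s' t : S} (h : pit f k s = some t)
    (h' : pit f k s' = some t) : s = s' := by
  induction k generalizing s s' with
  | zero =>
    rw [pit_zero, Option.some.injEq] at h h'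
    rw [h, h']
  | succ k ih =>
    rw [pit_succ, Option.bind_eq_some_iff] at h h'
    obtain ⟨u, hu, h⟩ := h
    obtain ⟨u', hu', h'⟩ := h'
    have := ih h h'
    subst this
    exact f.inj hu hu'

theorem pit_mul {f : S ≃. S} {k : ℕ} {s : S} (h : pit f k s = some s) (m : ℕ) :
    pit f (k * m) s = some s := by
  induction m with
  | zero => rfl
  | succ m ih =>
    rw [Nat.mul_succ, pit_add, ih]
    exact h

theorem Per.dom {f : S ≃. S} {s : S} (h : Per f s) : (f s).isSome := by
  obtain ⟨k, hk, h⟩ := h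
  obtain ⟨k, rfl⟩ : ∃ m, k = m + 1 := ⟨k - 1, by omega⟩
  rw [pit_succ, Option.bind_eq_some_iff] at h
  obtain ⟨u, hu, -⟩ := h
  have hu' : f s = some u := hu
  rw [hu']
  rfl

/-- going around -/
theorem Per.back {f : S ≃. S} {s t : S} (h : Per f s) {j : ℕ} (hj : pit f j s = some t) :
    ∃ i, pit f i t = some s := by
  obtain ⟨k, hk, h⟩ := h
  refine ⟨k * (j + 1) - j, ?_⟩
  have h1 : j ≤ k * (j + 1) := by nlinarith
  have h2 := pit_mul h (j + 1)
  rw [show k * (j + 1) = j + (k * (j + 1) - j) by omega, pit_add, hj] at h2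
  exact h2

theorem Per.of_pit {f : S ≃. S} {s t : S} (h : Per f s) {j : ℕ} (hj : pit f j s = some t) :
    Per f t := by
  obtain ⟨i, hi⟩ := h.back hj
  obtain ⟨k, hk, h⟩ := h
  refine ⟨i + (k + j), by omega, ?_⟩
  rw [pit_add, hi, Option.bind_some, pit_add, h, Option.bind_some, hj]

theorem Per.step {f : S ≃. S} {s t : S} (h : Per f s) (hj : f s = some t) : Per f t :=
  h.of_pit (j := 1) (by rw [pit_one, hj])

variable [Fintype S]

theorem mem_orb {f : S ≃. S} {s t : S} : t ∈ orb f s ↔ ∃ k, pit f k s = some t := by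
  unfold orb
  simp only [mem_filter, mem_univ, true_and]

theorem self_mem_orb (f : S ≃. S) (s : S) : s ∈ orb f s := mem_orb.2 ⟨0, rfl⟩

theorem orb_trans {f : S ≃. S} {s t u : S} (h1 : t ∈ orb f s) (h2 : u ∈ orb f t) :
    u ∈ orb f s := by
  obtain ⟨a, ha⟩ := mem_orb.1 h1
  obtain ⟨b, hb⟩ := mem_orb.1 h2
  exact mem_orb.2 ⟨a + b, by rw [pit_add, ha, Option.bind_some, hb]⟩

theorem step_mem_orb {f : S ≃. S} {s t u : S} (h1 : t ∈ orb f s) (h2 : f t = some u) :
    u ∈ orb f s := orb_trans h1 (mem_orb.2 ⟨1, by rw [pit_one, h2]⟩)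

theorem Per.symm_mem {f : S ≃. S} {s t : S} (h : Per f s) (ht : t ∈ orb f s) : s ∈ orb f t := by
  obtain ⟨j, hj⟩ := mem_orb.1 ht
  exact mem_orb.2 (h.back hj)

theorem Per.of_mem {f : S ≃. S} {s t : S} (h : Per f s) (ht : t ∈ orb f s) : Per f t := by
  obtain ⟨j, hj⟩ := mem_orb.1 ht
  exact h.of_pit hj

theorem Per.orb_eq {f : S ≃. S} {s t : S} (h : Per f s) (ht : t ∈ orb f s) :
    orb f t = orb f s := by
  ext u
  exact ⟨fun hu => orb_trans ht hu, fun hu => orb_trans (h.symm_mem ht) hu⟩

open Classical in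
theorem per_fibre {f : S ≃. S} {s : S} (h : Per f s) :
    ((univ.filter (Per f)).filter fun t => orb f t = orb f s) = orb f s := by
  ext t
  rw [mem_filter, mem_filter]
  constructor
  · rintro ⟨-, h1⟩
    rw [← h1]
    exact self_mem_orb f t
  · intro ht
    exact ⟨⟨mem_univ _, h.of_mem ht⟩, h.orb_eq ht⟩

open Classical in
/-- sums over the periodic points, cycle by cycle -/
theorem sum_cyc (f : S ≃. S) (w : S → ℕ) :
    ∑ O ∈ (univ.filter (Per f)).image (orb f), ∑ t ∈ O, w t = ∑ s ∈ univ.filter (Per f), w s := by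
  rw [← Finset.sum_fiberwise_of_maps_to (t := (univ.filter (Per f)).image (orb f)) (g := orb f)
    fun s hs => mem_image_of_mem _ hs]
  refine sum_congr rfl fun O hO => ?_
  obtain ⟨s, hs, rfl⟩ := mem_image.1 hO
  rw [per_fibre (mem_filter.1 hs).2]

open Classical in
/-- counting cycles with weights, up to one exceptional cycle -/
theorem cyc_weight (f : S ≃. S) (w : S → ℕ) (c : ℕ) (Ex : S → Prop)
    (hEx : ∀ s s', Per f s → Per f s' → Ex s → Ex s' → orb f s = orb f s')
    (hw : ∀ s, Per f s → ¬ Ex s → c ≤ ∑ t ∈ orb f s, w t) :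
    c * cyc f ≤ ∑ s ∈ univ.filter (fun s => (f s).isSome), w s + c := by
  have h0 : ∑ s ∈ univ.filter (Per f), w s ≤ ∑ s ∈ univ.filter (fun s => (f s).isSome), w s := by
    refine sum_le_sum_of_subset fun s hs => ?_
    rw [mem_filter] at hs ⊢
    exact ⟨hs.1, hs.2.dom⟩
  have h1 := sum_cyc f w
  have h2 : c * cyc f ≤ ∑ O ∈ (univ.filter (Per f)).image (orb f), ∑ t ∈ O, w t + c := by
    unfold cyc
    set C := (univ.filter (Per f)).image (orb f) with hC
    have hc : ∀ O ∈ C, ∃ s, Per f s ∧ orb f s = O := by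
      intro O hO
      obtain ⟨s, hs, h⟩ := mem_image.1 hO
      exact ⟨s, (mem_filter.1 hs).2, h⟩
    by_cases hne : ∃ s, Per f s ∧ Ex s
    · obtain ⟨s0, hs0, he0⟩ := hne
      have hmem : orb f s0 ∈ C := mem_image_of_mem _ (mem_filter.2 ⟨mem_univ _, hs0⟩)
      rw [← Finset.add_sum_erase C _ hmem]
      have h3 : (C.erase (orb f s0)).card • c ≤ ∑ O ∈ C.erase (orb f s0), ∑ t ∈ O, w t := by
        refine Finset.card_nsmul_le_sum _ _ _ fun O hO => ?_
        obtain ⟨hO1, hO2⟩ := mem_erase.1 hO
        obtain ⟨s, hs, rfl⟩ := hc O hO2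
        refine hw s hs fun hE => hO1 (hEx s s0 hs hs0 hE he0)
      have h4 := card_erase_add_one hmem
      rw [smul_eq_mul] at h3
      rw [← h4, Nat.mul_add, Nat.mul_one, Nat.mul_comm c]
      omega
    · push Not at hne
      have h3 : C.card • c ≤ ∑ O ∈ C, ∑ t ∈ O, w t := by
        refine Finset.card_nsmul_le_sum _ _ _ fun O hO => ?_
        obtain ⟨s, hs, rfl⟩ := hc O hO
        exact hw s hs (hne s hs)
      rw [smul_eq_mul] at h3
      rw [Nat.mul_comm c]
      omega
  (clear * - h0 h1 h2; omega)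

open Classical in
/-- counting cycles with weights -/
theorem cyc_weight0 (f : S ≃. S) (w : S → ℕ) (c : ℕ)
    (hw : ∀ s, Per f s → c ≤ ∑ t ∈ orb f s, w t) :
    c * cyc f ≤ ∑ s ∈ univ.filter (fun s => (f s).isSome), w s := by
  have h0 : ∑ s ∈ univ.filter (Per f), w s ≤ ∑ s ∈ univ.filter (fun s => (f s).isSome), w s := by
    refine sum_le_sum_of_subset fun s hs => ?_
    rw [mem_filter] at hs ⊢
    exact ⟨hs.1, hs.2.dom⟩
  have h1 := sum_cyc f w
  unfold cyc
  have h3 : ((univ.filter (Per f)).image (orb f)).card • c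
      ≤ ∑ O ∈ (univ.filter (Per f)).image (orb f), ∑ t ∈ O, w t := by
    refine Finset.card_nsmul_le_sum _ _ _ fun O hO => ?_
    obtain ⟨s, hs, rfl⟩ := mem_image.1 hO
    exact hw s (mem_filter.1 hs).2
  rw [smul_eq_mul] at h3
  rw [Nat.mul_comm c]
  omega

theorem domc_le_card (f : S ≃. S) : domc f ≤ Fintype.card S := by
  unfold domc
  exact (card_le_univ _)

end cyc

end Vale.Agent.P201.S
end

section

/-!
P201, part D6/D7 (bridge): sides of the squares, gluing data of a planar complex (helper273).
-/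

namespace Vale.Agent.P201.S

open Finset

variable {S : Sys}

/-! ## General facts on darts and faces -/

@[simp] lemma rv_rv {E : Type} (d : E × Bool) : rv (rv d) = d := by
  simp [rv]

@[simp] lemma rv_fst {E : Type} (d : E × Bool) : (rv d).1 = d.1 := rfl

@[simp] lemma rv_snd {E : Type} (d : E × Bool) : (rv d).2 = !d.2 := rfl

lemma rv_inj {E : Type} {d d' : E × Bool} (h : rv d = rv d') : d = d' := by
  rw [← rv_rv d, h, rv_rv]

lemma rv_ne {E : Type} (d : E × Bool) : rv d ≠ d := by
  intro h
  have := congrArg Prod.snd h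
  simp at this

namespace PC

variable {A : Type} (K : PC A)

lemma exists_face (d : K.E × Bool) : ∃ f, d ∈ K.bd f := by
  by_contra h
  push Not at h
  have := K.once d
  rw [Finset.sum_eq_zero (fun f _ => List.count_eq_zero.2 (h f))] at this
  exact absurd this (by norm_num)

lemma face_unique {d : K.E × Bool} {f g : Option K.F} (hf : d ∈ K.bd f) (hg : d ∈ K.bd g) :
    f = g := by
  by_contra hne
  have h1 : 1 ≤ (K.bd f).count d := List.one_le_count_iff.2 hf
  have h2 : 1 ≤ (K.bd g).count d := List.one_le_count_iff.2 hg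
  have := K.once d
  have h3 : (K.bd f).count d + (K.bd g).count d ≤ ∑ f, (K.bd f).count d := by
    rw [← Finset.sum_pair hne (f := fun f => (K.bd f).count d)]
    exact Finset.sum_le_sum_of_subset (Finset.subset_univ _)
  omega

lemma bd_nodup (f : Option K.F) : (K.bd f).Nodup := by
  rw [List.nodup_iff_count_le_one]
  intro d
  have := K.once d
  have h3 : (K.bd f).count d ≤ ∑ f, (K.bd f).count d :=
    Finset.single_le_sum (f := fun f => (K.bd f).count d) (fun _ _ => Nat.zero_le _)
      (Finset.mem_univ f)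
  omega

lemma mem_fc (d : K.E × Bool) : d ∈ K.bd (K.fc d) :=
  Classical.epsilon_spec (K.exists_face d)

lemma fc_eq {d : K.E × Bool} {f : Option K.F} (h : d ∈ K.bd f) : K.fc d = f :=
  K.face_unique (K.mem_fc d) h

end PC

/-! ## Sides of a square -/

/-- The list of darts of a square, decomposed:
`xs` start x-side, `T1` the t-darts of the start, `ys` start y-side, `ye` end y-side (reversed),
`T2` the t-darts of the end (reversed), `xe` end x-side (reversed). -/
structure Sides (K : PC (Let S)) (σ : Equiv.Perm S.C) (g : Option K.F) (q : Port S) where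
  xs : K.E × Bool
  T1 : List (K.E × Bool)
  ys : K.E × Bool
  ye : K.E × Bool
  T2 : List (K.E × Bool)
  xe : K.E × Bool
  bd : K.bd g = xs :: (T1 ++ ys :: ye :: (T2 ++ [xe]))
  lxs : K.lab xs.1 = .x (S.rc q)
  sxs : xs.2 = true
  lT1 : T1.map (fun d => (K.lab d.1, d.2)) = tw S (S.ht q)
  lys : K.lab ys.1 = .y (S.blk q)
  sys : ys.2 = true
  lye : K.lab ye.1 = .y (S.blk (mt σ q))
  sye : ye.2 = false
  lT2 : T2.map (fun d => (K.lab d.1, d.2)) = winv (tw S (S.ht (mt σ q)))
  lxe : K.lab xe.1 = .x (S.rc (mt σ q))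
  sxe : xe.2 = false

theorem exists_sides {K : PC (Let S)} {σ : Equiv.Perm S.C} {g : Option K.F} {q : Port S}
    (h : K.wd g = relw σ q) : Nonempty (Sides K σ g q) := by
  have h' : (K.bd g).map (fun d => (K.lab d.1, d.2)) =
      (Let.x (S.rc q), true) :: (tw S (S.ht q) ++ (Let.y (S.blk q), true) ::
        (Let.y (S.blk (mt σ q)), false) ::
          (winv (tw S (S.ht (mt σ q))) ++ [(Let.x (S.rc (mt σ q)), false)])) := by
    rw [show (K.bd g).map (fun d => (K.lab d.1, d.2)) = relw σ q from h]
    simp [relw, half, winv]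
  obtain ⟨xs, l1, e1, e2, e3⟩ := List.map_eq_cons_iff.1 h'
  obtain ⟨T1, l2, e4, e5, e6⟩ := List.map_eq_append_iff.1 e3
  obtain ⟨ys, l3, e7, e8, e9⟩ := List.map_eq_cons_iff.1 e6
  obtain ⟨ye, l4, e10, e11, e12⟩ := List.map_eq_cons_iff.1 e9
  obtain ⟨T2, l5, e13, e14, e15⟩ := List.map_eq_append_iff.1 e12
  obtain ⟨xe, l6, e16, e17, e18⟩ := List.map_eq_cons_iff.1 e15
  have e19 : l6 = [] := List.map_eq_nil_iff.1 e18
  subst e19
  simp only [Prod.mk.injEq] at e2 e8 e11 e17
  exact ⟨⟨xs, T1, ys, ye, T2, xe, by rw [e1, e4, e7, e10, e13, e16], e2.1, e2.2, e5, e8.1, e8.2,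
    e11.1, e11.2, e14, e17.1, e17.2⟩⟩

/-! ## The gluing data -/

/-- A family of squares among the faces (`Q = F`, `j = some` for discs, `Q = Option F` for spheres). -/
structure Br (σ : Equiv.Perm S.C) (K : PC (Let S)) where
  Q : Type
  [fQ : Fintype Q]
  [dQ : DecidableEq Q]
  j : Q → Option K.F
  inj : Function.Injective j
  ε : Q → Port S
  sq : ∀ s, K.wd (j s) = relw σ (ε s)

attribute [instance] Br.fQ Br.dQ

lemma lab_tw {h : ℤ} {a : Let S × Bool} (ha : a ∈ tw S h) : a.1 = Let.t := by
  rw [tw, List.mem_replicate] at ha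
  rw [ha.2]

lemma lab_winv_tw {h : ℤ} {a : Let S × Bool} (ha : a ∈ winv (tw S h)) : a.1 = Let.t := by
  rw [winv, List.mem_reverse, List.mem_map] at ha
  obtain ⟨b, hb, rfl⟩ := ha
  exact lab_tw (a := b) hb

namespace Br

variable {σ : Equiv.Perm S.C} {K : PC (Let S)} (B : Br σ K)

noncomputable def sd (s : B.Q) : Sides K σ (B.j s) (B.ε s) := (exists_sides (B.sq s)).some

/-- start x-side, dart in the boundary of `s`, positive -/
noncomputable def xs (s : B.Q) : K.E × Bool := (B.sd s).xs
/-- start y-side, dart in the boundary of `s`, positive -/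
noncomputable def ys (s : B.Q) : K.E × Bool := (B.sd s).ys
/-- end y-side, dart in the boundary of `s`, negative -/
noncomputable def ye (s : B.Q) : K.E × Bool := (B.sd s).ye
/-- end x-side, dart in the boundary of `s`, negative -/
noncomputable def xe (s : B.Q) : K.E × Bool := (B.sd s).xe

lemma bd_eq (s : B.Q) : K.bd (B.j s) =
    B.xs s :: ((B.sd s).T1 ++ B.ys s :: B.ye s :: ((B.sd s).T2 ++ [B.xe s])) := (B.sd s).bd

lemma xs_mem (s : B.Q) : B.xs s ∈ K.bd (B.j s) := by rw [bd_eq]; simp
lemma ys_mem (s : B.Q) : B.ys s ∈ K.bd (B.j s) := by rw [bd_eq]; simp only [List.mem_cons, List.mem_append, List.not_mem_nil, or_false, true_or, or_true]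
lemma ye_mem (s : B.Q) : B.ye s ∈ K.bd (B.j s) := by rw [bd_eq]; simp
lemma xe_mem (s : B.Q) : B.xe s ∈ K.bd (B.j s) := by rw [bd_eq]; simp only [List.mem_cons, List.mem_append, List.not_mem_nil, or_false, or_true]

lemma lab_xs (s : B.Q) : K.lab (B.xs s).1 = .x (S.rc (B.ε s)) := (B.sd s).lxs
lemma lab_ys (s : B.Q) : K.lab (B.ys s).1 = .y (S.blk (B.ε s)) := (B.sd s).lys
lemma lab_ye (s : B.Q) : K.lab (B.ye s).1 = .y (S.blk (mt σ (B.ε s))) := (B.sd s).lye
lemma lab_xe (s : B.Q) : K.lab (B.xe s).1 = .x (S.rc (mt σ (B.ε s))) :=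
  (B.sd s).lxe
lemma sg_xs (s : B.Q) : (B.xs s).2 = true := (B.sd s).sxs
lemma sg_ys (s : B.Q) : (B.ys s).2 = true := (B.sd s).sys
lemma sg_ye (s : B.Q) : (B.ye s).2 = false := (B.sd s).sye
lemma sg_xe (s : B.Q) : (B.xe s).2 = false := (B.sd s).sxe

lemma lab_T1 (s : B.Q) {d : K.E × Bool} (h : d ∈ (B.sd s).T1) : K.lab d.1 = .t := by
  have : (K.lab d.1, d.2) ∈ tw S (S.ht (B.ε s)) := by
    rw [← (B.sd s).lT1]
    exact List.mem_map_of_mem h
  exact lab_tw this

lemma lab_T2 (s : B.Q) {d : K.E × Bool} (h : d ∈ (B.sd s).T2) : K.lab d.1 = .t := by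
  have : (K.lab d.1, d.2) ∈ winv (tw S (S.ht (mt σ (B.ε s)))) := by
    rw [← (B.sd s).lT2]
    exact List.mem_map_of_mem h
  exact lab_winv_tw this

lemma mem_cases {s : B.Q} {d : K.E × Bool} (h : d ∈ K.bd (B.j s)) :
    d = B.xs s ∨ d ∈ (B.sd s).T1 ∨ d = B.ys s ∨ d = B.ye s ∨ d ∈ (B.sd s).T2 ∨ d = B.xe s := by
  rw [bd_eq] at h
  simpa only [List.mem_cons, List.mem_append, List.not_mem_nil, or_false] using h

lemma eq_xs {s : B.Q} {d : K.E × Bool} (h : d ∈ K.bd (B.j s)) {i : S.R}
    (hl : K.lab d.1 = .x i) (hs : d.2 = true) : d = B.xs s := by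
  rcases B.mem_cases h with h | h | h | h | h | h
  · exact h
  · rw [B.lab_T1 s h] at hl; cases hl
  · rw [h, lab_ys] at hl; cases hl
  · rw [h, lab_ye] at hl; cases hl
  · rw [B.lab_T2 s h] at hl; cases hl
  · rw [h, sg_xe] at hs; cases hs

lemma eq_xe {s : B.Q} {d : K.E × Bool} (h : d ∈ K.bd (B.j s)) {i : S.R}
    (hl : K.lab d.1 = .x i) (hs : d.2 = false) : d = B.xe s := by
  rcases B.mem_cases h with h | h | h | h | h | h
  · rw [h, sg_xs] at hs; cases hs
  · rw [B.lab_T1 s h] at hl; cases hl
  · rw [h, lab_ys] at hl; cases hl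
  · rw [h, lab_ye] at hl; cases hl
  · rw [B.lab_T2 s h] at hl; cases hl
  · exact h

lemma eq_ys {s : B.Q} {d : K.E × Bool} (h : d ∈ K.bd (B.j s)) {b : S.B}
    (hl : K.lab d.1 = .y b) (hs : d.2 = true) : d = B.ys s := by
  rcases B.mem_cases h with h | h | h | h | h | h
  · rw [h, lab_xs] at hl; cases hl
  · rw [B.lab_T1 s h] at hl; cases hl
  · exact h
  · rw [h, sg_ye] at hs; cases hs
  · rw [B.lab_T2 s h] at hl; cases hl
  · rw [h, lab_xe] at hl; cases hl

lemma eq_ye {s : B.Q} {d : K.E × Bool} (h : d ∈ K.bd (B.j s)) {b : S.B}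
    (hl : K.lab d.1 = .y b) (hs : d.2 = false) : d = B.ye s := by
  rcases B.mem_cases h with h | h | h | h | h | h
  · rw [h, lab_xs] at hl; cases hl
  · rw [B.lab_T1 s h] at hl; cases hl
  · rw [h, sg_ys] at hs; cases hs
  · exact h
  · rw [B.lab_T2 s h] at hl; cases hl
  · rw [h, lab_xe] at hl; cases hl

open Classical in
/-- the square containing a dart -/
noncomputable def fs (d : K.E × Bool) : Option B.Q :=
  if h : ∃ s, d ∈ K.bd (B.j s) then some h.choose else none

lemma fs_eq_some {d : K.E × Bool} {s : B.Q} : B.fs d = some s ↔ d ∈ K.bd (B.j s) := by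
  unfold fs
  constructor
  · intro h
    split_ifs at h with h1
    rw [← Option.some_injective _ h]
    exact h1.choose_spec
  · intro h
    have h1 : ∃ s, d ∈ K.bd (B.j s) := ⟨s, h⟩
    rw [dif_pos h1]
    exact congrArg some (B.inj (K.face_unique h1.choose_spec h))

/-- the gluing data -/
noncomputable def glue : Glue σ where
  Q := B.Q
  ε := B.ε
  X :=
    { toFun := fun s => B.fs (rv (B.xs s))
      invFun := fun s => B.fs (rv (B.xe s))
      inv := fun a b => by
        show B.fs _ = some a ↔ B.fs _ = some b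
        rw [fs_eq_some, fs_eq_some]
        constructor
        · intro h
          have := B.eq_xs h (by rw [rv_fst, lab_xe]) (by rw [rv_snd, sg_xe]; rfl)
          rw [← this, rv_rv]
          exact B.xe_mem b
        · intro h
          have := B.eq_xe h (by rw [rv_fst, lab_xs]) (by rw [rv_snd, sg_xs]; rfl)
          rw [← this, rv_rv]
          exact B.xs_mem a }
  Y :=
    { toFun := fun s => B.fs (rv (B.ye s))
      invFun := fun s => B.fs (rv (B.ys s))
      inv := fun a b => by
        show B.fs _ = some a ↔ B.fs _ = some b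
        rw [fs_eq_some, fs_eq_some]
        constructor
        · intro h
          have := B.eq_ye h (by rw [rv_fst, lab_ys]) (by rw [rv_snd, sg_ys]; rfl)
          rw [← this, rv_rv]
          exact B.ys_mem b
        · intro h
          have := B.eq_ys h (by rw [rv_fst, lab_ye]) (by rw [rv_snd, sg_ye]; rfl)
          rw [← this, rv_rv]
          exact B.ye_mem a }

lemma X_eq_some {s s' : B.Q} : B.glue.X s = some s' ↔ rv (B.xs s) = B.xe s' := by
  show B.fs (rv (B.xs s)) = some s' ↔ _
  rw [fs_eq_some]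
  constructor
  · intro h
    exact B.eq_xe h (by rw [rv_fst, lab_xs]) (by rw [rv_snd, sg_xs]; rfl)
  · intro h
    rw [h]
    exact B.xe_mem s'

lemma Y_eq_some {s s' : B.Q} : B.glue.Y s = some s' ↔ rv (B.ye s) = B.ys s' := by
  show B.fs (rv (B.ye s)) = some s' ↔ _
  rw [fs_eq_some]
  constructor
  · intro h
    exact B.eq_ys h (by rw [rv_fst, lab_ye]) (by rw [rv_snd, sg_ye]; rfl)
  · intro h
    rw [h]
    exact B.ys_mem s'

/-- the labels match (first halves of `Red`) -/
lemma blk_Y {s s' : B.Q} (h : B.glue.Y s = some s') : S.blk (mt σ (B.ε s)) = S.blk (B.ε s') := by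
  have h1 := B.Y_eq_some.1 h
  have h2 : K.lab (B.ye s).1 = K.lab (B.ys s').1 := by rw [← h1, rv_fst]
  rw [lab_ye, lab_ys] at h2
  exact Let.y.inj h2

lemma rc_X {s s' : B.Q} (h : B.glue.X s = some s') : S.rc (B.ε s) = S.rc (mt σ (B.ε s')) := by
  have h1 := B.X_eq_some.1 h
  have h2 : K.lab (B.xs s).1 = K.lab (B.xe s').1 := by rw [← h1, rv_fst]
  rw [lab_xs, lab_xe] at h2
  exact Let.x.inj h2

/-! ## origins along the boundary -/

lemma chain_s (s : B.Q) : (B.xs s :: ((B.sd s).T1 ++ B.ys s :: B.ye s ::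
    ((B.sd s).T2 ++ [B.xe s]))).IsChain (fun a b => K.org b = K.org (rv a)) := by
  have := K.chain (B.j s)
  rwa [bd_eq] at this

/-- e-corner -/
lemma org_ye (s : B.Q) : K.org (B.ye s) = K.org (rv (B.ys s)) := by
  have h := B.chain_s s
  rw [← List.cons_append] at h
  have h2 := (List.isChain_append.1 h).2.1
  exact (List.isChain_cons_cons.1 h2).1

/-- o-corner -/
lemma org_xs (s : B.Q) : K.org (B.xs s) = K.org (rv (B.xe s)) := by
  refine K.closed (B.j s) (B.xe s) ?_ (B.xs s) ?_
  · rw [bd_eq, ← List.cons_append, ← List.cons_append, ← List.cons_append, ← List.append_assoc,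
      List.getLast?_append]
    simp
  · rw [bd_eq]
    simp

end Br

/-! ## The two instances -/

/-- disc version -/
noncomputable def brD {σ : Equiv.Perm S.C} (K : SqK σ) : Br σ K.toPC where
  Q := K.F
  j := some
  inj := Option.some_injective _
  ε := K.q
  sq := K.sq

lemma winv_append {A : Type} (a b : List (A × Bool)) : winv (a ++ b) = winv b ++ winv a := by
  simp [winv]

lemma winv_winv {A : Type} (a : List (A × Bool)) : winv (winv a) = a := by
  simp [winv, List.map_reverse, Function.comp_def]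

lemma winv_relw {σ : Equiv.Perm S.C} (q : Port S) :
    winv (relw σ q) = relw σ (mt σ q) := by
  rw [relw, relw, winv_append, winv_winv, mt_mt]

/-- sphere version -/
noncomputable def brS {σ : Equiv.Perm S.C} (K : SqK σ) (q0 : Port S)
    (h : K.outw = relw σ q0) : Br σ K.toPC where
  Q := Option K.F
  j := id
  inj := Function.injective_id
  ε := fun f => match f with
    | none => mt σ q0
    | some f => K.q f
  sq := fun f => match f with
    | none => by
      show K.wd none = _
      rw [← winv_relw, ← h, SqK.outw, winv_winv]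
    | some f => K.sq f

/-! ## Exact sub-statements (owners: see the notes; files Z/D/Br<Name>.lean) -/

/-- Eul and weight, disc (helper273) -/
def StmtBrEulD : Prop :=
  ∀ (S : Sys) (σ : Equiv.Perm S.C) (K : SqK σ), (brD K).glue.Eul ∧
    ∀ Y : ℕ, 2 * (Fintype.card K.F - domc (brD K).glue.X) +
      Y * (2 * (Fintype.card K.F - domc (brD K).glue.Y)) ≤ wtw Y K.outw

/-- Eul and full domains, sphere (helper273) -/
def StmtBrEulS : Prop :=
  ∀ (S : Sys) (σ : Equiv.Perm S.C) (K : SqK σ) (q0 : Port S)
    (h : K.outw = relw σ q0), (brS K q0 h).glue.Eul ∧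
    domc (brS K q0 h).glue.X = Fintype.card K.F + 1 ∧
    domc (brS K q0 h).glue.Y = Fintype.card K.F + 1

/-- mirror pairs, disc: two squares glued along corresponding sides -/
def StmtMirD : Prop :=
  ∀ (S : Sys) (σ : Equiv.Perm S.C) (K : SqK σ) (P : K.GPot),
    NoRed σ (val K.outw) (Fintype.card K.F) (K.chn P univ) →
    ∀ (s s' : K.F), K.q s' = mt σ (K.q s) →
      rv ((brD K).xs s) ≠ (brD K).xe s' ∧ rv ((brD K).ye s) ≠ (brD K).ys s'

/-- mirror pairs, sphere -/
def StmtMirS : Prop :=
  ∀ (S : Sys) (σ : Equiv.Perm S.C) (K : SqK σ) (P : K.GPot) (q0 : Port S)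
    (h : K.outw = relw σ q0),
    K.chn P univ - pch σ 1 q0 ≠ 0 →
    (∀ k z, k ≤ Fintype.card K.F → Expr σ k 1 z → z = 0) →
    ∀ (s s' : Option K.F), (brS K q0 h).ε s' = mt σ ((brS K q0 h).ε s) →
      rv ((brS K q0 h).xs s) ≠ (brS K q0 h).xe s' ∧ rv ((brS K q0 h).ye s) ≠ (brS K q0 h).ys s'

/-- labels, disc -/
def StmtLabD : Prop :=
  ∀ (S : Sys) (σ : Equiv.Perm S.C) (K : SqK σ) (P : K.GPot),
    NoRed σ (val K.outw) (Fintype.card K.F) (K.chn P univ) →
    (∀ (m : ℤ) (k : ℕ) (z : Chn σ), m ≠ 0 → Expr σ k (val (tw S m)) z → Fintype.card K.F < k ∨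
      (Fintype.card K.F ≤ k ∧ ∀ a ∈ K.outw, a.1 = Let.t)) → (brD K).glue.Lab

/-- labels, sphere -/
def StmtLabS : Prop :=
  ∀ (S : Sys) (σ : Equiv.Perm S.C) (K : SqK σ) (P : K.GPot) (q0 : Port S)
    (h : K.outw = relw σ q0),
    K.chn P univ - pch σ 1 q0 ≠ 0 →
    (∀ k z, k ≤ Fintype.card K.F → Expr σ k 1 z → z = 0) →
    (∀ (m : ℤ) (k : ℕ) (z : Chn σ), m ≠ 0 → ¬ Expr σ k (val (tw S m)) z) →
    (brS K q0 h).glue.Lab

theorem stmtBridge_of (h1 : StmtBrEulD) (h2 : StmtMirD) (h3 : StmtLabD) : StmtBridge := by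
  intro S σ K P hN ht
  refine ⟨(brD K).glue, ⟨fun s s' h => ⟨(brD K).blk_Y h, fun e => ?_⟩,
    fun s s' h => ⟨(brD K).rc_X h, fun e => ?_⟩⟩, h3 S σ K P hN ht, (h1 S σ K).1, rfl,
    (h1 S σ K).2⟩
  · exact (h2 S σ K P hN s s' e).2 ((brD K).Y_eq_some.1 h)
  · refine (h2 S σ K P hN s s' ?_).1 ((brD K).X_eq_some.1 h)
    have e' : K.q s = mt σ (K.q s') := e
    rw [e', mt_mt]

theorem stmtBridgeS_of (h1 : StmtBrEulS) (h2 : StmtMirS) (h3 : StmtLabS) : StmtBridgeS := by
  intro S σ K P q0 h hc hz ht
  have hcard : Fintype.card (brS K q0 h).glue.Q = Fintype.card K.F + 1 :=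
    Fintype.card_option
  refine ⟨(brS K q0 h).glue, ⟨fun s s' h' => ⟨(brS K q0 h).blk_Y h', fun e => ?_⟩,
    fun s s' h' => ⟨(brS K q0 h).rc_X h', fun e => ?_⟩⟩, h3 S σ K P q0 h hc hz ht,
    (h1 S σ K q0 h).1, hcard, ?_, ?_⟩
  · exact (h2 S σ K P q0 h hc hz s s' e).2 ((brS K q0 h).Y_eq_some.1 h')
  · refine (h2 S σ K P q0 h hc hz s s' ?_).1 ((brS K q0 h).X_eq_some.1 h')
    have e' : (brS K q0 h).ε s = mt σ ((brS K q0 h).ε s') := e
    rw [e', mt_mt]
  · rw [hcard]
    exact (h1 S σ K q0 h).2.1
  · rw [hcard]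
    exact (h1 S σ K q0 h).2.2

end Vale.Agent.P201.S
end

section

/-!
P201, part D6/D7 (bridge): Euler inequality and weights (helper273).
-/

namespace Vale.Agent.P201.S.BrEul

open Finset Vale.Agent.P201.S

variable {S : Sys}

/-! ## Number of classes -/

/-- a quotient by a relation generated by `E` pairs has at least `V - E` classes -/
theorem card_le_quot {V E : Type} [Fintype V] [Fintype E] (a b : E → V) (s : Setoid V)
    [Fintype (Quotient s)]
    (hs : ∀ x y, s x y → Relation.EqvGen (fun x y => ∃ e, a e = x ∧ b e = y) x y) :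
    Fintype.card V ≤ Fintype.card (Quotient s) + Fintype.card E := by
  classical
  let T : (V → ℚ) →ₗ[ℚ] (E → ℚ) :=
    { toFun := fun φ e => φ (a e) - φ (b e)
      map_add' := fun φ ψ => by funext e; simp only [Pi.add_apply]; ring
      map_smul' := fun c φ => by funext e; simp only [Pi.smul_apply, smul_eq_mul, eq_ratCast, Rat.cast_eq_id, id_eq]; ring }
  let J : (Quotient s → ℚ) →ₗ[ℚ] (V → ℚ) :=
    { toFun := fun φ v => φ (Quotient.mk s v)
      map_add' := fun φ ψ => by funext e; simp
      map_smul' := fun c φ => by funext e; simp only [Pi.smul_apply, smul_eq_mul, eq_ratCast, Rat.cast_eq_id, id_eq] }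
  have hker : LinearMap.ker T ≤ LinearMap.range J := by
    intro φ hφ
    have h1 : ∀ e, φ (a e) = φ (b e) := by
      intro e
      have := congrFun (LinearMap.mem_ker.1 hφ) e
      have h2 : φ (a e) - φ (b e) = 0 := this
      linarith
    have h2 : ∀ x y, Relation.EqvGen (fun x y => ∃ e, a e = x ∧ b e = y) x y → φ x = φ y := by
      intro x y h
      induction h with
      | rel x y h =>
        obtain ⟨e, rfl, rfl⟩ := h
        exact h1 e
      | refl x => rfl
      | symm x y _ ih => exact ih.symm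
      | trans x y z _ _ ih1 ih2 => exact ih1.trans ih2
    refine ⟨Quotient.lift φ (fun x y h => h2 x y (hs x y h)), ?_⟩
    funext v
    rfl
  have h3 := LinearMap.finrank_range_add_finrank_ker T
  have h4 : Module.finrank ℚ (LinearMap.ker T) ≤ Fintype.card (Quotient s) := by
    refine le_trans (Submodule.finrank_mono hker) ?_
    refine le_trans (LinearMap.finrank_range_le J) ?_
    simp only [Module.finrank_fintype_fun_eq_card, Std.le_refl]
  have h5 : Module.finrank ℚ (LinearMap.range T) ≤ Fintype.card E := by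
    refine le_trans (Submodule.finrank_le _) ?_
    simp only [Module.finrank_fintype_fun_eq_card, Std.le_refl]
  rw [Module.finrank_fintype_fun_eq_card] at h3
  omega

/-! ## Cycles from invariant steps -/

theorem per_of_step {S : Type} [Fintype S] {f : S ≃. S} {P : S → Prop}
    (hP : ∀ s, P s → ∃ s', f s = some s' ∧ P s') {s : S} (hs : P s) :
    Per f s ∧ ∀ t ∈ orb f s, P t := by
  have h1 : ∀ k, ∃ t, pit f k s = some t ∧ P t := by
    intro k
    induction k with
    | zero => exact ⟨s, rfl, hs⟩
    | succ k ih =>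
      obtain ⟨t, ht, hPt⟩ := ih
      obtain ⟨t', ht', hPt'⟩ := hP t hPt
      exact ⟨t', by rw [pit_succ', ht]; exact ht', hPt'⟩
  constructor
  · choose t ht _ using h1
    obtain ⟨i, j, hij, he⟩ := Finite.exists_ne_map_eq_of_infinite t
    wlog hlt : i < j generalizing i j
    · exact this j i hij.symm he.symm (lt_of_le_of_ne (not_lt.1 hlt) hij.symm)
    refine ⟨j - i, by (clear * - hlt; omega), ?_⟩
    have h2 : pit f ((j - i) + i) s = some (t j) := by
      rw [Nat.sub_add_cancel hlt.le]
      exact ht j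
    rw [pit_add, ht (j - i)] at h2
    have h3 : pit f i (t (j - i)) = some (t i) := by
      rw [he]
      simpa only [Option.bind_some] using h2
    rw [ht (j - i), pit_inj h3 (ht i)]
  · intro t ht
    obtain ⟨k, hk⟩ := mem_orb.1 ht
    obtain ⟨t', ht', hPt'⟩ := h1 k
    rw [hk] at ht'
    rwa [Option.some_injective _ ht']

theorem domc_symm {S : Type} [Fintype S] (f : S ≃. S) : domc f.symm = domc f := by
  classical
  unfold domc
  refine Finset.card_bij' (fun s hs => (f.symm s).get (Finset.mem_filter.1 hs).2)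
    (fun s hs => (f s).get (Finset.mem_filter.1 hs).2) ?_ ?_ ?_ ?_
  · intro s hs
    obtain ⟨t, ht⟩ := Option.isSome_iff_exists.1 (Finset.mem_filter.1 hs).2
    have ht' : f t = some s := (PEquiv.eq_some_iff f).1 ht
    simp only [ht, Option.get_some, mem_filter, mem_univ, ht', Option.isSome_some, and_self]
  · intro s hs
    obtain ⟨t, ht⟩ := Option.isSome_iff_exists.1 (Finset.mem_filter.1 hs).2
    have ht' : f.symm t = some s := (PEquiv.eq_some_iff f).2 ht
    simp only [ht, Option.get_some, mem_filter, mem_univ, ht', Option.isSome_some, and_self]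
  · intro s hs
    obtain ⟨t, ht⟩ := Option.isSome_iff_exists.1 (Finset.mem_filter.1 hs).2
    have ht' : f t = some s := (PEquiv.eq_some_iff f).1 ht
    simp [ht, ht']
  · intro s hs
    obtain ⟨t, ht⟩ := Option.isSome_iff_exists.1 (Finset.mem_filter.1 hs).2
    have ht' : f.symm t = some s := (PEquiv.eq_some_iff f).2 ht
    simp [ht, ht']

/-! ## t-classes of vertices -/

section

variable {A : Type} (K : PC A)

lemma exists_next {g : Option K.F} {d : K.E × Bool} (hd : d ∈ K.bd g) :
    ∃ d' ∈ K.bd g, K.org d' = K.org (rv d) := by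
  obtain ⟨l1, l2, hl⟩ := List.append_of_mem hd
  have hc := K.chain g
  rw [hl] at hc
  cases l2 with
  | cons d' l3 =>
    refine ⟨d', by rw [hl]; simp, ?_⟩
    exact (List.isChain_cons_cons.1 (List.isChain_append.1 hc).2.1).1
  | nil =>
    have hne : K.bd g ≠ [] := by rw [hl]; simp
    refine ⟨(K.bd g).head hne, List.head_mem hne, ?_⟩
    refine K.closed g d ?_ _ ?_
    · rw [hl, List.getLast?_append]
      simp
    · rw [List.head?_eq_some_head hne]
      simp

lemma exists_org [Nonempty K.E] (v : K.V) : ∃ d : K.E × Bool, K.org d = v := by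
  obtain ⟨e⟩ := ‹Nonempty K.E›
  rcases Relation.ReflTransGen.cases_head (K.conn v (K.org (e, true))) with h | ⟨w, ⟨d, hd, _⟩, _⟩
  · exact ⟨(e, true), h.symm⟩
  · exact ⟨d, hd⟩

end

/-- the relation of being joined by `t`-edges -/
def tset (K : PC (Let S)) : Setoid K.V :=
  Relation.EqvGen.setoid (fun x y => ∃ e : {e : K.E // K.lab e = .t},
    K.org (e.1, true) = x ∧ K.org (e.1, false) = y)

/-- t-classes -/
abbrev Cls (K : PC (Let S)) : Type := Quotient (tset K)

noncomputable instance (K : PC (Let S)) : Fintype (Cls K) := Fintype.ofFinite _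

noncomputable instance (K : PC (Let S)) : DecidableEq (Cls K) := Classical.decEq _

def cl (K : PC (Let S)) (v : K.V) : Cls K := Quotient.mk (tset K) v

lemma cl_t {K : PC (Let S)} {d : K.E × Bool} (h : K.lab d.1 = .t) :
    cl K (K.org d) = cl K (K.org (rv d)) := by
  have h1 : cl K (K.org (d.1, true)) = cl K (K.org (d.1, false)) :=
    Quotient.sound (Relation.EqvGen.rel _ _ ⟨⟨d.1, h⟩, rfl, rfl⟩)
  rcases d with ⟨e, b⟩
  cases b
  · exact h1.symm
  · exact h1

lemma card_V_le (K : PC (Let S)) :
    Fintype.card K.V ≤ Fintype.card (Cls K) + Fintype.card {e : K.E // K.lab e = .t} :=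
  card_le_quot (fun e : {e : K.E // K.lab e = .t} => K.org (e.1, true))
    (fun e => K.org (e.1, false)) (tset K) (fun _ _ h => h)

/-- along a run of `t`-darts the class does not change -/
lemma cl_run {K : PC (Let S)} (T : List (K.E × Bool)) (hT : ∀ d ∈ T, K.lab d.1 = .t)
    (a b : K.E × Bool) (l : List (K.E × Bool))
    (hc : (a :: (T ++ b :: l)).IsChain (fun a b => K.org b = K.org (rv a))) :
    (∀ d ∈ T, cl K (K.org d) = cl K (K.org (rv a))) ∧ cl K (K.org b) = cl K (K.org (rv a)) := by
  induction T generalizing a with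
  | nil =>
    simp only [List.nil_append] at hc
    exact ⟨by simp only [List.not_mem_nil, IsEmpty.forall_iff, implies_true], by rw [(List.isChain_cons_cons.1 hc).1]⟩
  | cons d T ih =>
    simp only [List.cons_append] at hc
    obtain ⟨h1, h2⟩ := List.isChain_cons_cons.1 hc
    obtain ⟨h3, h4⟩ := ih (fun d' hd' => hT d' (List.mem_cons_of_mem _ hd')) d h2
    have h5 : cl K (K.org (rv d)) = cl K (K.org (rv a)) := by
      rw [← cl_t (hT d List.mem_cons_self), h1]
    refine ⟨?_, h4.trans h5⟩
    intro d' hd'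
    rcases List.mem_cons.1 hd' with rfl | hd'
    · rw [h1]
    · exact (h3 d' hd').trans h5

/-! ## Boundary classes -/

open Classical in
/-- classes of the end points of a list of darts -/
noncomputable def vs (K : PC (Let S)) (l : List (K.E × Bool)) : Finset (Cls K) :=
  univ.filter (fun c => ∃ d ∈ l, cl K (K.org d) = c ∨ cl K (K.org (rv d)) = c)

open Classical in
/-- non-t edges of a list -/
noncomputable def es (K : PC (Let S)) (l : List (K.E × Bool)) : Finset K.E :=
  univ.filter (fun e => K.lab e ≠ .t ∧ ∃ d ∈ l, d.1 = e)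

lemma vs_le (K : PC (Let S)) (l : List (K.E × Bool))
    (hc : l.IsChain (fun a b => K.org b = K.org (rv a))) :
    (vs K l).card ≤ (es K l).card + 1 := by
  classical
  induction l with
  | nil => simp only [vs, List.not_mem_nil, false_and, exists_false, filter_false, card_empty, le_add_iff_nonneg_left, zero_le]
  | cons d l ih =>
    by_cases hd : cl K (K.org d) ∈ vs K l ∧ cl K (K.org (rv d)) ∈ vs K l
    · have h1 : vs K (d :: l) ⊆ vs K l := by
        intro c hcc
        simp only [vs, mem_filter, mem_univ, true_and] at hcc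
        obtain ⟨d', hd', hh⟩ := hcc
        rcases List.mem_cons.1 hd' with rfl | hd'
        · rcases hh with rfl | rfl
          · exact hd.1
          · exact hd.2
        · simp only [vs, mem_filter, mem_univ, true_and]
          exact ⟨d', hd', hh⟩
      have h2 : es K l ⊆ es K (d :: l) := by
        intro e he
        simp only [es, mem_filter, mem_univ, true_and] at he ⊢
        obtain ⟨h3, d', h4, h5⟩ := he
        exact ⟨h3, d', List.mem_cons_of_mem _ h4, h5⟩
      have hcl : l.IsChain (fun a b => K.org b = K.org (rv a)) := by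
        cases l with
        | nil => exact List.isChain_nil
        | cons d' l' => exact (List.isChain_cons_cons.1 hc).2
      exact le_trans (Finset.card_le_card h1)
        (le_trans (ih hcl) (Nat.add_le_add_right (Finset.card_le_card h2) 1))
    · cases l with
      | nil =>
        by_cases ht : K.lab d.1 = .t
        · have h1 : vs K [d] ⊆ {cl K (K.org d)} := by
            intro c hcc
            simp only [vs, mem_filter, mem_univ, true_and, List.mem_singleton] at hcc
            obtain ⟨d', rfl, hh⟩ := hcc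
            rw [mem_singleton]
            rcases hh with rfl | rfl
            · rfl
            · exact (cl_t ht).symm
          exact le_trans (Finset.card_le_card h1) (by simp)
        · have h1 : vs K [d] ⊆ {cl K (K.org d), cl K (K.org (rv d))} := by
            intro c hcc
            simp only [vs, List.mem_singleton, mem_filter, mem_univ, true_and] at hcc
            obtain ⟨d', rfl, hh⟩ := hcc
            rcases hh with rfl | rfl <;> simp
          have h2 : 1 ≤ (es K [d]).card := by
            rw [Nat.one_le_iff_ne_zero, Finset.card_ne_zero]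
            exact ⟨d.1, by simp only [es, ne_eq, List.mem_cons, List.not_mem_nil, or_false, exists_eq_left, mem_filter, mem_univ, ht, not_false_eq_true, and_self]⟩
          exact le_trans (Finset.card_le_card h1) (le_trans Finset.card_le_two (by omega))
      | cons d1 l' =>
        obtain ⟨hc1, hc2⟩ := List.isChain_cons_cons.1 hc
        have h0 : cl K (K.org (rv d)) ∈ vs K (d1 :: l') := by
          simp only [vs, mem_filter, mem_univ, true_and]
          exact ⟨d1, List.mem_cons_self, Or.inl (by rw [hc1])⟩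
        have h1 : cl K (K.org d) ∉ vs K (d1 :: l') := fun h => hd ⟨h, h0⟩
        have ht : K.lab d.1 ≠ .t := by
          intro ht
          rw [cl_t ht] at h1
          exact h1 h0
        have h2 : vs K (d :: d1 :: l') ⊆ insert (cl K (K.org d)) (vs K (d1 :: l')) := by
          intro c hcc
          simp only [vs, mem_filter, mem_univ, true_and] at hcc
          obtain ⟨d', hd', hh⟩ := hcc
          rcases List.mem_cons.1 hd' with rfl | hd'
          · rcases hh with rfl | rfl
            · exact mem_insert_self _ _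
            · exact mem_insert_of_mem h0
          · refine mem_insert_of_mem ?_
            simp only [vs, mem_filter, mem_univ, true_and]
            exact ⟨d', hd', hh⟩
        have h3 : insert d.1 (es K (d1 :: l')) ⊆ es K (d :: d1 :: l') := by
          intro e he
          rcases mem_insert.1 he with rfl | he
          · simp only [es, mem_filter, mem_univ, true_and]
            exact ⟨ht, d, List.mem_cons_self, rfl⟩
          · simp only [es, mem_filter, mem_univ, true_and] at he ⊢
            obtain ⟨h3, d', h4, h5⟩ := he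
            exact ⟨h3, d', List.mem_cons_of_mem _ h4, h5⟩
        have h4 : d.1 ∉ es K (d1 :: l') := by
          intro he
          simp only [es, mem_filter, mem_univ, true_and] at he
          obtain ⟨-, d', h4, h5⟩ := he
          refine h1 ?_
          simp only [vs, mem_filter, mem_univ, true_and]
          refine ⟨d', h4, ?_⟩
          by_cases h6 : d'.2 = d.2
          · left
            rw [Prod.ext h5 h6]
          · right
            have : rv d' = d := Prod.ext h5 (by
              rw [rv_snd]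
              cases h7 : d'.2 <;> cases h8 : d.2 <;> simp_all)
            rw [this]
        calc (vs K (d :: d1 :: l')).card ≤ (insert (cl K (K.org d)) (vs K (d1 :: l'))).card :=
              Finset.card_le_card h2
          _ = (vs K (d1 :: l')).card + 1 := Finset.card_insert_of_notMem h1
          _ ≤ (es K (d1 :: l')).card + 1 + 1 := Nat.add_le_add_right (ih hc2) 1
          _ = (insert d.1 (es K (d1 :: l'))).card + 1 := by
              rw [Finset.card_insert_of_notMem h4]
          _ ≤ (es K (d :: d1 :: l')).card + 1 :=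
              Nat.add_le_add_right (Finset.card_le_card h3) 1

/-! ## Interior classes -/

variable {σ : Equiv.Perm S.C} {K : PC (Let S)} (B : Br σ K)

/-- `X` of the gluing data, with plain types -/
noncomputable def gX (B : Br σ K) : B.Q ≃. B.Q := B.glue.X

/-- `Y` of the gluing data, with plain types -/
noncomputable def gY (B : Br σ K) : B.Q ≃. B.Q := B.glue.Y

/-- `XY` of the gluing data, with plain types -/
noncomputable def gXY (B : Br σ K) : B.Q ≃. B.Q := (gX B).trans (gY B)

lemma gX_fs {s s' : B.Q} : gX B s = some s' ↔ rv (B.xs s) ∈ K.bd (B.j s') := B.fs_eq_some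

lemma gY_fs {s s' : B.Q} : gY B s = some s' ↔ rv (B.ye s) ∈ K.bd (B.j s') := B.fs_eq_some

lemma gX_some {s s' : B.Q} : gX B s = some s' ↔ rv (B.xs s) = B.xe s' := B.X_eq_some

lemma gY_some {s s' : B.Q} : gY B s = some s' ↔ rv (B.ye s) = B.ys s' := B.Y_eq_some

/-- a class is interior if all darts starting in it lie on squares -/
def Int (c : Cls K) : Prop := ∀ d : K.E × Bool, cl K (K.org d) = c → ∃ s, d ∈ K.bd (B.j s)

lemma run1 (s : B.Q) : (∀ d ∈ (B.sd s).T1, cl K (K.org d) = cl K (K.org (rv (B.xs s)))) ∧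
    cl K (K.org (B.ys s)) = cl K (K.org (rv (B.xs s))) :=
  cl_run (B.sd s).T1 (fun _ h => B.lab_T1 s h) (B.xs s) (B.ys s) _ (B.chain_s s)

lemma run2 (s : B.Q) : (∀ d ∈ (B.sd s).T2, cl K (K.org d) = cl K (K.org (rv (B.ye s)))) ∧
    cl K (K.org (B.xe s)) = cl K (K.org (rv (B.ye s))) := by
  have h := B.chain_s s
  rw [← List.cons_append] at h
  have h2 := (List.isChain_append.1 h).2.1
  exact cl_run (B.sd s).T2 (fun _ h => B.lab_T2 s h) (B.ye s) (B.xe s) []
    (List.isChain_cons_cons.1 h2).2

variable {B}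

lemma step_X {c : Cls K} (hc : Int B c) (s : B.Q) (hs : cl K (K.org (B.xs s)) = c) :
    ∃ s', (gX B) s = some s' ∧ cl K (K.org (B.xs s')) = c := by
  obtain ⟨d', hd', ho⟩ := exists_next K (K.mem_fc (rv (B.xs s)))
  rw [rv_rv] at ho
  obtain ⟨s', hs'⟩ := hc d' (by rw [ho, hs])
  have hg := K.face_unique hd' hs'
  have h1 : rv (B.xs s) ∈ K.bd (B.j s') := by
    rw [← hg]
    exact K.mem_fc _
  have h2 : (gX B) s = some s' := (gX_fs B).2 h1
  refine ⟨s', h2, ?_⟩
  rw [B.org_xs s', ← (gX_some B).1 h2, rv_rv, hs]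

lemma step_Y {c : Cls K} (hc : Int B c) (s : B.Q) (hs : cl K (K.org (B.ye s)) = c) :
    ∃ s', (gY B) s = some s' ∧ cl K (K.org (B.ye s')) = c := by
  obtain ⟨d', hd', ho⟩ := exists_next K (K.mem_fc (rv (B.ye s)))
  rw [rv_rv] at ho
  obtain ⟨s', hs'⟩ := hc d' (by rw [ho, hs])
  have hg := K.face_unique hd' hs'
  have h1 : rv (B.ye s) ∈ K.bd (B.j s') := by
    rw [← hg]
    exact K.mem_fc _
  have h2 : (gY B) s = some s' := (gY_fs B).2 h1
  refine ⟨s', h2, ?_⟩
  rw [B.org_ye s', ← (gY_some B).1 h2, rv_rv, hs]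

lemma step_e {c : Cls K} (hc : Int B c) (u : B.Q) (hu : cl K (K.org (rv (B.ye u))) = c) :
    ∃ v, (gY B) u = some v ∧ cl K (K.org (B.ys v)) = c := by
  obtain ⟨v, hv⟩ := hc _ hu
  have h2 : (gY B) u = some v := (gY_fs B).2 hv
  exact ⟨v, h2, by rw [← (gY_some B).1 h2, hu]⟩

lemma step_XY {c : Cls K} (hc : Int B c) (s : B.Q) (hs : cl K (K.org (B.ys s)) = c) :
    ∃ s', (gXY B) s = some s' ∧ cl K (K.org (B.ys s')) = c := by
  have h0 : cl K (K.org (rv (B.xs s))) = c := by rw [← (run1 B s).2, hs]
  obtain ⟨u, hu⟩ := hc _ h0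
  have h1 : (gX B) s = some u := (gX_fs B).2 hu
  have h2 : cl K (K.org (rv (B.ye u))) = c := by
    rw [← (run2 B u).2, ← (gX_some B).1 h1, h0]
  obtain ⟨v, hv, hv2⟩ := step_e hc u h2
  refine ⟨v, ?_, hv2⟩
  exact (PEquiv.trans_eq_some _ _ _ _).2 ⟨u, h1, hv⟩

/-- every interior class carries a cycle -/
lemma int_cases [Nonempty K.E] {c : Cls K} (hc : Int B c) :
    (∃ s, cl K (K.org (B.xs s)) = c) ∨ (∃ s, cl K (K.org (B.ye s)) = c) ∨
      ∃ s, cl K (K.org (B.ys s)) = c := by
  obtain ⟨v, rfl⟩ := Quotient.exists_rep c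
  obtain ⟨d, rfl⟩ := exists_org K v
  obtain ⟨s, hs⟩ := hc d rfl
  rcases B.mem_cases hs with h | h | h | h | h | h
  · exact Or.inl ⟨s, by rw [← h]; rfl⟩
  · exact Or.inr (Or.inr ⟨s, by rw [(run1 B s).2, ← (run1 B s).1 d h]; rfl⟩)
  · exact Or.inr (Or.inr ⟨s, by rw [← h]; rfl⟩)
  · exact Or.inr (Or.inl ⟨s, by rw [← h]; rfl⟩)
  · obtain ⟨v, -, hv⟩ := step_e hc s ((run2 B s).1 d h).symm
    exact Or.inr (Or.inr ⟨v, hv⟩)
  · obtain ⟨v, -, hv⟩ := step_e hc s (by rw [← (run2 B s).2, ← h]; rfl)
    exact Or.inr (Or.inr ⟨v, hv⟩)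

open Classical in
/-- the cycles -/
noncomputable def cycs {S : Type} [Fintype S] (f : S ≃. S) : Finset (Finset S) :=
  (univ.filter (Per f)).image (orb f)

lemma mem_cycs {S : Type} [Fintype S] {f : S ≃. S} {s : S} (h : Per f s) : orb f s ∈ cycs f := by
  classical
  unfold cycs
  exact mem_image.2 ⟨s, mem_filter.2 ⟨mem_univ _, h⟩, rfl⟩

open Classical in
/-- value of a function on an element of a finset -/
noncomputable def pick {S C : Type} (φ : S → C) (c0 : C) (O : Finset S) : C :=
  if h : O.Nonempty then φ h.choose else c0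

lemma pick_orb {S C : Type} [Fintype S] {φ : S → C} {c0 c : C} {f : S ≃. S} {s : S}
    (h : ∀ t ∈ orb f s, φ t = c) : pick φ c0 (orb f s) = c := by
  have hne : (orb f s).Nonempty := ⟨s, self_mem_orb f s⟩
  unfold pick
  rw [dif_pos hne]
  exact h _ hne.choose_spec

open Classical in
lemma card_int_le [Nonempty K.E] :
    (univ.filter (fun c => Int B c)).card ≤
      cyc (gX B) + cyc (gY B) + cyc (gXY B) := by
  obtain ⟨e⟩ := ‹Nonempty K.E›
  have : Nonempty K.E := ⟨e⟩
  let c0 : Cls K := cl K (K.org (e, true))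
  have hsub : univ.filter (fun c => Int B c) ⊆
      (cycs (gX B)).image (pick (fun s => cl K (K.org (B.xs s))) c0) ∪
      (cycs (gY B)).image (pick (fun s => cl K (K.org (B.ye s))) c0) ∪
      (cycs (gXY B)).image (pick (fun s => cl K (K.org (B.ys s))) c0) := by
    intro c hc
    have hc : Int B c := (mem_filter.1 hc).2
    rw [mem_union, mem_union]
    rcases int_cases hc with ⟨s, hs⟩ | ⟨s, hs⟩ | ⟨s, hs⟩
    · left; left
      obtain ⟨h1, h2⟩ := per_of_step (f := (gX B))
        (P := fun s => cl K (K.org (B.xs s)) = c) (fun s hs => step_X hc s hs) hs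
      exact mem_image.2 ⟨orb (gX B) s, mem_cycs h1, pick_orb h2⟩
    · left; right
      obtain ⟨h1, h2⟩ := per_of_step (f := (gY B))
        (P := fun s => cl K (K.org (B.ye s)) = c) (fun s hs => step_Y hc s hs) hs
      exact mem_image.2 ⟨orb (gY B) s, mem_cycs h1, pick_orb h2⟩
    · right
      obtain ⟨h1, h2⟩ := per_of_step (f := (gXY B))
        (P := fun s => cl K (K.org (B.ys s)) = c) (fun s hs => step_XY hc s hs) hs
      exact mem_image.2 ⟨orb (gXY B) s, mem_cycs h1, pick_orb h2⟩
  refine le_trans (card_le_card hsub) (le_trans (card_union_le _ _) ?_)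
  refine Nat.add_le_add (le_trans (card_union_le _ _) (Nat.add_le_add ?_ ?_)) ?_
  · exact card_image_le
  · exact card_image_le
  · exact card_image_le

/-! ## Counting edges -/

variable (B) in
open Classical in
/-- edges with both darts on squares and a non-t label -/
noncomputable def innE : Finset K.E :=
  univ.filter (fun e => K.lab e ≠ .t ∧ ∀ b : Bool, ∃ s, (e, b) ∈ K.bd (B.j s))

open Classical in
lemma dom_le : domc (gX B) + domc (gY B) ≤ (innE B).card := by
  have hX : (univ.filter (fun s => ((gX B) s).isSome)).card =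
      ((univ.filter (fun s => ((gX B) s).isSome)).image (fun s => (B.xs s).1)).card := by
    refine (card_image_of_injective _ ?_).symm
    intro s s' h
    have h1 : B.xs s = B.xs s' := Prod.ext h (by rw [B.sg_xs, B.sg_xs])
    exact B.inj (K.face_unique (B.xs_mem s) (by rw [h1]; exact B.xs_mem s'))
  have hY : (univ.filter (fun s => ((gY B) s).isSome)).card =
      ((univ.filter (fun s => ((gY B) s).isSome)).image (fun s => (B.ye s).1)).card := by
    refine (card_image_of_injective _ ?_).symm
    intro s s' h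
    have h1 : B.ye s = B.ye s' := Prod.ext h (by rw [B.sg_ye, B.sg_ye])
    exact B.inj (K.face_unique (B.ye_mem s) (by rw [h1]; exact B.ye_mem s'))
  have hd : domc (gX B) = (univ.filter (fun s => ((gX B) s).isSome)).card := rfl
  have hd' : domc (gY B) = (univ.filter (fun s => ((gY B) s).isSome)).card := rfl
  rw [hd, hd', hX, hY, ← card_union_of_disjoint]
  · refine card_le_card ?_
    intro e he
    rcases mem_union.1 he with he | he
    · obtain ⟨s, hs, rfl⟩ := mem_image.1 he
      obtain ⟨s', hs'⟩ := Option.isSome_iff_exists.1 (mem_filter.1 hs).2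
      refine mem_filter.2 ⟨mem_univ _, (by rw [B.lab_xs]; intro h; cases h), ?_⟩
      have h1 : rv (B.xs s) = B.xe s' := B.X_eq_some.1 hs'
      intro b
      cases b
      · refine ⟨s', ?_⟩
        have : ((B.xs s).1, false) = B.xe s' := by
          rw [← h1]
          exact Prod.ext rfl (by rw [rv_snd, B.sg_xs]; rfl)
        rw [this]
        exact B.xe_mem s'
      · refine ⟨s, ?_⟩
        have : ((B.xs s).1, true) = B.xs s := Prod.ext rfl (by rw [B.sg_xs])
        rw [this]
        exact B.xs_mem s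
    · obtain ⟨s, hs, rfl⟩ := mem_image.1 he
      obtain ⟨s', hs'⟩ := Option.isSome_iff_exists.1 (mem_filter.1 hs).2
      refine mem_filter.2 ⟨mem_univ _, (by rw [B.lab_ye]; intro h; cases h), ?_⟩
      have h1 : rv (B.ye s) = B.ys s' := B.Y_eq_some.1 hs'
      intro b
      cases b
      · refine ⟨s, ?_⟩
        have : ((B.ye s).1, false) = B.ye s := Prod.ext rfl (by rw [B.sg_ye])
        rw [this]
        exact B.ye_mem s
      · refine ⟨s', ?_⟩
        have : ((B.ye s).1, true) = B.ys s' := by
          rw [← h1]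
          exact Prod.ext rfl (by rw [rv_snd, B.sg_ye]; rfl)
        rw [this]
        exact B.ys_mem s'
  · rw [disjoint_left]
    intro e he he'
    obtain ⟨s, -, rfl⟩ := mem_image.1 he
    obtain ⟨s', -, h⟩ := mem_image.1 he'
    have h1 : K.lab (B.ye s').1 = K.lab (B.xs s).1 := congrArg K.lab h
    rw [B.lab_ye, B.lab_xs] at h1
    cases h1

open Classical in
/-- general inequality: `out` = the outer boundary list (darts not on squares) -/
theorem eul_core [Nonempty K.E] (out : List (K.E × Bool))
    (hc : out.IsChain (fun a b => K.org b = K.org (rv a)))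
    (h1 : ∀ d ∈ out, ¬ ∃ s, d ∈ K.bd (B.j s))
    (h2 : ∀ d, (¬ ∃ s, d ∈ K.bd (B.j s)) → d ∈ out) :
    domc (gX B) + domc (gY B) ≤
      Fintype.card K.F + cyc (gX B) + cyc (gY B) + cyc (gXY B) := by
  have e1 := card_V_le K
  have e2 := K.euler
  have e3 : Fintype.card (Cls K) ≤
      (univ.filter (fun c => Int B c)).card + (vs K out).card := by
    rw [← card_univ]
    refine le_trans (card_le_card (t := univ.filter (fun c => Int B c) ∪ vs K out) ?_)
      (card_union_le _ _)
    intro c _
    rw [mem_union]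
    by_cases h : Int B c
    · exact Or.inl (mem_filter.2 ⟨mem_univ _, h⟩)
    · right
      unfold Int at h
      push Not at h
      obtain ⟨d, hd, hd2⟩ := h
      exact mem_filter.2 ⟨mem_univ _, d, h2 d (by push Not; exact hd2), Or.inl hd⟩
  have e4 := vs_le K out hc
  have e5 : (es K out).card + (innE B).card + Fintype.card {e : K.E // K.lab e = .t} ≤
      Fintype.card K.E := by
    rw [Fintype.card_subtype, ← card_union_of_disjoint, ← card_union_of_disjoint]
    · exact card_le_univ _
    · rw [disjoint_left]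
      intro e he he'
      have ht := (mem_filter.1 he').2
      rcases mem_union.1 he with h | h
      · exact (mem_filter.1 h).2.1 ht
      · exact (mem_filter.1 h).2.1 ht
    · rw [disjoint_left]
      intro e he he'
      obtain ⟨-, -, d, hd, rfl⟩ := mem_filter.1 he
      exact h1 d hd ((mem_filter.1 he').2.2 d.2)
  have e6 := dom_le (B := B)
  have e7 := card_int_le (B := B)
  omega

/-- `Eul` for the disc -/
theorem eulD (K : SqK σ) : (brD K).glue.Eul := by
  show domc (gX (brD K)) + domc (gY (brD K)) ≤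
    Fintype.card K.F + cyc (gX (brD K)) + cyc (gY (brD K)) + cyc (gXY (brD K))
  by_cases hE : Nonempty K.E
  · refine eul_core (B := brD K) (K.bd none) (K.chain none) ?_ ?_
    · rintro d hd ⟨s, hs⟩
      exact absurd (K.face_unique hd hs) (by simp [brD])
    · intro d hd
      obtain ⟨f, hf⟩ := K.exists_face d
      cases f with
      | none => exact hf
      | some f => exact absurd ⟨f, hf⟩ hd
  · have h1 : IsEmpty K.F := ⟨fun f => hE ⟨((brD K).xs f).1⟩⟩
    have h2 : domc (gX (brD K)) ≤ Fintype.card K.F := domc_le_card _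
    have h3 : domc (gY (brD K)) ≤ Fintype.card K.F := domc_le_card _
    have h4 : Fintype.card K.F = 0 := Fintype.card_eq_zero
    (clear * - h2 h3 h4; omega)

/-- `Eul` for the sphere -/
theorem eulS (K : SqK σ) (q0 : Port S) (h : K.outw = relw σ q0) : (brS K q0 h).glue.Eul := by
  show domc (gX (brS K q0 h)) + domc (gY (brS K q0 h)) ≤
    Fintype.card (Option K.F) + cyc (gX (brS K q0 h)) + cyc (gY (brS K q0 h)) +
      cyc (gXY (brS K q0 h))
  have : Nonempty K.E := ⟨((brS K q0 h).xs none).1⟩
  have := eul_core (B := brS K q0 h) [] List.isChain_nil (by simp only [List.not_mem_nil, not_exists, IsEmpty.forall_iff, implies_true]) (fun d hd =>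
    absurd (K.exists_face d) hd)
  rw [Fintype.card_option]
  omega

end Vale.Agent.P201.S.BrEul
end

section

/-!
P201, part D0 (d) (helper155): a rooted dual spanning tree has a complementary primal spanning tree, potentials;
`V + F ≤ E + 1` for every connected and dual connected complex (Euler not assumed).
Everything is in the namespace `T2`.
-/

namespace Vale.Agent.P201.S.T2

open Finset

lemma rv_rv {E : Type} (d : E × Bool) : rv (rv d) = d := by
  obtain ⟨e, b⟩ := d
  simp [rv]

lemma rv_fst {E : Type} (d : E × Bool) : (rv d).1 = d.1 := rfl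

lemma rv_ne {E : Type} (d : E × Bool) : rv d ≠ d := by
  obtain ⟨e, b⟩ := d
  intro h
  have := congrArg Prod.snd h
  simp [rv] at this

lemma rv_inj {E : Type} {a b : E × Bool} (h : rv a = rv b) : a = b := by
  rw [← rv_rv a, h, rv_rv]

lemma eq_or_rv {E : Type} {a b : E × Bool} (h : a.1 = b.1) : a = b ∨ a = rv b := by
  obtain ⟨e, x⟩ := a
  obtain ⟨e', y⟩ := b
  dsimp only at h
  subst h
  cases x <;> cases y <;> simp [rv]

/-! ### breadth first trees -/

/-- a connected graph has a spanning tree rooted at any point, given by parent darts -/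
theorem exists_rooted {W D : Type} (src tgt : D → W) (P : D → Prop) (root : W)
    (h : ∀ v, Relation.ReflTransGen (fun a b => ∃ d, P d ∧ src d = a ∧ tgt d = b) v root) :
    ∃ (pd : W → Option D) (hgt : W → ℕ), (∀ v, pd v = none ↔ v = root) ∧
      ∀ v d, pd v = some d → P d ∧ src d = v ∧ hgt (tgt d) < hgt v := by
  classical
  set Rch : ℕ → W → Prop := fun m => Nat.rec (fun v => v = root) (fun _ ih v => ∃ d, P d ∧ src d = v ∧ ih (tgt d)) m
    with hR
  have h0 : ∀ v, Rch 0 v ↔ v = root := fun v => Iff.rfl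
  have h1 : ∀ m v, Rch (m + 1) v ↔ ∃ d, P d ∧ src d = v ∧ Rch m (tgt d) := fun m v => Iff.rfl
  have hex : ∀ v, ∃ m, Rch m v := by
    intro v
    induction h v using Relation.ReflTransGen.head_induction_on with
    | refl => exact ⟨0, (h0 _).2 rfl⟩
    | head hab _ ih =>
      obtain ⟨d, hd, hs, ht⟩ := hab
      obtain ⟨m, hm⟩ := ih
      exact ⟨m + 1, (h1 _ _).2 ⟨d, hd, hs, ht ▸ hm⟩⟩
  set hgt : W → ℕ := fun v => Nat.find (hex v) with hhgt
  have hspec : ∀ v, Rch (hgt v) v := fun v => Nat.find_spec (hex v)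
  have hmin : ∀ v m, Rch m v → hgt v ≤ m := fun v m hm => Nat.find_min' (hex v) hm
  have hstep : ∀ v, v ≠ root → ∃ d, P d ∧ src d = v ∧ hgt (tgt d) < hgt v := by
    intro v hv
    obtain ⟨m, hm⟩ : ∃ m, hgt v = m + 1 := by
      cases hc : hgt v with
      | zero =>
        have := hspec v
        rw [hc] at this
        exact absurd ((h0 v).1 this) hv
      | succ m => exact ⟨m, rfl⟩
    have h2 := hspec v
    rw [hm] at h2
    obtain ⟨d, hd, hs, ht⟩ := (h1 m v).1 h2
    exact ⟨d, hd, hs, by rw [hm]; exact Nat.lt_succ_of_le (hmin _ _ ht)⟩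
  refine ⟨fun v => if hv : v = root then none else some (Classical.choose (hstep v hv)), hgt, ?_, ?_⟩
  · intro v
    by_cases hv : v = root
    · simp [hv]
    · simp [hv]
  · intro v d hd
    by_cases hv : v = root
    · simp [hv] at hd
    · simp only [hv, dite_false, Option.some.injEq] at hd
      rw [← hd]
      exact Classical.choose_spec (hstep v hv)

/-! ### rotation systems without Euler's formula -/

section

variable {V E F : Type} [Fintype V] [Fintype E] [Fintype F] [DecidableEq V] [DecidableEq E] [DecidableEq F]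

/-- complex without Euler's formula -/
structure Rot (org : E × Bool → V) (bd : Option F → List (E × Bool)) : Prop where
  chain : ∀ f, (bd f).IsChain (fun a b => org b = org (rv a))
  closed : ∀ f, ∀ a ∈ (bd f).getLast?, ∀ b ∈ (bd f).head?, org b = org (rv a)
  once : ∀ d, ∑ f, (bd f).count d = 1
  conn : ∀ u v : V, Relation.ReflTransGen (fun a b => ∃ d, org d = a ∧ org (rv d) = b) u v
  dconn : ∀ f g : Option F, Relation.ReflTransGen (fun a b => ∃ d, d ∈ bd a ∧ rv d ∈ bd b) f g

/-- dual spanning tree rooted at the outer face -/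
structure DT (bd : Option F → List (E × Bool)) (par : F → Option F) (dd : F → E × Bool) (rank : F → ℕ) : Prop where
  mem : ∀ f, dd f ∈ bd (some f)
  memr : ∀ f, rv (dd f) ∈ bd (par f)
  dec : ∀ f g, par f = some g → rank g < rank f

/-- primal spanning tree -/
structure PT (org : E × Bool → V) (pd : V → Option (E × Bool)) (hgt : V → ℕ) (root : V) : Prop where
  rt : ∀ v, pd v = none ↔ v = root
  or : ∀ v d, pd v = some d → org d = v
  dec : ∀ v d, pd v = some d → hgt (org (rv d)) < hgt v

variable {org : E × Bool → V} {bd : Option F → List (E × Bool)}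

namespace Rot

variable (K : Rot org bd)

include K

omit [Fintype V] [Fintype E] [DecidableEq V] in
lemma exists_face (d : E × Bool) : ∃ f, d ∈ bd f := by
  by_contra h
  push Not at h
  have h1 := K.once d
  rw [Finset.sum_eq_zero fun f _ => List.count_eq_zero.2 (h f)] at h1
  exact zero_ne_one h1

omit [Fintype V] [Fintype E] [DecidableEq V] in
lemma face_unique {d : E × Bool} {f g : Option F} (hf : d ∈ bd f) (hg : d ∈ bd g) : f = g := by
  by_contra hne
  have h1 := K.once d
  have h2 : ∑ x ∈ ({f, g} : Finset (Option F)), (bd x).count d ≤ ∑ x, (bd x).count d :=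
    Finset.sum_le_sum_of_subset (Finset.subset_univ _)
  rw [Finset.sum_pair hne, h1] at h2
  have h3 := List.count_pos_iff.2 hf
  have h4 := List.count_pos_iff.2 hg
  omega

omit [Fintype V] [Fintype E] [DecidableEq V] in
lemma bd_nodup (f : Option F) : (bd f).Nodup := by
  rw [List.nodup_iff_count_le_one]
  intro d
  rw [← K.once d]
  exact Finset.single_le_sum (f := fun x => (bd x).count d) (fun _ _ => Nat.zero_le _) (Finset.mem_univ f)

end Rot

omit [Fintype V] [Fintype E] [DecidableEq V] [DecidableEq E] in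
lemma chain_sum {M : Type*} [AddCommMonoid M] (h : V → M) :
    ∀ (l : List (E × Bool)) (a : E × Bool), (a :: l).IsChain (fun a b => org b = org (rv a)) →
      ((a :: l).map fun d => h (org d)).sum + h (org (rv ((a :: l).getLast (List.cons_ne_nil _ _)))) =
        ((a :: l).map fun d => h (org (rv d))).sum + h (org a) := by
  intro l
  induction l with
  | nil =>
    intro a _
    simp [add_comm]
  | cons b l ih =>
    intro a hc
    rw [List.isChain_cons_cons] at hc
    have h1 := ih b hc.2
    rw [List.getLast_cons (List.cons_ne_nil _ _)]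
    rw [List.map_cons, List.sum_cons, add_assoc, h1, List.map_cons (l := b :: l), List.sum_cons, hc.1]
    abel

omit [Fintype V] [Fintype E] [DecidableEq V] in
lemma closed_sum (K : Rot org bd) {M : Type*} [AddCommMonoid M] [IsRightCancelAdd M] (h : V → M) (f : Option F) :
    ((bd f).map fun d => h (org d)).sum = ((bd f).map fun d => h (org (rv d))).sum := by
  have h1 := K.chain f
  have h2 := K.closed f
  generalize bd f = l at h1 h2
  cases l with
  | nil => rfl
  | cons a l =>
    have h3 := chain_sum h l a h1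
    have h4 := h2 _ (List.getLast?_eq_getLast_of_ne_nil (List.cons_ne_nil a l)) a (by simp)
    rw [← h4] at h3
    exact add_right_cancel h3

/-- joined by edges which are not dual tree edges -/
def Jn (org : E × Bool → V) (dd : F → E × Bool) : V → V → Prop :=
  Relation.ReflTransGen fun a b => ∃ d, (∀ f, (dd f).1 ≠ d.1) ∧ org d = a ∧ org (rv d) = b

omit [Fintype V] [Fintype E] [Fintype F] [DecidableEq V] [DecidableEq E] [DecidableEq F] in
lemma Jn.symm {dd : F → E × Bool} {u v : V} (h : Jn org dd u v) : Jn org dd v u := by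
  unfold Jn at h ⊢
  induction h with
  | refl => exact Relation.ReflTransGen.refl
  | tail _ hbc ih =>
    obtain ⟨d, hd, h1, h2⟩ := hbc
    exact Relation.ReflTransGen.head ⟨rv d, hd, h2, by rw [rv_rv]; exact h1⟩ ih

omit [Fintype V] [Fintype E] [Fintype F] [DecidableEq V] [DecidableEq E] [DecidableEq F] in
lemma Jn.trans {dd : F → E × Bool} {u v w : V} (h : Jn org dd u v) (h' : Jn org dd v w) : Jn org dd u w :=
  Relation.ReflTransGen.trans h h'

omit [Fintype V] [Fintype E] [DecidableEq V] in
/-- the edges of a dual tree are distinct -/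
lemma dd_inj (K : Rot org bd) {par : F → Option F} {dd : F → E × Bool} {rank : F → ℕ} (T : DT bd par dd rank)
    {f g : F} (h : (dd f).1 = (dd g).1) : f = g := by
  rcases eq_or_rv h with h1 | h1
  · exact Option.some.inj (K.face_unique (T.mem f) (h1 ▸ T.mem g))
  · exfalso
    have h2 : par g = some f := K.face_unique (T.memr g) (h1 ▸ T.mem f)
    have h3 : par f = some g := K.face_unique (T.memr f) (by rw [h1, rv_rv]; exact T.mem g)
    have h4 := T.dec g f h2
    have h5 := T.dec f g h3
    omega

omit [Fintype V] [Fintype E] [DecidableEq V] in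
/-- going around a face -/
lemma around (K : Rot org bd) {dd : F → E × Bool} {f : Option F} {x : E × Bool} (hx : x ∈ bd f)
    (h : ∀ d ∈ bd f, d ≠ x → Jn org dd (org d) (org (rv d))) : Jn org dd (org x) (org (rv x)) := by
  classical
  have h1 := closed_sum K (fun v => if Jn org dd (org x) v then 1 else 0 : V → ℕ) f
  rw [← List.sum_toFinset _ (K.bd_nodup f), ← List.sum_toFinset _ (K.bd_nodup f)] at h1
  have hx' : x ∈ (bd f).toFinset := List.mem_toFinset.2 hx
  rw [← Finset.add_sum_erase _ _ hx', ← Finset.add_sum_erase _ _ hx'] at h1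
  have h2 : ∑ d ∈ (bd f).toFinset.erase x, (if Jn org dd (org x) (org d) then 1 else 0 : ℕ) =
      ∑ d ∈ (bd f).toFinset.erase x, (if Jn org dd (org x) (org (rv d)) then 1 else 0 : ℕ) := by
    refine Finset.sum_congr rfl fun d hd => ?_
    have hd1 := Finset.ne_of_mem_erase hd
    have hd2 := List.mem_toFinset.1 (Finset.mem_of_mem_erase hd)
    have h3 := h d hd2 hd1
    have h4 : Jn org dd (org x) (org d) ↔ Jn org dd (org x) (org (rv d)) :=
      ⟨fun h5 => h5.trans h3, fun h5 => h5.trans h3.symm⟩
    simp only [h4]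
  rw [h2] at h1
  have h5 := add_right_cancel h1
  have h6 : Jn org dd (org x) (org x) := Relation.ReflTransGen.refl
  rw [if_pos h6] at h5
  by_contra h7
  rw [if_neg h7] at h5
  exact one_ne_zero h5

omit [Fintype V] [Fintype E] [DecidableEq V] in
/-- the ends of a dual tree edge are joined by other edges -/
lemma joined (K : Rot org bd) {par : F → Option F} {dd : F → E × Bool} {rank : F → ℕ} (T : DT bd par dd rank) :
    ∀ f, Jn org dd (org (dd f)) (org (rv (dd f))) := by
  classical
  set M := (univ : Finset F).sup rank with hM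
  have hle : ∀ f, rank f ≤ M := fun f => Finset.le_sup (f := rank) (mem_univ f)
  have key : ∀ m : ℕ, ∀ f, M - rank f ≤ m → Jn org dd (org (dd f)) (org (rv (dd f))) := by
    intro m
    induction m with
    | zero =>
      intro f hf
      refine around K (T.mem f) fun d hd hne => ?_
      by_cases hc : ∃ g, (dd g).1 = d.1
      · obtain ⟨g, hg⟩ := hc
        rcases eq_or_rv hg with h1 | h1
        · exfalso
          have h2 : some g = some f := K.face_unique (T.mem g) (h1 ▸ hd)
          rw [Option.some.inj h2] at h1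
          exact hne h1.symm
        · exfalso
          have h2 : par g = some f := K.face_unique (T.memr g) (by rw [h1, rv_rv]; exact hd)
          have h3 := T.dec g f h2
          have h4 := hle g
          omega
      · push Not at hc
        exact Relation.ReflTransGen.single ⟨d, hc, rfl, rfl⟩
    | succ m ih =>
      intro f hf
      refine around K (T.mem f) fun d hd hne => ?_
      by_cases hc : ∃ g, (dd g).1 = d.1
      · obtain ⟨g, hg⟩ := hc
        rcases eq_or_rv hg with h1 | h1
        · exfalso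
          have h2 : some g = some f := K.face_unique (T.mem g) (h1 ▸ hd)
          rw [Option.some.inj h2] at h1
          exact hne h1.symm
        · have h2 : par g = some f := K.face_unique (T.memr g) (by rw [h1, rv_rv]; exact hd)
          have h3 := T.dec g f h2
          have h4 := hle g
          have h5 := ih g (by omega)
          rw [h1, rv_rv] at h5
          exact h5.symm
      · push Not at hc
        exact Relation.ReflTransGen.single ⟨d, hc, rfl, rfl⟩
  exact fun f => key _ f le_rfl

omit [Fintype V] [Fintype E] [DecidableEq V] in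
/-- the primal graph without the dual tree edges is connected -/
theorem conn_compl (K : Rot org bd) {par : F → Option F} {dd : F → E × Bool} {rank : F → ℕ} (T : DT bd par dd rank)
    (u v : V) : Jn org dd u v := by
  have h1 := K.conn u v
  induction h1 with
  | refl => exact Relation.ReflTransGen.refl
  | tail _ hbc ih =>
    refine ih.trans ?_
    obtain ⟨d, rfl, rfl⟩ := hbc
    by_cases hc : ∃ g, (dd g).1 = d.1
    · obtain ⟨g, hg⟩ := hc
      have h2 := joined K T g
      rcases eq_or_rv hg with h3 | h3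
      · rw [h3] at h2
        exact h2
      · rw [h3, rv_rv] at h2
        exact h2.symm
    · push Not at hc
      exact Relation.ReflTransGen.single ⟨d, hc, rfl, rfl⟩

/-- complementary primal spanning tree -/
theorem exists_PT (K : Rot org bd) {par : F → Option F} {dd : F → E × Bool} {rank : F → ℕ} (T : DT bd par dd rank)
    (root : V) : ∃ (pd : V → Option (E × Bool)) (hgt : V → ℕ), PT org pd hgt root ∧
      ∀ v d, pd v = some d → ∀ f, (dd f).1 ≠ d.1 := by
  obtain ⟨pd, hgt, h1, h2⟩ := exists_rooted (fun d : E × Bool => org d) (fun d => org (rv d))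
    (fun d => ∀ f, (dd f).1 ≠ d.1) root (fun v => conn_compl K T v root)
  exact ⟨pd, hgt, ⟨h1, fun v d hd => (h2 v d hd).2.1, fun v d hd => (h2 v d hd).2.2⟩, fun v d hd => (h2 v d hd).1⟩

omit [Fintype V] [Fintype E] [DecidableEq V] [DecidableEq E] in
lemma pd_unique {pd : V → Option (E × Bool)} {hgt : V → ℕ} {root : V} (T : PT org pd hgt root) {v : V} {d d' : E × Bool}
    (h : pd v = some d) {v' : V} (h' : pd v' = some d') (he : d.1 = d'.1) : v = v' ∧ d = d' := by
  rcases eq_or_rv he with rfl | rfl
  · exact ⟨(T.or v d h).symm.trans (T.or v' d h'), rfl⟩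
  · exfalso
    have h1 := T.dec v _ h
    have h2 := T.dec v' _ h'
    rw [rv_rv, T.or v' d' h'] at h1
    rw [T.or v _ h] at h2
    omega

omit [Fintype F] [DecidableEq F] in
open Classical in
/-- the number of tree edges is `V - 1` -/
lemma card_tree {pd : V → Option (E × Bool)} {hgt : V → ℕ} {root : V} (T : PT org pd hgt root) :
    (univ.filter fun e : E => ∃ v d, pd v = some d ∧ d.1 = e).card + 1 = Fintype.card V := by
  have h1 : (univ.filter fun e : E => ∃ v d, pd v = some d ∧ d.1 = e).card = ((univ : Finset V).erase root).card := by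
    symm
    have hex : ∀ v, v ≠ root → ∃ d, pd v = some d := by
      intro v hv
      rw [← Option.isSome_iff_exists, ← Option.ne_none_iff_isSome]
      intro h
      exact hv ((T.rt v).1 h)
    refine Finset.card_bij (fun v hv => (Classical.choose (hex v (Finset.ne_of_mem_erase hv))).1) ?_ ?_ ?_
    · intro v hv
      simp only [mem_filter, mem_univ, true_and]
      exact ⟨v, _, Classical.choose_spec (hex v (Finset.ne_of_mem_erase hv)), rfl⟩
    · intro v hv v' hv' h
      exact (pd_unique T (Classical.choose_spec (hex v (Finset.ne_of_mem_erase hv)))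
        (Classical.choose_spec (hex v' (Finset.ne_of_mem_erase hv'))) h).1
    · intro e he
      obtain ⟨v, d, hd, hde⟩ := (Finset.mem_filter.1 he).2
      have hv : v ≠ root := by
        intro h
        rw [(T.rt v).2 h] at hd
        exact Option.some_ne_none _ hd.symm
      refine ⟨v, by simp only [mem_erase, ne_eq, hv, not_false_eq_true, mem_univ, and_self], ?_⟩
      have h2 := hd.symm.trans (Classical.choose_spec (hex v hv))
      rw [← hde]
      exact congrArg Prod.fst (Option.some.inj h2).symm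
  rw [h1, Finset.card_erase_of_mem (mem_univ _), Finset.card_univ]
  have : 0 < Fintype.card V := Fintype.card_pos_iff.2 ⟨root⟩
  (clear * - this; omega)

open Classical in
omit [Fintype V] [DecidableEq V] in
/-- the number of dual tree edges is `F` -/
lemma card_cotree (K : Rot org bd) {par : F → Option F} {dd : F → E × Bool} {rank : F → ℕ} (T : DT bd par dd rank) :
    (univ.filter fun e : E => ∃ f, (dd f).1 = e).card = Fintype.card F := by
  rw [← Finset.card_univ]
  symm
  refine Finset.card_bij (fun f _ => (dd f).1) ?_ ?_ ?_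
  · intro f _
    simp only [mem_filter, mem_univ, true_and]
    exact ⟨f, rfl⟩
  · intro f _ g _ h
    exact dd_inj K T h
  · intro e he
    obtain ⟨f, hf⟩ := (Finset.mem_filter.1 he).2
    exact ⟨f, mem_univ _, hf⟩

omit [Fintype V] [Fintype E] [DecidableEq V] in
/-- a dual spanning tree exists -/
theorem exists_DT (K : Rot org bd) : ∃ (par : F → Option F) (dd : F → E × Bool) (rank : F → ℕ), DT bd par dd rank := by
  classical
  choose fc hfc using K.exists_face
  obtain ⟨pd, hgt, h1, h2⟩ := exists_rooted (W := Option F) (fun d : E × Bool => fc d) (fun d => fc (rv d))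
    (fun _ => True) none (by
      intro v
      refine Relation.ReflTransGen.mono ?_ v none (K.dconn v none)
      rintro a b ⟨d, ha, hb⟩
      exact ⟨d, trivial, K.face_unique (hfc d) ha, K.face_unique (hfc (rv d)) hb⟩)
  have hex : ∀ f : F, ∃ d, pd (some f) = some d := by
    intro f
    rw [← Option.isSome_iff_exists, ← Option.ne_none_iff_isSome]
    intro h
    exact Option.some_ne_none _ ((h1 _).1 h)
  choose dd hdd using hex
  refine ⟨fun f => fc (rv (dd f)), dd, fun f => hgt (some f), ?_, ?_, ?_⟩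
  · intro f
    have := (h2 _ _ (hdd f)).2.1
    rw [← this]
    exact hfc _
  · intro f
    exact hfc _
  · intro f g hg
    have h3 := (h2 _ _ (hdd f)).2.2
    rw [hg] at h3
    exact h3

/-- **`V + F ≤ E + 1` without Euler's formula** -/
theorem euler_le (K : Rot org bd) : Fintype.card V + Fintype.card F ≤ Fintype.card E + 1 := by
  classical
  obtain ⟨par, dd, rank, T⟩ := exists_DT K
  have h1 := card_cotree K T
  rcases isEmpty_or_nonempty V with hV | ⟨⟨root⟩⟩
  · rw [Fintype.card_eq_zero]
    have h2 : (univ.filter fun e : E => ∃ f, (dd f).1 = e).card ≤ Fintype.card E := Finset.card_le_univ _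
    omega
  · obtain ⟨pd, hgt, hP, hd⟩ := exists_PT K T root
    have h2 := card_tree hP
    have h3 : Disjoint (univ.filter fun e : E => ∃ v d, pd v = some d ∧ d.1 = e)
        (univ.filter fun e : E => ∃ f, (dd f).1 = e) := by
      rw [Finset.disjoint_left]
      intro e he he'
      obtain ⟨v, d, h4, h5⟩ := (Finset.mem_filter.1 he).2
      obtain ⟨f, hf⟩ := (Finset.mem_filter.1 he').2
      exact hd v d h4 f (hf.trans h5.symm)
    have h6 := Finset.card_le_univ ((univ.filter fun e : E => ∃ v d, pd v = some d ∧ d.1 = e) ∪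
      (univ.filter fun e : E => ∃ f, (dd f).1 = e))
    rw [Finset.card_union_of_disjoint h3] at h6
    (clear * - h1 h2 h6; omega)

/-- with Euler's formula the primal tree is exactly the complement of the dual tree -/
theorem tree_iff (K : Rot org bd) (heul : Fintype.card V + Fintype.card F = Fintype.card E + 1) {par : F → Option F}
    {dd : F → E × Bool} {rank : F → ℕ} (T : DT bd par dd rank) {pd : V → Option (E × Bool)} {hgt : V → ℕ} {root : V}
    (hP : PT org pd hgt root) (hd : ∀ v d, pd v = some d → ∀ f, (dd f).1 ≠ d.1) (e : E) :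
    (∃ v d, pd v = some d ∧ d.1 = e) ↔ ∀ f, (dd f).1 ≠ e := by
  classical
  constructor
  · rintro ⟨v, d, h1, rfl⟩
    exact hd v d h1
  · intro h
    by_contra hc
    have h1 := card_cotree K T
    have h2 := card_tree hP
    have h3 : Disjoint (univ.filter fun e : E => ∃ v d, pd v = some d ∧ d.1 = e)
        (univ.filter fun e : E => ∃ f, (dd f).1 = e) := by
      rw [Finset.disjoint_left]
      intro e he he'
      obtain ⟨v, d, h4, h5⟩ := (Finset.mem_filter.1 he).2
      obtain ⟨f, hf⟩ := (Finset.mem_filter.1 he').2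
      exact hd v d h4 f (hf.trans h5.symm)
    have h4 : ((univ.filter fun e : E => ∃ v d, pd v = some d ∧ d.1 = e) ∪
      (univ.filter fun e : E => ∃ f, (dd f).1 = e)) ⊆ (univ : Finset E).erase e := by
      intro x hx
      rw [Finset.mem_erase]
      refine ⟨?_, mem_univ _⟩
      rintro rfl
      rcases Finset.mem_union.1 hx with hx | hx
      · exact hc (Finset.mem_filter.1 hx).2
      · obtain ⟨f, hf⟩ := (Finset.mem_filter.1 hx).2
        exact h f hf
    have h5 := Finset.card_le_card h4
    rw [Finset.card_union_of_disjoint h3, Finset.card_erase_of_mem (mem_univ _), Finset.card_univ] at h5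
    have h6 : 0 < Fintype.card E := Fintype.card_pos_iff.2 ⟨e⟩
    (clear * - heul h1 h2 h5 h6; omega)

end

/-! ### the statement for planar complexes -/

section PCx

variable {A : Type} (K : PC A)

lemma rot : Rot K.org K.bd := ⟨K.chain, K.closed, K.once, K.conn, K.dconn⟩

lemma lt_rv (d : K.E × Bool) : K.lt (rv d) = (K.lt d)⁻¹ := by
  unfold PC.lt rv
  rw [FreeGroup.inv_mk]
  rfl

variable {K}

/-- potential along the tree path from the root -/
noncomputable def potT (T : K.STree) (v : K.V) : FreeGroup A :=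
  match h : T.pd v with
  | none => 1
  | some d => potT T (K.org (rv d)) * K.lt (rv d)
termination_by T.hgt v
decreasing_by exact T.dec v d h

lemma potT_none (T : K.STree) {v : K.V} (h : T.pd v = none) : potT T v = 1 := by
  rw [potT]
  split
  · rfl
  · rename_i d hd
    rw [h] at hd
    exact absurd hd (by simp)

lemma potT_some (T : K.STree) {v : K.V} {d : K.E × Bool} (h : T.pd v = some d) :
    potT T v = potT T (K.org (rv d)) * K.lt (rv d) := by
  rw [potT]
  split
  · rename_i hd
    rw [h] at hd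
    exact absurd hd (by simp)
  · rename_i d' hd
    rw [h] at hd
    rw [Option.some.inj hd]

lemma potT_root (T : K.STree) : potT T T.root = 1 := potT_none T ((T.rt _).2 rfl)

/-- the potential along tree darts -/
lemma potT_tree (T : K.STree) (d : K.E × Bool) (h : T.Ed d.1) :
    potT T (K.org d) * K.lt d = potT T (K.org (rv d)) := by
  obtain ⟨v, d', hd', he⟩ := h
  rcases eq_or_rv he with rfl | rfl
  · rw [T.or v d' hd', potT_some T hd', lt_rv, inv_mul_cancel_right]
  · have h1 := T.or v _ hd'
    rw [h1, potT_some T hd', rv_rv]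

/-- **T2**: a rooted dual spanning tree gives a cotree with the same dual tree, any root, whose potential is the potential of a
complementary primal spanning tree -/
theorem exists_cotree (K : PC A) {par : K.F → Option K.F} {dd : K.F → K.E × Bool} {rank : K.F → ℕ}
    (T : DT K.bd par dd rank) (root : K.V) :
    ∃ (C : K.Cotree) (S : K.STree), C.par = par ∧ C.dd = dd ∧ C.rank = rank ∧ C.root = root ∧ S.root = root ∧
      (∀ e, S.Ed e ↔ ∀ f, (dd f).1 ≠ e) ∧ C.pot = potT S := by
  obtain ⟨pd, hgt, hP, hd⟩ := exists_PT (rot K) T root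
  set S : K.STree := ⟨pd, hgt, root, hP.rt, hP.or, hP.dec⟩ with hS
  have hEd : ∀ e, S.Ed e ↔ ∀ f, (dd f).1 ≠ e := tree_iff (rot K) K.euler T hP hd
  exact ⟨⟨par, dd, rank, T.mem, T.memr, T.dec, root, potT S, potT_root S, fun d h => potT_tree S d ((hEd _).2 h)⟩, S,
    rfl, rfl, rfl, rfl, rfl, hEd, rfl⟩

/-- form of helper45: primal spanning tree complementary to a given dual tree -/
theorem exists_stree_of_dual (K : PC A) (par : K.F → Option K.F) (dd : K.F → K.E × Bool) (rank : K.F → ℕ)
    (mem : ∀ f, dd f ∈ K.bd (some f)) (memr : ∀ f, rv (dd f) ∈ K.bd (par f))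
    (dec : ∀ f g, par f = some g → rank g < rank f) (r : K.V) :
    ∃ T : K.STree, T.root = r ∧ ∀ e, T.Ed e ↔ ∀ f, (dd f).1 ≠ e := by
  obtain ⟨-, S, -, -, -, -, h5, h6, -⟩ := exists_cotree K ⟨mem, memr, dec⟩ r
  exact ⟨S, h5, h6⟩

/-- form of helper43: cotree with a given dual tree -/
theorem exists_cotree_of_dual (K : PC A) (par : K.F → Option K.F) (dd : K.F → K.E × Bool) (rank : K.F → ℕ)
    (mem : ∀ f, dd f ∈ K.bd (some f)) (memr : ∀ f, rv (dd f) ∈ K.bd (par f))
    (dec : ∀ f g, par f = some g → rank g < rank f) (r : K.V) :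
    ∃ C : K.Cotree, C.par = par ∧ C.dd = dd ∧ C.root = r := by
  obtain ⟨C, -, h1, h2, -, h4, -, -, -⟩ := exists_cotree K ⟨mem, memr, dec⟩ r
  exact ⟨C, h1, h2, h4⟩

/-- existence of some cotree with any root -/
theorem exists_cotree' (K : PC A) (root : K.V) :
    ∃ (C : K.Cotree) (S : K.STree), C.root = root ∧ S.root = root ∧
      (∀ e, S.Ed e ↔ ∀ f, (C.dd f).1 ≠ e) ∧ C.pot = potT S := by
  obtain ⟨par, dd, rank, T⟩ := exists_DT (rot K)
  obtain ⟨C, S, -, h2, -, h4, h5, h6, h7⟩ := exists_cotree K T root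
  exact ⟨C, S, h4, h5, fun e => by rw [h2]; exact h6 e, h7⟩

/-- a connected graph has a spanning tree with any root -/
theorem exists_stree (K : PC A) (root : K.V) : ∃ S : K.STree, S.root = root := by
  obtain ⟨-, S, -, h, -⟩ := exists_cotree' K root
  exact ⟨S, h⟩

end PCx

end Vale.Agent.P201.S.T2
end

section

/-!
P201, part D: D3 (`stmtRec`) and D4 (`stmtRepl`).

General facts on face lists (`DR.once'`, `DR.nodup`), cotrees (`DR.par_iff`, `DR.ind`, `DR.indUp`,
`DR.sum_sub`, `DR.sum_root`) and products of the values along face lists.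
-/

namespace Vale.Agent.P201.S

open Finset

namespace DR

section pc

variable {A : Type} {K : PC A}

theorem rv_rv {E : Type} (d : E × Bool) : rv (rv d) = d := by
  obtain ⟨e, b⟩ := d
  simp [rv]

theorem once' {d : K.E × Bool} {f g : Option K.F} (hf : d ∈ K.bd f) (hg : d ∈ K.bd g) : f = g := by
  by_contra hne
  have h1 : 1 ≤ (K.bd f).count d := List.one_le_count_iff.2 hf
  have h2 : 1 ≤ (K.bd g).count d := List.one_le_count_iff.2 hg
  have h3 := K.once d
  have h4 : ∑ x ∈ ({f, g} : Finset (Option K.F)), (K.bd x).count d ≤ ∑ x, (K.bd x).count d :=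
    Finset.sum_le_sum_of_subset (Finset.subset_univ _)
  rw [Finset.sum_pair hne] at h4
  omega

theorem nodup (f : Option K.F) : (K.bd f).Nodup := by
  rw [List.nodup_iff_count_le_one]
  intro d
  have h3 := K.once d
  have h4 : (K.bd f).count d ≤ ∑ x, (K.bd x).count d :=
    Finset.single_le_sum (f := fun x => (K.bd x).count d) (fun _ _ => Nat.zero_le _)
      (Finset.mem_univ f)
  omega

theorem lt_rv (d : K.E × Bool) : K.lt (rv d) = (K.lt d)⁻¹ := by
  simp [PC.lt, rv, FreeGroup.invRev]

theorem prod_lt (l : List (K.E × Bool)) :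
    (l.map K.lt).prod = val (l.map fun d => (K.lab d.1, d.2)) := by
  induction l with
  | nil => rfl
  | cons d l ih =>
    rw [List.map_cons, List.prod_cons, ih, List.map_cons]
    unfold PC.lt val
    rw [FreeGroup.mul_mk, List.singleton_append]

variable (C : K.Cotree)

theorem c_rv (d : K.E × Bool) : C.c (rv d) = (C.c d)⁻¹ := by
  unfold PC.Cotree.c
  rw [lt_rv, rv_rv]
  group

theorem c_triv {d : K.E × Bool} (h : ∀ f, (C.dd f).1 ≠ d.1) : C.c d = 1 := by
  unfold PC.Cotree.c
  rw [C.triv d h, mul_inv_cancel]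

theorem dart_cases (d : K.E × Bool) :
    (∀ f, (C.dd f).1 ≠ d.1) ∨ (∃ f, C.dd f = d) ∨ ∃ f, rv (C.dd f) = d := by
  by_cases h : ∃ f, (C.dd f).1 = d.1
  · obtain ⟨f, hf⟩ := h
    right
    by_cases hb : (C.dd f).2 = d.2
    · exact Or.inl ⟨f, Prod.ext hf hb⟩
    · refine Or.inr ⟨f, Prod.ext hf ?_⟩
      show (!(C.dd f).2) = d.2
      revert hb
      cases (C.dd f).2 <;> cases d.2 <;> simp
  · push Not at h
    exact Or.inl h

theorem dd_inj {f g : K.F} (h : C.dd f = C.dd g) : f = g := by
  have h1 := C.mem f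
  rw [h] at h1
  exact Option.some.inj (once' h1 (C.mem g))

theorem par_iff (g : K.F) (h : Option K.F) : C.par g = h ↔ rv (C.dd g) ∈ K.bd h :=
  ⟨fun e => e ▸ C.memr g, fun e => once' (C.memr g) e⟩

theorem rv_dd_ne (f g : K.F) : rv (C.dd g) ≠ C.dd f := by
  intro h
  have h1 : C.par g = some f := (par_iff C g _).2 (h ▸ C.mem f)
  have h2 : C.par f = some g := by
    refine (par_iff C f _).2 ?_
    rw [← h, rv_rv]
    exact C.mem g
  have := C.dec _ _ h1
  have := C.dec _ _ h2
  omega

/-- induction from the leaves -/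
theorem ind {motive : K.F → Prop} (h : ∀ f, (∀ g, C.par g = some f → motive g) → motive f) :
    ∀ f, motive f := by
  have hb : ∀ g, C.rank g ≤ ∑ x, C.rank x := fun g =>
    Finset.single_le_sum (f := C.rank) (fun _ _ => Nat.zero_le _) (Finset.mem_univ g)
  have key : ∀ m f, (∑ x, C.rank x) - C.rank f ≤ m → motive f := by
    intro m
    induction m with
    | zero =>
      intro f hf
      refine h f fun g hg => ?_
      have := C.dec _ _ hg
      have := hb g
      omega
    | succ m ih =>
      intro f hf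
      refine h f fun g hg => ih g ?_
      have := C.dec _ _ hg
      have := hb g
      omega
  exact fun f => key _ f le_rfl

/-- induction from the roots -/
theorem indUp {motive : K.F → Prop} (h : ∀ g, (∀ f, C.par g = some f → motive f) → motive g) :
    ∀ g, motive g := by
  have key : ∀ m g, C.rank g ≤ m → motive g := by
    intro m
    induction m with
    | zero =>
      intro g hg
      refine h g fun f hf => ?_
      have := C.dec _ _ hf
      omega
    | succ m ih =>
      intro g hg
      refine h g fun f hf => ih f ?_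
      have := C.dec _ _ hf
      omega
  exact fun g => key _ g le_rfl

theorem mem_sub {f g : K.F} : g ∈ C.sub f ↔ C.Desc f g := by
  classical
  unfold PC.Cotree.sub
  simp only [mem_filter, mem_univ, true_and]

theorem self_mem (f : K.F) : f ∈ C.sub f := (mem_sub C).2 Relation.ReflTransGen.refl

theorem rank_le {f g : K.F} (h : C.Desc f g) : C.rank f ≤ C.rank g := by
  unfold PC.Cotree.Desc at h
  induction h with
  | refl => exact le_rfl
  | tail _ h ih => exact (C.dec _ _ h).le.trans ih

theorem desc_child {f g x : K.F} (hg : C.par g = some f) (h : C.Desc g x) : C.Desc f x :=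
  Relation.ReflTransGen.tail h hg

theorem desc_cases {f x : K.F} (h : C.Desc f x) : x = f ∨ ∃ g, C.par g = some f ∧ C.Desc g x := by
  rcases Relation.ReflTransGen.cases_tail h with h | ⟨g, h1, h2⟩
  · exact Or.inl h.symm
  · exact Or.inr ⟨g, h2, h1⟩

theorem desc_head {f x : K.F} (h : C.Desc f x) (hne : x ≠ f) :
    ∃ y, C.par x = some y ∧ C.Desc f y := by
  rcases Relation.ReflTransGen.cases_head h with h | ⟨y, h1, h2⟩
  · exact absurd h hne
  · exact ⟨y, h1, h2⟩

theorem desc_total {f g x : K.F} (hf : C.Desc f x) (hg : C.Desc g x) : C.Desc g f ∨ C.Desc f g :=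
  Relation.ReflTransGen.total_of_right_unique
    (fun _ _ _ h1 h2 => Option.some.inj (h1.symm.trans h2)) hf hg

theorem not_desc_child {f g : K.F} (hg : C.par g = some f) : ¬ C.Desc g f := fun h => by
  have := rank_le C h
  have := C.dec _ _ hg
  omega

/-- two faces with the same parent and a common descendant are equal -/
theorem sib_eq {g1 g2 x : K.F} (h : C.par g1 = C.par g2) (h1 : C.Desc g1 x) (h2 : C.Desc g2 x) :
    g1 = g2 := by
  by_contra hne
  rcases desc_total C h1 h2 with h3 | h3
  · obtain ⟨y, hy, hy2⟩ := desc_head C h3 hne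
    rw [h] at hy
    exact not_desc_child C hy hy2
  · obtain ⟨y, hy, hy2⟩ := desc_head C h3 (Ne.symm hne)
    rw [← h] at hy
    exact not_desc_child C hy hy2

open Classical in
theorem sum_sub {M : Type} [AddCommMonoid M] (φ : K.F → M) (f : K.F) :
    ∑ x ∈ C.sub f, φ x = φ f + ∑ g ∈ univ.filter (fun g => C.par g = some f),
      ∑ x ∈ C.sub g, φ x := by
  have e : C.sub f = insert f ((univ.filter fun g => C.par g = some f).biUnion C.sub) := by
    ext x
    rw [mem_sub, Finset.mem_insert, Finset.mem_biUnion]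
    constructor
    · intro h
      rcases desc_cases C h with h | ⟨g, hg, hx⟩
      · exact Or.inl h
      · exact Or.inr ⟨g, by simpa only [mem_filter, mem_univ, true_and] using hg, (mem_sub C).2 hx⟩
    · rintro (rfl | ⟨g, hg, hx⟩)
      · exact Relation.ReflTransGen.refl
      · exact desc_child C (by simpa only [mem_filter, mem_univ, true_and] using hg) ((mem_sub C).1 hx)
  rw [e, Finset.sum_insert, Finset.sum_biUnion]
  · intro g1 hg1 g2 hg2 hne
    rw [Function.onFun, Finset.disjoint_left]
    intro x hx1 hx2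
    have h1 : C.par g1 = some f := by simpa only [coe_filter, mem_univ, true_and, Set.mem_ofPred_eq] using hg1
    have h2 : C.par g2 = some f := by simpa only [coe_filter, mem_univ, true_and, Set.mem_ofPred_eq] using hg2
    exact hne (sib_eq C (h1.trans h2.symm) ((mem_sub C).1 hx1) ((mem_sub C).1 hx2))
  · intro h
    rw [Finset.mem_biUnion] at h
    obtain ⟨g, hg, hx⟩ := h
    exact not_desc_child C (by simpa only [mem_filter, mem_univ, true_and] using hg) ((mem_sub C).1 hx)

open Classical in
theorem sum_root {M : Type} [AddCommMonoid M] (φ : K.F → M) :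
    ∑ g ∈ univ.filter (fun g => C.par g = none), ∑ x ∈ C.sub g, φ x = ∑ x, φ x := by
  have e : (univ : Finset K.F) = (univ.filter fun g => C.par g = none).biUnion C.sub := by
    ext x
    refine ⟨fun _ => ?_, fun _ => Finset.mem_univ _⟩
    rw [Finset.mem_biUnion]
    have key : ∀ x, ∃ g, C.par g = none ∧ C.Desc g x := by
      refine indUp C fun x h => ?_
      cases hx : C.par x with
      | none => exact ⟨x, hx, Relation.ReflTransGen.refl⟩
      | some f =>
        obtain ⟨g, hg, hd⟩ := h f hx
        exact ⟨g, hg, Relation.ReflTransGen.head hx hd⟩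
    obtain ⟨g, hg, hd⟩ := key x
    exact ⟨g, by simpa only [mem_filter, mem_univ, true_and] using hg, (mem_sub C).2 hd⟩
  conv_rhs => rw [e]
  rw [Finset.sum_biUnion]
  intro g1 hg1 g2 hg2 hne
  rw [Function.onFun, Finset.disjoint_left]
  intro x hx1 hx2
  have h1 : C.par g1 = none := by simpa only [coe_filter, mem_univ, true_and, Set.mem_ofPred_eq] using hg1
  have h2 : C.par g2 = none := by simpa only [coe_filter, mem_univ, true_and, Set.mem_ofPred_eq] using hg2
  exact hne (sib_eq C (h1.trans h2.symm) ((mem_sub C).1 hx1) ((mem_sub C).1 hx2))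

/-- the product of the values along a walk -/
theorem prod_c (l : List (K.E × Bool)) : ∀ a : K.E × Bool,
    (a :: l).IsChain (fun a b => K.org b = K.org (rv a)) →
    ((a :: l).map C.c).prod = C.pot (K.org a) * ((a :: l).map K.lt).prod *
      (C.pot (K.org (rv ((a :: l).getLast (List.cons_ne_nil _ _)))))⁻¹ := by
  induction l with
  | nil =>
    intro a _
    simp only [List.map_cons, PC.Cotree.c, List.map_nil, List.prod_cons, List.prod_nil, mul_one, List.getLast_singleton]
  | cons b l ih =>
    intro a h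
    rw [List.isChain_cons_cons] at h
    rw [List.map_cons, List.prod_cons, ih b h.2, List.getLast_cons (List.cons_ne_nil _ _), h.1]
    simp only [List.map_cons, List.prod_cons]
    unfold PC.Cotree.c
    group

/-- the product of the values along a face -/
theorem prod_face {f : Option K.F} {d : K.E × Bool} (hd : d ∈ (K.bd f).head?) :
    ((K.bd f).map C.c).prod = C.pot (K.org d) * val (K.wd f) * (C.pot (K.org d))⁻¹ := by
  have hch := K.chain f
  have hcl := K.closed f
  unfold PC.wd
  rw [← prod_lt]
  cases hl : K.bd f with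
  | nil =>
    rw [hl] at hd
    simp at hd
  | cons a l =>
    rw [hl] at hd hch hcl
    have hda : a = d := by simpa using hd
    subst hda
    rw [prod_c C l a hch]
    congr 3
    exact (hcl _ (List.getLast?_eq_getLast_of_ne_nil (List.cons_ne_nil _ _) ▸ rfl) a rfl).symm

end pc

section sqk

variable {S : Sys} {σ : Equiv.Perm (S.C)} {K : SqK σ} (C : K.toPC.Cotree)

open Classical in
/-- the product along a list of darts without parent darts, in terms of the children -/
theorem prod_list (N : K.F → ℕ) (Z : K.F → Chn σ) (l : List (K.E × Bool)) :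
    l.Nodup → (∀ d ∈ l, ∀ f, C.dd f ≠ d) →
    (∀ g, rv (C.dd g) ∈ l → Expr σ (N g) (C.c (C.dd g)) (Z g)) →
    Expr σ (∑ g ∈ univ.filter (fun g => rv (C.dd g) ∈ l), N g) (l.map C.c).prod
      (-∑ g ∈ univ.filter (fun g => rv (C.dd g) ∈ l), Z g) := by
  induction l with
  | nil =>
    intro _ _ _
    simpa using Expr.nil
  | cons d l ih =>
    intro hnd hdd hE
    rw [List.nodup_cons] at hnd
    have h1 := ih hnd.2 (fun d' hd' => hdd d' (List.mem_cons_of_mem _ hd'))
      (fun g hg => hE g (List.mem_cons_of_mem _ hg))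
    rcases dart_cases C d with h | ⟨f, hf⟩ | ⟨g, hg⟩
    · have e : (univ.filter fun g => rv (C.dd g) ∈ d :: l) =
          univ.filter fun g => rv (C.dd g) ∈ l := by
        refine Finset.filter_congr fun g _ => ?_
        rw [List.mem_cons]
        refine ⟨fun h2 => h2.resolve_left fun h3 => h g ?_, Or.inr⟩
        rw [← h3]
        rfl
      rw [e, List.map_cons, List.prod_cons, c_triv C h, one_mul]
      exact h1
    · exact absurd hf (hdd d List.mem_cons_self f)
    · have e : (univ.filter fun g => rv (C.dd g) ∈ d :: l) =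
          insert g (univ.filter fun g => rv (C.dd g) ∈ l) := by
        ext x
        rw [Finset.mem_filter, Finset.mem_insert, Finset.mem_filter, List.mem_cons]
        constructor
        · rintro ⟨_, h2 | h2⟩
          · left
            refine dd_inj C ?_
            rw [← rv_rv (C.dd x), h2, ← hg, rv_rv]
          · exact Or.inr ⟨Finset.mem_univ _, h2⟩
        · rintro (rfl | h2)
          · exact ⟨Finset.mem_univ _, Or.inl hg⟩
          · exact ⟨Finset.mem_univ _, Or.inr h2.2⟩
      have hn : g ∉ univ.filter fun g => rv (C.dd g) ∈ l := by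
        rw [Finset.mem_filter, hg]
        exact fun h2 => hnd.1 h2.2
      rw [e, Finset.sum_insert hn, Finset.sum_insert hn, List.map_cons, List.prod_cons]
      have h2 := EX.inv (hE g (hg ▸ List.mem_cons_self))
      rw [← c_rv, hg] at h2
      exact EX.cast (EX.mul h2 h1) rfl rfl (by rw [neg_add])

theorem outer_dd {d : K.E × Bool} (hd : d ∈ K.bd none) (f : K.F) : C.dd f ≠ d := by
  rintro rfl
  exact Option.some_ne_none f (once' (C.mem f) hd)

/-- the parent dart in the list of a face -/
theorem split_face (f : K.F) : ∃ l1 l2 : List (K.E × Bool), K.bd (some f) = l1 ++ C.dd f :: l2 ∧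
    (∀ d ∈ l1, ∀ g, C.dd g ≠ d) ∧ (∀ d ∈ l2, ∀ g, C.dd g ≠ d) ∧ l1.Nodup ∧ l2.Nodup ∧
    List.Disjoint l1 l2 := by
  obtain ⟨l1, l2, h⟩ := List.append_of_mem (C.mem f)
  have hn := nodup (K := K.toPC) (some f)
  rw [h, List.nodup_append] at hn
  obtain ⟨h1, h2, h3⟩ := hn
  rw [List.nodup_cons] at h2
  have hm : ∀ d, d ∈ l1 ∨ d ∈ l2 → d ∈ K.bd (some f) := by
    intro d hd
    rw [h]
    simp only [List.mem_append, List.mem_cons]
    rcases hd with hd | hd
    · exact Or.inl hd
    · exact Or.inr (Or.inr hd)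
  have key : ∀ d, (d ∈ l1 ∨ d ∈ l2) → ∀ g, C.dd g ≠ d := by
    rintro d hd g rfl
    have h5 : g = f := Option.some.inj (once' (C.mem g) (hm _ hd))
    subst h5
    rcases hd with hd | hd
    · exact h3 _ hd _ List.mem_cons_self rfl
    · exact h2.1 hd
  refine ⟨l1, l2, h, fun d hd => key d (Or.inl hd), fun d hd => key d (Or.inr hd), h1, h2.2, ?_⟩
  intro d hd1 hd2
  exact h3 _ hd1 _ (List.mem_cons_of_mem _ hd2) rfl

theorem exists_head (f : K.F) : ∃ d, d ∈ (K.bd (some f)).head? := by
  have := K.ne f
  cases h : K.bd (some f) with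
  | nil => exact absurd h this
  | cons a l => exact ⟨a, rfl⟩

/-- the value of a cotree edge is trivial in the group -/
theorem mk_dd (f : K.F) : PresentedGroup.mk (rels σ) (C.c (C.dd f)) = 1 := by
  refine ind C (motive := fun f => PresentedGroup.mk (rels σ) (C.c (C.dd f)) = 1) ?_ f
  intro f hf
  obtain ⟨l1, l2, h, h1, h2, -, -, -⟩ := split_face C f
  obtain ⟨d, hd⟩ := exists_head f
  have hp := prod_face C hd
  rw [h] at hp
  have key : ∀ l : List (K.E × Bool), (∀ d ∈ l, ∀ g, C.dd g ≠ d) →
      (∀ d ∈ l, d ∈ K.bd (some f)) → PresentedGroup.mk (rels σ) ((l.map C.c).prod) = 1 := by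
    intro l
    induction l with
    | nil => intro _ _; exact map_one _
    | cons a l ih =>
      intro ha hb
      rw [List.map_cons, List.prod_cons, map_mul,
        ih (fun d hd => ha d (List.mem_cons_of_mem _ hd))
          (fun d hd => hb d (List.mem_cons_of_mem _ hd)), mul_one]
      rcases dart_cases C a with h3 | ⟨g, hg⟩ | ⟨g, hg⟩
      · rw [c_triv C h3, map_one]
      · exact absurd hg (ha a List.mem_cons_self g)
      · rw [← hg, c_rv, map_inv, hf g, inv_one]
        rw [par_iff, hg]
        exact hb a List.mem_cons_self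
  have k1 := key l1 h1 fun d hd => by
    rw [h]
    exact List.mem_append_left _ hd
  have k2 := key l2 h2 fun d hd => by
    rw [h]
    exact List.mem_append_right _ (List.mem_cons_of_mem _ hd)
  have h5 := congrArg (PresentedGroup.mk (rels σ)) hp
  unfold PC.wd at h5
  rw [K.sq f] at h5
  rw [List.map_append, List.prod_append, List.map_cons, List.prod_cons, map_mul, map_mul, k1, k2,
    one_mul, mul_one, map_mul, map_mul, EX.mk_relw, mul_one, map_inv, mul_inv_cancel] at h5
  exact h5

theorem mk_c (d : K.E × Bool) : PresentedGroup.mk (rels σ) (C.c d) = 1 := by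
  rcases dart_cases C d with h | ⟨f, hf⟩ | ⟨g, hg⟩
  · rw [c_triv C h, map_one]
  · rw [← hf, mk_dd]
  · rw [← hg, c_rv, map_inv, mk_dd, inv_one]

/-- the potential of the cotree is the group potential -/
theorem mk_pot (P : K.GPot) (hr : P.π C.root = 1) (v : K.V) :
    PresentedGroup.mk (rels σ) (C.pot v) = P.π v := by
  have h := K.conn C.root v
  induction h with
  | refl => rw [C.pot_root, map_one, hr]
  | tail _ h ih =>
    obtain ⟨d, h1, h2⟩ := h
    have h3 := mk_c C d
    unfold PC.Cotree.c at h3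
    rw [map_mul, map_mul, map_inv, mul_inv_eq_one, h1, h2, ih] at h3
    rw [← h3, ← h1, P.st d, h2]

/-- chain of one square -/
noncomputable def sqz (P : K.GPot) (f : K.F) : Chn σ :=
  ∑ d ∈ ((K.bd (some f)).head?).toFinset, pch σ (P.π (K.org d)) (K.q f)

theorem chn_eq (P : K.GPot) (S : Finset K.F) : K.chn P S = ∑ f ∈ S, sqz P f := rfl

open Classical in
/-- one step of the recursion -/
theorem step (P : K.GPot) (hr : P.π C.root = 1) (N : K.F → ℕ) (Z : K.F → Chn σ) (f : K.F)
    (hE : ∀ g, C.par g = some f → Expr σ (N g) (C.c (C.dd g)) (Z g)) :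
    Expr σ (1 + ∑ g ∈ univ.filter (fun g => C.par g = some f), N g) (C.c (C.dd f))
      (sqz P f + ∑ g ∈ univ.filter (fun g => C.par g = some f), Z g) := by
  obtain ⟨l1, l2, h, h1, h2, h3, h4, h5⟩ := split_face C f
  obtain ⟨d, hd⟩ := exists_head f
  have hp := prod_face C hd
  have hm : ∀ g, C.par g = some f ↔ (rv (C.dd g) ∈ l1 ∨ rv (C.dd g) ∈ l2) := by
    intro g
    rw [par_iff, h, List.mem_append, List.mem_cons]
    have := rv_dd_ne C f g
    (clear * - this; tauto)
  have E1 := prod_list C N Z l1 h3 h1 fun g hg => hE g ((hm g).2 (Or.inl hg))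
  have E2 := prod_list C N Z l2 h4 h2 fun g hg => hE g ((hm g).2 (Or.inr hg))
  have e : (univ.filter fun g => C.par g = some f) =
      (univ.filter fun g => rv (C.dd g) ∈ l1) ∪ univ.filter fun g => rv (C.dd g) ∈ l2 := by
    ext g
    simp only [Finset.mem_union, Finset.mem_filter, Finset.mem_univ, true_and]
    exact hm g
  have hdis : Disjoint (univ.filter fun g => rv (C.dd g) ∈ l1)
      (univ.filter fun g => rv (C.dd g) ∈ l2) := by
    rw [Finset.disjoint_left]
    intro g hg1 hg2
    exact h5 (Finset.mem_filter.1 hg1).2 (Finset.mem_filter.1 hg2).2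
  rw [e, Finset.sum_union hdis, Finset.sum_union hdis]
  have hz : sqz P f = pch σ (PresentedGroup.mk (rels σ) (C.pot (K.org d))) (K.q f) := by
    unfold sqz
    rw [mk_pot C P hr]
    have : (K.bd (some f)).head? = some d := hd
    rw [this]
    simp
  have hc : C.c (C.dd f) = ((l1.map C.c).prod)⁻¹ *
      (C.pot (K.org d) * val (relw σ (K.q f)) * (C.pot (K.org d))⁻¹) * ((l2.map C.c).prod)⁻¹ := by
    have hw : K.toPC.wd (some f) = relw σ (K.q f) := K.sq f
    rw [← hw, ← hp, h, List.map_append, List.prod_append, List.map_cons, List.prod_cons]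
    group
  rw [hc]
  refine EX.cast (EX.mul (EX.mul (EX.inv E1) (EX.sq (C.pot (K.org d)) (K.q f))) (EX.inv E2))
    (by omega) rfl ?_
  rw [hz, neg_neg, neg_neg]
  abel

end sqk

end DR

/-- **D3** -/
theorem DR.stmtRec' : StmtRec := by
  classical
  intro S σ K P C hr
  refine ⟨DR.mk_pot C P hr, ?_⟩
  refine DR.ind C (motive := fun f => Expr σ (C.sub f).card (C.c (C.dd f)) (K.chn P (C.sub f))) ?_
  intro f hf
  refine EX.cast (DR.step C P hr (fun g => (C.sub g).card) (fun g => K.chn P (C.sub g)) f hf)
    ?_ rfl ?_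
  · have := DR.sum_sub C (fun _ => 1) f
    simp only [Finset.sum_const, smul_eq_mul, mul_one] at this
    exact this.symm
  · exact (DR.sum_sub C (DR.sqz P) f).symm

/-- **D4** -/
theorem stmtRepl : StmtRepl := by
  classical
  intro S σ K P C hr hroot f0 k z hE
  set φ : K.F → ℕ := fun x => if x ∈ C.sub f0 then (if x = f0 then k else 0) else 1 with hφ
  set ζ : K.F → Chn σ := fun x => if x ∈ C.sub f0 then (if x = f0 then z else 0) else DR.sqz P x
    with hζ
  have hφ0 : ∑ x ∈ C.sub f0, φ x = k := by
    rw [Finset.sum_congr rfl (g := fun x => if x = f0 then k else 0) fun x hx => if_pos hx,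
      Finset.sum_ite_eq', if_pos (DR.self_mem C f0)]
  have hζ0 : ∑ x ∈ C.sub f0, ζ x = z := by
    rw [Finset.sum_congr rfl (g := fun x => if x = f0 then z else 0) fun x hx => if_pos hx,
      Finset.sum_ite_eq', if_pos (DR.self_mem C f0)]
  have key : ∀ g, (g ∉ C.sub f0 ∨ g = f0) →
      Expr σ (∑ x ∈ C.sub g, φ x) (C.c (C.dd g)) (∑ x ∈ C.sub g, ζ x) := by
    refine DR.ind C (motive := fun g => (g ∉ C.sub f0 ∨ g = f0) →
      Expr σ (∑ x ∈ C.sub g, φ x) (C.c (C.dd g)) (∑ x ∈ C.sub g, ζ x)) ?_
    intro g ih hg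
    by_cases hgf : g = f0
    · subst hgf
      rw [hφ0, hζ0]
      exact hE
    · have hg' : g ∉ C.sub f0 := hg.resolve_right hgf
      have h1 := DR.step C P hr (fun g => ∑ x ∈ C.sub g, φ x) (fun g => ∑ x ∈ C.sub g, ζ x) g
        fun g' hg'' => ih g' hg'' (by
          by_contra hcon
          push Not at hcon
          obtain ⟨y, hy, hy2⟩ := DR.desc_head C ((DR.mem_sub C).1 hcon.1) hcon.2
          rw [hg''] at hy
          rw [← Option.some.inj hy] at hy2
          exact hg' ((DR.mem_sub C).2 hy2))
      refine EX.cast h1 ?_ rfl ?_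
      · rw [DR.sum_sub C φ g]
        have : φ g = 1 := if_neg hg'
        rw [this]
      · rw [DR.sum_sub C ζ g]
        have : ζ g = DR.sqz P g := if_neg hg'
        rw [this]
  have hout := DR.prod_list C (fun g => ∑ x ∈ C.sub g, φ x) (fun g => ∑ x ∈ C.sub g, ζ x)
    (K.bd none) (DR.nodup (K := K.toPC) none) (fun d hd f => DR.outer_dd C hd f) fun g hg =>
      key g (by
        by_contra hcon
        push Not at hcon
        obtain ⟨y, hy, -⟩ := DR.desc_head C ((DR.mem_sub C).1 hcon.1) hcon.2
        rw [(DR.par_iff C g none).2 hg] at hy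
        exact Option.some_ne_none y hy.symm)
  have e : (univ.filter fun g => rv (C.dd g) ∈ K.bd none) =
      univ.filter fun g => C.par g = none :=
    Finset.filter_congr fun g _ => (DR.par_iff C g none).symm
  rw [e, DR.sum_root C φ, DR.sum_root C ζ] at hout
  have hval : ((K.bd none).map C.c).prod = val (K.toPC.wd none) := by
    cases hl : (K.bd none).head? with
    | none =>
      have h0 : K.bd none = [] := List.head?_eq_none_iff.1 hl
      unfold PC.wd
      rw [h0]
      rfl
    | some d =>
      have h1 := hroot d (by rw [hl]; rfl)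
      rw [DR.prod_face C (f := none) (d := d) (by rw [hl]; rfl), h1, C.pot_root, one_mul, inv_one,
        mul_one]
  refine EX.cast (EX.inv hout) ?_ ?_ ?_
  · rw [← Finset.sum_add_sum_compl (C.sub f0) φ, hφ0,
      Finset.sum_congr rfl (g := fun _ => 1) fun x hx => if_neg (Finset.mem_compl.1 hx)]
    rw [Finset.sum_const, smul_eq_mul, mul_one, Finset.card_compl]
    have := Finset.card_le_univ (C.sub f0)
    (clear * -; omega)
  · rw [hval]
    unfold SqK.outw
    rw [EX.val_winv]
  · rw [neg_neg, ← Finset.sum_add_sum_compl (C.sub f0) ζ, hζ0,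
      Finset.sum_congr rfl (g := DR.sqz P) fun x hx => if_neg (Finset.mem_compl.1 hx),
      DR.chn_eq, DR.chn_eq, ← Finset.sum_add_sum_compl (C.sub f0) (DR.sqz P)]
    abel

end Vale.Agent.P201.S
end

section

/-!
P201, part D6 (labels): sums over an orbit of a partial injection telescope (helper603).
-/

namespace Vale.Agent.P201.S.OrbTel

open Finset

variable {T : Type}

theorem pit_add (f : T ≃. T) (a b : ℕ) (s : T) :
    pit f (a + b) s = (pit f a s).bind (pit f b) := by
  induction a generalizing s with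
  | zero => simp only [zero_add, pit, Option.bind_some]
  | succ a ih =>
    rw [Nat.succ_add]
    show (f s).bind (pit f (a + b)) = ((f s).bind (pit f a)).bind (pit f b)
    rcases f s with _ | t
    · rfl
    · exact ih t

theorem pit_one (f : T ≃. T) (s : T) : pit f 1 s = f s := by
  show (f s).bind (pit f 0) = f s
  rcases f s with _ | t <;> rfl

theorem pit_mul (f : T ≃. T) {k : ℕ} {s : T} (h : pit f k s = some s) (m : ℕ) :
    pit f (k * m) s = some s := by
  induction m with
  | zero => rfl
  | succ m ih => rw [Nat.mul_succ, pit_add, ih]; exact h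

theorem mem_orb [Fintype T] (f : T ≃. T) (s t : T) :
    t ∈ orb f s ↔ ∃ k, pit f k s = some t := by
  simp only [orb, mem_filter, mem_univ, true_and]

/-- every element of a periodic orbit has an image, which lies in the orbit -/
theorem exists_next [Fintype T] (f : T ≃. T) {s t : T} (hs : Per f s) (ht : t ∈ orb f s) :
    ∃ t2, f t = some t2 ∧ t2 ∈ orb f s := by
  obtain ⟨k, hk, hks⟩ := hs
  obtain ⟨j, hj⟩ := (mem_orb f s t).1 ht
  have h1 := pit_mul f hks (j + 1)
  have hle : j + 1 ≤ k * (j + 1) := Nat.le_mul_of_pos_left _ hk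
  obtain ⟨r, hr⟩ := Nat.exists_eq_add_of_le hle
  rw [hr, Nat.add_assoc, pit_add, hj] at h1
  have h2 : pit f (1 + r) t = some s := h1
  rw [pit_add, pit_one] at h2
  rcases hft : f t with _ | t2
  · rw [hft] at h2; cases h2
  · refine ⟨t2, rfl, (mem_orb f s t2).2 ⟨j + 1, ?_⟩⟩
    rw [pit_add, hj]
    show pit f 1 t = some t2
    rw [pit_one, hft]

/-- sums over a periodic orbit are invariant -/
theorem sum_next [Fintype T] {M : Type} [AddCommMonoid M] (f : T ≃. T) {s : T} (hs : Per f s)
    (P : T → M) (N : T → T) (hN : ∀ t ∈ orb f s, f t = some (N t)) :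
    ∑ t ∈ orb f s, P (N t) = ∑ t ∈ orb f s, P t := by
  classical
  have hmaps : ∀ t ∈ orb f s, N t ∈ orb f s := by
    intro t ht
    obtain ⟨t2, h1, h2⟩ := exists_next f hs ht
    rw [hN t ht] at h1
    rwa [Option.some_injective _ h1]
  have hinj : Set.InjOn N (orb f s : Set T) := by
    intro a ha b hb hab
    have h1 := hN a ha
    have h2 := hN b hb
    rw [hab] at h1
    exact f.inj h1 h2
  have himg : (orb f s).image N = orb f s := by
    refine Finset.eq_of_subset_of_card_le ?_ ?_
    · intro x hx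
      obtain ⟨a, ha, rfl⟩ := Finset.mem_image.1 hx
      exact hmaps a ha
    · rw [Finset.card_image_of_injOn hinj]
  conv_rhs => rw [← himg]
  rw [Finset.sum_image hinj]

/-- a function which is a difference along `f` has sum zero over every periodic orbit -/
theorem orb_telescope [Fintype T] (f : T ≃. T) {s : T} (hs : Per f s) (P g : T → ℤ)
    (h : ∀ t ∈ orb f s, ∀ t2, f t = some t2 → g t = P t2 - P t) :
    ∑ t ∈ orb f s, g t = 0 := by
  classical
  have hex : ∀ t, ∃ t2, t ∈ orb f s → f t = some t2 := by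
    intro t
    by_cases ht : t ∈ orb f s
    · obtain ⟨t2, h1, -⟩ := exists_next f hs ht
      exact ⟨t2, fun _ => h1⟩
    · exact ⟨t, fun h' => absurd h' ht⟩
  choose N hN using hex
  have h1 : ∑ t ∈ orb f s, g t = ∑ t ∈ orb f s, (P (N t) - P t) :=
    Finset.sum_congr rfl (fun t ht => h t ht (N t) (hN t ht))
  rw [h1, Finset.sum_sub_distrib, sum_next f hs P N hN, sub_self]

end Vale.Agent.P201.S.OrbTel
end

section

/-! # P201 part D: dual components and dual spanning trees with allowed edges -/

namespace Vale.Agent.P201.S.LabConn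

open Finset Relation

variable {A : Type} (K : PC A)

theorem rtg_symm {α : Type} {r : α → α → Prop} (h : ∀ a b, r a b → r b a) {a b : α}
    (hab : ReflTransGen r a b) : ReflTransGen r b a := by
  induction hab with
  | refl => exact ReflTransGen.refl
  | tail _ hbc ih => exact ReflTransGen.head (h _ _ hbc) ih

theorem rtg_mono {α : Type} {r r' : α → α → Prop} (h : ∀ a b, r a b → r' a b) {a b : α}
    (hab : ReflTransGen r a b) : ReflTransGen r' a b := by
  induction hab with
  | refl => exact ReflTransGen.refl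
  | tail _ hbc ih => exact ih.tail (h _ _ hbc)

theorem lc_rv {E : Type} (d : E × Bool) : rv (rv d) = d := by
  unfold rv
  simp

theorem lc_unique {d : K.E × Bool} {f g : Option K.F} (hf : d ∈ K.bd f) (hg : d ∈ K.bd g) :
    f = g := by
  by_contra hne
  have h := K.once d
  have h1 : 1 ≤ (K.bd f).count d := List.one_le_count_iff.2 hf
  have h2 : 1 ≤ (K.bd g).count d := List.one_le_count_iff.2 hg
  have h3 : ∑ x ∈ ({f, g} : Finset (Option K.F)), (K.bd x).count d ≤ ∑ x, (K.bd x).count d :=
    sum_le_sum_of_subset (subset_univ _)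
  rw [sum_pair hne, h] at h3
  omega

theorem lc_exists_face (d : K.E × Bool) : ∃ f, d ∈ K.bd f := by
  by_contra hcon
  push Not at hcon
  have h := K.once d
  rw [sum_eq_zero fun f _ => List.count_eq_zero.2 (hcon f)] at h
  exact zero_ne_one h

/-- dual adjacency -/
def DAdj (a b : Option K.F) : Prop := ∃ d, d ∈ K.bd a ∧ rv d ∈ K.bd b

theorem DAdj.symm {K : PC A} {a b : Option K.F} (h : DAdj K a b) : DAdj K b a := by
  obtain ⟨d, h1, h2⟩ := h
  exact ⟨rv d, h2, by rwa [lc_rv]⟩

open Classical in
/-- Components of the complement of a dual connected set containing the outer face are bonds. -/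
theorem bond_component (R : Option K.F → Prop)
    (hconn : ∀ f, R f → ReflTransGen (fun a b => R b ∧ ∃ d, d ∈ K.bd a ∧ rv d ∈ K.bd b) none f)
    (hnone : R none) (f0 : K.F) (hf0 : ¬ R (some f0)) :
    ∃ C : Finset K.F, K.Bond C ∧ f0 ∈ C ∧ (∀ f ∈ C, ¬ R (some f)) ∧
      ∀ e ∈ K.bdry C, ∃ d : K.E × Bool, d.1 = e ∧ (∃ a, R a ∧ d ∈ K.bd a) ∧
        ∃ f ∈ C, rv d ∈ K.bd (some f) := by
  set Q : K.F → K.F → Prop := fun a b => ¬ R (some b) ∧ ∃ d, d ∈ K.bd (some a) ∧
    rv d ∈ K.bd (some b) with hQ
  set C : Finset K.F := univ.filter (fun g => ReflTransGen Q f0 g) with hC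
  have hmem : ∀ g, g ∈ C ↔ ReflTransGen Q f0 g := fun g => by rw [hC, mem_filter]; simp only [mem_univ, true_and]
  have h0 : f0 ∈ C := (hmem f0).2 ReflTransGen.refl
  have hnR : ∀ f ∈ C, ¬ R (some f) := by
    intro f hf
    rcases ((hmem f).1 hf).cases_tail with h | ⟨b, _, h⟩
    · rw [h]; exact hf0
    · exact h.1
  have hstep : ∀ f ∈ C, ∀ g, ¬ R (some g) → DAdj K (some f) (some g) → g ∈ C := by
    intro f hf g hg hd
    exact (hmem g).2 (((hmem f).1 hf).tail ⟨hg, hd⟩)
  -- the symmetric relation inside `C`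
  set S : K.F → K.F → Prop := fun a b => a ∈ C ∧ b ∈ C ∧ DAdj K (some a) (some b) with hS
  have hSsymm : ∀ a b, S a b → S b a := fun a b h => ⟨h.2.1, h.1, h.2.2.symm⟩
  have hS0 : ∀ g ∈ C, ReflTransGen S f0 g := by
    intro g hg
    have h := (hmem g).1 hg
    clear hg
    induction h with
    | refl => exact ReflTransGen.refl
    | @tail b c hb hbc ih =>
      have hbC : b ∈ C := (hmem b).2 hb
      exact ih.tail ⟨hbC, hstep b hbC c hbc.1 hbc.2, hbc.2⟩
  have hSfg : ∀ f ∈ C, ∀ g ∈ C, ReflTransGen S f g := fun f hf g hg =>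
    (rtg_symm hSsymm (hS0 f hf)).trans (hS0 g hg)
  -- complement
  have hout : ∀ f : Option K.F, (∀ x ∈ C, f ≠ some x) →
      ReflTransGen (fun a b => (∀ x ∈ C, a ≠ some x) ∧ (∀ x ∈ C, b ≠ some x) ∧ DAdj K a b)
        f none := by
    intro f hf
    have hRC : ∀ a, R a → ∀ x ∈ C, a ≠ some x := fun a ha x hx h => hnR x hx (h ▸ ha)
    have hRnone : ∀ a, R a →
        ReflTransGen (fun a b => (∀ x ∈ C, a ≠ some x) ∧ (∀ x ∈ C, b ≠ some x) ∧ DAdj K a b)
          a none := by
      intro a ha
      have h1 := hconn a ha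
      have h2 : ReflTransGen
          (fun a b => (∀ x ∈ C, a ≠ some x) ∧ (∀ x ∈ C, b ≠ some x) ∧ DAdj K a b) none a := by
        clear ha
        have key : R a ∧ ReflTransGen
            (fun a b => (∀ x ∈ C, a ≠ some x) ∧ (∀ x ∈ C, b ≠ some x) ∧ DAdj K a b) none a := by
          induction h1 with
          | refl => exact ⟨hnone, ReflTransGen.refl⟩
          | @tail b c _ hbc ih => exact ⟨hbc.1, ih.2.tail ⟨hRC b ih.1, hRC c hbc.1, hbc.2⟩⟩
        exact key.2
      exact rtg_symm (fun a b h => ⟨h.2.1, h.1, h.2.2.symm⟩) h2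
    have hpath : ReflTransGen (fun a b => ∃ d, d ∈ K.bd a ∧ rv d ∈ K.bd b) f none := K.dconn f none
    induction hpath using ReflTransGen.head_induction_on with
    | refl => exact ReflTransGen.refl
    | @head a b hab _ ih =>
      by_cases ha : R a
      · exact hRnone a ha
      · have hb : ∀ x ∈ C, b ≠ some x := by
          intro x hx hbx
          cases a with
          | none => exact ha hnone
          | some g =>
            rw [hbx] at hab
            have hxg : DAdj K (some x) (some g) := DAdj.symm hab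
            exact hf g (hstep x hx g ha hxg) rfl
        exact ReflTransGen.head ⟨hf, hb, hab⟩ (ih hb)
  refine ⟨C, ⟨⟨f0, h0⟩, ?_, ?_⟩, h0, hnR, ?_⟩
  · intro f hf g hg
    exact rtg_mono (fun a b h => ⟨h.2.1, h.2.2⟩) (hSfg f hf g hg)
  · intro f g hf hg
    have h1 := hout f hf
    have h2 := rtg_symm (fun a b h => ⟨h.2.1, h.1, h.2.2.symm⟩) (hout g hg)
    exact rtg_mono (fun a b h => ⟨h.2.1, h.2.2⟩) (h1.trans h2)
  · intro e he
    unfold PC.bdry at he
    rw [mem_filter] at he
    have key : ∀ b : Bool, (∃ f ∈ C, (e, b) ∈ K.bd (some f)) →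
        (¬ ∃ f ∈ C, (e, !b) ∈ K.bd (some f)) → ∃ d : K.E × Bool, d.1 = e ∧
          (∃ a, R a ∧ d ∈ K.bd a) ∧ ∃ f ∈ C, rv d ∈ K.bd (some f) := by
      rintro b ⟨f, hf, hd⟩ hno
      obtain ⟨a, ha⟩ := lc_exists_face K (e, !b)
      refine ⟨(e, !b), rfl, ⟨a, ?_, ha⟩, f, hf, by unfold rv; simpa using hd⟩
      by_contra haR
      cases a with
      | none => exact haR hnone
      | some g =>
        have : g ∈ C := hstep f hf g haR ⟨(e, b), hd, ha⟩
        exact hno ⟨g, this, ha⟩
    by_cases ht : ∃ f ∈ C, (e, true) ∈ K.bd (some f)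
    · by_cases hf : ∃ f ∈ C, (e, false) ∈ K.bd (some f)
      · exact absurd ⟨fun _ => hf, fun _ => ht⟩ he.2
      · exact key true ht (by simpa only [Bool.not_true, not_exists, not_and] using hf)
    · by_cases hf : ∃ f ∈ C, (e, false) ∈ K.bd (some f)
      · exact key false hf (by simpa only [Bool.not_false, not_exists, not_and] using ht)
      · exact absurd ⟨fun h => absurd h ht, fun h => absurd h hf⟩ he.2

/-- If every bond with boundary in `Z` is everything, then the dual graph with the edges outside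
`Z` and at most one more edge, on the outer boundary, is connected. -/
theorem allowed_conn (Z : K.E → Prop)
    (H : ∀ C : Finset K.F, K.Bond C → (∀ e ∈ K.bdry C, Z e) → C = univ) :
    ∃ oe : Option K.E,
      (∀ e ∈ oe, ∃ d : K.E × Bool, d.1 = e ∧ d ∈ K.bd none ∧ ∃ f, rv d ∈ K.bd (some f)) ∧
      ∀ f : Option K.F, ReflTransGen
        (fun a b => ∃ d, d ∈ K.bd a ∧ rv d ∈ K.bd b ∧ (¬ Z d.1 ∨ d.1 ∈ oe)) none f := by
  -- general step
  have gen : ∀ (oe : Option K.E) (f1 : K.F), ¬ ReflTransGen
      (fun a b => ∃ d, d ∈ K.bd a ∧ rv d ∈ K.bd b ∧ (¬ Z d.1 ∨ d.1 ∈ oe)) none (some f1) →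
      ∀ f : K.F, ¬ ReflTransGen
        (fun a b => ∃ d, d ∈ K.bd a ∧ rv d ∈ K.bd b ∧ (¬ Z d.1 ∨ d.1 ∈ oe)) none (some f) := by
    intro oe f1 hf1
    set r : Option K.F → Option K.F → Prop :=
      fun a b => ∃ d, d ∈ K.bd a ∧ rv d ∈ K.bd b ∧ (¬ Z d.1 ∨ d.1 ∈ oe) with hr
    obtain ⟨C, hB, _, hCR, hbd⟩ := bond_component K (fun f => ReflTransGen r none f)
      (by
        intro f hf
        induction hf with
        | refl => exact ReflTransGen.refl
        | @tail b c hb hbc ih =>
          obtain ⟨d, h1, h2, _⟩ := id hbc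
          exact ih.tail ⟨hb.tail hbc, d, h1, h2⟩)
      ReflTransGen.refl f1 hf1
    have hC := H C hB (by
      intro e he
      obtain ⟨d, hde, ⟨a, ha, hda⟩, f, hf, hdf⟩ := hbd e he
      by_contra hZ
      exact hCR f hf (ha.tail ⟨d, hda, hdf, Or.inl (by rw [hde]; exact hZ)⟩))
    intro f
    exact hCR f (by rw [hC]; exact mem_univ f)
  by_cases hall : ∀ f : K.F, ReflTransGen
      (fun a b => ∃ d, d ∈ K.bd a ∧ rv d ∈ K.bd b ∧ (¬ Z d.1 ∨ d.1 ∈ (none : Option K.E)))
        none (some f)
  · refine ⟨none, fun e he => by simp at he, fun f => ?_⟩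
    cases f with
    | none => exact ReflTransGen.refl
    | some f => exact hall f
  · push Not at hall
    obtain ⟨f1, hf1⟩ := hall
    -- the outer face is adjacent to an inner face
    obtain ⟨f0, d0, hd0, hd0'⟩ : ∃ (f0 : K.F) (d0 : K.E × Bool), d0 ∈ K.bd none ∧
        rv d0 ∈ K.bd (some f0) := by
      by_contra hcon
      push Not at hcon
      have h : ∀ b : Option K.F, ReflTransGen (fun a b => ∃ d, d ∈ K.bd a ∧ rv d ∈ K.bd b) none b →
          b = none := by
        intro b hb
        induction hb with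
        | refl => rfl
        | @tail x y _ hxy ih =>
          subst ih
          obtain ⟨d, h1, h2⟩ := hxy
          cases y with
          | none => rfl
          | some g => exact absurd h2 (hcon g d h1)
      have := h (some f1) (K.dconn none (some f1))
      simp at this
    refine ⟨some d0.1, ?_, ?_⟩
    · intro e he
      rw [Option.mem_def, Option.some_inj] at he
      exact ⟨d0, he, hd0, f0, hd0'⟩
    · intro f
      by_contra hf
      cases f with
      | none => exact hf ReflTransGen.refl
      | some f =>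
        exact gen (some d0.1) f hf f0 (ReflTransGen.single ⟨d0, hd0, hd0', Or.inr rfl⟩)

/-- If no bond has its boundary in `Z`, then the dual graph with the edges outside `Z` is connected. -/
theorem allowed_conn_none (Z : K.E → Prop)
    (H : ∀ C : Finset K.F, K.Bond C → (∀ e ∈ K.bdry C, Z e) → False) :
    ∀ f : Option K.F, ReflTransGen (fun a b => ∃ d, d ∈ K.bd a ∧ rv d ∈ K.bd b ∧ ¬ Z d.1) none f := by
  intro f1
  by_contra hf1
  set r : Option K.F → Option K.F → Prop :=
    fun a b => ∃ d, d ∈ K.bd a ∧ rv d ∈ K.bd b ∧ ¬ Z d.1 with hr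
  cases f1 with
  | none => exact hf1 ReflTransGen.refl
  | some f1 =>
    obtain ⟨C, hB, _, hCR, hbd⟩ := bond_component K (fun f => ReflTransGen r none f)
      (by
        intro f hf
        induction hf with
        | refl => exact ReflTransGen.refl
        | @tail b c hb hbc ih =>
          obtain ⟨d, h1, h2, _⟩ := id hbc
          exact ih.tail ⟨hb.tail hbc, d, h1, h2⟩)
      ReflTransGen.refl f1 hf1
    refine H C hB (by
      intro e he
      obtain ⟨d, hde, ⟨a, ha, hda⟩, f, hf, hdf⟩ := hbd e he
      by_contra hZ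
      exact hCR f hf (ha.tail ⟨d, hda, hdf, by rw [hde]; exact hZ⟩))

/-- Breadth first search. -/
theorem bfs {α : Type} (S : α → α → Prop) (r : α) (h : ∀ v, ReflTransGen S r v) :
    ∃ rank : α → ℕ, ∀ v, v ≠ r → ∃ w, S w v ∧ rank w < rank v := by
  classical
  obtain ⟨R, hR0, hRs⟩ : ∃ R : ℕ → α → Prop, (∀ v, R 0 v ↔ v = r) ∧
      ∀ k v, R (k + 1) v ↔ ∃ w, R k w ∧ S w v :=
    ⟨fun k => Nat.rec (fun v => v = r) (fun _ P v => ∃ w, P w ∧ S w v) k,
      fun v => Iff.rfl, fun k v => Iff.rfl⟩
  have ex : ∀ v, ∃ k, R k v := by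
    intro v
    induction h v with
    | refl => exact ⟨0, (hR0 r).2 rfl⟩
    | tail _ hs ih =>
      obtain ⟨k, hk⟩ := ih
      exact ⟨k + 1, (hRs k _).2 ⟨_, hk, hs⟩⟩
  refine ⟨fun v => Nat.find (ex v), ?_⟩
  intro v hv
  have hk := Nat.find_spec (ex v)
  rcases Nat.eq_zero_or_pos (Nat.find (ex v)) with h0 | hpos
  · rw [h0] at hk
    exact absurd ((hR0 v).1 hk) hv
  · obtain ⟨m, hm⟩ := Nat.exists_eq_succ_of_ne_zero hpos.ne'
    rw [hm] at hk
    obtain ⟨w, hw, hs⟩ := (hRs m v).1 hk
    refine ⟨w, hs, ?_⟩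
    have := Nat.find_min' (ex w) hw
    show Nat.find (ex w) < Nat.find (ex v)
    omega

/-- The dual spanning tree. -/
theorem allowed_tree (Al : K.E → Prop)
    (h : ∀ f : Option K.F, ReflTransGen
      (fun a b => ∃ d, d ∈ K.bd a ∧ rv d ∈ K.bd b ∧ Al d.1) none f) :
    ∃ (par : K.F → Option K.F) (dd : K.F → K.E × Bool) (rank : K.F → ℕ),
      (∀ f, dd f ∈ K.bd (some f)) ∧ (∀ f, rv (dd f) ∈ K.bd (par f)) ∧
      (∀ f g, par f = some g → rank g < rank f) ∧ ∀ f, Al (dd f).1 := by
  obtain ⟨rank, hrank⟩ := bfs _ none h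
  have h2 : ∀ f : K.F, ∃ (g : Option K.F) (d : K.E × Bool), d ∈ K.bd (some f) ∧ rv d ∈ K.bd g ∧
      Al d.1 ∧ rank g < rank (some f) := by
    intro f
    obtain ⟨c, ⟨d, h1, h2, h3⟩, h4⟩ := hrank (some f) (by simp)
    exact ⟨c, rv d, h2, by rwa [lc_rv], h3, h4⟩
  choose par dd h3 h4 h5 h6 using h2
  refine ⟨par, dd, fun f => rank (some f), h3, h4, fun f g hg => ?_, h5⟩
  have h7 := h6 f
  rw [hg] at h7
  exact h7

end Vale.Agent.P201.S.LabConn
end

section

/-!
P201, part D: D0 (d) (a rooted dual spanning tree leaves a spanning tree), walks and `ZMod 2`-chains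
(helper747).
-/

namespace Vale.Agent.P201.S.Bnd

open Finset

section darts

variable {E : Type}

theorem rv_rv (d : E × Bool) : rv (rv d) = d := by
  obtain ⟨e, b⟩ := d
  simp [rv]

theorem rv_fst (d : E × Bool) : (rv d).1 = d.1 := rfl

theorem rv_ne (d : E × Bool) : rv d ≠ d := by
  obtain ⟨e, b⟩ := d
  cases b <;> simp [rv]

theorem eq_or_rv {d d' : E × Bool} (h : d.1 = d'.1) : d = d' ∨ d = rv d' := by
  obtain ⟨e, b⟩ := d
  obtain ⟨e', b'⟩ := d'
  simp only at h
  subst h
  cases b <;> cases b' <;> simp [rv]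

end darts

/-- levels of a reachability relation -/
def lev {α : Type} (R : α → α → Prop) (root : α) : ℕ → α → Prop
  | 0, x => x = root
  | n + 1, x => ∃ y, lev R root n y ∧ R y x

/-- ranks for a reachability relation -/
theorem exists_rank {α : Type} (R : α → α → Prop) (root : α) :
    ∃ rk : α → ℕ, ∀ x, Relation.ReflTransGen R root x → x ≠ root →
      ∃ y, Relation.ReflTransGen R root y ∧ R y x ∧ rk y < rk x := by
  classical
  have h1 : ∀ x, Relation.ReflTransGen R root x → ∃ n, lev R root n x := by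
    intro x hx
    induction hx with
    | refl => exact ⟨0, rfl⟩
    | tail _ hR ih =>
      obtain ⟨n, hn⟩ := ih
      exact ⟨n + 1, _, hn, hR⟩
  have h2 : ∀ n x, lev R root n x → Relation.ReflTransGen R root x := by
    intro n
    induction n with
    | zero => intro x hx; rw [show x = root from hx]
    | succ n ih =>
      intro x hx
      obtain ⟨y, hy, hR⟩ := hx
      exact (ih y hy).tail hR
  refine ⟨fun x => if h : ∃ n, lev R root n x then Nat.find h else 0, fun x hx hne => ?_⟩
  have hex := h1 x hx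
  have hsp := Nat.find_spec hex
  obtain ⟨k, hk⟩ : ∃ k, Nat.find hex = k + 1 := by
    refine ⟨Nat.find hex - 1, ?_⟩
    have : Nat.find hex ≠ 0 := fun h0 => hne (by rw [h0] at hsp; exact hsp)
    omega
  rw [hk] at hsp
  obtain ⟨y, hy, hR⟩ := hsp
  refine ⟨y, h2 k y hy, hR, ?_⟩
  have hey : ∃ n, lev R root n y := ⟨k, hy⟩
  simp only [dif_pos hex, dif_pos hey]
  have := Nat.find_min' hey hy
  omega

variable {A : Type} {K : PC A}

/-! ### faces of darts -/

theorem ex_face (K : PC A) (d : K.E × Bool) : ∃ f, d ∈ K.bd f := by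
  by_contra h
  push Not at h
  have h1 := K.once d
  rw [Finset.sum_eq_zero (fun f _ => List.count_eq_zero.2 (h f))] at h1
  exact zero_ne_one h1

theorem face_unique {d : K.E × Bool} {f g : Option K.F} (h : d ∈ K.bd f) (h' : d ∈ K.bd g) :
    f = g := by
  by_contra hne
  have h1 := K.once d
  have h2 : (K.bd f).count d + (K.bd g).count d ≤ ∑ f, (K.bd f).count d := by
    rw [← Finset.sum_pair (f := fun f => (K.bd f).count d) hne]
    exact Finset.sum_le_sum_of_subset (Finset.subset_univ _)
  have h3 := List.count_pos_iff.2 h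
  have h4 := List.count_pos_iff.2 h'
  (clear * - h1 h2 h3 h4; omega)

theorem count_one {d : K.E × Bool} {f : Option K.F} (h : d ∈ K.bd f) : (K.bd f).count d = 1 := by
  have h1 := K.once d
  have h2 : (K.bd f).count d ≤ ∑ f, (K.bd f).count d :=
    Finset.single_le_sum (f := fun f => (K.bd f).count d) (fun _ _ => Nat.zero_le _)
      (Finset.mem_univ f)
  have h3 := List.count_pos_iff.2 h
  omega

/-! ### walks -/

/-- `l` is a walk from `a` to `b` -/
def Wk (K : PC A) : List (K.E × Bool) → K.V → K.V → Prop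
  | [], a, b => a = b
  | d :: l, a, b => K.org d = a ∧ Wk K l (K.org (rv d)) b

theorem wk_nil {a b : K.V} : Wk K [] a b ↔ a = b := Iff.rfl

theorem wk_cons {d : K.E × Bool} {l : List (K.E × Bool)} {a b : K.V} :
    Wk K (d :: l) a b ↔ K.org d = a ∧ Wk K l (K.org (rv d)) b := Iff.rfl

theorem wk_append {l1 l2 : List (K.E × Bool)} {a c : K.V} :
    Wk K (l1 ++ l2) a c ↔ ∃ b, Wk K l1 a b ∧ Wk K l2 b c := by
  induction l1 generalizing a with
  | nil =>
    simp only [List.nil_append, wk_nil]
    exact ⟨fun h => ⟨a, rfl, h⟩, fun ⟨b, hb, h⟩ => hb ▸ h⟩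
  | cons d l1 ih =>
    rw [List.cons_append, wk_cons, ih]
    constructor
    · rintro ⟨h, b, h1, h2⟩
      exact ⟨b, wk_cons.2 ⟨h, h1⟩, h2⟩
    · rintro ⟨b, h1, h2⟩
      obtain ⟨h, h1⟩ := wk_cons.1 h1
      exact ⟨h, b, h1, h2⟩

theorem wk_of_chain {l : List (K.E × Bool)}
    (hc : l.IsChain (fun a b => K.org b = K.org (rv a))) {d z : K.E × Bool}
    (hd : d ∈ l.head?) (hz : z ∈ l.getLast?) : Wk K l (K.org d) (K.org (rv z)) := by
  induction l generalizing d with
  | nil => simp at hd
  | cons x l ih =>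
    simp only [List.head?_cons, Option.mem_def, Option.some.injEq] at hd
    subst hd
    rw [wk_cons]
    refine ⟨rfl, ?_⟩
    cases l with
    | nil =>
      simp only [List.getLast?_singleton, Option.mem_def, Option.some.injEq] at hz
      subst hz
      exact wk_nil.2 rfl
    | cons y l =>
      rw [List.isChain_cons_cons] at hc
      rw [← hc.1]
      refine ih hc.2 (by simp) ?_
      rwa [List.getLast?_cons_cons] at hz

theorem bd_wk (K : PC A) (f : Option K.F) (h : K.bd f ≠ []) : ∃ a, Wk K (K.bd f) a a := by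
  have hd : (K.bd f).head h ∈ (K.bd f).head? := by
    rw [List.head?_eq_some_head h]; rfl
  have hz : (K.bd f).getLast h ∈ (K.bd f).getLast? := by
    rw [List.getLast?_eq_some_getLast h]; rfl
  have h1 := wk_of_chain (K.chain f) hd hz
  rw [← K.closed f _ hz _ hd] at h1
  exact ⟨_, h1⟩

/-- a walk can be shortened to one without repeated edges -/
theorem exists_nodup {l : List (K.E × Bool)} {a b : K.V} (h : Wk K l a b) :
    ∃ l', Wk K l' a b ∧ (l'.map Prod.fst).Nodup ∧ ∀ d ∈ l', d ∈ l := by
  induction l generalizing a with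
  | nil => exact ⟨[], h, by simp, by simp⟩
  | cons x l ih =>
    obtain ⟨hx, h⟩ := wk_cons.1 h
    obtain ⟨l', h1, h2, h3⟩ := ih h
    by_cases hm : x.1 ∈ l'.map Prod.fst
    · rw [List.mem_map] at hm
      obtain ⟨y, hy, hyx⟩ := hm
      obtain ⟨u, w, rfl⟩ := List.append_of_mem hy
      obtain ⟨c, -, hc⟩ := wk_append.1 h1
      obtain ⟨hyc, hw⟩ := wk_cons.1 hc
      rw [List.map_append] at h2
      have h4 := (List.nodup_append.1 h2).2.1
      rcases eq_or_rv hyx with rfl | rfl
      · refine ⟨y :: w, wk_cons.2 ⟨hx, hw⟩, h4, fun d hd => ?_⟩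
        exact List.mem_cons_of_mem _ (h3 d (by simp only [List.mem_append]; exact Or.inr hd))
      · rw [rv_rv, hx] at hw
        rw [List.map_cons, List.nodup_cons] at h4
        exact ⟨w, hw, h4.2, fun d hd => List.mem_cons_of_mem _ (h3 d (by
          simp only [List.mem_append, List.mem_cons]; exact Or.inr (Or.inr hd)))⟩
    · refine ⟨x :: l', wk_cons.2 ⟨hx, h1⟩, ?_, ?_⟩
      · rw [List.map_cons, List.nodup_cons]; exact ⟨hm, h2⟩
      · intro d hd
        rcases List.mem_cons.1 hd with rfl | hd
        · exact List.mem_cons_self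
        · exact List.mem_cons_of_mem _ (h3 d hd)

/-! ### chains modulo two -/

/-- chain of a list of darts -/
def ch (l : List (K.E × Bool)) (e : K.E) : ZMod 2 :=
  (l.map (fun d => if d.1 = e then (1 : ZMod 2) else 0)).sum

/-- boundary -/
def bnd (m : K.E → ZMod 2) (v : K.V) : ZMod 2 := ∑ d : K.E × Bool, if K.org d = v then m d.1 else 0

theorem bnd_add (m m' : K.E → ZMod 2) (v : K.V) :
    bnd (fun e => m e + m' e) v = bnd m v + bnd m' v := by
  unfold bnd
  rw [← Finset.sum_add_distrib]
  refine Finset.sum_congr rfl fun d _ => ?_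
  split_ifs <;> simp

theorem bnd_sum {ι : Type} (s : Finset ι) (m : ι → K.E → ZMod 2) (v : K.V) :
    bnd (fun e => ∑ i ∈ s, m i e) v = ∑ i ∈ s, bnd (m i) v := by
  unfold bnd
  rw [Finset.sum_comm]
  refine Finset.sum_congr rfl fun d _ => ?_
  split_ifs <;> simp

theorem bnd_single (d : K.E × Bool) (v : K.V) :
    bnd (fun e => if d.1 = e then (1 : ZMod 2) else 0) v =
      (if K.org d = v then 1 else 0) + (if K.org (rv d) = v then 1 else 0) := by
  unfold bnd
  have h1 : ∀ x : K.E × Bool, (if K.org x = v then (if d.1 = x.1 then (1 : ZMod 2) else 0) else 0) =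
      if x = d then (if K.org d = v then 1 else 0) else
        if x = rv d then (if K.org (rv d) = v then 1 else 0) else 0 := by
    intro x
    by_cases hx : d.1 = x.1
    · rcases eq_or_rv hx.symm with rfl | rfl
      · simp
      · rw [if_neg (rv_ne d), if_pos rfl, if_pos (rv_fst d).symm]
    · have h2 : x ≠ d := fun h => hx (h ▸ rfl)
      have h3 : x ≠ rv d := fun h => hx (h ▸ rfl)
      simp [hx, h2, h3]
  rw [Finset.sum_congr rfl (fun x _ => h1 x)]
  have h2 : ∀ x : K.E × Bool, (if x = d then (if K.org d = v then (1 : ZMod 2) else 0) else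
        if x = rv d then (if K.org (rv d) = v then 1 else 0) else 0) =
      (if x = d then (if K.org d = v then (1 : ZMod 2) else 0) else 0) +
        (if x = rv d then (if K.org (rv d) = v then 1 else 0) else 0) := by
    intro x
    by_cases hx : x = d
    · subst hx
      simp [(rv_ne x).symm]
    · simp only [hx, ↓reduceIte, zero_add]
  rw [Finset.sum_congr rfl (fun x _ => h2 x), Finset.sum_add_distrib, Finset.sum_ite_eq',
    Finset.sum_ite_eq']
  simp only [mem_univ, ↓reduceIte]

theorem bnd_ch (l : List (K.E × Bool)) (v : K.V) :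
    bnd (ch l) v = (l.map (fun d => if K.org d = v then (1 : ZMod 2) else 0)).sum +
      (l.map (fun d => if K.org (rv d) = v then (1 : ZMod 2) else 0)).sum := by
  induction l with
  | nil => simp only [bnd, ch, List.map_nil, List.sum_nil, ite_self, sum_const_zero, add_zero]
  | cons d l ih =>
    have h1 : ch (d :: l) = fun e => (if d.1 = e then (1 : ZMod 2) else 0) + ch l e := by
      funext e; simp [ch]
    rw [h1, bnd_add, bnd_single, ih, List.map_cons, List.map_cons, List.sum_cons, List.sum_cons]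
    ring

theorem sum_wk {l : List (K.E × Bool)} {a b : K.V} (h : Wk K l a b) (v : K.V) :
    (l.map (fun d => if K.org d = v then (1 : ZMod 2) else 0)).sum + (if b = v then 1 else 0) =
      (l.map (fun d => if K.org (rv d) = v then (1 : ZMod 2) else 0)).sum +
        (if a = v then 1 else 0) := by
  induction l generalizing a with
  | nil =>
    rw [wk_nil] at h
    subst h
    simp
  | cons d l ih =>
    obtain ⟨rfl, h'⟩ := wk_cons.1 h
    have := ih h'
    rw [List.map_cons, List.map_cons, List.sum_cons, List.sum_cons, add_assoc, this]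
    ring

theorem bnd_closed {l : List (K.E × Bool)} {a : K.V} (h : Wk K l a a) (v : K.V) :
    bnd (ch l) v = 0 := by
  have := sum_wk h v
  rw [bnd_ch, add_right_cancel this]
  exact CharTwo.add_self_eq_zero _

theorem bnd_bd (K : PC A) (f : Option K.F) (v : K.V) : bnd (ch (K.bd f)) v = 0 := by
  by_cases h : K.bd f = []
  · rw [h]; simp only [bnd, ch, List.map_nil, List.sum_nil, ite_self, sum_const_zero]
  · obtain ⟨a, ha⟩ := bd_wk K f h
    exact bnd_closed ha v

/-- chain of a face -/
theorem ch_bd (K : PC A) (f : Option K.F) (e : K.E) :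
    ch (K.bd f) e = (if (e, true) ∈ K.bd f then 1 else 0) + (if (e, false) ∈ K.bd f then 1 else 0) := by
  classical
  have h1 : ∀ l : List (K.E × Bool), ch l e = ((l.count (e, true) : ℕ) : ZMod 2) +
      ((l.count (e, false) : ℕ) : ZMod 2) := by
    intro l
    induction l with
    | nil => simp only [ch, List.map_nil, List.sum_nil, List.nodup_nil, List.count_nil, Nat.cast_zero, add_zero]
    | cons d l ih =>
      have h2 : ch (d :: l) e = (if d.1 = e then (1 : ZMod 2) else 0) + ch l e := by simp [ch]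
      rw [h2, ih, List.count_cons, List.count_cons]
      obtain ⟨x, b⟩ := d
      by_cases hx : x = e
      · subst hx
        cases b
        · simp only [↓reduceIte, beq_iff_eq, Prod.mk.injEq, Bool.false_eq_true, and_false, add_zero, BEq.rfl, Nat.cast_add, Nat.cast_one]; ring
        · simp only [↓reduceIte, BEq.rfl, Nat.cast_add, Nat.cast_one, beq_iff_eq, Prod.mk.injEq, Bool.true_eq_false, and_false, add_zero]; ring
      · simp [hx]
  rw [h1]
  congr 1
  · by_cases h : (e, true) ∈ K.bd f
    · rw [if_pos h, count_one h]; simp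
    · rw [if_neg h, List.count_eq_zero.2 h]; simp
  · by_cases h : (e, false) ∈ K.bd f
    · rw [if_pos h, count_one h]; simp
    · rw [if_neg h, List.count_eq_zero.2 h]; simp

/-- (a) the boundary of a set of faces is a cycle -/
theorem bnd_faces (K : PC A) (C : Finset K.F) (v : K.V) :
    bnd (fun e => ∑ f ∈ C, ch (K.bd (some f)) e) v = 0 := by
  rw [bnd_sum]
  exact Finset.sum_eq_zero fun f _ => bnd_bd K _ v

/-- the chain of a set of faces at an edge -/
theorem ch_faces (K : PC A) (C : Finset K.F) (e : K.E) :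
    ∑ f ∈ C, ch (K.bd (some f)) e = if e ∈ K.bdry C then 1 else 0 := by
  classical
  have h1 : ∀ b, ∑ f ∈ C, (if (e, b) ∈ K.bd (some f) then (1 : ZMod 2) else 0) =
      if ∃ f ∈ C, (e, b) ∈ K.bd (some f) then 1 else 0 := by
    intro b
    by_cases h : ∃ f ∈ C, (e, b) ∈ K.bd (some f)
    · rw [if_pos h]
      obtain ⟨f, hf, hb⟩ := h
      rw [Finset.sum_eq_single_of_mem f hf, if_pos hb]
      intro g _ hg
      rw [if_neg]
      intro hgb
      exact hg (Option.some.inj (face_unique hgb hb))
    · rw [if_neg h]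
      refine Finset.sum_eq_zero fun f hf => ?_
      rw [if_neg]
      exact fun hb => h ⟨f, hf, hb⟩
  rw [Finset.sum_congr rfl (fun f _ => ch_bd K (some f) e), Finset.sum_add_distrib, h1, h1]
  have h2 : e ∈ K.bdry C ↔ ¬ ((∃ f ∈ C, (e, true) ∈ K.bd (some f)) ↔
      (∃ f ∈ C, (e, false) ∈ K.bd (some f))) := by
    unfold PC.bdry
    simp only [mem_filter, mem_univ, true_and]
  by_cases h3 : ∃ f ∈ C, (e, true) ∈ K.bd (some f)
  · by_cases h4 : ∃ f ∈ C, (e, false) ∈ K.bd (some f)
    · rw [if_pos h3, if_pos h4, if_neg]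
      · exact CharTwo.add_self_eq_zero _
      · rw [h2]; exact not_not.2 (iff_of_true h3 h4)
    · rw [if_pos h3, if_neg h4, if_pos]
      · simp
      · rw [h2]; exact fun h => h4 (h.1 h3)
  · by_cases h4 : ∃ f ∈ C, (e, false) ∈ K.bd (some f)
    · rw [if_neg h3, if_pos h4, if_pos]
      · simp
      · rw [h2]; exact fun h => h3 (h.2 h4)
    · rw [if_neg h3, if_neg h4, if_neg]
      · simp
      · rw [h2]; exact not_not.2 (iff_of_false h3 h4)

/-- (b) a cycle supported in a tree is zero -/
theorem tree_zero (T : K.STree) {m : K.E → ZMod 2} (h0 : ∀ e, ¬ T.Ed e → m e = 0)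
    (hb : ∀ v, bnd m v = 0) (e : K.E) : m e = 0 := by
  classical
  by_contra hne
  have hex : ∃ n, ∃ v d, T.pd v = some d ∧ m d.1 ≠ 0 ∧ n = T.hgt v := by
    by_contra h
    push Not at h
    by_cases hE : T.Ed e
    · obtain ⟨v, d, hd, rfl⟩ := hE
      exact h _ v d hd hne rfl
    · exact hne (h0 e hE)
  -- choose the vertex of maximal height
  have hfin : ((univ : Finset K.V).filter (fun v => ∃ d, T.pd v = some d ∧ m d.1 ≠ 0)).Nonempty := by
    obtain ⟨n, v, d, h1, h2, -⟩ := hex
    exact ⟨v, by simp only [Finset.mem_filter, Finset.mem_univ, true_and]; exact ⟨d, h1, h2⟩⟩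
  obtain ⟨v, hv, hmax⟩ := Finset.exists_max_image _ T.hgt hfin
  simp only [Finset.mem_filter, Finset.mem_univ, true_and] at hv hmax
  obtain ⟨d, hd, hmd⟩ := hv
  have horg := T.or v d hd
  apply hmd
  rw [← hb v]
  unfold bnd
  rw [Finset.sum_eq_single d]
  · rw [if_pos horg]
  · intro x _ hxd
    by_cases hx : K.org x = v
    · rw [if_pos hx]
      by_contra hmx
      have hE : T.Ed x.1 := by
        by_contra hE
        exact hmx (h0 _ hE)
      obtain ⟨w, y, hy, hyx⟩ := hE
      rcases eq_or_rv hyx with rfl | rfl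
      · have : w = v := by rw [← T.or w y hy, hx]
        subst this
        rw [hd] at hy
        exact hxd (Option.some.inj hy).symm
      · have h1 := T.dec w _ hy
        rw [rv_rv, hx] at h1
        have h2 := hmax w ⟨_, hy, hmx⟩
        omega
    · rw [if_neg hx]
  · intro h; exact absurd (Finset.mem_univ d) h

/-! ### rooted dual trees -/

/-- rooted dual spanning tree -/
structure DT (K : PC A) where
  par : K.F → Option K.F
  dd : K.F → K.E × Bool
  rank : K.F → ℕ
  mem : ∀ f, dd f ∈ K.bd (some f)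
  memr : ∀ f, rv (dd f) ∈ K.bd (par f)
  dec : ∀ f g, par f = some g → rank g < rank f

theorem DT.inj (D : DT K) {f g : K.F} (h : (D.dd f).1 = (D.dd g).1) : f = g := by
  rcases eq_or_rv h with h | h
  · have h1 := D.mem f
    rw [h] at h1
    exact Option.some.inj (face_unique h1 (D.mem g))
  · exfalso
    have h1 := D.mem f
    rw [h] at h1
    have h2 : D.par g = some f := (face_unique h1 (D.memr g)).symm
    have h3 := D.mem g
    have h4 : rv (D.dd f) = D.dd g := by rw [h, rv_rv]
    have h5 := D.memr f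
    rw [h4] at h5
    have h6 : D.par f = some g := (face_unique h3 h5).symm
    have h7 := D.dec _ _ h2
    have h8 := D.dec _ _ h6
    omega

/-- step of the graph without the dual tree edges -/
def St (D : DT K) (a b : K.V) : Prop :=
  ∃ d : K.E × Bool, (∀ f, (D.dd f).1 ≠ d.1) ∧ K.org d = a ∧ K.org (rv d) = b

theorem St.symm {D : DT K} {a b : K.V} (h : St D a b) : St D b a := by
  obtain ⟨d, h1, h2, h3⟩ := h
  exact ⟨rv d, h1, h3, by rw [rv_rv]; exact h2⟩

theorem st_symm {D : DT K} {a b : K.V} (h : Relation.ReflTransGen (St D) a b) :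
    Relation.ReflTransGen (St D) b a := by
  induction h with
  | refl => exact Relation.ReflTransGen.refl
  | tail _ h ih => exact Relation.ReflTransGen.head h.symm ih

theorem wk_conn {D : DT K} {l : List (K.E × Bool)} {a b : K.V} (h : Wk K l a b)
    (hl : ∀ d ∈ l, Relation.ReflTransGen (St D) (K.org d) (K.org (rv d))) :
    Relation.ReflTransGen (St D) a b := by
  induction l generalizing a with
  | nil => rw [wk_nil.1 h]
  | cons d l ih =>
    obtain ⟨rfl, h'⟩ := wk_cons.1 h
    exact (hl d List.mem_cons_self).trans (ih h' fun x hx => hl x (List.mem_cons_of_mem _ hx))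

/-- the two ends of a dual tree edge are joined by other edges -/
theorem dd_conn (D : DT K) (f : K.F) :
    Relation.ReflTransGen (St D) (K.org (D.dd f)) (K.org (rv (D.dd f))) := by
  classical
  obtain ⟨N, hN⟩ : ∃ N, ∀ g, D.rank g ≤ N :=
    ⟨∑ g, D.rank g, fun g => Finset.single_le_sum (f := D.rank) (fun _ _ => Nat.zero_le _)
      (Finset.mem_univ g)⟩
  obtain ⟨n, hn⟩ : ∃ n, N - D.rank f = n := ⟨_, rfl⟩
  induction n using Nat.strong_induction_on generalizing f with
  | _ n ih =>
  obtain ⟨l1, l2, hl⟩ := List.append_of_mem (D.mem f)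
  obtain ⟨a, ha⟩ := bd_wk K (some f) (K.ne f)
  rw [hl] at ha
  obtain ⟨b, hb, hc⟩ := wk_append.1 ha
  obtain ⟨rfl, hc'⟩ := wk_cons.1 hc
  have hw : Wk K (l2 ++ l1) (K.org (rv (D.dd f))) (K.org (D.dd f)) := wk_append.2 ⟨a, hc', hb⟩
  refine st_symm (wk_conn hw fun d hd => ?_)
  have hcount := count_one (D.mem f)
  rw [hl, List.count_append, List.count_cons_self] at hcount
  have hdn : d ≠ D.dd f := by
    rintro rfl
    rcases List.mem_append.1 hd with h | h
    · have := List.count_pos_iff.2 h; omega
    · have := List.count_pos_iff.2 h; omega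
  have hdm : d ∈ K.bd (some f) := by
    rw [hl]
    rcases List.mem_append.1 hd with h | h
    · exact List.mem_append_right _ (List.mem_cons_of_mem _ h)
    · exact List.mem_append_left _ h
  by_cases hE : ∀ g, (D.dd g).1 ≠ d.1
  · exact Relation.ReflTransGen.single ⟨d, hE, rfl, rfl⟩
  · push Not at hE
    obtain ⟨g, hg⟩ := hE
    rcases eq_or_rv hg with h | h
    · exfalso
      have h1 := D.mem g
      rw [h] at h1
      have h2 : g = f := Option.some.inj (face_unique h1 hdm)
      subst h2
      exact hdn h.symm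
    · have h1 : rv (D.dd g) = d := by rw [h, rv_rv]
      have h2 := D.memr g
      rw [h1] at h2
      have h3 : D.par g = some f := face_unique h2 hdm
      have h4 := D.dec g f h3
      have h5 := ih (N - D.rank g) (by have := hN g; (clear * - hn h4 this; omega)) g rfl
      rw [← h1, rv_rv]
      exact st_symm h5

theorem st_conn (D : DT K) (u v : K.V) : Relation.ReflTransGen (St D) u v := by
  have h := K.conn u v
  induction h with
  | refl => exact Relation.ReflTransGen.refl
  | tail _ h ih =>
    refine ih.trans ?_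
    obtain ⟨d, rfl, rfl⟩ := h
    by_cases hE : ∀ g, (D.dd g).1 ≠ d.1
    · exact Relation.ReflTransGen.single ⟨d, hE, rfl, rfl⟩
    · push Not at hE
      obtain ⟨g, hg⟩ := hE
      rcases eq_or_rv hg with rfl | h
      · exact dd_conn D g
      · have h1 : rv (D.dd g) = d := by rw [h, rv_rv]
        rw [← h1, rv_rv]
        exact st_symm (dd_conn D g)

open Classical in
/-- a spanning tree in the complement of the dual tree; it contains all other edges -/
theorem exists_stree (D : DT K) (root : K.V) :
    ∃ T : K.STree, T.root = root ∧ ∀ e, T.Ed e ↔ ∀ f, (D.dd f).1 ≠ e := by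
  obtain ⟨rk, hrk⟩ := exists_rank (St D) root
  have h1 : ∀ v, v ≠ root → ∃ d : K.E × Bool, (∀ f, (D.dd f).1 ≠ d.1) ∧ K.org d = v ∧
      rk (K.org (rv d)) < rk v := by
    intro v hv
    obtain ⟨y, -, ⟨d, h1, h2, h3⟩, h4⟩ := hrk v (st_conn D root v) hv
    exact ⟨rv d, h1, h3, by rw [rv_rv, h2]; exact h4⟩
  choose g hg1 hg2 hg3 using h1
  let T : K.STree :=
    { pd := fun v => if h : v = root then none else some (g v h)
      hgt := rk
      root := root
      rt := fun v => by
        by_cases h : v = root <;> simp [h]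
      or := fun v d h => by
        by_cases hv : v = root
        · simp [hv] at h
        · simp only [dif_neg hv, Option.some.injEq] at h
          rw [← h]; exact hg2 v hv
      dec := fun v d h => by
        by_cases hv : v = root
        · simp [hv] at h
        · simp only [dif_neg hv, Option.some.injEq] at h
          rw [← h]; exact hg3 v hv }
  have hT : ∀ v (hv : v ≠ root), T.pd v = some (g v hv) := by
    intro v hv
    simp [T, hv]
  refine ⟨T, rfl, ?_⟩
  let G : {v : K.V // v ≠ root} → K.E := fun v => (g v.1 v.2).1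
  have hinj : Function.Injective G := by
    rintro ⟨v, hv⟩ ⟨w, hw⟩ h
    rw [Subtype.mk.injEq]
    rcases eq_or_rv h with h | h
    · rw [← hg2 v hv, ← hg2 w hw, h]
    · exfalso
      have h2 := hg3 v hv
      have h3 := hg3 w hw
      have h4 : rv (g w hw) = g v hv := h.symm
      have h5 : rv (g v hv) = g w hw := by rw [← h4, rv_rv]
      rw [h5, hg2 w hw] at h2
      rw [h4, hg2 v hv] at h3
      omega
  have hsub : univ.image G ⊆ univ.filter (fun e => ∀ f, (D.dd f).1 ≠ e) := by
    intro e he
    rw [Finset.mem_image] at he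
    obtain ⟨v, -, rfl⟩ := he
    simp only [Finset.mem_filter, Finset.mem_univ, true_and]
    exact hg1 v.1 v.2
  have hcard1 : (univ.image G).card = Fintype.card K.V - 1 := by
    rw [Finset.card_image_of_injective _ hinj, Finset.card_univ,
      Fintype.card_of_subtype (univ.erase root) (by simp only [mem_erase, ne_eq, mem_univ, and_true, implies_true]),
      Finset.card_erase_of_mem (Finset.mem_univ _), Finset.card_univ]
  have hcard2 : (univ.filter (fun e => ∀ f, (D.dd f).1 ≠ e)).card + Fintype.card K.F =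
      Fintype.card K.E := by
    have h2 : (univ.image (fun f => (D.dd f).1)).card = Fintype.card K.F := by
      rw [Finset.card_image_of_injective _ (fun f g h => D.inj h), Finset.card_univ]
    rw [← h2, ← Finset.card_univ, ← Finset.card_filter_add_card_filter_not
      (s := (univ : Finset K.E)) (p := fun e => ∀ f, (D.dd f).1 ≠ e)]
    congr 2
    ext e
    simp only [mem_image, mem_univ, true_and, ne_eq, not_forall, Decidable.not_not, univ_filter_exists]
  have hV : 0 < Fintype.card K.V := Fintype.card_pos_iff.2 ⟨root⟩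
  have heq : univ.image G = univ.filter (fun e => ∀ f, (D.dd f).1 ≠ e) := by
    refine Finset.eq_of_subset_of_card_le hsub ?_
    have := K.euler
    omega
  intro e
  constructor
  · rintro ⟨v, d, h, rfl⟩
    have hv : v ≠ root := by
      intro hv
      rw [(T.rt v).2 hv] at h
      cases h
    rw [hT v hv, Option.some.injEq] at h
    rw [← h]
    exact hg1 v hv
  · intro he
    have : e ∈ univ.filter (fun e => ∀ f, (D.dd f).1 ≠ e) := by
      simp only [Finset.mem_filter, Finset.mem_univ, true_and]
      exact he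
    rw [← heq, Finset.mem_image] at this
    obtain ⟨v, -, rfl⟩ := this
    exact ⟨v.1, g v.1 v.2, hT v.1 v.2, rfl⟩

theorem lt_rv (K : PC A) (d : K.E × Bool) : K.lt (rv d) = (K.lt d)⁻¹ := by
  unfold PC.lt rv
  rw [FreeGroup.inv_mk]
  simp [FreeGroup.invRev]

open Classical in
/-- potentials with fuel -/
noncomputable def potN (T : K.STree) : ℕ → K.V → FreeGroup A
  | 0, _ => 1
  | n + 1, v => if h : (T.pd v).isSome then
      potN T n (K.org (rv ((T.pd v).get h))) * (K.lt ((T.pd v).get h))⁻¹ else 1

theorem potN_none (T : K.STree) (n : ℕ) {v : K.V} (h : T.pd v = none) : potN T n v = 1 := by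
  cases n with
  | zero => rfl
  | succ n => simp only [potN, h, Option.isSome_none, Bool.false_eq_true, ↓reduceDIte]

theorem potN_some (T : K.STree) (n : ℕ) {v : K.V} {d : K.E × Bool} (h : T.pd v = some d) :
    potN T (n + 1) v = potN T n (K.org (rv d)) * (K.lt d)⁻¹ := by
  simp only [potN, h, Option.isSome_some, ↓reduceDIte, Option.get_some]

theorem potN_stable (T : K.STree) (n : ℕ) : ∀ v, T.hgt v ≤ n → potN T n v = potN T (n + 1) v := by
  induction n with
  | zero =>
    intro v hv
    cases h : T.pd v with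
    | none => rw [potN_none T _ h, potN_none T _ h]
    | some d =>
      have := T.dec v d h
      omega
  | succ n ih =>
    intro v hv
    cases h : T.pd v with
    | none => rw [potN_none T _ h, potN_none T _ h]
    | some d =>
      have h1 := T.dec v d h
      rw [potN_some T _ h, potN_some T _ h, ih _ (by omega)]

/-- potentials of a tree -/
theorem exists_pot (T : K.STree) : ∃ pot : K.V → FreeGroup A, pot T.root = 1 ∧
    ∀ d : K.E × Bool, T.Ed d.1 → pot (K.org d) * K.lt d = pot (K.org (rv d)) := by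
  obtain ⟨N, hN⟩ : ∃ N, ∀ v, T.hgt v ≤ N :=
    ⟨∑ v, T.hgt v, fun v => Finset.single_le_sum (f := T.hgt) (fun _ _ => Nat.zero_le _)
      (Finset.mem_univ v)⟩
  have hkey : ∀ v d, T.pd v = some d →
      potN T (N + 1) v * K.lt d = potN T (N + 1) (K.org (rv d)) := by
    intro v d h
    rw [potN_some T _ h, ← potN_stable T N _ (hN _)]
    simp only [inv_mul_cancel_right]
  refine ⟨potN T (N + 1), potN_none T _ ((T.rt _).2 rfl), fun d hd => ?_⟩
  obtain ⟨v, x, hx, hxd⟩ := hd
  have horg := T.or v x hx
  rcases eq_or_rv hxd with rfl | h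
  · rw [horg]; exact hkey v x hx
  · have h1 : rv x = d := by rw [h, rv_rv]
    have h2 := hkey v x hx
    rw [← h1, rv_rv, lt_rv, horg, ← h2]
    simp only [mul_inv_cancel_right]

/-- a rooted dual tree gives a cotree together with its spanning tree -/
theorem exists_cotree (D : DT K) (root : K.V) :
    ∃ (C : K.Cotree) (T : K.STree), C.par = D.par ∧ C.dd = D.dd ∧ C.root = root ∧
      T.root = root ∧ ∀ e, T.Ed e ↔ ∀ f, (D.dd f).1 ≠ e := by
  obtain ⟨T, hT, hE⟩ := exists_stree D root
  obtain ⟨pot, h1, h2⟩ := exists_pot T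
  let C : K.Cotree :=
    { par := D.par
      dd := D.dd
      rank := D.rank
      mem := D.mem
      memr := D.memr
      dec := D.dec
      root := root
      pot := pot
      pot_root := by
        rw [← hT]
        exact h1
      triv := fun d hd => h2 d ((hE d.1).2 hd) }
  exact ⟨C, T, rfl, rfl, rfl, hT, hE⟩

end Vale.Agent.P201.S.Bnd
end

section

/-!
P201, part D6 (helper43): heights of the vertices along the t-edges.

`PosO K`: a function `τ` on the vertices rising by 1 along every t-edge except at most one edge,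
which lies on the outer boundary.
-/

namespace Vale.Agent.P201.S.Pos

open Finset Relation LabConn

variable {S : Sys} {σ : Equiv.Perm S.C}

/-- heights along t-edges; at most one exceptional edge, on the outer boundary -/
def PosO (K : PC (Let S)) : Prop := ∃ (τ : K.V → ℤ) (O : K.E → Prop),
  (∀ e e', O e → O e' → e = e') ∧ (∀ e, O e → ∃ b, (e, b) ∈ K.bd none) ∧
  ∀ e, K.lab e = Let.t → ¬ O e → τ (K.org (e, false)) = τ (K.org (e, true)) + 1

/-- heights along t-edges, no exception -/
def PosN (K : PC (Let S)) : Prop := ∃ (τ : K.V → ℤ),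
  ∀ e, K.lab e = Let.t → τ (K.org (e, false)) = τ (K.org (e, true)) + 1

/-! ### exponent of t -/

open Classical in
/-- total exponent of `t` -/
noncomputable def te : FreeGroup (Let S) →* Multiplicative ℤ :=
  FreeGroup.lift (fun a => if a = Let.t then Multiplicative.ofAdd 1 else 1)

theorem te_t : te (FreeGroup.mk [((Let.t : Let S), true)]) = Multiplicative.ofAdd 1 := by
  simp only [te, FreeGroup.lift_mk, List.map_cons, ↓reduceIte, cond_true, List.map_nil, List.prod_cons, List.prod_nil, mul_one]

/-- powers of t -/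
theorem mk_all_t (l : List (Let S × Bool)) (h : ∀ a ∈ l, a.1 = Let.t) :
    ∃ m : ℤ, FreeGroup.mk l = (FreeGroup.of (Let.t : Let S)) ^ m := by
  induction l with
  | nil => exact ⟨0, by simp [FreeGroup.one_eq_mk]⟩
  | cons a l ih =>
    obtain ⟨m, hm⟩ := ih (fun a ha => h a (List.mem_cons_of_mem _ ha))
    have ha := h a List.mem_cons_self
    obtain ⟨x, b⟩ := a
    simp only at ha
    subst ha
    have e1 : FreeGroup.mk ((Let.t, b) :: l) = FreeGroup.mk [((Let.t : Let S), b)] * FreeGroup.mk l := by
      rw [FreeGroup.mul_mk]; rfl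
    cases b with
    | true =>
      refine ⟨1 + m, ?_⟩
      rw [e1, hm, zpow_add, zpow_one]
      rfl
    | false =>
      refine ⟨-1 + m, ?_⟩
      rw [e1, hm, zpow_add, zpow_neg, zpow_one]
      congr 1

theorem val_tw (m : ℤ) : val (tw S m) = (FreeGroup.of (Let.t : Let S)) ^ m := by
  have key : ∀ (k : ℕ) (b : Bool), FreeGroup.mk (List.replicate k ((Let.t : Let S), b)) =
      (FreeGroup.mk [((Let.t : Let S), b)]) ^ k := by
    intro k b
    induction k with
    | zero => simp [FreeGroup.one_eq_mk]
    | succ k ih =>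
      rw [pow_succ', ← ih, FreeGroup.mul_mk, List.replicate_succ]
      rfl
  rw [val, tw, key]
  rcases le_or_gt 0 m with hm | hm
  · rw [show decide (0 ≤ m) = true from by simpa only [decide_eq_true_eq] using hm]
    obtain ⟨k, rfl⟩ := Int.eq_ofNat_of_zero_le hm
    rw [Int.natAbs_natCast, zpow_natCast]
    rfl
  · rw [show decide (0 ≤ m) = false from by simpa only [decide_eq_false_iff_not, not_le] using hm]
    obtain ⟨k, hk⟩ := Int.eq_ofNat_of_zero_le (show 0 ≤ -m by omega)
    have : m = -(k : ℤ) := by omega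
    subst this
    rw [Int.natAbs_neg, Int.natAbs_natCast, zpow_neg, zpow_natCast, ← inv_pow]
    congr 1

/-- conjugates of expressions -/
theorem expr_conj {k : ℕ} {u : FreeGroup (Let S)} {z : Chn σ} (h : Expr σ k u z)
    (w : FreeGroup (Let S)) : ∃ z', Expr σ k (w * u * w⁻¹) z' := by
  induction h with
  | nil =>
    refine ⟨0, ?_⟩
    rw [mul_one, mul_inv_cancel]
    exact Expr.nil
  | cons k u z v q _ ih =>
    obtain ⟨z', hz'⟩ := ih
    have h := Expr.cons k _ z' (w * v) q hz'
    have e : w * (v * val (relw σ q) * v⁻¹ * u) * w⁻¹ =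
        w * v * val (relw σ q) * (w * v)⁻¹ * (w * u * w⁻¹) := by group
    rw [← e] at h
    exact ⟨_, h⟩

/-! ### bonds whose boundary consists of t-edges -/

theorem bond_ne_nil (K : PC (Let S)) {C : Finset K.F} (h : K.Bond C) : K.bd none ≠ [] := by
  intro h0
  obtain ⟨f, _⟩ := h.1
  have h1 : ∀ b : Option K.F, ReflTransGen (fun a b => ∃ d, d ∈ K.bd a ∧ rv d ∈ K.bd b) none b →
      b = none := by
    intro b hb
    induction hb with
    | refl => rfl
    | @tail x y _ hxy ih =>
      subst ih
      obtain ⟨d, h1, _⟩ := hxy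
      rw [h0] at h1
      cases h1
  have := h1 (some f) (K.dconn none (some f))
  cases this

/-- value of a bond with t-boundary -/
theorem bond_expr (hBond : StmtBond) (hRec : StmtRec) (K : SqK σ) (P : K.GPot) (C : Finset K.F)
    (hC : K.toPC.Bond C) (ht : ∀ e ∈ K.toPC.bdry C, K.lab e = Let.t) :
    ∃ (T : K.toPC.Cotree) (f : K.F) (m : ℤ) (v : FreeGroup (Let S)), T.sub f = C ∧
      P.π T.root = 1 ∧ (∀ d ∈ (K.bd none).head?, K.org d = T.root) ∧
      T.c (T.dd f) = v * val (tw S m) * v⁻¹ ∧
      Expr σ C.card (v * val (tw S m) * v⁻¹) (K.chn P C) := by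
  obtain ⟨T, f, l, v, h1, h2, h3, h4, h5⟩ := hBond _ K.toPC C hC
  have hroot : P.π T.root = 1 := by
    obtain ⟨d, hd⟩ : ∃ d, d ∈ (K.bd none).head? := by
      cases h : K.bd none with
      | nil => exact absurd h (bond_ne_nil K.toPC hC)
      | cons a l => exact ⟨a, by simp⟩
    rw [← h2 d hd]
    exact P.base d hd
  obtain ⟨m, hm⟩ := mk_all_t (l.map (fun d => (K.lab d.1, d.2))) (by
    intro a ha
    obtain ⟨d, hd, rfl⟩ := List.mem_map.1 ha
    refine ht d.1 ?_
    rw [← h4, List.mem_toFinset]
    exact List.mem_map_of_mem hd)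
  have hR := (hRec S σ K P T hroot).2 f
  rw [hm, ← val_tw] at h5
  rw [h1, h5] at hR
  exact ⟨T, f, m, v, h1, hroot, h2, h5, hR⟩

/-- (L1), disc -/
theorem bond_univ (hBond : StmtBond) (hRec : StmtRec) (hRepl : StmtRepl) (K : SqK σ) (P : K.GPot)
    (hN : NoRed σ (val K.outw) (Fintype.card K.F) (K.chn P univ))
    (hp : ∀ (m : ℤ) (k : ℕ) (z : Chn σ), m ≠ 0 → Expr σ k (val (tw S m)) z → Fintype.card K.F ≤ k)
    (C : Finset K.F) (hC : K.toPC.Bond C) (ht : ∀ e ∈ K.toPC.bdry C, K.lab e = Let.t) :
    C = univ := by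
  obtain ⟨T, f, m, v, h1, h2, h3, h4, h5⟩ := bond_expr hBond hRec K P C hC ht
  by_cases hm : m = 0
  · exfalso
    subst hm
    rw [val_tw, zpow_zero, mul_one, mul_inv_cancel] at h4 h5
    have h6 := hRepl S σ K P T h2 h3 f 0 0 (by rw [h4]; exact Expr.nil)
    rw [h1, add_zero, add_zero] at h6
    exact hN C.card (K.chn P C) (card_pos.2 hC.1) (card_le_univ C) h5 h6
  · obtain ⟨z', hz'⟩ := expr_conj h5 v⁻¹
    have e : v⁻¹ * (v * val (tw S m) * v⁻¹) * v⁻¹⁻¹ = val (tw S m) := by group
    rw [e] at hz'
    exact (card_eq_iff_eq_univ C).1 (le_antisymm (card_le_univ C) (hp m _ _ hm hz'))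

/-- (L1), sphere -/
theorem bond_false (hBond : StmtBond) (hRec : StmtRec) (hRepl : StmtRepl) (K : SqK σ) (P : K.GPot)
    (q0 : Port S) (h : K.outw = relw σ q0)
    (hc : K.chn P univ - pch σ 1 q0 ≠ 0)
    (hz : ∀ k z, k ≤ Fintype.card K.F → Expr σ k 1 z → z = 0)
    (hp : ∀ (m : ℤ) (k : ℕ) (z : Chn σ), m ≠ 0 → ¬ Expr σ k (val (tw S m)) z)
    (C : Finset K.F) (hC : K.toPC.Bond C) (ht : ∀ e ∈ K.toPC.bdry C, K.lab e = Let.t) : False := by
  obtain ⟨T, f, m, v, h1, h2, h3, h4, h5⟩ := bond_expr hBond hRec K P C hC ht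
  by_cases hm : m = 0
  · subst hm
    rw [val_tw, zpow_zero, mul_one, mul_inv_cancel] at h4 h5
    have h6 := hRepl S σ K P T h2 h3 f 0 0 (by rw [h4]; exact Expr.nil)
    rw [h1, add_zero, add_zero] at h6
    have h7 : K.chn P C = 0 := hz _ _ (card_le_univ C) h5
    rw [h7, sub_zero, h] at h6
    have h8 := Expr.cons _ _ _ 1 (mt σ q0) h6
    have e : (1 : FreeGroup (Let S)) * val (relw σ (mt σ q0)) * 1⁻¹ * val (relw σ q0) = 1 := by
      rw [one_mul, inv_one, mul_one]
      have e1 : relw σ (mt σ q0) = winv (relw σ q0) := by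
        have e2 : mt σ (mt σ q0) = q0 := by
          rcases q0 with ⟨c, b⟩
          cases b <;> simp [mt]
        simp only [relw, e2]
        simp [winv, Function.comp_def]
      have e3 : val (winv (relw σ q0)) = (val (relw σ q0))⁻¹ := by
        rw [val, val, FreeGroup.inv_mk]
        rfl
      rw [e1, e3, inv_mul_cancel]
    rw [e] at h8
    have hcard : Fintype.card K.F - C.card + 1 ≤ Fintype.card K.F := by
      have := card_pos.2 hC.1
      have := card_le_univ C
      omega
    have h9 := hz _ _ hcard h8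
    apply hc
    have h10 : pch σ (PresentedGroup.mk (rels σ) 1) (mt σ q0) = - pch σ 1 q0 := by
      rw [map_one]
      rcases q0 with ⟨c, b⟩
      cases b <;> simp [pch, mt]
    rw [h10] at h9
    rw [← h9]
    abel
  · obtain ⟨z', hz'⟩ := expr_conj h5 v⁻¹
    have e : v⁻¹ * (v * val (tw S m) * v⁻¹) * v⁻¹⁻¹ = val (tw S m) := by group
    rw [e] at hz'
    exact hp m _ _ hm hz'

/-! ### from dual trees to heights -/

theorem pos_of_tree (K : PC (Let S)) (O : K.E → Prop)
    (h : ∀ f : Option K.F, ReflTransGen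
      (fun a b => ∃ d, d ∈ K.bd a ∧ rv d ∈ K.bd b ∧ (K.lab d.1 ≠ Let.t ∨ O d.1)) none f)
    (hV : Nonempty K.V) :
    ∃ τ : K.V → ℤ, ∀ e, K.lab e = Let.t → ¬ O e →
      τ (K.org (e, false)) = τ (K.org (e, true)) + 1 := by
  obtain ⟨par, dd, rank, h1, h2, h3, h4⟩ := allowed_tree K (fun e => K.lab e ≠ Let.t ∨ O e) h
  obtain ⟨C, T, -, hdd, -, -, -⟩ := Bnd.exists_cotree (K := K) ⟨par, dd, rank, h1, h2, h3⟩ hV.some
  refine ⟨fun v => Multiplicative.toAdd (te (C.pot v)), fun e he hO => ?_⟩
  have h5 := C.triv (e, true) (by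
    intro f hf
    rw [hdd] at hf
    rcases h4 f with h6 | h6
    · exact h6 (by rw [hf]; exact he)
    · exact hO (by rw [hf] at h6; exact h6))
  have h6 : K.lt (e, true) = FreeGroup.mk [(Let.t, true)] := by
    unfold PC.lt
    simp only [he]
  have h7 : rv (e, true) = (e, false) := rfl
  rw [h6, h7] at h5
  simp only
  rw [← h5, map_mul, te_t]
  rfl

/-- heights exist, disc version -/
theorem posO_of (hBond : StmtBond) (hRec : StmtRec) (hRepl : StmtRepl) (K : SqK σ) (P : K.GPot)
    (hN : NoRed σ (val K.outw) (Fintype.card K.F) (K.chn P univ))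
    (hp : ∀ (m : ℤ) (k : ℕ) (z : Chn σ), m ≠ 0 → Expr σ k (val (tw S m)) z → Fintype.card K.F ≤ k) :
    PosO K.toPC := by
  classical
  by_cases hV : Nonempty K.V
  · obtain ⟨oe, h1, h2⟩ := allowed_conn K.toPC (fun e => K.lab e = Let.t)
      (fun C hC ht => bond_univ hBond hRec hRepl K P hN hp C hC ht)
    obtain ⟨τ, hτ⟩ := pos_of_tree K.toPC (fun e => e ∈ oe) h2 hV
    refine ⟨τ, fun e => e ∈ oe, ?_, ?_, hτ⟩
    · intro e e' he he'
      exact Option.mem_unique he he'
    · intro e he
      obtain ⟨d, hd, hd2, -⟩ := h1 e he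
      obtain ⟨x, b⟩ := d
      simp only at hd
      subst hd
      exact ⟨b, hd2⟩
  · exact ⟨fun _ => 0, fun _ => False, fun _ _ h => h.elim, fun _ h => h.elim,
      fun e => absurd ⟨K.org (e, true)⟩ hV⟩

/-- heights exist, sphere version -/
theorem posN_of (hBond : StmtBond) (hRec : StmtRec) (hRepl : StmtRepl) (K : SqK σ) (P : K.GPot)
    (q0 : Port S) (h : K.outw = relw σ q0)
    (hc : K.chn P univ - pch σ 1 q0 ≠ 0)
    (hz : ∀ k z, k ≤ Fintype.card K.F → Expr σ k 1 z → z = 0)
    (hp : ∀ (m : ℤ) (k : ℕ) (z : Chn σ), m ≠ 0 → ¬ Expr σ k (val (tw S m)) z) :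
    PosN K.toPC := by
  classical
  by_cases hV : Nonempty K.V
  · have h2 := allowed_conn_none K.toPC (fun e => K.lab e = Let.t)
      (fun C hC ht => bond_false hBond hRec hRepl K P q0 h hc hz hp C hC ht)
    obtain ⟨τ, hτ⟩ := pos_of_tree K.toPC (fun _ => False) (fun f => rtg_mono (by
      rintro a b ⟨d, h3, h4, h5⟩
      exact ⟨d, h3, h4, Or.inl h5⟩) (h2 f)) hV
    exact ⟨τ, fun e he => hτ e he id⟩
  · exact ⟨fun _ => 0, fun e => absurd ⟨K.org (e, true)⟩ hV⟩

end Vale.Agent.P201.S.Pos
end

section

/-!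
P201 part F: induction over complexes (helper631).

`Gd K`: no mirror pairs across x- and y-edges, and a height function for the t-edges with at most one
exceptional edge (on the outer face).  `K.W Y`: weight of the edges with exactly one inner side.
-/

namespace Vale.Agent.P201.S

open Finset

variable {S : Sys} {σ : Equiv.Perm S.C}

namespace SqK

variable (K : SqK σ)

/-- no mirror pair across an x- or y-edge -/
def RedK : Prop := ∀ (f f' : K.F) (d : K.E × Bool), d ∈ K.bd (some f) → rv d ∈ K.bd (some f') →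
  K.lab d.1 ≠ Let.t → K.q f' ≠ mt σ (K.q f)

/-- a height function for the t-edges, with at most one exceptional edge, which lies on the outer face -/
def PosK : Prop := ∃ (τ : K.V → ℤ) (O : K.E → Prop), (∀ e e2, O e → O e2 → e = e2) ∧
  (∀ e, O e → ∃ b, (e, b) ∈ K.bd none) ∧
  ∀ e, K.lab e = Let.t → ¬ O e → τ (K.org (e, false)) = τ (K.org (e, true)) + 1

def Gd : Prop := K.RedK ∧ K.PosK

/-- weight of a set of edges -/
def wS (Y : ℕ) (B : Finset K.E) : ℕ := ∑ e ∈ B, wtl Y (K.lab e)

/-- weight of the edges with exactly one inner side -/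
noncomputable def W (Y : ℕ) : ℕ := K.wS Y (K.bdry univ)

end SqK

/-- (M) merging the complement of a bond with the outer face -/
def StmtMerge : Prop :=
  ∀ (S : Sys) (σ : Equiv.Perm S.C) (K : SqK σ) (C : Finset K.F), K.Bond C →
    ∃ K' : SqK σ, Fintype.card K'.F = C.card ∧ (∀ Y, K'.W Y = K.wS Y (K.bdry C)) ∧ (K.Gd → K'.Gd)

/-- (D6, first half) unreducible complexes are good -/
def StmtGd : Prop :=
  ∀ (S : Sys) (σ : Equiv.Perm S.C) (K : SqK σ) (P : K.GPot),
    NoRed σ (val K.outw) (Fintype.card K.F) (K.chn P univ) →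
    (∀ (m : ℤ) (k : ℕ) (z : Chn σ), m ≠ 0 → Expr σ k (val (tw S m)) z → Fintype.card K.F < k ∨
      (Fintype.card K.F ≤ k ∧ ∀ a ∈ K.outw, a.1 = Let.t)) → K.Gd

/-- (D6, second half) the gluing data of a good complex -/
def StmtLocK : Prop :=
  ∀ (S : Sys) (σ : Equiv.Perm S.C) (K : SqK σ), K.Gd →
    ∃ G : Glue σ, G.Red ∧ G.Lab ∧ G.Eul ∧ Fintype.card G.Q = Fintype.card K.F ∧
      ∀ Y : ℕ, 2 * (Fintype.card G.Q - domc G.X) + Y * (2 * (Fintype.card G.Q - domc G.Y)) ≤ K.W Y

/-- (ISO') linear isoperimetric inequality for all good complexes -/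
def StmtIso : Prop :=
  ∀ (c e1 : ℝ) (L : ℕ), 0 < c → 0 < e1 → ∃ K Y0 : ℕ, ∀ S : Sys, (∀ q : Port S, (S.ht q).natAbs ≤ L) →
    ∀ Y : ℕ, Y0 ≤ Y → ∀ (σ : Equiv.Perm S.C) (g : ℕ), c * Y ≤ g → Girth σ g →
      LocIso σ (K * Y) Y e1 → ∀ K' : SqK σ, K'.Gd → e1 / 2 * Fintype.card K'.F ≤ K'.W Y

end Vale.Agent.P201.S
end

section

/-!
P201, part D6 (helper43): `Lab` for the gluing data of a planar complex with heights along the t-edges.
-/

namespace Vale.Agent.P201.S.BrLab

open Finset

variable {S : Sys} {σ : Equiv.Perm (S.C)}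

/-! ### periodic orbits -/

theorem orb_back {T : Type} [Fintype T] (f : T ≃. T) {s t : T} (hs : Per f s) (ht : t ∈ orb f s) :
    s ∈ orb f t ∧ Per f t ∧ orb f t = orb f s := by
  obtain ⟨k, hk, hks⟩ := hs
  obtain ⟨j, hj⟩ := (OrbTel.mem_orb f s t).1 ht
  have h1 := OrbTel.pit_mul f hks (j + 1)
  have hle : j + 1 ≤ k * (j + 1) := Nat.le_mul_of_pos_left _ hk
  obtain ⟨r, hr⟩ := Nat.exists_eq_add_of_le hle
  rw [hr, Nat.add_assoc, OrbTel.pit_add, hj] at h1
  have h2 : pit f (1 + r) t = some s := h1
  have h3 : s ∈ orb f t := (OrbTel.mem_orb f t s).2 ⟨_, h2⟩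
  refine ⟨h3, ⟨1 + r + j, by (clear * - hle hr; omega), ?_⟩, ?_⟩
  · rw [OrbTel.pit_add, h2]
    exact hj
  · ext x
    rw [OrbTel.mem_orb, OrbTel.mem_orb]
    constructor
    · rintro ⟨i, hi⟩
      exact ⟨j + i, by rw [OrbTel.pit_add, hj]; exact hi⟩
    · rintro ⟨i, hi⟩
      exact ⟨1 + r + i, by rw [OrbTel.pit_add, h2]; exact hi⟩

/-! ### walks along t-edges -/

section walk

variable (K : PC (Let S))

/-- walk from `a` to `b` -/
def Wk : List (K.E × Bool) → K.V → K.V → Prop
  | [], a, b => a = b
  | d :: l, a, b => K.org d = a ∧ Wk l (K.org (rv d)) b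

theorem wk_of_chain (l : List (K.E × Bool)) (d e : K.E × Bool)
    (h : (d :: (l ++ [e])).IsChain (fun a b => K.org b = K.org (rv a))) :
    Wk K l (K.org (rv d)) (K.org e) := by
  induction l generalizing d with
  | nil =>
    rw [List.nil_append] at h
    exact ((List.isChain_cons_cons.1 h).1).symm
  | cons a l ih =>
    rw [List.cons_append] at h
    have h2 := List.isChain_cons_cons.1 h
    exact ⟨h2.1, ih a h2.2⟩

/-- signed length -/
def sg (l : List Bool) : ℤ := (l.map (fun b => if b then (1 : ℤ) else -1)).sum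

theorem wk_height (τ : K.V → ℤ) (O : K.E → Prop)
    (hτ : ∀ e, K.lab e = Let.t → ¬ O e → τ (K.org (e, false)) = τ (K.org (e, true)) + 1)
    (l : List (K.E × Bool)) (a b : K.V) (h : Wk K l a b) (hl : ∀ d ∈ l, K.lab d.1 = Let.t)
    (hO : ∀ d ∈ l, ¬ O d.1) : τ b = τ a + sg (l.map Prod.snd) := by
  induction l generalizing a with
  | nil =>
    have h' : a = b := h
    rw [h']
    simp only [sg, Int.reduceNeg, List.map_nil, List.sum_nil, add_zero]
  | cons d l ih =>
    obtain ⟨h1, h2⟩ := h
    have h3 := ih _ h2 (fun d hd => hl d (List.mem_cons_of_mem _ hd))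
      (fun d hd => hO d (List.mem_cons_of_mem _ hd))
    have h4 := hτ d.1 (hl d List.mem_cons_self) (hO d List.mem_cons_self)
    rw [h3, ← h1]
    obtain ⟨e, s⟩ := d
    cases s
    · have e1 : rv (e, false) = (e, true) := rfl
      rw [e1]
      simp only [sg, List.map_cons, List.sum_cons] at h4 ⊢
      simp only [Bool.false_eq_true, if_false]
      omega
    · have e1 : rv (e, true) = (e, false) := rfl
      rw [e1]
      simp only [sg, List.map_cons, List.sum_cons] at h4 ⊢
      simp only [if_true]
      omega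

theorem sg_tw (h : ℤ) : sg ((tw S h).map Prod.snd) = h := by
  rw [tw, List.map_replicate]
  simp only [sg, List.map_replicate, List.sum_replicate]
  rcases le_or_gt 0 h with h1 | h1
  · rw [show decide (0 ≤ h) = true from by simpa only [decide_eq_true_eq] using h1]
    simp only [if_true, nsmul_eq_mul, mul_one]
    (clear * - h1; omega)
  · rw [show decide (0 ≤ h) = false from by simpa only [decide_eq_false_iff_not, not_le] using h1]
    simp only [Bool.false_eq_true, if_false, nsmul_eq_mul]
    omega

theorem sg_winv_tw (h : ℤ) : sg ((winv (tw S h)).map Prod.snd) = - h := by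
  have e : (winv (tw S h)).map Prod.snd = List.replicate h.natAbs (!decide (0 ≤ h)) := by
    simp only [winv, tw, List.map_replicate, List.reverse_replicate]
  rw [e]
  simp only [sg, List.map_replicate, List.sum_replicate]
  rcases le_or_gt 0 h with h1 | h1
  · rw [show decide (0 ≤ h) = true from by simpa only [decide_eq_true_eq] using h1]
    simp only [Bool.not_true, Bool.false_eq_true, if_false, nsmul_eq_mul]
    omega
  · rw [show decide (0 ≤ h) = false from by simpa only [decide_eq_false_iff_not, not_le] using h1]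
    simp only [Bool.not_false, if_true, nsmul_eq_mul, mul_one]
    omega

end walk

/-! ### heights at the corners of a square -/

section corners

variable {K : PC (Let S)} (B : Br σ K)

theorem wk_T1 (s : B.Q) : Wk K (B.sd s).T1 (K.org (rv (B.xs s))) (K.org (B.ys s)) := by
  have h := B.chain_s s
  have e : (B.xs s :: ((B.sd s).T1 ++ B.ys s :: B.ye s :: ((B.sd s).T2 ++ [B.xe s]))) =
      (B.xs s :: ((B.sd s).T1 ++ [B.ys s])) ++ (B.ye s :: ((B.sd s).T2 ++ [B.xe s])) := by simp
  rw [e] at h
  exact wk_of_chain K _ _ _ (List.isChain_append.1 h).1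

theorem wk_T2 (s : B.Q) : Wk K (B.sd s).T2 (K.org (rv (B.ye s))) (K.org (B.xe s)) := by
  have h := B.chain_s s
  have e : (B.xs s :: ((B.sd s).T1 ++ B.ys s :: B.ye s :: ((B.sd s).T2 ++ [B.xe s]))) =
      (B.xs s :: ((B.sd s).T1 ++ [B.ys s])) ++ (B.ye s :: ((B.sd s).T2 ++ [B.xe s])) := by simp
  rw [e] at h
  exact wk_of_chain K _ _ _ (List.isChain_append.1 h).2.1

variable (τ : K.V → ℤ) (O : K.E → Prop)
    (hτ : ∀ e, K.lab e = Let.t → ¬ O e → τ (K.org (e, false)) = τ (K.org (e, true)) + 1)

include hτ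

theorem height_T1 (s : B.Q) (h : ∀ d ∈ (B.sd s).T1, ¬ O d.1) :
    τ (K.org (B.ys s)) = τ (K.org (rv (B.xs s))) + S.ht (B.ε s) := by
  rw [wk_height K τ O hτ _ _ _ (wk_T1 B s) (fun d hd => B.lab_T1 s hd) h]
  have e : (B.sd s).T1.map Prod.snd = (tw S (S.ht (B.ε s))).map Prod.snd := by
    rw [← (B.sd s).lT1, List.map_map]
    rfl
  rw [e, sg_tw]

theorem height_T2 (s : B.Q) (h : ∀ d ∈ (B.sd s).T2, ¬ O d.1) :
    τ (K.org (B.xe s)) = τ (K.org (rv (B.ye s))) - S.ht (mt σ (B.ε s)) := by
  rw [wk_height K τ O hτ _ _ _ (wk_T2 B s) (fun d hd => B.lab_T2 s hd) h]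
  have e : (B.sd s).T2.map Prod.snd = (winv (tw S (S.ht (mt σ (B.ε s))))).map Prod.snd := by
    rw [← (B.sd s).lT2, List.map_map]
    rfl
  rw [e, sg_winv_tw]
  ring

end corners

/-! ### the theorem -/

section main

variable {K : PC (Let S)} (B : Br σ K)

theorem XY_eq_some {s v : B.glue.Q} : B.glue.XY s = some v ↔
    ∃ u, B.glue.X s = some u ∧ B.glue.Y u = some v := by
  unfold Glue.XY
  rw [PEquiv.trans_eq_some]

theorem inc_eq {s u v : B.glue.Q} (hu : B.glue.X s = some u) (hv : B.glue.Y u = some v) :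
    B.glue.inc s = S.ht (mt σ (B.ε u)) - S.ht (B.ε v) := by
  unfold Glue.inc
  simp only [hu, hv]
  rfl

theorem nodup_bd (s : B.Q) {d : K.E × Bool} (h1 : d ∈ (B.sd s).T1) (h2 : d ∈ (B.sd s).T2) :
    False := by
  have h := K.bd_nodup (B.j s)
  rw [B.bd_eq] at h
  have h3 := (List.nodup_cons.1 h).2
  rw [List.nodup_append] at h3
  exact h3.2.2 d h1 d (by simp [h2]) rfl

theorem lab_of (τ : K.V → ℤ) (O : K.E → Prop) (hO : ∀ e e', O e → O e' → e = e')
    (hO2 : ∀ e, O e → ∃ b, B.fs (e, b) = none)
    (hτ : ∀ e, K.lab e = Let.t → ¬ O e → τ (K.org (e, false)) = τ (K.org (e, true)) + 1) :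
    B.glue.Lab := by
  classical
  -- the bad corners
  set Bad : B.glue.Q → Prop := fun s => ∃ u v, B.glue.X s = some u ∧ B.glue.Y u = some v ∧
    ∃ d : K.E × Bool, O d.1 ∧ (d ∈ (B.sd u).T2 ∨ d ∈ (B.sd v).T1) with hBad
  -- good corners
  have good : ∀ s, ¬ Bad s → ∀ v, B.glue.XY s = some v →
      B.glue.inc s = τ (K.org (rv (B.xs v))) - τ (K.org (rv (B.xs s))) := by
    intro s hs v hv
    obtain ⟨u, h1, h2⟩ := (XY_eq_some B).1 hv
    rw [inc_eq B h1 h2]
    have h3 : ∀ d ∈ (B.sd u).T2, ¬ O d.1 := fun d hd hOd => hs ⟨u, v, h1, h2, d, hOd, Or.inl hd⟩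
    have h4 : ∀ d ∈ (B.sd v).T1, ¬ O d.1 := fun d hd hOd => hs ⟨u, v, h1, h2, d, hOd, Or.inr hd⟩
    have h5 := height_T2 B τ O hτ u h3
    have h6 := height_T1 B τ O hτ v h4
    rw [← B.X_eq_some.1 h1] at h5
    rw [← B.Y_eq_some.1 h2] at h6
    omega
  -- at most one bad corner
  have dart : ∀ (d d' : K.E × Bool) (s s' : B.Q), O d.1 → O d'.1 → d ∈ K.bd (B.j s) →
      d' ∈ K.bd (B.j s') → d = d' ∧ s = s' := by
    intro d d' s s' h1 h2 h3 h4
    have h5 := hO _ _ h1 h2
    obtain ⟨b, hb⟩ := hO2 d.1 h1
    have key : ∀ (x : K.E × Bool) (y : B.Q), x.1 = d.1 → x ∈ K.bd (B.j y) → x = (d.1, !b) := by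
      intro x y hx hxy
      obtain ⟨x1, x2⟩ := x
      simp only at hx
      subst hx
      have h6 := B.fs_eq_some.2 hxy
      by_cases hbx : x2 = b
      · rw [hbx, hb] at h6
        cases h6
      · cases x2 <;> cases b <;> simp_all
    have h6 : d = d' := by
      rw [key d s rfl h3, key d' s' h5.symm h4]
    refine ⟨h6, ?_⟩
    rw [← h6] at h4
    have h7 := B.fs_eq_some.2 h3
    have h8 := B.fs_eq_some.2 h4
    rw [h7] at h8
    exact Option.some_injective _ h8
  have memT1 : ∀ (s : B.Q) (d : K.E × Bool), d ∈ (B.sd s).T1 → d ∈ K.bd (B.j s) := by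
    intro s d h
    rw [B.bd_eq]
    simp [h]
  have memT2 : ∀ (s : B.Q) (d : K.E × Bool), d ∈ (B.sd s).T2 → d ∈ K.bd (B.j s) := by
    intro s d h
    rw [B.bd_eq]
    simp [h]
  have uniq : ∀ s s', Bad s → Bad s' → s = s' := by
    rintro s s' ⟨u, v, h1, h2, d, hd, h3⟩ ⟨u', v', h1', h2', d', hd', h3'⟩
    rcases h3 with h3 | h3 <;> rcases h3' with h3' | h3'
    · obtain ⟨-, e⟩ := dart d d' u u' hd hd' (memT2 _ _ h3) (memT2 _ _ h3')
      rw [← e] at h1'
      exact B.glue.X.inj h1 h1'
    · obtain ⟨e1, e⟩ := dart d d' u v' hd hd' (memT2 _ _ h3) (memT1 _ _ h3')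
      rw [← e1, ← e] at h3'
      exact (nodup_bd B u h3' h3).elim
    · obtain ⟨e1, e⟩ := dart d d' v u' hd hd' (memT1 _ _ h3) (memT2 _ _ h3')
      rw [← e1, ← e] at h3'
      exact (nodup_bd B v h3 h3').elim
    · obtain ⟨-, e⟩ := dart d d' v v' hd hd' (memT1 _ _ h3) (memT1 _ _ h3')
      rw [← e] at h2'
      have h4 := B.glue.Y.inj h2 h2'
      rw [← h4] at h1'
      exact B.glue.X.inj h1 h1'
  by_cases hex : ∃ s0, Bad s0 ∧ Per B.glue.XY s0
  · obtain ⟨s0, hs0, hper⟩ := hex
    refine ⟨orb B.glue.XY s0, ?_, ?_⟩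
    · intro s s' hs hs'
      rw [(orb_back _ hper hs).2.2, (orb_back _ hper hs').2.2]
    · intro s hs hsE
      refine OrbTel.orb_telescope _ hs (fun t => τ (K.org (rv (B.xs t)))) _ ?_
      intro t ht t2 ht2
      refine good t ?_ t2 ht2
      intro hbt
      rw [uniq t s0 hbt hs0] at ht
      exact hsE (orb_back _ hs ht).1
  · refine ⟨∅, fun s s' hs => absurd hs (notMem_empty s), ?_⟩
    intro s hs _
    refine OrbTel.orb_telescope _ hs (fun t => τ (K.org (rv (B.xs t)))) _ ?_
    intro t ht t2 ht2
    refine good t ?_ t2 ht2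
    intro hbt
    exact hex ⟨t, hbt, (orb_back _ hs ht).2.1⟩

end main

/-! ### results -/

/-- the gluing data of a disc with heights -/
theorem lab_of_posK (K : SqK σ) (h : K.PosK) : (brD K).glue.Lab := by
  obtain ⟨τ, O, h1, h2, h3⟩ := h
  refine lab_of (brD K) τ O h1 ?_ h3
  intro e he
  obtain ⟨b, hb⟩ := h2 e he
  refine ⟨b, ?_⟩
  cases hf : (brD K).fs (e, b) with
  | none => rfl
  | some s =>
    have h4 := (brD K).fs_eq_some.1 hf
    have h5 := K.toPC.face_unique h4 hb
    cases h5

/-- the gluing data of a sphere with heights -/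
theorem lab_of_posN (K : SqK σ) (q0 : Port S) (hq : K.outw = relw σ q0) (h : Pos.PosN K.toPC) :
    (brS K q0 hq).glue.Lab := by
  obtain ⟨τ, h3⟩ := h
  exact lab_of (brS K q0 hq) τ (fun _ => False) (fun _ _ h => h.elim) (fun _ h => h.elim)
    (fun e he _ => h3 e he)

theorem posK_of (hBond : StmtBond) (hRec : StmtRec) (hRepl : StmtRepl) (K : SqK σ) (P : K.GPot)
    (hN : NoRed σ (val K.outw) (Fintype.card K.F) (K.chn P univ))
    (hp : ∀ (m : ℤ) (k : ℕ) (z : Chn σ), m ≠ 0 → Expr σ k (val (tw S m)) z → Fintype.card K.F < k ∨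
      (Fintype.card K.F ≤ k ∧ ∀ a ∈ K.outw, a.1 = Let.t)) : K.PosK :=
  Pos.posO_of hBond hRec hRepl K P hN (fun m k z hm h => by
    rcases hp m k z hm h with h1 | h1
    · exact h1.le
    · exact h1.1)

theorem stmtLabD_of (hBond : StmtBond) (hRec : StmtRec) (hRepl : StmtRepl) : StmtLabD := by
  intro S σ K P hN hp
  exact lab_of_posK K (posK_of hBond hRec hRepl K P hN hp)

theorem stmtLabS_of (hBond : StmtBond) (hRec : StmtRec) (hRepl : StmtRepl) : StmtLabS := by
  intro S σ K P q0 h hc hz hp
  exact lab_of_posN K q0 h (Pos.posN_of hBond hRec hRepl K P q0 h hc hz hp)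

end Vale.Agent.P201.S.BrLab
end

section

/-!
P201, part F: deleting an edge between an inner face and the outer face (helper402).
-/

namespace Vale.Agent.P201.S.Dl

open Finset


theorem rv_rv {E : Type} (d : E × Bool) : rv (rv d) = d := by
  simp [rv]

theorem dart_cases {E : Type} {x d : E × Bool} (h : x.1 = d.1) : x = d ∨ x = rv d := by
  obtain ⟨e, b⟩ := x
  obtain ⟨e', b'⟩ := d
  simp only at h
  subst h
  cases b <;> cases b' <;> simp [rv]

variable {A : Type}

section
variable (K : PC A)

theorem exists_face (d : K.E × Bool) : ∃ f, d ∈ K.bd f := by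
  by_contra h
  push Not at h
  have := K.once d
  rw [Finset.sum_eq_zero (fun f _ => List.count_eq_zero.mpr (h f))] at this
  exact absurd this (by decide)

variable {K}

theorem face_unique {d : K.E × Bool} {f g : Option K.F} (hf : d ∈ K.bd f) (hg : d ∈ K.bd g) :
    f = g := by
  by_contra hne
  have h1 : 1 ≤ (K.bd f).count d := List.count_pos_iff.mpr hf
  have h2 : 1 ≤ (K.bd g).count d := List.count_pos_iff.mpr hg
  have h3 : (K.bd f).count d + (K.bd g).count d ≤ ∑ f, (K.bd f).count d := by
    rw [← Finset.sum_pair (f := fun x => (K.bd x).count d) hne]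
    exact Finset.sum_le_sum_of_subset (Finset.subset_univ _)
  rw [K.once d] at h3
  omega

end

section path

variable {V E : Type} (org : E × Bool → V)

/-- `l` is a walk from `u` to `v` -/
def IsPath : V → List (E × Bool) → V → Prop
  | u, [], v => u = v
  | u, a :: l, v => org a = u ∧ IsPath (org (rv a)) l v

theorem isPath_append {u v : V} {l m : List (E × Bool)} :
    IsPath org u (l ++ m) v ↔ ∃ w, IsPath org u l w ∧ IsPath org w m v := by
  induction l generalizing u with
  | nil => simp only [List.nil_append, IsPath, exists_eq_left']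
  | cons a l ih =>
    simp only [List.cons_append, IsPath, ih]
    constructor
    · rintro ⟨h1, w, h2, h3⟩
      exact ⟨w, ⟨h1, h2⟩, h3⟩
    · rintro ⟨w, ⟨h1, h2⟩, h3⟩
      exact ⟨h1, w, h2, h3⟩

theorem isPath_of_chain {a : E × Bool} {l : List (E × Bool)}
    (h : (a :: l).IsChain (fun a b => org b = org (rv a))) :
    IsPath org (org a) (a :: l) (org (rv ((a :: l).getLast (List.cons_ne_nil _ _)))) := by
  induction l generalizing a with
  | nil => exact ⟨rfl, rfl⟩
  | cons b l ih =>
    obtain ⟨h1, h2⟩ := List.isChain_cons_cons.1 h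
    refine ⟨rfl, ?_⟩
    have := ih h2
    rw [h1] at this
    rw [List.getLast_cons (List.cons_ne_nil _ _)]
    exact this

theorem chain_of_isPath {u v : V} {l : List (E × Bool)} (h : IsPath org u l v) :
    l.IsChain (fun a b => org b = org (rv a)) := by
  induction l generalizing u with
  | nil => exact List.isChain_nil
  | cons a l ih =>
    obtain ⟨h1, h2⟩ := h
    cases l with
    | nil => exact List.isChain_singleton _
    | cons b l => exact List.isChain_cons_cons.2 ⟨h2.1, ih h2⟩

theorem last_of_isPath {u v : V} {l : List (E × Bool)} (h : IsPath org u l v) :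
    ∀ a ∈ l.getLast?, org (rv a) = v := by
  induction l generalizing u with
  | nil => simp
  | cons a l ih =>
    obtain ⟨h1, h2⟩ := h
    cases l with
    | nil =>
      intro b hb
      simp only [List.getLast?_singleton, Option.mem_def, Option.some.injEq] at hb
      subst hb
      exact h2
    | cons b l =>
      intro c hc
      rw [List.getLast?_cons_cons] at hc
      exact ih h2 c hc

theorem head_of_isPath {u v : V} {l : List (E × Bool)} (h : IsPath org u l v) :
    ∀ a ∈ l.head?, org a = u := by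
  cases l with
  | nil => simp
  | cons a l =>
    intro b hb
    simp only [List.head?_cons, Option.mem_def, Option.some.injEq] at hb
    subst hb
    exact h.1

theorem closed_of_isPath {u : V} {l : List (E × Bool)} (h : IsPath org u l u) :
    ∀ a ∈ l.getLast?, ∀ b ∈ l.head?, org b = org (rv a) := by
  intro a ha b hb
  rw [head_of_isPath org h b hb, last_of_isPath org h a ha]

theorem isPath_of_closed {l : List (E × Bool)}
    (h : l.IsChain (fun a b => org b = org (rv a)))
    (hc : ∀ a ∈ l.getLast?, ∀ b ∈ l.head?, org b = org (rv a)) (hl : l ≠ []) :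
    ∃ u, IsPath org u l u := by
  cases l with
  | nil => exact absurd rfl hl
  | cons a l =>
    refine ⟨org a, ?_⟩
    have h1 := isPath_of_chain org h
    have h2 := hc ((a :: l).getLast (List.cons_ne_nil _ _))
      (by rw [List.getLast?_eq_getLast_of_ne_nil (List.cons_ne_nil _ _)]; exact rfl) a rfl
    rw [← h2] at h1
    exact h1

theorem isPath_reach {u v : V} {l : List (E × Bool)} (h : IsPath org u l v)
    (R : V → V → Prop) (hR : ∀ x ∈ l, R (org x) (org (rv x))) : Relation.ReflTransGen R u v := by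
  induction l generalizing u with
  | nil =>
    have : u = v := h
    subst this
    exact Relation.ReflTransGen.refl
  | cons a l ih =>
    obtain ⟨h1, h2⟩ := h
    subst h1
    exact Relation.ReflTransGen.head (hR a List.mem_cons_self)
      (ih h2 (fun x hx => hR x (List.mem_cons_of_mem _ hx)))

end path

variable (K : PC A)

theorem isPath_bd {f : Option K.F} (h : K.bd f ≠ []) : ∃ u, IsPath K.org u (K.bd f) u :=
  isPath_of_closed K.org (K.chain f) (K.closed f) h

theorem count_bd_le (f : Option K.F) (x : K.E × Bool) : (K.bd f).count x ≤ 1 := by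
  rw [← K.once x]
  exact Finset.single_le_sum (f := fun f => (K.bd f).count x) (fun _ _ => Nat.zero_le _)
    (Finset.mem_univ f)

/-- restriction of a list of darts to the edges `≠ e0` -/
def rest {E : Type} [DecidableEq E] (e0 : E) (l : List (E × Bool)) :
    List ({e : E // e ≠ e0} × Bool) :=
  l.filterMap (fun x => if h : x.1 ≠ e0 then some (⟨x.1, h⟩, x.2) else none)

/-- embedding of darts -/
def emb {E : Type} {e0 : E} (x : {e : E // e ≠ e0} × Bool) : E × Bool := (x.1.1, x.2)

theorem emb_inj {E : Type} {e0 : E} {x y : {e : E // e ≠ e0} × Bool} (h : emb x = emb y) :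
    x = y := by
  obtain ⟨⟨a, ha⟩, b⟩ := x
  obtain ⟨⟨a', ha'⟩, b'⟩ := y
  simp only [emb, Prod.mk.injEq] at h
  obtain ⟨rfl, rfl⟩ := h
  rfl

theorem emb_rv {E : Type} {e0 : E} (x : {e : E // e ≠ e0} × Bool) : emb (rv x) = rv (emb x) := rfl

theorem rest_map {E : Type} [DecidableEq E] {e0 : E} {l : List (E × Bool)}
    (h : ∀ x ∈ l, x.1 ≠ e0) : (rest e0 l).map emb = l := by
  induction l with
  | nil => rfl
  | cons a l ih =>
    have h1 : a.1 ≠ e0 := h a List.mem_cons_self
    have h2 := ih (fun x hx => h x (List.mem_cons_of_mem _ hx))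
    unfold rest at h2 ⊢
    rw [List.filterMap_cons_some (b := (⟨a.1, h1⟩, a.2)) (by simp [h1])]
    rw [List.map_cons, h2]
    rfl

theorem count_map_emb {E : Type} [DecidableEq E] {e0 : E} (l : List ({e : E // e ≠ e0} × Bool))
    (x : {e : E // e ≠ e0} × Bool) : (l.map emb).count (emb x) = l.count x :=
  List.count_map_of_injective _ _ (fun _ _ h => emb_inj h) _

theorem isPath_emb {V E : Type} {e0 : E} (org : E × Bool → V) {u v : V}
    {l : List ({e : E // e ≠ e0} × Bool)} :
    IsPath (fun x => org (emb x)) u l v ↔ IsPath org u (l.map emb) v := by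
  induction l generalizing u with
  | nil => exact Iff.rfl
  | cons a l ih =>
    simp only [IsPath, ih, List.map_cons]
    rfl

/-- data of a deletion -/
structure DelData where
  g : K.F
  d : K.E × Bool
  l1 : List (K.E × Bool)
  l2 : List (K.E × Bool)
  m1 : List (K.E × Bool)
  m2 : List (K.E × Bool)
  hn : K.bd none = l1 ++ rv d :: l2
  hg : K.bd (some g) = m1 ++ d :: m2

theorem exists_delData {g : K.F} {d : K.E × Bool} (hd : d ∈ K.bd (some g))
    (hr : rv d ∈ K.bd none) : ∃ D : DelData K, D.g = g ∧ D.d = d := by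
  obtain ⟨l1, l2, h1⟩ := List.append_of_mem hr
  obtain ⟨m1, m2, h2⟩ := List.append_of_mem hd
  exact ⟨⟨g, d, l1, l2, m1, m2, h1, h2⟩, rfl, rfl⟩

namespace DelData

variable {K} (D : DelData K)

theorem mem_g : D.d ∈ K.bd (some D.g) := by rw [D.hg]; simp

theorem mem_n : rv D.d ∈ K.bd none := by rw [D.hn]; simp

/-- the merged boundary in `K` -/
def mer : List (K.E × Bool) := D.l1 ++ ((D.m2 ++ D.m1) ++ D.l2)

theorem ne_of_mem_some {f : K.F} (hf : f ≠ D.g) {x : K.E × Bool} (hx : x ∈ K.bd (some f)) :
    x.1 ≠ D.d.1 := by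
  intro h
  have h2 : x = D.d ∨ x = rv D.d := dart_cases h
  rcases h2 with rfl | rfl
  · exact hf (Option.some_injective _ (face_unique hx D.mem_g))
  · have := face_unique hx D.mem_n
    exact absurd this (by simp)

theorem rv_ne : rv D.d ≠ D.d := by
  intro h
  have := congrArg Prod.snd h
  simp [rv] at this

theorem ne_of_mem_mer {x : K.E × Bool} (hx : x ∈ D.mer) : x.1 ≠ D.d.1 := by
  intro h
  have h2 : x = D.d ∨ x = rv D.d := dart_cases h
  have hn1 := count_bd_le K none (rv D.d)
  have hg1 := count_bd_le K (some D.g) D.d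
  have hdn : D.d ∉ K.bd none := fun h => by
    have := face_unique h D.mem_g
    exact absurd this (by simp)
  have hrg : rv D.d ∉ K.bd (some D.g) := fun h => by
    have := face_unique h D.mem_n
    exact absurd this (by simp)
  rw [D.hn] at hn1 hdn
  rw [D.hg] at hg1 hrg
  simp only [List.count_append, List.count_cons_self] at hn1 hg1
  simp only [List.mem_append, List.mem_cons, not_or] at hdn hrg
  have e1 : (D.l1).count (rv D.d) = 0 := by omega
  have e2 : (D.l2).count (rv D.d) = 0 := by omega
  have e3 : (D.m1).count (D.d) = 0 := by (clear * - hg1; omega)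
  have e4 : (D.m2).count (D.d) = 0 := by (clear * - hg1 e3; omega)
  rw [List.count_eq_zero] at e1 e2 e3 e4
  unfold mer at hx
  simp only [List.mem_append] at hx
  rcases h2 with rfl | rfl
  · rcases hx with hx | (hx | hx) | hx
    · exact hdn.1 hx
    · exact e4 hx
    · exact e3 hx
    · exact hdn.2.2 hx
  · rcases hx with hx | (hx | hx) | hx
    · exact e1 hx
    · exact hrg.2.2 hx
    · exact hrg.1 hx
    · exact e2 hx

/-- new face lists -/
def nbd : Option {f : K.F // f ≠ D.g} → List ({e : K.E // e ≠ D.d.1} × Bool)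
  | none => rest D.d.1 D.mer
  | some f => rest D.d.1 (K.bd (some f.1))

theorem nbd_none : (D.nbd none).map emb = D.mer := rest_map (fun _ h => D.ne_of_mem_mer h)

theorem nbd_some (f : {f : K.F // f ≠ D.g}) : (D.nbd (some f)).map emb = K.bd (some f.1) :=
  rest_map (fun _ h => D.ne_of_mem_some f.2 h)

theorem path_g : IsPath K.org (K.org (rv D.d)) (D.m2 ++ D.m1) (K.org D.d) := by
  obtain ⟨u, hu⟩ := isPath_bd K (f := some D.g) (K.ne D.g)
  rw [D.hg, isPath_append] at hu
  obtain ⟨w, h1, h2, h3⟩ := hu
  rw [isPath_append]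
  exact ⟨u, h3, h2.symm ▸ h1⟩

theorem path_n : ∃ u, IsPath K.org u D.l1 (K.org (rv D.d)) ∧ IsPath K.org (K.org D.d) D.l2 u := by
  have hne : K.bd none ≠ [] := by rw [D.hn]; simp
  obtain ⟨u, hu⟩ := isPath_bd K hne
  rw [D.hn, isPath_append] at hu
  obtain ⟨w, h1, h2, h3⟩ := hu
  rw [rv_rv] at h3
  exact ⟨u, h2.symm ▸ h1, h3⟩

theorem path_mer : ∃ u, IsPath K.org u D.mer u := by
  obtain ⟨u, h1, h2⟩ := D.path_n
  refine ⟨u, ?_⟩
  unfold mer
  rw [isPath_append]
  refine ⟨_, h1, ?_⟩
  rw [isPath_append]
  exact ⟨_, D.path_g, h2⟩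

/-- image of a face in the new complex -/
def ph : Option K.F → Option {f : K.F // f ≠ D.g}
  | none => none
  | some f => if h : f ≠ D.g then some ⟨f, h⟩ else none

theorem ph_none : D.ph none = none := rfl

theorem ph_some {f : K.F} (h : f ≠ D.g) : D.ph (some f) = some ⟨f, h⟩ := by
  unfold ph
  simp only
  rw [dif_pos h]

theorem ph_g {f : K.F} (h : ¬ f ≠ D.g) : D.ph (some f) = none := by
  unfold ph
  simp only
  rw [dif_neg h]

theorem mem_ph {x : {e : K.E // e ≠ D.d.1} × Bool} {a : Option K.F} (h : emb x ∈ K.bd a) :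
    x ∈ D.nbd (D.ph a) := by
  have key : ∀ l : List ({e : K.E // e ≠ D.d.1} × Bool), emb x ∈ l.map emb → x ∈ l := by
    intro l hl
    obtain ⟨y, hy, he⟩ := List.mem_map.1 hl
    rw [← emb_inj he]
    exact hy
  cases a with
  | none =>
    apply key
    show emb x ∈ (D.nbd none).map emb
    rw [nbd_none]
    rw [D.hn] at h
    simp only [List.mem_append, List.mem_cons] at h
    unfold mer
    simp only [List.mem_append]
    rcases h with h | h | h
    · exact Or.inl h
    · exfalso
      exact x.1.2 (by have := congrArg Prod.fst h; exact this)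
    · exact Or.inr (Or.inr h)
  | some f =>
    by_cases hf : f ≠ D.g
    · rw [D.ph_some hf]
      apply key
      rw [nbd_some]
      exact h
    · rw [D.ph_g hf]
      apply key
      rw [nbd_none]
      push Not at hf
      rw [hf, D.hg] at h
      simp only [List.mem_append, List.mem_cons] at h
      unfold mer
      simp only [List.mem_append]
      rcases h with h | h | h
      · exact Or.inr (Or.inl (Or.inr h))
      · exfalso
        exact x.1.2 (by have := congrArg Prod.fst h; exact this)
      · exact Or.inr (Or.inl (Or.inl h))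

theorem ph_val (f : Option {f : K.F // f ≠ D.g}) : D.ph (f.map Subtype.val) = f := by
  cases f with
  | none => rfl
  | some f => exact D.ph_some f.2

/-- the complex after deleting the edge of `d` -/
def del : PC A where
  V := K.V
  E := {e : K.E // e ≠ D.d.1}
  F := {f : K.F // f ≠ D.g}
  org := fun x => K.org (emb x)
  lab := fun e => K.lab e.1
  bd := D.nbd
  chain := by
    intro f
    cases f with
    | none =>
      obtain ⟨u, hu⟩ := D.path_mer
      rw [← nbd_none, ← isPath_emb] at hu
      exact chain_of_isPath _ hu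
    | some f =>
      obtain ⟨u, hu⟩ := isPath_bd K (K.ne f.1)
      rw [← nbd_some, ← isPath_emb] at hu
      exact chain_of_isPath _ hu
  closed := by
    intro f
    cases f with
    | none =>
      obtain ⟨u, hu⟩ := D.path_mer
      rw [← nbd_none, ← isPath_emb] at hu
      exact closed_of_isPath _ hu
    | some f =>
      obtain ⟨u, hu⟩ := isPath_bd K (K.ne f.1)
      rw [← nbd_some, ← isPath_emb] at hu
      exact closed_of_isPath _ hu
  once := by
    intro x
    have h0 := K.once (emb x)
    rw [Fintype.sum_option] at h0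
    have hn : (D.nbd none).count x = (K.bd none).count (emb x) + (K.bd (some D.g)).count (emb x) := by
      rw [← count_map_emb, nbd_none, D.hn, D.hg]
      unfold mer
      have h1 : (emb x : K.E × Bool) ≠ D.d := fun h => x.1.2 (congrArg Prod.fst h)
      have h2 : (emb x : K.E × Bool) ≠ rv D.d := fun h => x.1.2 (congrArg Prod.fst h)
      simp only [List.count_append, List.count_cons_of_ne h1.symm, List.count_cons_of_ne h2.symm]
      omega
    have hs : ∑ f : {f : K.F // f ≠ D.g}, (D.nbd (some f)).count x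
        = ∑ f : {f : K.F // f ≠ D.g}, (K.bd (some f.1)).count (emb x) := by
      refine Finset.sum_congr rfl fun f _ => ?_
      rw [← count_map_emb, nbd_some]
    have h3 : ∑ f : K.F, (K.bd (some f)).count (emb x) = (K.bd (some D.g)).count (emb x)
        + ∑ f : {f : K.F // f ≠ D.g}, (K.bd (some f.1)).count (emb x) := by
      rw [Fintype.sum_eq_add_sum_subtype_ne _ D.g]
    rw [h3] at h0
    have h4 : (D.nbd none).count x + ∑ f : {f : K.F // f ≠ D.g}, (D.nbd (some f)).count x = 1 := by
      rw [hs, hn]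
      omega
    rw [Fintype.sum_option]
    convert h4
  ne := by
    intro f h
    have := D.nbd_some f
    rw [h] at this
    exact K.ne f.1 this.symm
  conn := by
    intro u v
    let R : K.V → K.V → Prop := fun a b => ∃ d : {e : K.E // e ≠ D.d.1} × Bool,
      K.org (emb d) = a ∧ K.org (emb (rv d)) = b
    have hsym : ∀ a b, R a b → R b a := by
      rintro a b ⟨x, h1, h2⟩
      exact ⟨rv x, h2, by rw [emb_rv, emb_rv, rv_rv]; exact h1⟩
    have hsymT : ∀ a b, Relation.ReflTransGen R a b → Relation.ReflTransGen R b a := by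
      intro a b h
      induction h with
      | refl => exact Relation.ReflTransGen.refl
      | tail _ h2 ih => exact Relation.ReflTransGen.head (hsym _ _ h2) ih
    have hstep : ∀ x : K.E × Bool, x.1 ≠ D.d.1 → R (K.org x) (K.org (rv x)) := by
      intro x hx
      exact ⟨(⟨x.1, hx⟩, x.2), rfl, rfl⟩
    have hdd : Relation.ReflTransGen R (K.org (rv D.d)) (K.org D.d) := by
      refine isPath_reach K.org D.path_g R fun x hx => hstep x ?_
      apply D.ne_of_mem_mer
      unfold mer
      simp only [List.mem_append] at hx ⊢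
      exact Or.inr (Or.inl hx)
    have hdd' : Relation.ReflTransGen R (K.org D.d) (K.org (rv D.d)) :=
      hsymT _ _ hdd
    have hall : ∀ a b, (∃ d, K.org d = a ∧ K.org (rv d) = b) → Relation.ReflTransGen R a b := by
      rintro a b ⟨x, rfl, rfl⟩
      by_cases hx : x.1 ≠ D.d.1
      · exact Relation.ReflTransGen.single (hstep x hx)
      · push Not at hx
        have h2 : x = D.d ∨ x = rv D.d := dart_cases hx
        rcases h2 with rfl | rfl
        · exact hdd'
        · rw [rv_rv]; exact hdd
    exact Relation.ReflTransGen.trans_induction_on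
      (motive := fun {a b} _ => Relation.ReflTransGen R a b) (K.conn u v)
      (fun _ => Relation.ReflTransGen.refl) (fun h => hall _ _ h) (fun _ _ h1 h2 => h1.trans h2)
  dconn := by
    intro f f'
    have hall : ∀ a b : Option K.F, (∃ d, d ∈ K.bd a ∧ rv d ∈ K.bd b) →
        Relation.ReflTransGen (fun a b => ∃ d, d ∈ D.nbd a ∧ rv d ∈ D.nbd b) (D.ph a) (D.ph b) := by
      rintro a b ⟨x, h1, h2⟩
      by_cases hx : x.1 ≠ D.d.1
      · refine Relation.ReflTransGen.single ⟨(⟨x.1, hx⟩, x.2), ?_, ?_⟩
        · exact D.mem_ph (x := (⟨x.1, hx⟩, x.2)) h1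
        · exact D.mem_ph (x := rv (⟨x.1, hx⟩, x.2)) h2
      · push Not at hx
        have hab : ∀ y : K.E × Bool, y.1 = D.d.1 → ∀ c, y ∈ K.bd c → D.ph c = none := by
          intro y hy c hc
          cases c with
          | none => rfl
          | some c =>
            by_cases hcg : c ≠ D.g
            · exact absurd hy (D.ne_of_mem_some hcg hc)
            · exact D.ph_g hcg
        rw [hab x hx a h1, hab (rv x) hx b h2]
    have h := K.dconn (f.map Subtype.val) (f'.map Subtype.val)
    have h' : Relation.ReflTransGen (fun a b => ∃ d, d ∈ D.nbd a ∧ rv d ∈ D.nbd b)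
        (D.ph (f.map Subtype.val)) (D.ph (f'.map Subtype.val)) :=
      Relation.ReflTransGen.trans_induction_on
        (motive := fun {a b} _ => Relation.ReflTransGen
          (fun a b => ∃ d, d ∈ D.nbd a ∧ rv d ∈ D.nbd b) (D.ph a) (D.ph b)) h
        (fun _ => Relation.ReflTransGen.refl) (fun h => hall _ _ h) (fun _ _ h1 h2 => h1.trans h2)
    rw [ph_val, ph_val] at h'
    exact h'
  euler := by
    have h := K.euler
    have h1 : Fintype.card {e : K.E // e ≠ D.d.1} = Fintype.card K.E - 1 := by
      simp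
    have h2 : Fintype.card {f : K.F // f ≠ D.g} = Fintype.card K.F - 1 := by
      simp
    have h3 : 0 < Fintype.card K.E := Fintype.card_pos_iff.2 ⟨D.d.1⟩
    have h4 : 0 < Fintype.card K.F := Fintype.card_pos_iff.2 ⟨D.g⟩
    rw [h1, h2]
    omega

end DelData

/-- embedding of complexes (on edges and faces) -/
structure Em (K' K : PC A) where
  v : K'.V → K.V
  e : K'.E → K.E
  f : K'.F → K.F
  einj : Function.Injective e
  finj : Function.Injective f
  org : ∀ x, v (K'.org x) = K.org (e x.1, x.2)
  lab : ∀ x, K'.lab x = K.lab (e x)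
  bd : ∀ g, (K'.bd (some g)).map (fun x => (e x.1, x.2)) = K.bd (some (f g))

/-- identity -/
def Em.refl (K : PC A) : Em K K where
  v := id
  e := id
  f := id
  einj := Function.injective_id
  finj := Function.injective_id
  org := fun _ => rfl
  lab := fun _ => rfl
  bd := fun g => by
    have : (fun x : K.E × Bool => (id x.1, x.2)) = id := rfl
    rw [this, List.map_id]
    rfl

/-- composition -/
def Em.comp {K'' K' K : PC A} (j : Em K'' K') (i : Em K' K) : Em K'' K where
  v := i.v ∘ j.v
  e := i.e ∘ j.e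
  f := i.f ∘ j.f
  einj := i.einj.comp j.einj
  finj := i.finj.comp j.finj
  org := fun x => by
    simp only [Function.comp_apply]
    rw [j.org, i.org]
  lab := fun x => by
    simp only [Function.comp_apply]
    rw [j.lab, i.lab]
  bd := fun g => by
    have h1 := j.bd g
    have h2 := i.bd (j.f g)
    rw [← h1, List.map_map] at h2
    exact h2

/-- `K'` is the restriction of `K` to the faces in `C` -/
structure IsRes {K' K : PC A} (i : Em K' K) (C : Finset K.F) : Prop where
  rng : ∀ g, g ∈ C ↔ ∃ g', i.f g' = g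
  bdr : ∀ x, x ∈ K'.bdry univ ↔ i.e x ∈ K.bdry C
  sur : ∀ y ∈ K.bdry C, ∃ x, i.e x = y

theorem mem_bdry {K : PC A} {C : Finset K.F} {e : K.E} : e ∈ K.bdry C ↔
    ¬ ((∃ f ∈ C, (e, true) ∈ K.bd (some f)) ↔ (∃ f ∈ C, (e, false) ∈ K.bd (some f))) := by
  unfold PC.bdry
  simp only [mem_filter, mem_univ, true_and]

namespace DelData

variable {K : PC A} (D : DelData K)

/-- the embedding of the complex with the edge removed -/
def em : Em D.del K where
  v := fun x => x
  e := fun x => x.1
  f := fun x => x.1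
  einj := Subtype.val_injective
  finj := Subtype.val_injective
  org := fun _ => rfl
  lab := fun _ => rfl
  bd := fun g => D.nbd_some g

open Classical in
/-- faces of the new complex -/
noncomputable def res (C : Finset K.F) : Finset D.del.F := univ.filter (fun f => D.em.f f ∈ C)

theorem mem_res {C : Finset K.F} {f : D.del.F} : f ∈ D.res C ↔ D.em.f f ∈ C := by
  simp only [res, mem_filter, mem_univ, true_and]

theorem mem_del {x : {e : K.E // e ≠ D.d.1} × Bool} {f : {f : K.F // f ≠ D.g}} :
    x ∈ D.del.bd (some f) ↔ emb x ∈ K.bd (some f.1) := by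
  constructor
  · intro h
    rw [← D.nbd_some f]
    exact List.mem_map_of_mem h
  · intro h
    have := D.mem_ph h
    rw [D.ph_some f.2] at this
    exact this

theorem mem_bdry_res {C : Finset K.F} (hg : D.g ∉ C) (x : D.del.E) :
    x ∈ D.del.bdry (D.res C) ↔ D.em.e x ∈ K.bdry C := by
  have h : ∀ b : Bool, (∃ f ∈ D.res C, ((x, b) : D.del.E × Bool) ∈ D.del.bd (some f)) ↔
      (∃ f ∈ C, (D.em.e x, b) ∈ K.bd (some f)) := by
    intro b
    constructor
    · rintro ⟨f, hf, h⟩
      exact ⟨D.em.f f, D.mem_res.1 hf, D.mem_del.1 h⟩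
    · rintro ⟨f, hf, h⟩
      have hfg : f ≠ D.g := fun e => hg (e ▸ hf)
      exact ⟨⟨f, hfg⟩, D.mem_res.2 hf, D.mem_del.2 h⟩
  rw [mem_bdry, mem_bdry, h true, h false]

theorem d_not_bdry {C : Finset K.F} (hg : D.g ∉ C) : D.d.1 ∉ K.bdry C := by
  have key : ∀ b : Bool, ¬ ∃ f ∈ C, (D.d.1, b) ∈ K.bd (some f) := by
    rintro b ⟨f, hf, h⟩
    exact D.ne_of_mem_some (fun e => hg (e ▸ hf)) h rfl
  rw [mem_bdry]
  intro h
  exact h ⟨fun h => absurd h (key true), fun h => absurd h (key false)⟩

theorem bond_res {C : Finset K.F} (hC : K.Bond C) (hg : D.g ∉ C) : D.del.Bond (D.res C) := by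
  obtain ⟨h1, h2, h3⟩ := hC
  have hne : ∀ f ∈ C, f ≠ D.g := fun f hf e => hg (e ▸ hf)
  refine ⟨?_, ?_, ?_⟩
  · obtain ⟨f, hf⟩ := h1
    exact ⟨⟨f, hne f hf⟩, D.mem_res.2 hf⟩
  · intro f hf g hg'
    have hf' := D.mem_res.1 hf
    have hg'' := D.mem_res.1 hg'
    have h := h2 _ hf' _ hg''
    have key : ∀ (a b : K.F) (ha : a ∈ C), Relation.ReflTransGen
        (fun a b => b ∈ C ∧ ∃ d, d ∈ K.bd (some a) ∧ rv d ∈ K.bd (some b)) a b →
        ∃ hb : b ∈ C, Relation.ReflTransGen
        (fun a b => b ∈ D.res C ∧ ∃ d, d ∈ D.del.bd (some a) ∧ rv d ∈ D.del.bd (some b))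
          (⟨a, hne a ha⟩ : {f : K.F // f ≠ D.g}) (⟨b, hne b hb⟩ : {f : K.F // f ≠ D.g}) := by
      intro a b ha hab
      induction hab with
      | refl => exact ⟨ha, Relation.ReflTransGen.refl⟩
      | @tail b c _ hbc ih =>
        obtain ⟨hb, ih⟩ := ih
        obtain ⟨hc, x, hx1, hx2⟩ := hbc
        refine ⟨hc, ih.tail ⟨D.mem_res.2 hc, (⟨x.1, D.ne_of_mem_some (hne b hb) hx1⟩, x.2), ?_, ?_⟩⟩
        · exact D.mem_del.2 hx1
        · exact D.mem_del.2 hx2
    obtain ⟨_, h⟩ := key _ _ hf' h
    exact h
  · intro f g hf hg'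
    have hcon : ∀ a : Option K.F, (∀ x ∈ C, a ≠ some x) → ∀ x ∈ D.res C, D.ph a ≠ some x := by
      intro a ha x hx e
      cases a with
      | none => exact absurd e (by rw [ph_none]; simp)
      | some a =>
        by_cases hag : a ≠ D.g
        · rw [D.ph_some hag] at e
          have := Option.some.inj e
          rw [← this] at hx
          exact ha a (D.mem_res.1 hx) rfl
        · rw [D.ph_g hag] at e
          simp at e
    have hall : ∀ a b : Option K.F, (∀ x ∈ C, b ≠ some x) ∧ (∃ d, d ∈ K.bd a ∧ rv d ∈ K.bd b) →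
        Relation.ReflTransGen (fun a b => (∀ x ∈ D.res C, b ≠ some x) ∧
          ∃ d, d ∈ D.del.bd a ∧ rv d ∈ D.del.bd b) (D.ph a) (D.ph b) := by
      rintro a b ⟨hb, x, h1, h2⟩
      by_cases hx : x.1 ≠ D.d.1
      · refine Relation.ReflTransGen.single ⟨hcon b hb, (⟨x.1, hx⟩, x.2), ?_, ?_⟩
        · exact D.mem_ph (x := (⟨x.1, hx⟩, x.2)) h1
        · exact D.mem_ph (x := rv (⟨x.1, hx⟩, x.2)) h2
      · push Not at hx
        have hab : ∀ y : K.E × Bool, y.1 = D.d.1 → ∀ c, y ∈ K.bd c → D.ph c = none := by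
          intro y hy c hc
          cases c with
          | none => rfl
          | some c =>
            by_cases hcg : c ≠ D.g
            · exact absurd hy (D.ne_of_mem_some hcg hc)
            · exact D.ph_g hcg
        rw [hab x hx a h1, hab (rv x) hx b h2]
        exact Relation.ReflTransGen.refl
    have hlift : ∀ a : Option {f : K.F // f ≠ D.g}, (∀ x ∈ D.res C, a ≠ some x) →
        ∀ x ∈ C, a.map Subtype.val ≠ some x := by
      intro a ha x hx e
      cases a with
      | none => simp at e
      | some a =>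
        simp only [Option.map_some, Option.some.injEq] at e
        exact ha a (D.mem_res.2 (by rw [← e] at hx; exact hx)) rfl
    have h := h3 (f.map Subtype.val) (g.map Subtype.val) (hlift f hf) (hlift g hg')
    have h' : Relation.ReflTransGen (fun a b => (∀ x ∈ D.res C, b ≠ some x) ∧
          ∃ d, d ∈ D.del.bd a ∧ rv d ∈ D.del.bd b)
        (D.ph (f.map Subtype.val)) (D.ph (g.map Subtype.val)) :=
      Relation.ReflTransGen.trans_induction_on
        (motive := fun {a b} _ => Relation.ReflTransGen
          (fun a b => (∀ x ∈ D.res C, b ≠ some x) ∧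
          ∃ d, d ∈ D.del.bd a ∧ rv d ∈ D.del.bd b) (D.ph a) (D.ph b)) h
        (fun _ => Relation.ReflTransGen.refl) (fun h => hall _ _ h) (fun _ _ h1 h2 => h1.trans h2)
    have e1 : D.ph (f.map Subtype.val) = f := D.ph_val f
    have e2 : D.ph (g.map Subtype.val) = g := D.ph_val g
    exact e1 ▸ e2 ▸ h'

end DelData

theorem exists_res_aux : ∀ (n : ℕ) (K : PC A) (C : Finset K.F), K.Bond C →
    (univ \ C).card ≤ n → ∃ (K' : PC A) (i : Em K' K), IsRes i C := by
  intro n
  induction n with
  | zero =>
    intro K C hC hn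
    have hC' : C = univ := by
      have : univ \ C = ∅ := Finset.card_eq_zero.1 (Nat.le_zero.1 hn)
      rw [Finset.sdiff_eq_empty_iff_subset] at this
      exact Finset.univ_subset_iff.1 this
    subst hC'
    exact ⟨K, Em.refl K, fun g => ⟨fun _ => ⟨g, rfl⟩, fun _ => mem_univ _⟩, fun _ => Iff.rfl,
      fun y _ => ⟨y, rfl⟩⟩
  | succ n ih =>
    intro K C hC hn
    by_cases hu : C = univ
    · subst hu
      exact ⟨K, Em.refl K, fun g => ⟨fun _ => ⟨g, rfl⟩, fun _ => mem_univ _⟩, fun _ => Iff.rfl,
        fun y _ => ⟨y, rfl⟩⟩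
    · obtain ⟨g0, hg0⟩ : ∃ g, g ∉ C := by
        by_contra h
        push Not at h
        exact hu (Finset.eq_univ_iff_forall.2 h)
      have h3 := hC.2.2 none (some g0) (by simp) (by
        intro x hx e
        exact hg0 (by rw [Option.some.inj e]; exact hx))
      -- the first step from `none`
      have key : ∀ b : Option K.F, Relation.ReflTransGen (fun a b => (∀ x ∈ C, b ≠ some x) ∧
          ∃ d, d ∈ K.bd a ∧ rv d ∈ K.bd b) none b → b ≠ none →
          ∃ g, g ∉ C ∧ ∃ d, d ∈ K.bd none ∧ rv d ∈ K.bd (some g) := by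
        intro b hb
        induction hb with
        | refl => exact fun h => absurd rfl h
        | @tail b c _ hbc ih =>
          intro hc
          by_cases hbn : b = none
          · obtain ⟨h1, h2⟩ := hbc
            obtain ⟨c', rfl⟩ := Option.ne_none_iff_exists'.1 hc
            subst hbn
            exact ⟨c', fun h => h1 c' h rfl, h2⟩
          · exact ih hbn
      obtain ⟨g, hg, x, hx1, hx2⟩ := key _ h3 (by simp)
      obtain ⟨D, hDg, hDd⟩ := exists_delData K (d := rv x) hx2 (by rw [rv_rv]; exact hx1)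
      subst hDg
      have hB := D.bond_res hC hg
      have hcard : (univ \ D.res C).card ≤ n := by
        have h1 : (univ \ D.res C).map ⟨D.em.f, D.em.finj⟩ ⊆ (univ \ C).erase D.g := by
          intro y hy
          obtain ⟨z, hz, rfl⟩ := Finset.mem_map.1 hy
          rw [Finset.mem_erase]
          refine ⟨z.2, ?_⟩
          rw [Finset.mem_sdiff] at hz ⊢
          exact ⟨mem_univ _, fun h => hz.2 (D.mem_res.2 h)⟩
        have h2 := Finset.card_le_card h1
        rw [Finset.card_map, Finset.card_erase_of_mem (by simp only [mem_sdiff, mem_univ, hg, not_false_eq_true, and_self])] at h2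
        omega
      obtain ⟨K', i, hi⟩ := ih D.del (D.res C) hB hcard
      refine ⟨K', i.comp D.em, ?_, ?_, ?_⟩
      · intro f
        constructor
        · intro hf
          obtain ⟨f', hf'⟩ := (hi.rng ⟨f, fun e => hg (e ▸ hf)⟩).1 (D.mem_res.2 hf)
          refine ⟨f', ?_⟩
          show D.em.f (i.f f') = f
          rw [hf']
          rfl
        · rintro ⟨f', rfl⟩
          exact D.mem_res.1 ((hi.rng _).2 ⟨f', rfl⟩)
      · intro x
        rw [hi.bdr x, D.mem_bdry_res hg]
        rfl
      · intro y hy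
        have hyd : y ≠ D.d.1 := fun e => D.d_not_bdry hg (e ▸ hy)
        obtain ⟨x, hx⟩ := hi.sur ⟨y, hyd⟩ ((D.mem_bdry_res hg _).2 hy)
        refine ⟨x, ?_⟩
        show D.em.e (i.e x) = y
        rw [hx]
        rfl

/-- restriction of a complex to a bond -/
theorem exists_res (K : PC A) (C : Finset K.F) (hC : K.Bond C) :
    ∃ (K' : PC A) (i : Em K' K), IsRes i C :=
  exists_res_aux _ K C hC le_rfl

end Vale.Agent.P201.S.Dl
end

section

/-!
P201, part F: geometry of square faces, weighted walks (helper643).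
-/

set_option linter.all false

namespace Vale.Agent.P201.S

open Finset

namespace PC

variable {A : Type} (K : PC A)

theorem nonempty_V : Nonempty K.V := by
  by_contra h
  rw [not_nonempty_iff] at h
  have hE : IsEmpty K.E := ⟨fun e => h.elim (K.org (e, true))⟩
  have h1 : Fintype.card K.V = 0 := Fintype.card_eq_zero_iff.2 h
  have h2 : Fintype.card K.E = 0 := Fintype.card_eq_zero_iff.2 hE
  have h3 := K.euler
  have h4 : 0 < Fintype.card K.F := by omega
  obtain ⟨f⟩ := Fintype.card_pos_iff.1 h4
  have h5 := K.ne f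
  cases hb : K.bd (some f) with
  | nil => exact h5 hb
  | cons a l => exact hE.elim a.1

instance : Nonempty K.V := K.nonempty_V

/-- walks along darts -/
inductive Wk : K.V → List (K.E × Bool) → K.V → Prop
  | nil (v : K.V) : Wk v [] v
  | cons (d : K.E × Bool) (l : List (K.E × Bool)) (w : K.V) :
      Wk (K.org (rv d)) l w → Wk (K.org d) (d :: l) w

variable {K}

theorem Wk.append {v w z : K.V} {l l' : List (K.E × Bool)} (h : K.Wk v l w) (h' : K.Wk w l' z) :
    K.Wk v (l ++ l') z := by
  induction h with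
  | nil v => simpa using h'
  | cons d l w _ ih => exact Wk.cons d _ _ (ih h')

theorem rv_rv {E : Type} (d : E × Bool) : rv (rv d) = d := by
  cases d; simp [rv]

theorem Wk.one (d : K.E × Bool) : K.Wk (K.org d) [d] (K.org (rv d)) :=
  Wk.cons d [] _ (Wk.nil _)

theorem Wk.symm {v w : K.V} {l : List (K.E × Bool)} (h : K.Wk v l w) :
    K.Wk w ((l.map rv).reverse) v := by
  induction h with
  | nil v => exact Wk.nil v
  | cons d l w _ ih =>
    rw [List.map_cons, List.reverse_cons]
    have := Wk.one (K := K) (rv d)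
    rw [rv_rv] at this
    exact ih.append this

variable (K)

/-- weight of a list of darts -/
def wtD (wt : K.E → ℕ) (l : List (K.E × Bool)) : ℕ := (l.map (fun d => wt d.1)).sum

/-- `w` can be reached from `v` by a walk of weight at most `r` -/
def Reach (wt : K.E → ℕ) (r : ℕ) (v w : K.V) : Prop := ∃ l, K.Wk v l w ∧ K.wtD wt l ≤ r

variable {K} {wt : K.E → ℕ}

theorem Reach.refl (v : K.V) : K.Reach wt 0 v v := ⟨[], Wk.nil v, by simp only [wtD, List.map_nil, List.sum_nil, Std.le_refl]⟩

theorem Reach.mono {r s : ℕ} {v w : K.V} (h : K.Reach wt r v w) (hrs : r ≤ s) : K.Reach wt s v w := by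
  obtain ⟨l, h1, h2⟩ := h
  exact ⟨l, h1, h2.trans hrs⟩

theorem Reach.trans {r s : ℕ} {v w z : K.V} (h : K.Reach wt r v w) (h' : K.Reach wt s w z) :
    K.Reach wt (r + s) v z := by
  obtain ⟨l, h1, h2⟩ := h
  obtain ⟨l', h1', h2'⟩ := h'
  refine ⟨l ++ l', h1.append h1', ?_⟩
  simp only [wtD, List.map_append, List.sum_append] at *
  omega

theorem Reach.symm {r : ℕ} {v w : K.V} (h : K.Reach wt r v w) : K.Reach wt r w v := by
  obtain ⟨l, h1, h2⟩ := h
  refine ⟨_, h1.symm, ?_⟩
  have : K.wtD wt ((l.map rv).reverse) = K.wtD wt l := by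
    simp only [wtD, List.map_reverse, List.sum_reverse, List.map_map]
    rfl
  omega

theorem Reach.edge (d : K.E × Bool) : K.Reach wt (wt d.1) (K.org d) (K.org (rv d)) :=
  ⟨[d], Wk.one d, by simp only [wtD, List.map_cons, List.map_nil, List.sum_cons, List.sum_nil, add_zero, Std.le_refl]⟩

/-- two vertices always reach each other with some weight -/
theorem exists_reach (v w : K.V) : ∃ r, K.Reach wt r v w := by
  have h := K.conn v w
  induction h with
  | refl => exact ⟨0, Reach.refl v⟩
  | tail _ h ih =>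
    obtain ⟨r, hr⟩ := ih
    obtain ⟨d, h1, h2⟩ := h
    refine ⟨r + wt d.1, hr.trans ?_⟩
    rw [← h1, ← h2]
    exact Reach.edge d

/-- walks inside a chain of darts -/
theorem wk_prefix : ∀ (l1 : List (K.E × Bool)) (z : K.E × Bool) (l2 : List (K.E × Bool)),
    (l1 ++ z :: l2).IsChain (fun a b => K.org b = K.org (rv a)) →
    ∀ a ∈ (l1 ++ z :: l2).head?, K.Wk (K.org a) l1 (K.org z)
  | [], z, l2, _, a, ha => by
    simp at ha
    subst ha
    exact Wk.nil _
  | b :: l1, z, l2, hc, a, ha => by
    simp at ha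
    subst ha
    rw [List.cons_append, List.isChain_cons] at hc
    obtain ⟨h1, h2⟩ := hc
    cases hh : (l1 ++ z :: l2).head? with
    | none => simp at hh
    | some c =>
      have h3 := wk_prefix l1 z l2 h2 c (by rw [hh]; rfl)
      have h4 := h1 c (by rw [hh]; rfl)
      rw [h4] at h3
      exact Wk.cons _ _ _ h3

end PC

/-! ## Square faces -/

section Square

variable {S : Sys} {σ : Equiv.Perm (S.C)}

/-- decomposition of a list of signed letters which is a relator -/
theorem relw_split (q : Port S) : relw σ q =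
    (Let.x (S.rc q), true) :: (tw S (S.ht q) ++ (Let.y (S.blk q), true) ::
      (Let.y (S.blk (mt σ q)), false) :: (winv (tw S (S.ht (mt σ q))) ++
        [(Let.x (S.rc (mt σ q)), false)])) := by
  simp [relw, half, winv]

theorem tw_t {h : ℤ} {a : Let S × Bool} (ha : a ∈ tw S h) : a.1 = Let.t := by
  unfold tw at ha
  rw [List.mem_replicate] at ha
  rw [ha.2]

theorem winv_tw_t {h : ℤ} {a : Let S × Bool} (ha : a ∈ winv (tw S h)) : a.1 = Let.t := by
  unfold winv at ha
  simp only [List.mem_reverse, List.mem_map] at ha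
  obtain ⟨b, hb, rfl⟩ := ha
  have h := tw_t hb
  simpa using h

namespace PC

variable (K : PC (Let S))

/-- `φ` is a square face with port `q` -/
def IsSq (σ : Equiv.Perm (S.C)) (φ : Option K.F) (q : Port S) : Prop := K.wd φ = relw σ q

/-- geometry of a square face -/
structure SqGeo (σ : Equiv.Perm (S.C)) (φ : Option K.F) (q : Port S) where
  dx : K.E × Bool
  lt : List (K.E × Bool)
  dy : K.E × Bool
  dy' : K.E × Bool
  lt' : List (K.E × Bool)
  dx' : K.E × Bool
  eq : K.bd φ = dx :: (lt ++ dy :: dy' :: (lt' ++ [dx']))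
  lx : K.lab dx.1 = Let.x (S.rc q)
  sx : dx.2 = true
  lab_lt : ∀ d ∈ lt, K.lab d.1 = Let.t
  word_lt : lt.map (fun d => (K.lab d.1, d.2)) = tw S (S.ht q)
  ly : K.lab dy.1 = Let.y (S.blk q)
  sy : dy.2 = true
  ly' : K.lab dy'.1 = Let.y (S.blk (mt σ q))
  sy' : dy'.2 = false
  lab_lt' : ∀ d ∈ lt', K.lab d.1 = Let.t
  word_lt' : lt'.map (fun d => (K.lab d.1, d.2)) = winv (tw S (S.ht (mt σ q)))
  lx' : K.lab dx'.1 = Let.x (S.rc (mt σ q))
  sx' : dx'.2 = false

theorem IsSq.geo {K : PC (Let S)} {φ : Option K.F} {q : Port S} (h : K.IsSq σ φ q) :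
    Nonempty (K.SqGeo σ φ q) := by
  have h1 := h
  unfold IsSq wd at h1
  rw [relw_split] at h1
  obtain ⟨dx, L1, e1, f1, h2⟩ := List.map_eq_cons_iff.1 h1
  obtain ⟨lt, L2, e2, h3, h4⟩ := List.map_eq_append_iff.1 h2
  obtain ⟨dy, L3, e3, f3, h5⟩ := List.map_eq_cons_iff.1 h4
  obtain ⟨dy', L4, e4, f4, h6⟩ := List.map_eq_cons_iff.1 h5
  obtain ⟨lt', L5, e5, h7, h8⟩ := List.map_eq_append_iff.1 h6
  obtain ⟨dx', L6, e6, f6, h9⟩ := List.map_eq_cons_iff.1 h8
  have h10 : L6 = [] := List.map_eq_nil_iff.1 h9
  simp only [Prod.mk.injEq] at f1 f3 f4 f6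
  refine ⟨⟨dx, lt, dy, dy', lt', dx', ?_, f1.1, f1.2, ?_, h3, f3.1, f3.2, f4.1, f4.2, ?_, h7, f6.1, f6.2⟩⟩
  · rw [e1, e2, e3, e4, e5, e6, h10]
  · intro d hd
    have : (K.lab d.1, d.2) ∈ lt.map (fun d => (K.lab d.1, d.2)) := List.mem_map.2 ⟨d, hd, rfl⟩
    rw [h3] at this
    exact tw_t this
  · intro d hd
    have : (K.lab d.1, d.2) ∈ lt'.map (fun d => (K.lab d.1, d.2)) := List.mem_map.2 ⟨d, hd, rfl⟩
    rw [h7] at this
    exact winv_tw_t this

/-- the end vertex (head of the y-darts) of a square face -/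
noncomputable def ev (φ : Option K.F) : K.V :=
  Classical.epsilon (fun v => ∃ d ∈ K.bd φ, (∃ b, K.lab d.1 = Let.y b) ∧ d.2 = false ∧ K.org d = v)

variable {K} {φ : Option K.F} {q : Port S}

theorem SqGeo.ev_eq (G : K.SqGeo σ φ q) : K.ev φ = K.org G.dy' := by
  have h := Classical.epsilon_spec (p := fun v => ∃ d ∈ K.bd φ,
    (∃ b, K.lab d.1 = Let.y b) ∧ d.2 = false ∧ K.org d = v)
    ⟨K.org G.dy', G.dy', by rw [G.eq]; simp only [List.mem_cons, List.mem_append, List.not_mem_nil, or_false, true_or, or_true], ⟨_, G.ly'⟩, G.sy', rfl⟩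
  obtain ⟨d, hd, ⟨b, hb⟩, hs, hv⟩ := h
  have : d = G.dy' := by
    rw [G.eq] at hd
    simp only [List.mem_cons, List.mem_append, List.not_mem_nil, or_false] at hd
    rcases hd with h | h | h | h | h | h
    · rw [h, G.lx] at hb; cases hb
    · rw [G.lab_lt d h] at hb; cases hb
    · rw [h, G.sy] at hs; cases hs
    · exact h
    · rw [G.lab_lt' d h] at hb; cases hb
    · rw [h, G.lx'] at hb; cases hb
  rw [← this]
  exact hv.symm

theorem SqGeo.org_dy' (G : K.SqGeo σ φ q) : K.org G.dy' = K.org (rv G.dy) := by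
  have h := K.chain φ
  rw [G.eq] at h
  have h2 : (G.dx :: G.lt ++ G.dy :: G.dy' :: (G.lt' ++ [G.dx'])).IsChain
    (fun a b => K.org b = K.org (rv a)) := by simpa only [List.cons_append, List.isChain_cons_append_cons_cons] using h
  rw [List.isChain_append] at h2
  exact (List.isChain_cons_cons.1 h2.2.1).1

theorem SqGeo.dy_eq (G : K.SqGeo σ φ q) : G.dy = (G.dy.1, true) := by
  rw [← G.sy]

theorem SqGeo.dy'_eq (G : K.SqGeo σ φ q) : G.dy' = (G.dy'.1, false) := by
  rw [← G.sy']

theorem SqGeo.dx_eq (G : K.SqGeo σ φ q) : G.dx = (G.dx.1, true) := by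
  rw [← G.sx]

theorem SqGeo.dx'_eq (G : K.SqGeo σ φ q) : G.dx' = (G.dx'.1, false) := by
  rw [← G.sx']

theorem SqGeo.rv_dy (G : K.SqGeo σ φ q) : rv G.dy = (G.dy.1, false) := by
  simp [rv, G.sy]

theorem SqGeo.rv_dx (G : K.SqGeo σ φ q) : rv G.dx = (G.dx.1, false) := by
  simp [rv, G.sx]

/-- the heads of both y-edges are at `ev` -/
theorem SqGeo.ev_y (G : K.SqGeo σ φ q) {d : K.E × Bool} (hd : d ∈ K.bd φ)
    (hy : ∃ b, K.lab d.1 = Let.y b) : K.org (d.1, false) = K.ev φ := by
  obtain ⟨b, hb⟩ := hy
  rw [G.eq] at hd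
  simp only [List.mem_cons, List.mem_append, List.mem_singleton, List.not_mem_nil, or_false] at hd
  rcases hd with h | h | h | h | h | h
  · rw [h, G.lx] at hb; cases hb
  · rw [G.lab_lt d h] at hb; cases hb
  · rw [G.ev_eq, G.org_dy', G.rv_dy, h]
  · rw [G.ev_eq, h, ← G.dy'_eq]
  · rw [G.lab_lt' d h] at hb; cases hb
  · rw [h, G.lx'] at hb; cases hb

/-- weight of edges -/
def wE (K : PC (Let S)) (Y : ℕ) (e : K.E) : ℕ := wtl Y (K.lab e)

theorem wtD_t {Y : ℕ} {l : List (K.E × Bool)} (h : ∀ d ∈ l, K.lab d.1 = Let.t) :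
    K.wtD (K.wE Y) l = 0 := by
  unfold wtD
  rw [List.sum_eq_zero]
  intro x hx
  obtain ⟨d, hd, rfl⟩ := List.mem_map.1 hx
  simp [wE, h d hd, wtl]

theorem wtD_append {wt : K.E → ℕ} (l l' : List (K.E × Bool)) :
    K.wtD wt (l ++ l') = K.wtD wt l + K.wtD wt l' := by
  simp only [wtD, List.map_append, List.sum_append, Nat.add_left_cancel_iff]

theorem wtD_cons {wt : K.E → ℕ} (d : K.E × Bool) (l : List (K.E × Bool)) :
    K.wtD wt (d :: l) = wt d.1 + K.wtD wt l := by
  simp [wtD]

theorem wtD_nil {wt : K.E → ℕ} : K.wtD wt [] = 0 := by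
  simp [wtD]

theorem SqGeo.chain (G : K.SqGeo σ φ q) : (G.dx :: (G.lt ++ G.dy :: G.dy' :: (G.lt' ++ [G.dx']))).IsChain
    (fun a b => K.org b = K.org (rv a)) := by
  have h := K.chain φ
  rwa [G.eq] at h

/-- every vertex of the face before `ev` -/
theorem SqGeo.reach_lt (Y : ℕ) (G : K.SqGeo σ φ q) {d : K.E × Bool} (hd : d ∈ G.lt) :
    K.Reach (K.wE Y) Y (K.org d) (K.ev φ) := by
  obtain ⟨l1, l2, hl⟩ := List.append_of_mem hd
  have h := G.chain
  rw [hl] at h
  have h2 : ((G.dx :: l1) ++ (d :: l2 ++ [G.dy]) ++ G.dy' :: (G.lt' ++ [G.dx'])).IsChain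
    (fun a b => K.org b = K.org (rv a)) := by simpa using h
  rw [List.append_assoc, List.isChain_append] at h2
  have h3 := wk_prefix (d :: l2 ++ [G.dy]) G.dy' _ h2.2.1 d (by simp)
  rw [G.ev_eq]
  refine ⟨_, h3, ?_⟩
  rw [wtD_append, wtD_cons, wtD_cons, wtD_nil]
  have h4 : K.wtD (K.wE Y) l2 = 0 := wtD_t (fun d hd => G.lab_lt d (by rw [hl]; simp only [List.mem_append, List.mem_cons, hd, or_true]))
  have h5 : K.lab d.1 = Let.t := G.lab_lt d hd
  simp [wE, h4, h5, wtl, G.ly]

/-- the M-end of the start x-edge -/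
theorem SqGeo.reach_dx (Y : ℕ) (G : K.SqGeo σ φ q) :
    K.Reach (K.wE Y) Y (K.org (G.dx.1, false)) (K.ev φ) := by
  have h := G.chain
  have h2 : ([G.dx] ++ ((G.lt ++ [G.dy]) ++ G.dy' :: (G.lt' ++ [G.dx']))).IsChain
    (fun a b => K.org b = K.org (rv a)) := by simpa using h
  rw [List.isChain_append] at h2
  cases hh : ((G.lt ++ [G.dy]) ++ G.dy' :: (G.lt' ++ [G.dx'])).head? with
  | none => simp at hh
  | some c =>
    have h3 := wk_prefix (G.lt ++ [G.dy]) G.dy' _ h2.2.1 c (by rw [hh]; rfl)
    have h4 := h2.2.2 G.dx (by simp) c (by rw [hh]; rfl)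
    rw [G.rv_dx] at h4
    rw [← h4, G.ev_eq]
    refine ⟨_, h3, ?_⟩
    rw [wtD_append, wtD_cons, wtD_nil]
    have h5 : K.wtD (K.wE Y) G.lt = 0 := wtD_t G.lab_lt
    simp [wE, h5, wtl, G.ly]

theorem SqGeo.reach_dx0 (Y : ℕ) (G : K.SqGeo σ φ q) :
    K.Reach (K.wE Y) (1 + Y) (K.org G.dx) (K.ev φ) := by
  have h1 := Reach.edge (K := K) (wt := K.wE Y) G.dx
  rw [G.rv_dx] at h1
  have h2 := h1.trans (G.reach_dx Y)
  refine h2.mono ?_
  simp only [wE, wtl, G.lx, Std.le_refl]

theorem SqGeo.reach_dy (Y : ℕ) (G : K.SqGeo σ φ q) :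
    K.Reach (K.wE Y) Y (K.org G.dy) (K.ev φ) := by
  have h1 := Reach.edge (K := K) (wt := K.wE Y) G.dy
  rw [← G.org_dy', ← G.ev_eq] at h1
  refine h1.mono ?_
  simp [wE, G.ly, wtl]

theorem SqGeo.reach_lt' (Y : ℕ) (G : K.SqGeo σ φ q) {d : K.E × Bool} (hd : d ∈ G.lt') :
    K.Reach (K.wE Y) Y (K.ev φ) (K.org d) := by
  obtain ⟨l1, l2, hl⟩ := List.append_of_mem hd
  have h := G.chain
  rw [hl] at h
  have h2 : ((G.dx :: (G.lt ++ [G.dy])) ++ ((G.dy' :: l1) ++ d :: (l2 ++ [G.dx']))).IsChain
    (fun a b => K.org b = K.org (rv a)) := by simpa using h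
  rw [List.isChain_append] at h2
  have h3 := wk_prefix (G.dy' :: l1) d _ h2.2.1 G.dy' (by simp)
  rw [G.ev_eq]
  refine ⟨_, h3, ?_⟩
  rw [wtD_cons]
  have h4 : K.wtD (K.wE Y) l1 = 0 := wtD_t (fun d hd => G.lab_lt' d (by rw [hl]; simp [hd]))
  simp [wE, h4, wtl, G.ly']

theorem SqGeo.reach_dx' (Y : ℕ) (G : K.SqGeo σ φ q) :
    K.Reach (K.wE Y) Y (K.ev φ) (K.org (G.dx'.1, false)) := by
  have h := G.chain
  have h2 : ((G.dx :: (G.lt ++ [G.dy])) ++ ((G.dy' :: G.lt') ++ G.dx' :: [])).IsChain
    (fun a b => K.org b = K.org (rv a)) := by simpa using h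
  rw [List.isChain_append] at h2
  have h3 := wk_prefix (G.dy' :: G.lt') G.dx' _ h2.2.1 G.dy' (by simp)
  rw [G.ev_eq, ← G.dx'_eq]
  refine ⟨_, h3, ?_⟩
  rw [wtD_cons]
  have h4 : K.wtD (K.wE Y) G.lt' = 0 := wtD_t G.lab_lt'
  simp [wE, h4, wtl, G.ly']

/-- the M-end of an x-edge of the face is within weight `Y` of `ev` -/
theorem SqGeo.reach_x (Y : ℕ) (G : K.SqGeo σ φ q) {d : K.E × Bool} (hd : d ∈ K.bd φ)
    (hx : ∃ r, K.lab d.1 = Let.x r) : K.Reach (K.wE Y) Y (K.ev φ) (K.org (d.1, false)) := by
  obtain ⟨i, hb⟩ := hx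
  rw [G.eq] at hd
  simp only [List.mem_cons, List.mem_append, List.mem_singleton, List.not_mem_nil, or_false] at hd
  rcases hd with h | h | h | h | h | h
  · rw [h]; exact (G.reach_dx Y).symm
  · rw [G.lab_lt d h] at hb; cases hb
  · rw [h, G.ly] at hb; cases hb
  · rw [h, G.ly'] at hb; cases hb
  · rw [G.lab_lt' d h] at hb; cases hb
  · rw [h]; exact G.reach_dx' Y

/-- every vertex of the face is within weight `Y + 1` of `ev` -/
theorem SqGeo.reach_all (Y : ℕ) (G : K.SqGeo σ φ q) {d : K.E × Bool} (hd : d ∈ K.bd φ) :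
    K.Reach (K.wE Y) (Y + 1) (K.ev φ) (K.org d) := by
  rw [G.eq] at hd
  simp only [List.mem_cons, List.mem_append, List.mem_singleton, List.not_mem_nil, or_false] at hd
  rcases hd with h | h | h | h | h | h
  · rw [h]; exact ((G.reach_dx0 Y).symm).mono (by omega)
  · exact ((G.reach_lt Y h).symm).mono (by omega)
  · rw [h]; exact ((G.reach_dy Y).symm).mono (by omega)
  · rw [h, G.ev_eq]; exact (Reach.refl _).mono (by omega)
  · exact (G.reach_lt' Y h).mono (by omega)
  · rw [h, G.dx'_eq]; exact (G.reach_dx' Y).mono (by omega)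

open Classical in
/-- a square face has (at most) two x-darts -/
theorem SqGeo.x_darts (G : K.SqGeo σ φ q) {d : K.E × Bool} (hd : d ∈ K.bd φ)
    (hx : ∃ r, K.lab d.1 = Let.x r) : d = G.dx ∨ d = G.dx' := by
  obtain ⟨i, hb⟩ := hx
  rw [G.eq] at hd
  simp only [List.mem_cons, List.mem_append, List.mem_singleton, List.not_mem_nil, or_false] at hd
  rcases hd with h | h | h | h | h | h
  · exact Or.inl h
  · rw [G.lab_lt d h] at hb; cases hb
  · rw [h, G.ly] at hb; cases hb
  · rw [h, G.ly'] at hb; cases hb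
  · rw [G.lab_lt' d h] at hb; cases hb
  · exact Or.inr h

theorem SqGeo.y_darts (G : K.SqGeo σ φ q) {d : K.E × Bool} (hd : d ∈ K.bd φ)
    (hy : ∃ b, K.lab d.1 = Let.y b) : d = G.dy ∨ d = G.dy' := by
  obtain ⟨b, hb⟩ := hy
  rw [G.eq] at hd
  simp only [List.mem_cons, List.mem_append, List.mem_singleton, List.not_mem_nil, or_false] at hd
  rcases hd with h | h | h | h | h | h
  · rw [h, G.lx] at hb; cases hb
  · rw [G.lab_lt d h] at hb; cases hb
  · exact Or.inl h
  · exact Or.inr h
  · rw [G.lab_lt' d h] at hb; cases hb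
  · rw [h, G.lx'] at hb; cases hb

end PC

theorem SqK.isSq (K : SqK σ) (f : K.F) : K.toPC.IsSq σ (some f) (K.q f) := K.sq f

end Square

end Vale.Agent.P201.S
end

section

/-!
P201, part F: spanning trees from weighted reachability (leaf F5a, helper828).

* `PC.rt_stree_of_reach` : spanning tree through a connected set `Eo` of edges, all other parts of the
  tree paths have weight `≤ R`;
* `PC.exists_stree_out` (F5a), `PC.exists_stree_root` (F7d), `PC.exists_cotree_out`,
  `PC.exists_cotree_root` (with `StmtT1`).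
-/

namespace Vale.Agent.P201.S

open Finset

namespace PC

variable {A : Type} (K : PC A) (w : K.E → ℕ)

/-- there is a walk of weight `≤ r` from `u` to `v` -/
inductive RTReach : ℕ → K.V → K.V → Prop
  | refl (r : ℕ) (v : K.V) : RTReach r v v
  | step (r : ℕ) (d : K.E × Bool) (v : K.V) :
      RTReach r (K.org (rv d)) v → RTReach (r + w d.1) (K.org d) v

variable {K w}

theorem RTReach.mono {r s : ℕ} {u v : K.V} (h : K.RTReach w r u v) (hrs : r ≤ s) : K.RTReach w s u v := by
  induction h generalizing s with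
  | refl r v => exact .refl _ _
  | step r d v h ih =>
    obtain ⟨t, rfl⟩ := Nat.exists_eq_add_of_le hrs
    have := ih (s := r + t) (by omega)
    have h2 := RTReach.step (r + t) d v this
    have e : r + t + w d.1 = r + w d.1 + t := by omega
    rwa [e] at h2

theorem RTReach.of_reach {r : ℕ} {u v : K.V} (h : K.Reach w r u v) : K.RTReach w r u v := by
  obtain ⟨l, h1, h2⟩ := h
  refine RTReach.mono ?_ h2
  clear h2
  induction h1 with
  | nil v => exact .refl _ _
  | cons d l v _ ih =>
    have e : K.wtD w (d :: l) = K.wtD w l + w d.1 := by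
      simp only [wtD, List.map_cons, List.sum_cons]; omega
    rw [e]
    exact .step _ d v ih

variable (K w)

/-! ### distance to a set `O` of vertices: weight and length of the walk -/

/-- walk of weight `≤ r` and length `≤ k` from `v` to a vertex of `O` -/
inductive RTToO (O : K.V → Prop) : ℕ → ℕ → K.V → Prop
  | here (r k : ℕ) (v : K.V) : O v → RTToO O r k v
  | step (r k : ℕ) (d : K.E × Bool) : RTToO O r k (K.org (rv d)) → RTToO O (r + w d.1) (k + 1) (K.org d)

variable {K w}

theorem RTToO.of_reach {O : K.V → Prop} {r : ℕ} {u v : K.V} (h : K.Reach w r u v) (hv : O v) :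
    ∃ k, K.RTToO w O r k u := by
  replace h := RTReach.of_reach h
  induction h with
  | refl r v => exact ⟨0, .here _ _ _ hv⟩
  | step r d v h ih =>
    obtain ⟨k, hk⟩ := ih hv
    exact ⟨k + 1, .step r k d hk⟩

/-- the combined statement for vertices outside `O` -/
theorem rtToO_key (O : K.V → Prop) (hall : ∀ v, ∃ r k, K.RTToO w O r k v) :
    ∃ (W L : K.V → ℕ), (∀ v r k, K.RTToO w O r k v → W v ≤ r) ∧
      ∀ v, ¬ O v → ∃ d : K.E × Bool, K.org d = v ∧ W v = W (K.org (rv d)) + w d.1 ∧
        L (K.org (rv d)) < L v := by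
  classical
  let W : K.V → ℕ := fun v => Nat.find (hall v)
  have hW : ∀ v, ∃ k, K.RTToO w O (W v) k v := fun v => Nat.find_spec (hall v)
  have hWm : ∀ v r k, K.RTToO w O r k v → W v ≤ r := fun v r k h => Nat.find_min' (hall v) ⟨k, h⟩
  let L : K.V → ℕ := fun v => Nat.find (hW v)
  have hL : ∀ v, K.RTToO w O (W v) (L v) v := fun v => Nat.find_spec (hW v)
  have hLm : ∀ v k, K.RTToO w O (W v) k v → L v ≤ k := fun v k h => Nat.find_min' (hW v) h
  refine ⟨W, L, hWm, fun v hv => ?_⟩
  have h := hL v
  generalize hWv : W v = W0 at h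
  generalize hLv : L v = L0 at h
  cases h with
  | here r k v hO => exact absurd hO hv
  | step r k d h =>
    refine ⟨d, rfl, ?_, ?_⟩
    · have h1 : W (K.org (rv d)) ≤ r := hWm _ _ _ h
      have h2 : W (K.org d) ≤ W (K.org (rv d)) + w d.1 := hWm _ _ _ (.step _ _ d (hL (K.org (rv d))))
      omega
    · have h1 : W (K.org (rv d)) ≤ r := hWm _ _ _ h
      have h2 : W (K.org d) ≤ W (K.org (rv d)) + w d.1 := hWm _ _ _ (.step _ _ d (hL (K.org (rv d))))
      have h3 : W (K.org (rv d)) = r := by omega
      have h4 : L (K.org (rv d)) ≤ k := hLm _ _ (by rw [h3]; exact h)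
      omega

/-- paths through edges of `Eo` -/
def RTConn (K : PC A) (Eo : Finset K.E) (u v : K.V) : Prop :=
  Relation.ReflTransGen (fun a b => ∃ d : K.E × Bool, d.1 ∈ Eo ∧ K.org d = a ∧ K.org (rv d) = b) u v

/-- number of steps through `Eo` to `r0` -/
inductive RTToR (K : PC A) (Eo : Finset K.E) (r0 : K.V) : ℕ → K.V → Prop
  | here (k : ℕ) : RTToR K Eo r0 k r0
  | step (k : ℕ) (d : K.E × Bool) : d.1 ∈ Eo → RTToR K Eo r0 k (K.org (rv d)) →
      RTToR K Eo r0 (k + 1) (K.org d)

theorem RTToR.of_conn {Eo : Finset K.E} {u r0 : K.V} (h : K.RTConn Eo u r0) :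
    ∃ k, K.RTToR Eo r0 k u := by
  induction h using Relation.ReflTransGen.head_induction_on with
  | refl => exact ⟨0, .here 0⟩
  | head h1 _ ih =>
    obtain ⟨d, hd, rfl, rfl⟩ := h1
    obtain ⟨k, hk⟩ := ih
    exact ⟨k + 1, .step k d hd hk⟩

theorem RTToR.conn {Eo : Finset K.E} {u r0 : K.V} {k : ℕ} (h : K.RTToR Eo r0 k u) :
    K.RTConn Eo u r0 := by
  induction h with
  | here k => exact .refl
  | step k d hd _ ih => exact .head ⟨d, hd, rfl, rfl⟩ ih

theorem rtToR_key (Eo : Finset K.E) (r0 : K.V) :
    ∃ D : K.V → ℕ, ∀ v, K.RTConn Eo v r0 → v ≠ r0 → ∃ d : K.E × Bool, d.1 ∈ Eo ∧ K.org d = v ∧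
      K.RTConn Eo (K.org (rv d)) r0 ∧ D (K.org (rv d)) < D v := by
  classical
  let D : K.V → ℕ := fun v => if h : ∃ k, K.RTToR Eo r0 k v then Nat.find h else 0
  have hD : ∀ v (h : ∃ k, K.RTToR Eo r0 k v), D v = Nat.find h := fun v h => dif_pos h
  refine ⟨D, fun v hv hne => ?_⟩
  have h := RTToR.of_conn hv
  have h1 := Nat.find_spec h
  rw [← hD v h] at h1
  generalize hDv : D v = D0 at h1
  cases h1 with
  | here k => exact absurd rfl hne
  | step k d hd h2 =>
    refine ⟨d, hd, rfl, h2.conn, ?_⟩
    have h3 : D (K.org (rv d)) ≤ k := by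
      rw [hD _ ⟨k, h2⟩]
      exact Nat.find_min' _ h2
    omega

/-! ### API of `STree.Anc` -/

namespace STree

variable (T : K.STree)

theorem rt_anc_iff (v : K.V) (e : K.E) :
    T.Anc v e ↔ ∃ d, T.pd v = some d ∧ (d.1 = e ∨ T.Anc (K.org (rv d)) e) := by
  constructor
  · rintro ⟨u, d, h, hd, rfl⟩
    rcases Relation.ReflTransGen.cases_head h with rfl | ⟨x, ⟨d', hd', rfl⟩, hx⟩
    · exact ⟨d, hd, .inl rfl⟩
    · exact ⟨d', hd', .inr ⟨u, d, hx, hd, rfl⟩⟩
  · rintro ⟨d, hd, rfl | ⟨u, d', h, hd', rfl⟩⟩
    · exact ⟨v, d, .refl, hd, rfl⟩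
    · exact ⟨u, d', .head ⟨d, hd, rfl⟩ h, hd', rfl⟩

end STree

theorem rt_sum_insert_le {E : Type} [DecidableEq E] (w : E → ℕ) (e : E) (S : Finset E) :
    ∑ x ∈ insert e S, w x ≤ w e + ∑ x ∈ S, w x := by
  by_cases h : e ∈ S
  · rw [Finset.insert_eq_of_mem h]; exact Nat.le_add_left _ _
  · rw [Finset.sum_insert h]

open Classical in
/-- spanning tree through a connected set of edges `Eo` -/
theorem rt_stree_of_reach (w : K.E → ℕ) (Eo : Finset K.E) (r0 : K.V) (R : ℕ)
    (hR : ∀ v, ∃ u, K.RTConn Eo u r0 ∧ K.Reach w R v u) :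
    ∃ T : K.STree, T.root = r0 ∧ (∀ u, K.RTConn Eo u r0 → ∀ e, T.Anc u e → e ∈ Eo) ∧
      ∀ v, ∑ e ∈ univ.filter (fun e => T.Anc v e ∧ e ∉ Eo), w e ≤ R := by
  obtain ⟨W, L, hW, hL⟩ := rtToO_key (w := w) (fun u => K.RTConn Eo u r0) (fun v => by
    obtain ⟨u, hu, hr⟩ := hR v
    obtain ⟨k, hk⟩ := RTToO.of_reach (O := fun u => K.RTConn Eo u r0) hr hu
    exact ⟨R, k, hk⟩)
  obtain ⟨D, hD⟩ := rtToR_key Eo r0
  have hWR : ∀ v, W v ≤ R := fun v => by
    obtain ⟨u, hu, hr⟩ := hR v
    obtain ⟨k, hk⟩ := RTToO.of_reach (O := fun u => K.RTConn Eo u r0) hr hu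
    exact hW v R k hk
  choose dN hN1 hN2 hN3 using hL
  choose dO hO1 hO2 hO3 hO4 using hD
  let M : ℕ := ∑ v : K.V, D v
  have hM : ∀ v, D v ≤ M := fun v => Finset.single_le_sum (f := D) (fun _ _ => Nat.zero_le _) (mem_univ v)
  let pd : K.V → Option (K.E × Bool) := fun v =>
    if h1 : K.RTConn Eo v r0 then (if h2 : v = r0 then none else some (dO v h1 h2)) else some (dN v h1)
  have hroot : K.RTConn Eo r0 r0 := .refl
  have pd_root : pd r0 = none := by dsimp only [pd]; rw [dif_pos hroot, dif_pos rfl]
  have pd_O : ∀ v (h1 : K.RTConn Eo v r0) (h2 : v ≠ r0), pd v = some (dO v h1 h2) := fun v h1 h2 => by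
    dsimp only [pd]; rw [dif_pos h1, dif_neg h2]
  have pd_N : ∀ v (h1 : ¬ K.RTConn Eo v r0), pd v = some (dN v h1) := fun v h1 => by
    dsimp only [pd]; rw [dif_neg h1]
  let hgt : K.V → ℕ := fun v => if K.RTConn Eo v r0 then D v else L v + M
  have hgt_O : ∀ v, K.RTConn Eo v r0 → hgt v = D v := fun v h => if_pos h
  have hgt_N : ∀ v, ¬ K.RTConn Eo v r0 → hgt v = L v + M := fun v h => if_neg h
  let T : K.STree :=
    { pd := pd
      hgt := hgt
      root := r0
      rt := fun v => by
        constructor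
        · intro h
          by_contra hne
          by_cases h1 : K.RTConn Eo v r0
          · rw [pd_O v h1 hne] at h; exact absurd h (by simp)
          · rw [pd_N v h1] at h; exact absurd h (by simp)
        · rintro rfl; exact pd_root
      or := fun v d h => by
        by_cases h1 : K.RTConn Eo v r0
        · by_cases h2 : v = r0
          · rw [h2, pd_root] at h; exact absurd h (by simp)
          · rw [pd_O v h1 h2] at h
            obtain rfl := Option.some.inj h
            exact hO2 v h1 h2
        · rw [pd_N v h1] at h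
          obtain rfl := Option.some.inj h
          exact hN1 v h1
      dec := fun v d h => by
        by_cases h1 : K.RTConn Eo v r0
        · by_cases h2 : v = r0
          · rw [h2, pd_root] at h; exact absurd h (by simp)
          · rw [pd_O v h1 h2] at h
            obtain rfl := Option.some.inj h
            rw [hgt_O _ (hO3 v h1 h2), hgt_O v h1]
            exact hO4 v h1 h2
        · rw [pd_N v h1] at h
          obtain rfl := Option.some.inj h
          have h3 := hN3 v h1
          rw [hgt_N v h1]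
          by_cases h4 : K.RTConn Eo (K.org (rv (dN v h1))) r0
          · rw [hgt_O _ h4]
            have := hM (K.org (rv (dN v h1)))
            (clear * - h1 h3 this; omega)
          · rw [hgt_N _ h4]
            omega }
  have hTpd : T.pd = pd := rfl
  have hP1 : ∀ u, K.RTConn Eo u r0 → ∀ e, T.Anc u e → e ∈ Eo := by
    have key : ∀ m u, T.hgt u = m → K.RTConn Eo u r0 → ∀ e, T.Anc u e → e ∈ Eo := by
      intro m
      induction m using Nat.strong_induction_on with
      | _ m ih =>
        intro u hu hO e he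
        rw [STree.rt_anc_iff] at he
        obtain ⟨d, hd, hde⟩ := he
        have hdec := T.dec u d hd
        rw [hTpd] at hd
        by_cases h2 : u = r0
        · rw [h2, pd_root] at hd; exact absurd hd (by simp)
        · rw [pd_O u hO h2] at hd
          obtain rfl := Option.some.inj hd
          rcases hde with rfl | hde
          · exact hO1 u hO h2
          · exact ih _ (by rw [← hu]; exact hdec) _ rfl (hO3 u hO h2) e hde
    exact fun u => key _ u rfl
  refine ⟨T, rfl, hP1, fun v => ?_⟩
  refine le_trans ?_ (hWR v)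
  have key : ∀ m v, T.hgt v = m → ∑ e ∈ univ.filter (fun e => T.Anc v e ∧ e ∉ Eo), w e ≤ W v := by
    intro m
    induction m using Nat.strong_induction_on with
    | _ m ih =>
      intro v hv
      by_cases h1 : K.RTConn Eo v r0
      · have : univ.filter (fun e => T.Anc v e ∧ e ∉ Eo) = ∅ := by
          rw [Finset.filter_eq_empty_iff]
          rintro e _ ⟨h2, h3⟩
          exact h3 (hP1 v h1 e h2)
        rw [this, Finset.sum_empty]
        exact Nat.zero_le _
      · have hd : T.pd v = some (dN v h1) := pd_N v h1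
        have hdec := T.dec v _ hd
        have hi := ih _ (by rw [← hv]; exact hdec) (K.org (rv (dN v h1))) rfl
        have hsub : univ.filter (fun e => T.Anc v e ∧ e ∉ Eo) ⊆
            insert (dN v h1).1 (univ.filter (fun e => T.Anc (K.org (rv (dN v h1))) e ∧ e ∉ Eo)) := by
          intro e he
          rw [mem_filter] at he
          obtain ⟨_, he, he2⟩ := he
          rw [STree.rt_anc_iff] at he
          obtain ⟨d, hd2, hde⟩ := he
          rw [hd] at hd2
          obtain rfl := Option.some.inj hd2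
          rw [mem_insert, mem_filter]
          rcases hde with rfl | hde
          · exact .inl rfl
          · exact .inr ⟨mem_univ _, hde, he2⟩
        calc ∑ e ∈ univ.filter (fun e => T.Anc v e ∧ e ∉ Eo), w e
            ≤ ∑ e ∈ insert (dN v h1).1 (univ.filter (fun e => T.Anc (K.org (rv (dN v h1))) e ∧ e ∉ Eo)), w e :=
              Finset.sum_le_sum_of_subset hsub
          _ ≤ w (dN v h1).1 + ∑ e ∈ univ.filter (fun e => T.Anc (K.org (rv (dN v h1))) e ∧ e ∉ Eo), w e :=
              rt_sum_insert_le _ _ _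
          _ ≤ w (dN v h1).1 + W (K.org (rv (dN v h1))) := Nat.add_le_add_left hi _
          _ = W v := by rw [hN2 v h1, Nat.add_comm]
  exact key _ v rfl

/-! ### consequences: the outer boundary, cotrees -/

/-- `v` is a vertex of the outer boundary -/
def OutV (K : PC A) (v : K.V) : Prop := ∃ d ∈ K.bd none, K.org d = v

theorem rt_mem_outE {d : K.E × Bool} (h : d ∈ K.bd none) : d.1 ∈ K.outE := by
  simp only [outE, List.mem_toFinset, List.mem_map]
  exact ⟨d, h, rfl⟩

/-- in a closed list the first dart is reached from every dart (going on along the list) -/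
theorem rt_chain_conn {l : List (K.E × Bool)} (hc : l.IsChain (fun a b => K.org b = K.org (rv a)))
    {Eo : Finset K.E} (hE : ∀ d ∈ l, d.1 ∈ Eo) :
    ∀ a ∈ l, ∀ z ∈ l.getLast?, K.RTConn Eo (K.org a) (K.org (rv z)) := by
  induction l with
  | nil => simp
  | cons b l ih =>
    have step : K.RTConn Eo (K.org b) (K.org (rv b)) :=
      .single ⟨b, hE b (by simp), rfl, rfl⟩
    cases l with
    | nil =>
      intro a ha z hz
      simp only [List.mem_singleton] at ha
      simp only [List.getLast?_singleton, Option.mem_def, Option.some.injEq] at hz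
      subst ha hz
      exact step
    | cons c l =>
      rw [List.isChain_cons_cons] at hc
      intro a ha z hz
      rw [List.getLast?_cons_cons] at hz
      have hz2 : z ∈ (c :: l).getLast? := hz
      have ih' := ih hc.2 (fun d hd => hE d (List.mem_cons_of_mem _ hd))
      rcases List.mem_cons.1 ha with rfl | ha
      · have h2 := ih' c (by simp) z hz2
        rw [hc.1] at h2
        exact step.trans h2
      · exact ih' a ha z hz2

theorem rt_outV_conn {r0 : K.V} (h0 : ∀ d ∈ (K.bd none).head?, K.org d = r0) {v : K.V}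
    (hv : K.OutV v) : K.RTConn K.outE v r0 := by
  obtain ⟨d, hd, rfl⟩ := hv
  have hne : K.bd none ≠ [] := List.ne_nil_of_mem hd
  have hz : (K.bd none).getLast hne ∈ (K.bd none).getLast? := by
    rw [List.getLast?_eq_some_getLast hne]; rfl
  have hh : (K.bd none).head hne ∈ (K.bd none).head? := by
    rw [List.head?_eq_some_head hne]; rfl
  have h1 := rt_chain_conn (K.chain none) (Eo := K.outE) (fun d hd => rt_mem_outE hd) d hd _ hz
  have h2 := K.closed none _ hz _ hh
  rw [← h2, h0 _ hh] at h1
  exact h1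

/-- the end of a dart of the outer boundary is a vertex of the outer boundary -/
theorem outV_end {d : K.E × Bool} (hd : d ∈ K.bd none) : K.OutV (K.org (rv d)) := by
  have key : ∀ l : List (K.E × Bool), l.IsChain (fun a b => K.org b = K.org (rv a)) → d ∈ l →
      (∃ b ∈ l, K.org b = K.org (rv d)) ∨ d ∈ l.getLast? := by
    intro l
    induction l with
    | nil => simp only [List.IsChain.nil, List.not_mem_nil, false_and, exists_false, List.getLast?_nil, Option.mem_def, reduceCtorEq, or_self, imp_self]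
    | cons b l ih =>
      intro hc hd
      cases l with
      | nil =>
        simp only [List.mem_singleton] at hd
        subst hd
        right; simp
      | cons c l =>
        rw [List.isChain_cons_cons] at hc
        rcases List.mem_cons.1 hd with rfl | hd
        · left; exact ⟨c, by simp, hc.1⟩
        · rcases ih hc.2 hd with ⟨x, hx, hx2⟩ | h
          · left; exact ⟨x, List.mem_cons_of_mem _ hx, hx2⟩
          · right; rw [List.getLast?_cons_cons]; exact h
  rcases key _ (K.chain none) hd with ⟨b, hb, hb2⟩ | h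
  · exact ⟨b, hb, hb2⟩
  · have hne : K.bd none ≠ [] := List.ne_nil_of_mem hd
    have hh : (K.bd none).head hne ∈ (K.bd none).head? := by
      rw [List.head?_eq_some_head hne]; rfl
    exact ⟨_, List.head_mem hne, K.closed none _ h _ hh⟩

open Classical in
/-- (F5a) spanning tree: the tree paths of outer vertices use only outer edges (P1), and for every
vertex the edges of its tree path which are not outer have total weight `≤ R` (P2).
`hR`: every vertex has an outer vertex (or the root) within weight `R`. -/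
theorem exists_stree_out (w : K.E → ℕ) (r0 : K.V) (h0 : ∀ d ∈ (K.bd none).head?, K.org d = r0) (R : ℕ)
    (hR : ∀ v, ∃ u, (u = r0 ∨ K.OutV u) ∧ K.Reach w R v u) :
    ∃ T : K.STree, T.root = r0 ∧ (∀ u, K.OutV u → ∀ e, T.Anc u e → e ∈ K.outE) ∧
      ∀ v, ∑ e ∈ univ.filter (fun e => T.Anc v e ∧ e ∉ K.outE), w e ≤ R := by
  obtain ⟨T, h1, h2, h3⟩ := rt_stree_of_reach w K.outE r0 R (fun v => by
    obtain ⟨u, hu, hr⟩ := hR v
    refine ⟨u, ?_, hr⟩
    rcases hu with rfl | hu
    · exact .refl
    · exact rt_outV_conn h0 hu)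
  exact ⟨T, h1, fun u hu => h2 u (rt_outV_conn h0 hu), h3⟩

open Classical in
/-- (F7d) shortest path tree: all tree paths have weight `≤ R`. -/
theorem exists_stree_root (w : K.E → ℕ) (r0 : K.V) (R : ℕ) (hR : ∀ v, K.Reach w R v r0) :
    ∃ T : K.STree, T.root = r0 ∧ ∀ v, ∑ e ∈ univ.filter (fun e => T.Anc v e), w e ≤ R := by
  obtain ⟨T, h1, _, h3⟩ := rt_stree_of_reach w ∅ r0 R (fun v => ⟨r0, .refl, hR v⟩)
  refine ⟨T, h1, fun v => ?_⟩
  have := h3 v
  simpa only [ge_iff_le, notMem_empty, not_false_eq_true, and_true] using this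

open Classical in
/-- (F5a) with the cotree of `StmtT1`. -/
theorem exists_cotree_out (hT1 : StmtT1) (w : K.E → ℕ) (r0 : K.V)
    (h0 : ∀ d ∈ (K.bd none).head?, K.org d = r0) (R : ℕ)
    (hR : ∀ v, ∃ u, (u = r0 ∨ K.OutV u) ∧ K.Reach w R v u) :
    ∃ C : K.Cotree, C.root = r0 ∧ (∀ f, C.par f = none → K.bdry (C.sub f) ⊆ K.outE) ∧
      ∀ f, ∑ e ∈ K.bdry (C.sub f) \ K.outE, w e ≤ 2 * R + w (C.dd f).1 := by
  obtain ⟨T, h1, h2, h3⟩ := exists_stree_out w r0 h0 R hR
  obtain ⟨C, hC1, hC2, hC3⟩ := hT1 A K T
  refine ⟨C, hC1.trans h1, fun f hf e he => ?_, fun f => ?_⟩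
  · have hm : rv (C.dd f) ∈ K.bd none := by rw [← hf]; exact C.memr f
    rcases hC3 f e he with rfl | h | h
    · exact rt_mem_outE (d := rv (C.dd f)) hm
    · refine h2 _ ?_ e h
      have := outV_end hm
      rwa [rv_rv] at this
    · exact h2 _ ⟨_, hm, rfl⟩ e h
  · have hsub : K.bdry (C.sub f) \ K.outE ⊆ insert (C.dd f).1
        ((univ.filter (fun e => T.Anc (K.org (C.dd f)) e ∧ e ∉ K.outE)) ∪
        (univ.filter (fun e => T.Anc (K.org (rv (C.dd f))) e ∧ e ∉ K.outE))) := by
      intro e he
      rw [mem_sdiff] at he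
      rw [mem_insert, mem_union, mem_filter, mem_filter]
      rcases hC3 f e he.1 with h | h | h
      · exact .inl h
      · exact .inr (.inl ⟨mem_univ _, h, he.2⟩)
      · exact .inr (.inr ⟨mem_univ _, h, he.2⟩)
    calc ∑ e ∈ K.bdry (C.sub f) \ K.outE, w e
        ≤ _ := Finset.sum_le_sum_of_subset hsub
      _ ≤ _ := rt_sum_insert_le _ _ _
      _ ≤ w (C.dd f).1 + (R + R) := by
          refine Nat.add_le_add_left (le_trans ?_ (Nat.add_le_add (h3 (K.org (C.dd f)))
            (h3 (K.org (rv (C.dd f)))))) _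
          rw [← Finset.sum_union_inter]
          exact Nat.le_add_right _ _
      _ = 2 * R + w (C.dd f).1 := by omega

open Classical in
/-- (F7d) with the cotree of `StmtT1`. -/
theorem exists_cotree_root (hT1 : StmtT1) (w : K.E → ℕ) (r0 : K.V) (R : ℕ)
    (hR : ∀ v, K.Reach w R v r0) :
    ∃ C : K.Cotree, C.root = r0 ∧ ∀ f, ∑ e ∈ K.bdry (C.sub f), w e ≤ 2 * R + w (C.dd f).1 := by
  obtain ⟨T, h1, h3⟩ := exists_stree_root w r0 R hR
  obtain ⟨C, hC1, hC2, hC3⟩ := hT1 A K T
  refine ⟨C, hC1.trans h1, fun f => ?_⟩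
  have hsub : K.bdry (C.sub f) ⊆ insert (C.dd f).1
      ((univ.filter (fun e => T.Anc (K.org (C.dd f)) e)) ∪
      (univ.filter (fun e => T.Anc (K.org (rv (C.dd f))) e))) := by
    intro e he
    rw [mem_insert, mem_union, mem_filter, mem_filter]
    rcases hC3 f e he with h | h | h
    · exact .inl h
    · exact .inr (.inl ⟨mem_univ _, h⟩)
    · exact .inr (.inr ⟨mem_univ _, h⟩)
  calc ∑ e ∈ K.bdry (C.sub f), w e
      ≤ _ := Finset.sum_le_sum_of_subset hsub
    _ ≤ _ := rt_sum_insert_le _ _ _
    _ ≤ w (C.dd f).1 + (R + R) := by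
        refine Nat.add_le_add_left (le_trans ?_ (Nat.add_le_add (h3 (K.org (C.dd f)))
          (h3 (K.org (rv (C.dd f)))))) _
        rw [← Finset.sum_union_inter]
        exact Nat.le_add_right _ _
    _ = 2 * R + w (C.dd f).1 := by (clear * -; omega)

end PC

end Vale.Agent.P201.S
end

section

/-!
P201, part F6: consequences of the global isoperimetric inequality (helper165).
`no_tpow` : powers of `t` have no expression; `short_words` : second half of `StmtGlob`.
-/

namespace Vale.Agent.P201.S

open Finset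

namespace F6

variable {S : Sys} {σ : Equiv.Perm (S.C)}

/-! ### weights of words -/

theorem wtw_nil (Y : ℕ) : wtw Y ([] : List (Let S × Bool)) = 0 := rfl

theorem wtw_cons (Y : ℕ) (a : Let S × Bool) (l : List (Let S × Bool)) :
    wtw Y (a :: l) = wtl Y a.1 + wtw Y l := by
  simp [wtw]

theorem wtw_append (Y : ℕ) (l l' : List (Let S × Bool)) :
    wtw Y (l ++ l') = wtw Y l + wtw Y l' := by
  simp [wtw]

theorem wtw_sublist (Y : ℕ) {l l' : List (Let S × Bool)} (h : l.Sublist l') :
    wtw Y l ≤ wtw Y l' := by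
  induction h with
  | slnil => exact le_rfl
  | cons a _ ih => rw [wtw_cons]; omega
  | cons_cons a _ ih => rw [wtw_cons, wtw_cons]; omega

theorem toWord_sublist (l : List (Let S × Bool)) : (val l).toWord.Sublist l := by
  rw [val, FreeGroup.toWord_mk]
  exact FreeGroup.Red.sublist FreeGroup.reduce.red

theorem wtw_toWord_le (Y : ℕ) (l : List (Let S × Bool)) : wtw Y (val l).toWord ≤ wtw Y l :=
  wtw_sublist Y (toWord_sublist l)

theorem val_toWord (u : FreeGroup (Let S)) : val u.toWord = u := FreeGroup.mk_toWord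

theorem wtw_tw (Y : ℕ) (m : ℤ) : wtw Y (tw S m) = 0 := wtw_tw_zero Y m

/-- weight of a word without `y`-letters does not depend on `Y` -/
theorem wtw_noy (Y Y' : ℕ) (l : List (Let S × Bool)) (h : ∀ a ∈ l, ∀ j, a.1 ≠ Let.y j) :
    wtw Y l = wtw Y' l := by
  induction l with
  | nil => rfl
  | cons a l ih =>
    rw [wtw_cons, wtw_cons, ih (fun b hb => h b (List.mem_cons_of_mem _ hb))]
    congr 1
    have h1 := h a (List.mem_cons_self)
    cases ha : a.1 with
    | t => rfl
    | x i => rfl
    | y j => exact absurd ha (h1 j)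

/-! ### powers of `t` in the free group -/

/-- exponent sum -/
def expo : FreeGroup (Let S) →* Multiplicative ℤ := FreeGroup.lift (fun _ => Multiplicative.ofAdd 1)

theorem expo_rep (k : ℕ) (b : Bool) (a : Let S) :
    expo (val (List.replicate k (a, b))) = Multiplicative.ofAdd ((if b then 1 else -1) * (k : ℤ)) := by
  induction k with
  | zero => simp only [expo, val, List.replicate_zero, FreeGroup.lift_mk, List.map_nil, List.prod_nil, Int.reduceNeg, CharP.cast_eq_zero, mul_zero, ofAdd_zero]
  | succ k ih =>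
    have h1 : val (List.replicate (k + 1) (a, b)) = val [(a, b)] * val (List.replicate k (a, b)) := by
      rw [List.replicate_succ, ← List.singleton_append, EX.val_append]
    rw [h1, map_mul, ih]
    cases b
    · have h2 : val [(a, false)] = (FreeGroup.of a)⁻¹ := rfl
      rw [h2, map_inv, expo, FreeGroup.lift_apply_of, ← ofAdd_neg, ← ofAdd_add]
      congr 1
      push_cast
      simp only [Int.reduceNeg, neg_mul, one_mul, neg_add_rev]
    · have h2 : val [(a, true)] = FreeGroup.of a := rfl
      rw [h2, expo, FreeGroup.lift_apply_of, ← ofAdd_add]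
      congr 1
      push_cast
      simp only [↓reduceIte, one_mul]
      ring

theorem expo_tw (m : ℤ) : expo (val (tw S m)) = Multiplicative.ofAdd m := by
  rw [tw, expo_rep]
  congr 1
  by_cases h : 0 ≤ m
  · simp only [h, decide_true, ↓reduceIte, Nat.cast_natAbs, Int.cast_abs, Int.cast_eq, one_mul, abs_eq_self]
  · simp only [h, decide_false]
    have : ((m.natAbs : ℕ) : ℤ) = -m := by omega
    simp only [Bool.false_eq_true, ↓reduceIte, Int.reduceNeg, this, mul_neg, neg_mul, one_mul, neg_neg]

theorem tw_ne {m : ℤ} (hm : m ≠ 0) : val (tw S m) ≠ 1 := by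
  intro h
  have h1 := expo_tw (S := S) m
  rw [h, map_one] at h1
  exact hm (Multiplicative.ofAdd.injective h1.symm)

/-! ### minimal area -/

theorem expr_zero {u : FreeGroup (Let S)} {z : Chn σ} (h : Expr σ 0 u z) : u = 1 ∧ z = 0 := by
  generalize hk : (0 : ℕ) = k at h
  cases h with
  | nil => exact ⟨rfl, rfl⟩
  | cons k u z v q _ => exact absurd hk (by omega)

theorem exists_minA {u : FreeGroup (Let S)} {k : ℕ} {z : Chn σ} (h : Expr σ k u z) :
    ∃ k0, k0 ≤ k ∧ MinA σ u k0 := by
  classical
  have hex : ∃ k, ∃ z, Expr σ k u z := ⟨k, z, h⟩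
  exact ⟨Nat.find hex, Nat.find_min' hex ⟨z, h⟩, Nat.find_spec hex,
    fun k' z' h' => Nat.find_min' hex ⟨z', h'⟩⟩

theorem noRed_of_minA {u : FreeGroup (Let S)} {k : ℕ} (h : MinA σ u k) (z : Chn σ) :
    NoRed σ u k z := by
  intro k1 z1 h1 h2 _ h4
  have := h.2 _ _ h4
  omega

/-- elements of the kernel have expressions -/
theorem of_ker {u : FreeGroup (Let S)} (hu : PresentedGroup.mk (rels σ) u = 1) :
    ∃ k z, Expr σ k u z := by
  let N : Subgroup (FreeGroup (Let S)) :=
    { carrier := {u | ∃ k z, Expr σ k u z}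
      mul_mem' := fun ⟨k, z, h⟩ ⟨k', z', h'⟩ => ⟨k + k', z + z', EX.mul h h'⟩
      one_mem' := ⟨0, 0, Expr.nil⟩
      inv_mem' := fun ⟨k, z, h⟩ => ⟨k, -z, EX.inv h⟩ }
  have hN : N.Normal := ⟨fun u ⟨k, z, h⟩ w => ⟨k, _, EX.conj w h⟩⟩
  have hle : Subgroup.normalClosure (rels σ) ≤ N := by
    refine Subgroup.normalClosure_le_normal ?_
    rintro _ ⟨q, rfl⟩
    have h := EX.sq (σ := σ) 1 q
    rw [one_mul, inv_one, mul_one] at h
    exact ⟨1, _, h⟩
  exact hle (PresentedGroup.mk_eq_one_iff.mp hu)

/-! ### F6 (a) -/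

/-- **F6 (a)**: no nontrivial power of `t` has an expression. -/
theorem no_tpow (Y : ℕ) (ψ : ℕ → ℝ) (hψ : ∀ k, 0 < k → 0 < ψ k)
    (iso : ∀ (u : FreeGroup (Let S)) (k : ℕ), MinA σ u k → ψ k ≤ (wtw Y u.toWord : ℝ)) :
    ∀ (m : ℤ) (k : ℕ) (z : Chn σ), m ≠ 0 → ¬ Expr σ k (val (tw S m)) z := by
  intro m k z hm h
  obtain ⟨k0, -, hk0⟩ := exists_minA h
  have h1 := iso _ _ hk0
  have h2 : wtw Y (val (tw S m)).toWord = 0 := by
    have := wtw_toWord_le Y (tw S m)
    rw [wtw_tw] at this
    omega
  rw [h2, Nat.cast_zero] at h1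
  rcases Nat.eq_zero_or_pos k0 with h3 | h3
  · subst h3
    obtain ⟨z', h4⟩ := hk0.1
    exact tw_ne hm (expr_zero h4).1
  · exact absurd h1 (not_le.2 (hψ k0 h3))

/-! ### F6 (b) -/

theorem per_of_total {S : Type} [Fintype S] (f : S ≃. S) (h : ∀ s, (f s).isSome) (s : S) :
    Per f s := by
  choose F hF using fun s => Option.isSome_iff_exists.1 (h s)
  have hinj : Function.Injective F := by
    intro a b hab
    refine f.inj (b := F a) (hF a) ?_
    show f b = some (F a)
    rw [hF b, hab]
  have hpit : ∀ k s, pit f k s = some (F^[k] s) := by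
    intro k
    induction k with
    | zero => intro s; rfl
    | succ k ih =>
      intro s
      show (f s).bind (pit f k) = _
      rw [hF s]
      show pit f k (F s) = _
      rw [ih]
      rfl
  obtain ⟨k, hk, hk2⟩ := Function.mem_periodicPts.1 (Function.Injective.mem_periodicPts hinj s)
  exact ⟨k, hk, by rw [hpit, hk2]⟩

/-- **F6 (b)**: words without `y`-letters and of weight at most `2` which are trivial in the group
are trivial. -/
theorem short_words (hVK : StmtVK) (hBr : StmtBridge) {g Y : ℕ}
    (hgo : ∀ G : Glue σ, G.Red → ∀ s, Per G.Y s → g ≤ (orb G.Y s).card)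
    {e : ℝ} (he : 0 < e)
    (iso : ∀ (u : FreeGroup (Let S)) (k : ℕ), MinA σ u k → e * k ≤ (wtw Y u.toWord : ℝ))
    (hbig : 2 < e * g) :
    ∀ l : List (Let S × Bool), (∀ a ∈ l, ∀ j, a.1 ≠ Let.y j) → wtw Y l ≤ 2 →
      PresentedGroup.mk (rels σ) (val l) = 1 → val l = 1 := by
  intro l hl hw h1
  obtain ⟨k', z', h2⟩ := of_ker h1
  obtain ⟨k, -, hk⟩ := exists_minA h2
  obtain ⟨z, hz⟩ := hk.1
  rcases Nat.eq_zero_or_pos k with h3 | h3
  · subst h3
    exact (expr_zero hz).1
  exfalso
  have hNR := noRed_of_minA hk z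
  obtain ⟨K, P, hc, ho, hch⟩ := hVK S σ _ k z hz hNR
  have hval : val K.outw = val l := by rw [ho, val_toWord]
  have htp : ∀ (m : ℤ) (k : ℕ) (z : Chn σ), m ≠ 0 → ¬ Expr σ k (val (tw S m)) z := by
    refine no_tpow Y (fun k => e * k) (fun k hk => ?_) iso
    have : (0 : ℝ) < k := by exact_mod_cast hk
    positivity
  obtain ⟨G, hR, -, -, hS, hwt⟩ := hBr S σ K P (by rw [hval, hc, hch]; exact hNR)
    (fun m k z hm h => absurd h (htp m k z hm))
  have hsub : K.outw.Sublist l := by rw [ho]; exact toWord_sublist l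
  have hnoy : ∀ a ∈ K.outw, ∀ j, a.1 ≠ Let.y j := fun a ha => hl a (hsub.subset ha)
  have hle2 : ∀ Y', wtw Y' K.outw ≤ 2 := by
    intro Y'
    rw [wtw_noy Y' Y _ hnoy]
    exact (wtw_sublist Y hsub).trans hw
  have hdom : domc G.Y = Fintype.card G.Q := by
    have h4 := hwt 3
    have h5 := hle2 3
    have h6 : domc G.Y ≤ Fintype.card G.Q := card_le_univ _
    (clear * - h4 h5 h6; omega)
  have htot : ∀ s, (G.Y s).isSome := by
    classical
    have h5 : (univ.filter (fun s => (G.Y s).isSome)) = (univ : Finset G.Q) := by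
      refine Finset.eq_univ_of_card _ ?_
      rw [← hdom, domc]
    intro s
    have h6 : s ∈ (univ.filter (fun s => (G.Y s).isSome)) := by rw [h5]; exact mem_univ s
    exact (mem_filter.1 h6).2
  have hpos : 0 < Fintype.card G.Q := by rw [hS, hc]; exact h3
  obtain ⟨s⟩ := Fintype.card_pos_iff.1 hpos
  have hg := hgo G hR s (per_of_total G.Y htot s)
  have hg2 : g ≤ k := by
    refine hg.trans ?_
    rw [← hc, ← hS]
    exact card_le_univ _
  have h7 := iso _ _ hk
  have h8 : (wtw Y (val l).toWord : ℝ) ≤ 2 := by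
    exact_mod_cast (wtw_toWord_le Y l).trans hw
  have h9 : e * (g : ℝ) ≤ e * k := by
    have : (g : ℝ) ≤ k := by exact_mod_cast hg2
    exact mul_le_mul_of_nonneg_left this he.le
  linarith only [hbig, h7, h8, h9]

end F6

end Vale.Agent.P201.S
end

section

/-!
P201, part F7: reduction of asphericity to spheres and part (a), the isoperimetric inequality for
bonds of a minimal sphere (helper165).
-/

namespace Vale.Agent.P201.S

open Finset

/-- A minimal sphere: planar complex whose outer face is (the inverse of) a square, with nonzero total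
chain, such that all shorter identities have chain zero.  These are exactly the hypotheses of
`StmtBridgeS`. -/
structure Sph {S : Sys} (σ : Equiv.Perm (S.C)) where
  K : SqK σ
  P : K.GPot
  q0 : Port S
  out : K.outw = relw σ q0
  chn : K.chn P univ - pch σ 1 q0 ≠ 0
  min : ∀ (k : ℕ) (z : Chn σ), k ≤ Fintype.card K.F → Expr σ k 1 z → z = 0

namespace F7

variable {S : Sys} {σ : Equiv.Perm (S.C)}

/-- the two blocks of a port are different if the girth is at least two -/
theorem blk_ne {g : ℕ} (hg : Girth σ g) (h2 : 2 ≤ g) (q : Port S) : S.blk q ≠ S.blk (mt σ q) := by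
  intro h
  have h1 := hg [q] (by simp) ⟨List.isChain_singleton q, by
    intro a ha b hb
    simp only [List.getLast?_singleton, Option.mem_def, Option.some.injEq] at ha
    simp only [List.head?_cons, Option.mem_def, Option.some.injEq] at hb
    subst ha hb
    refine ⟨h.symm, ?_⟩
    intro h3
    have h4 : q.2 = (mt σ q).2 := congrArg Prod.snd h3
    obtain ⟨c, b⟩ := q
    cases b <;> simp [mt] at h4⟩
  simp only [List.length_cons, List.length_nil, zero_add] at h1
  omega

theorem winv_red {A : Type} {l : List (A × Bool)} (h : FreeGroup.IsReduced l) :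
    FreeGroup.IsReduced (winv l) := by
  unfold FreeGroup.IsReduced at h ⊢
  unfold winv
  rw [List.isChain_reverse, List.isChain_map]
  refine h.imp ?_
  intro a b hab h1
  have h2 := hab h1.symm
  simp only
  rw [h2]

theorem half_red (q : Port S) : FreeGroup.IsReduced (half q) := by
  unfold FreeGroup.IsReduced half
  have htw : ∀ a ∈ tw S (S.ht q), a.1 = Let.t := by
    intro a ha
    rw [List.eq_of_mem_replicate ha]
  rw [List.isChain_cons]
  constructor
  · intro b hb h
    exfalso
    have hb2 : b ∈ tw S (S.ht q) ++ [(Let.y (S.blk q), true)] := List.mem_of_mem_head? hb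
    rw [List.mem_append] at hb2
    rcases hb2 with hb3 | hb3
    · rw [htw b hb3] at h
      exact absurd h (by simp)
    · rw [List.mem_singleton] at hb3
      subst hb3
      exact absurd h (by simp)
  · rw [List.isChain_append]
    refine ⟨?_, List.isChain_singleton _, ?_⟩
    · unfold tw
      exact List.isChain_replicate_of_rel _ (fun _ => rfl)
    · intro a ha b hb h
      exfalso
      have ha2 := htw a (List.mem_of_mem_getLast? ha)
      simp only [List.head?_cons, Option.mem_def, Option.some.injEq] at hb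
      subst hb
      rw [ha2] at h
      exact absurd h (by simp)

/-- the relator words are reduced -/
theorem relw_reduced {q : Port S} (h : S.blk q ≠ S.blk (mt σ q)) :
    (val (relw σ q)).toWord = relw σ q := by
  rw [val, FreeGroup.toWord_mk]
  refine FreeGroup.IsReduced.reduce_eq ?_
  unfold relw FreeGroup.IsReduced
  rw [List.isChain_append]
  refine ⟨half_red q, winv_red (half_red _), ?_⟩
  intro a ha b hb hab
  exfalso
  have h1 : a = (Let.y (S.blk q), true) := by
    have : (half q).getLast? = some (Let.y (S.blk q), true) := by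
      unfold half
      rw [← List.cons_append, List.getLast?_append]
      rfl
    rw [this] at ha
    exact (Option.some.inj ha).symm
  have h2 : b = (Let.y (S.blk (mt σ q)), false) := by
    have : (winv (half (mt σ q))).head? = some (Let.y (S.blk (mt σ q)), false) := by
      unfold winv half
      rw [List.head?_reverse, ← List.cons_append, List.map_append, List.getLast?_append]
      rfl
    rw [this] at hb
    exact (Option.some.inj hb).symm
  subst h1 h2
  exact h (Let.y.inj hab)

theorem expr_cases {N : ℕ} {u : FreeGroup (Let S)} {z : Chn σ} (h : Expr σ N u z) :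
    (N = 0 ∧ u = 1 ∧ z = 0) ∨ ∃ (N' : ℕ) (v : FreeGroup (Let S)) (q : Port S)
      (u' : FreeGroup (Let S)) (z' : Chn σ), N = N' + 1 ∧ Expr σ N' u' z' ∧
        u = v * val (relw σ q) * v⁻¹ * u' ∧ z = pch σ (PresentedGroup.mk (rels σ) v) q + z' := by
  cases h with
  | nil => exact Or.inl ⟨rfl, rfl, rfl⟩
  | cons k u z v q h => exact Or.inr ⟨k, v, q, u, z, rfl, h, rfl, rfl⟩

theorem act_inj (g : Gp σ) {z : Chn σ} (h : EX.act g z = 0) : z = 0 := by
  have hinj : Function.Injective (fun x : Gp σ × S.C => (g * x.1, x.2)) := by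
    rintro ⟨a, b⟩ ⟨c, d⟩ h
    simp only [Prod.mk.injEq, mul_right_inj] at h
    exact Prod.ext h.1 h.2
  exact Finsupp.mapDomain_injective hinj (h.trans Finsupp.mapDomain_zero.symm)

/-- **F7, reduction**: an identity with nonzero chain gives a minimal sphere. -/
theorem exists_sph (hVK : StmtVK) {g : ℕ} (hg : Girth σ g) (h2 : 2 ≤ g) {k : ℕ} {z : Chn σ}
    (h : Expr σ k 1 z) (hz : z ≠ 0) : Nonempty (Sph σ) := by
  classical
  have hex : ∃ N, ∃ z : Chn σ, Expr σ N 1 z ∧ z ≠ 0 := ⟨k, z, h, hz⟩
  obtain ⟨z0, hz0, hz0'⟩ := Nat.find_spec hex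
  have hmin : ∀ (k : ℕ) (z : Chn σ), k < Nat.find hex → Expr σ k 1 z → z = 0 := by
    intro k z hk hE
    by_contra hne
    exact Nat.find_min hex hk ⟨z, hE, hne⟩
  generalize hN : Nat.find hex = N at hz0 hmin
  rcases expr_cases hz0 with ⟨-, -, h3⟩ | ⟨N', v, q, u', z', h3, h4, h5, h6⟩
  · exact absurd h3 hz0'
  subst h3
  have hu' : v⁻¹ * u' * v = val (relw σ (mt σ q)) := by
    rw [EX.val_relw_mt]
    have : u' = (v * val (relw σ q) * v⁻¹)⁻¹ := (inv_eq_of_mul_eq_one_right h5.symm).symm
    rw [this]
    group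
  have h7 := EX.conj v⁻¹ h4
  rw [inv_inv, hu', map_inv] at h7
  set z'' := EX.act (PresentedGroup.mk (rels σ) v)⁻¹ z' with hz''
  have h8 : z'' - pch σ 1 (mt σ q) ≠ 0 := by
    rw [EX.pch_mt, sub_neg_eq_add]
    intro h9
    refine hz0' (act_inj (PresentedGroup.mk (rels σ) v)⁻¹ ?_)
    rw [h6, map_add, EX.act_pch, inv_mul_cancel, add_comm]
    exact h9
  have hNR : NoRed σ (val (relw σ (mt σ q))) N' z'' := by
    intro k1 z1 hk1 hk2 hE1 hE2
    have hz1 : z1 = 0 := hmin k1 z1 (by omega) hE1
    subst hz1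
    rw [sub_zero] at hE2
    have hE3 := EX.mul hE2 (EX.inv (EX.sq (σ := σ) 1 (mt σ q)))
    rw [one_mul, inv_one, mul_one, mul_inv_cancel, map_one, ← sub_eq_add_neg] at hE3
    exact h8 (hmin _ _ (by omega) hE3)
  obtain ⟨K, P, hc, ho, hch⟩ := hVK S σ _ N' z'' h7 hNR
  rw [relw_reduced (blk_ne hg h2 _)] at ho
  exact ⟨⟨K, P, mt σ q, ho, by rw [hch]; exact h8, fun k z hk hE => hmin k z (by omega) hE⟩⟩

/-- a minimal sphere has more than `M` squares -/
theorem Sph.large (hBrS : StmtBridgeS) {M Y : ℕ} {e1 : ℝ} (he1 : 0 < e1) (hloc : LocIso σ M Y e1)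
    (htp : ∀ (m : ℤ) (k : ℕ) (z : Chn σ), m ≠ 0 → ¬ Expr σ k (val (tw S m)) z) (W : Sph σ) :
    M < Fintype.card W.K.F + 1 := by
  by_contra hlt
  rw [not_lt] at hlt
  obtain ⟨G, hR, hL, hE, hS, hX, hY⟩ := hBrS S σ W.K W.P W.q0 W.out W.chn W.min htp
  have h1 := hloc G hR hL hE (by rw [hS]; exact hlt)
  rw [hX, hY, sub_self, mul_zero, add_zero, hS] at h1
  have : (0 : ℝ) < ((Fintype.card W.K.F + 1 : ℕ) : ℝ) := by (clear * -; positivity)
  (clear * - h1 he1 this; nlinarith)

theorem winv_val {A : Type} (l : List (A × Bool)) : winv (winv l) = l := by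
  simp [winv, Function.comp_def]

theorem bd_none_ne (W : Sph σ) : W.K.bd none ≠ [] := by
  intro h
  have h1 := W.out
  rw [SqK.outw, PC.wd, h] at h1
  simp [winv, relw, half] at h1

theorem wtw_darts (Y : ℕ) {E : Type} [DecidableEq E] (lab : E → Let S) (l : List (E × Bool))
    (hl : (l.map Prod.fst).Nodup) :
    wtw Y (l.map (fun d => (lab d.1, d.2))) = ∑ e ∈ (l.map Prod.fst).toFinset, wtl Y (lab e) := by
  induction l with
  | nil => rfl
  | cons a l ih =>
    rw [List.map_cons, List.nodup_cons] at hl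
    rw [List.map_cons, F6.wtw_cons, ih hl.2, List.map_cons, List.toFinset_cons, sum_insert]
    rw [List.mem_toFinset]
    exact hl.1

/-- **F7 (a)**: isoperimetric inequality for bonds of a minimal sphere. -/
theorem bond_iso (hRec : StmtRec) (hRepl : StmtRepl) (hBond : StmtBond) (Y : ℕ) (ψ : ℕ → ℝ)
    (hmono : Monotone ψ)
    (iso : ∀ (u : FreeGroup (Let S)) (k : ℕ), MinA σ u k → ψ k ≤ (wtw Y u.toWord : ℝ))
    (W : Sph σ) (C : Finset W.K.F) (hC : W.K.toPC.Bond C) :
    ψ (Min.min C.card (Fintype.card W.K.F + 1 - C.card)) ≤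
      ((∑ e ∈ W.K.toPC.bdry C, wtl Y (W.K.lab e) : ℕ) : ℝ) := by
  obtain ⟨T, f, l, v, hsub, hroot, hnd, hset, hval⟩ := hBond _ W.K.toPC C hC
  have hπ : W.P.π T.root = 1 := by
    cases hb : W.K.bd none with
    | nil => exact absurd hb (bd_none_ne W)
    | cons d l =>
      have hd : d ∈ (W.K.bd none).head? := by rw [hb]; rfl
      rw [← hroot d hd]
      exact W.P.base d hd
  obtain ⟨-, hR2⟩ := hRec S σ W.K W.P T hπ
  have hE := hR2 f
  rw [hsub] at hE
  set w : List (Let S × Bool) := l.map (fun d => (W.K.lab d.1, d.2)) with hw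
  have hcw : T.c (T.dd f) = v * val w * v⁻¹ := hval
  have hEw : Expr σ C.card (val w) (EX.act (PresentedGroup.mk (rels σ) v⁻¹) (W.K.chn W.P C)) := by
    have := EX.conj v⁻¹ hE
    refine EX.cast this rfl ?_ rfl
    rw [hcw]
    group
  obtain ⟨k0, hk0, hmin⟩ := F6.exists_minA hEw
  obtain ⟨z0, hz0⟩ := hmin.1
  have hle : C.card ≤ Fintype.card W.K.F := card_le_univ _
  -- the minimal area is at least the minimum
  have hkey : Min.min C.card (Fintype.card W.K.F + 1 - C.card) ≤ k0 := by
    by_contra hlt
    rw [not_le] at hlt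
    obtain ⟨hlt1, hlt2⟩ := lt_min_iff.1 hlt
    have h1 : Expr σ k0 (T.c (T.dd f)) (EX.act (PresentedGroup.mk (rels σ) v) z0) := by
      have := EX.conj v hz0
      exact EX.cast this rfl hcw.symm rfl
    have h2 := EX.mul hE (EX.inv h1)
    rw [mul_inv_cancel, ← sub_eq_add_neg] at h2
    have h3 := W.min _ _ (by omega) h2
    have h4 := hRepl S σ W.K W.P T hπ hroot f k0 _ h1
    rw [hsub, sub_eq_zero.1 h3, sub_add_cancel, W.out] at h4
    have h5 := EX.mul h4 (EX.inv (EX.sq (σ := σ) 1 W.q0))
    rw [one_mul, inv_one, mul_one, mul_inv_cancel, map_one, ← sub_eq_add_neg] at h5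
    exact W.chn (W.min _ _ (by omega) h5)
  refine (hmono hkey).trans ((iso _ _ hmin).trans ?_)
  have h6 : wtw Y (val w).toWord ≤ ∑ e ∈ W.K.toPC.bdry C, wtl Y (W.K.lab e) := by
    refine (F6.wtw_toWord_le Y w).trans ?_
    rw [hw, wtw_darts Y W.K.lab l hnd]
    rw [hset]
  exact_mod_cast h6

end F7

end Vale.Agent.P201.S
end

section

/-!
P201, part LA1: the Euler count.
-/

namespace Vale.Agent.P201.S

open Finset

variable {S : Sys} {σ : Equiv.Perm (S.C)}

namespace Glue

variable (G : Glue σ)

/-- `s` lies on an `X`-cycle of length two -/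
def GoodX (s : G.Q) : Prop := ∃ t, G.X s = some t ∧ G.X t = some s

/-- `s` lies on an `XY`-cycle of length two with label sum zero -/
def Good2 (s : G.Q) : Prop :=
  ∃ t, t ≠ s ∧ G.XY s = some t ∧ G.XY t = some s ∧ G.inc s + G.inc t = 0

open Classical in
/-- number of elements of `dom X` off the `X`-cycles of length two -/
noncomputable def badO : ℕ := (univ.filter fun s => (G.X s).isSome ∧ ¬ G.GoodX s).card

open Classical in
/-- number of elements of `dom XY` off the good cycles of length two -/
noncomputable def badM : ℕ := (univ.filter fun s => (G.XY s).isSome ∧ ¬ G.Good2 s).card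

variable {G}

theorem XY_eq {s v : G.Q} : G.XY s = some v ↔ ∃ u, G.X s = some u ∧ G.Y u = some v := by
  unfold XY
  exact PEquiv.mem_trans G.X G.Y s v

theorem inc_eq {s u v : G.Q} (h1 : G.X s = some u) (h2 : G.Y u = some v) :
    G.inc s = S.ht (mt σ (G.ε u)) - S.ht (G.ε v) := by
  unfold inc
  rw [h1]
  simp only
  rw [h2]

/-- `X` changes the copy -/
theorem Red.flip (hR : G.Red) {s t : G.Q} (h : G.X s = some t) : (G.ε s).2 = !(G.ε t).2 := by
  have h1 := (hR.x s t h).1
  rw [S.cp _ _ h1, mt_snd]

theorem Red.X_ne (hR : G.Red) {s t : G.Q} (h : G.X s = some t) : s ≠ t := by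
  rintro rfl
  have h1 := hR.flip h
  cases h2 : (G.ε s).2 <;> rw [h2] at h1 <;> simp at h1

theorem Red.X_ne3 (hR : G.Red) {s t u v : G.Q} (h1 : G.X s = some t) (h2 : G.X t = some u)
    (h3 : G.X u = some v) : s ≠ v := by
  rintro rfl
  have e1 := hR.flip h1
  have e2 := hR.flip h2
  have e3 := hR.flip h3
  rw [e3] at e2
  rw [e2] at e1
  cases h2 : (G.ε s).2 <;> rw [h2] at e1 <;> simp at e1

/-- a fixed point of `XY` has nonzero label sum -/
theorem Red.fix (hR : G.Red) {s : G.Q} (h : G.XY s = some s) : G.inc s ≠ 0 := by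
  intro h0
  obtain ⟨u, h1, h2⟩ := XY_eq.1 h
  rw [inc_eq h1 h2] at h0
  obtain ⟨h3, h4⟩ := hR.y u s h2
  obtain ⟨h5, -⟩ := hR.x s u h1
  exact h4 (S.inj _ _ h5 h3.symm (by omega))

/-- exceptional cycles -/
def Exc (G : Glue σ) (s : G.Q) : Prop := ∑ t ∈ orb G.XY s, G.inc t ≠ 0

theorem Lab.exc (hL : G.Lab) {s s' : G.Q} (hs : Per G.XY s) (hs' : Per G.XY s') (h : G.Exc s)
    (h' : G.Exc s') : orb G.XY s = orb G.XY s' := by
  obtain ⟨E, hE, hE2⟩ := hL
  refine hE s s' ?_ ?_
  · by_contra hn
    exact h (hE2 s hs hn)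
  · by_contra hn
    exact h' (hE2 s' hs' hn)

theorem GoodX.symm {s t : G.Q} (h1 : G.X s = some t) (h2 : G.X t = some s) : G.GoodX t :=
  ⟨s, h2, h1⟩

open Classical in
theorem cycX_le (hR : G.Red) : 4 * cyc G.X + G.badO ≤ 2 * domc G.X := by
  have h := cyc_weight0 G.X (fun s => if G.GoodX s then 2 else 1) 4 ?_
  · have hsum : ∑ s ∈ univ.filter (fun s => (G.X s).isSome), (if G.GoodX s then 2 else 1)
        + G.badO = 2 * domc G.X := by
      unfold badO domc
      rw [← Finset.filter_filter, Finset.card_filter (fun s => ¬ G.GoodX s), Finset.card_eq_sum_ones,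
        mul_sum, ← sum_add_distrib]
      refine sum_congr rfl fun s _ => ?_
      by_cases hs : G.GoodX s <;> simp [hs]
    omega
  · intro s hs
    obtain ⟨t, ht⟩ := Option.isSome_iff_exists.1 hs.dom
    obtain ⟨u, hu⟩ := Option.isSome_iff_exists.1 (hs.step ht).dom
    obtain ⟨v, hv⟩ := Option.isSome_iff_exists.1 ((hs.step ht).step hu).dom
    have m0 := self_mem_orb G.X s
    have m1 := step_mem_orb m0 ht
    have m2 := step_mem_orb m1 hu
    have m3 := step_mem_orb m2 hv
    have d1 := hR.X_ne ht
    by_cases hus : u = s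
    · subst hus
      have hsub : ({u, t} : Finset G.Q) ⊆ orb G.X u := by
        intro x hx
        simp only [mem_insert, mem_singleton] at hx
        rcases hx with rfl | rfl
        · exact m0
        · exact m1
      refine le_trans ?_ (sum_le_sum_of_subset hsub)
      rw [sum_pair d1, if_pos ⟨t, ht, hu⟩, if_pos ⟨u, hu, ht⟩]
    · have d2 := hR.X_ne hu
      have d3 := hR.X_ne hv
      have d4 := hR.X_ne3 ht hu hv
      have d5 : t ≠ v := by
        rintro rfl
        exact hus (G.X.inj hv ht)
      have hsub : ({s, t, u, v} : Finset G.Q) ⊆ orb G.X s := by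
        intro x hx
        simp only [mem_insert, mem_singleton] at hx
        rcases hx with rfl | rfl | rfl | rfl
        · exact m0
        · exact m1
        · exact m2
        · exact m3
      have hcard : ({s, t, u, v} : Finset G.Q).card = 4 := by
        rw [card_insert_of_notMem, card_insert_of_notMem, card_insert_of_notMem, card_singleton]
        · simpa using d3
        · simp only [mem_insert, mem_singleton, not_or]
          exact ⟨d2, d5⟩
        · simp only [mem_insert, mem_singleton, not_or]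
          exact ⟨d1, fun h => hus h.symm, d4⟩
      calc 4 = ∑ _x ∈ ({s, t, u, v} : Finset G.Q), 1 := by rw [← card_eq_sum_ones, hcard]
        _ ≤ ∑ x ∈ ({s, t, u, v} : Finset G.Q), (if G.GoodX x then 2 else 1) :=
            sum_le_sum fun x _ => by split_ifs <;> norm_num
        _ ≤ _ := sum_le_sum_of_subset hsub

open Classical in
theorem cycXY_le (hR : G.Red) (hL : G.Lab) : 6 * cyc G.XY + G.badM ≤ 3 * domc G.XY + 6 := by
  have h := cyc_weight G.XY (fun s => if G.Good2 s then 3 else 2) 6 (fun s => G.Exc s)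
    (fun s s' hs hs' h h' => hL.exc hs hs' h h') ?_
  · have hsum : ∑ s ∈ univ.filter (fun s => (G.XY s).isSome), (if G.Good2 s then 3 else 2)
        + G.badM = 3 * domc G.XY := by
      unfold badM domc
      rw [← Finset.filter_filter, Finset.card_filter (fun s => ¬ G.Good2 s), Finset.card_eq_sum_ones,
        mul_sum, ← sum_add_distrib]
      refine sum_congr rfl fun s _ => ?_
      by_cases hs : G.Good2 s <;> simp [hs]
    omega
  · intro s hs hE
    unfold Exc at hE
    push Not at hE
    obtain ⟨t, ht⟩ := Option.isSome_iff_exists.1 hs.dom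
    obtain ⟨u, hu⟩ := Option.isSome_iff_exists.1 (hs.step ht).dom
    have m0 := self_mem_orb G.XY s
    have m1 := step_mem_orb m0 ht
    have m2 := step_mem_orb m1 hu
    by_cases hts : t = s
    · exfalso
      subst hts
      have horb : orb G.XY t = {t} := by
        ext x
        rw [mem_orb, mem_singleton]
        constructor
        · rintro ⟨k, hk⟩
          have := pit_mul (k := 1) (f := G.XY) (s := t) (by rw [pit_one, ht]) k
          rw [one_mul, hk, Option.some.injEq] at this
          exact this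
        · rintro rfl
          exact ⟨0, rfl⟩
      rw [horb, sum_singleton] at hE
      exact hR.fix ht hE
    · by_cases hus : u = s
      · subst hus
        have horb : orb G.XY u = {u, t} := by
          apply Finset.Subset.antisymm
          · intro x hx
            rw [mem_orb] at hx
            obtain ⟨k, hk⟩ := hx
            have key : ∀ k : ℕ, pit G.XY k u = some u ∨ pit G.XY k u = some t := by
              intro k
              induction k with
              | zero => exact Or.inl rfl
              | succ k ih =>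
                rw [pit_succ']
                rcases ih with h | h
                · rw [h, Option.bind_some]
                  exact Or.inr ht
                · rw [h, Option.bind_some]
                  exact Or.inl hu
            rw [mem_insert, mem_singleton]
            rcases key k with h | h
            · rw [hk, Option.some.injEq] at h
              exact Or.inl h
            · rw [hk, Option.some.injEq] at h
              exact Or.inr h
          · intro x hx
            rw [mem_insert, mem_singleton] at hx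
            rcases hx with rfl | rfl
            · exact m0
            · exact m1
        rw [horb, sum_pair (Ne.symm hts)] at hE
        have g1 : G.Good2 u := ⟨t, hts, ht, hu, hE⟩
        have g2 : G.Good2 t := ⟨u, Ne.symm hts, hu, ht, by rw [add_comm]; exact hE⟩
        rw [horb, sum_pair (Ne.symm hts), if_pos g1, if_pos g2]
      · have d5 : t ≠ u := by
          rintro rfl
          exact hts (G.XY.inj hu ht)
        have hsub : ({s, t, u} : Finset G.Q) ⊆ orb G.XY s := by
          intro x hx
          simp only [mem_insert, mem_singleton] at hx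
          rcases hx with rfl | rfl | rfl
          · exact m0
          · exact m1
          · exact m2
        have hcard : ({s, t, u} : Finset G.Q).card = 3 := by
          rw [card_insert_of_notMem, card_insert_of_notMem, card_singleton]
          · simpa using d5
          · simp only [mem_insert, mem_singleton, not_or]
            exact ⟨fun h => hts h.symm, fun h => hus h.symm⟩
        calc 6 = ∑ _x ∈ ({s, t, u} : Finset G.Q), 2 := by
              rw [sum_const, hcard, smul_eq_mul]
          _ ≤ ∑ x ∈ ({s, t, u} : Finset G.Q), (if G.Good2 x then 3 else 2) :=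
              sum_le_sum fun x _ => by split_ifs <;> norm_num
          _ ≤ _ := sum_le_sum_of_subset hsub

theorem domc_XY_le (G : Glue σ) : domc G.XY ≤ domc G.X := by
  classical
  unfold domc
  refine card_le_card fun s hs => ?_
  simp only [mem_filter, mem_univ, true_and] at hs ⊢
  obtain ⟨v, hv⟩ := Option.isSome_iff_exists.1 hs
  obtain ⟨u, hu, -⟩ := XY_eq.1 hv
  rw [hu]
  rfl

/-- the Euler count -/
theorem la1 (hR : G.Red) (hL : G.Lab) (hE : G.Eul) :
    G.badO + G.badM ≤ 6 * ((Fintype.card G.Q - domc G.Y) + cyc G.Y) + 6 := by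
  have h1 := cycX_le hR
  have h2 := cycXY_le hR hL
  have h3 := domc_XY_le G
  have h4 := domc_le_card G.Y
  unfold Eul at hE
  (clear * - hE h1 h2 h3 h4; omega)

end Glue

end Vale.Agent.P201.S
end

section

/-!
P201, part LA2: pairing of the links, labels.
-/

namespace Vale.Agent.P201.S

open Finset

variable {S : Sys} {σ : Equiv.Perm (S.C)}

namespace Glue

variable (G : Glue σ)

/-- the links `s`, `s'` are paired -/
def Pair (s s' : G.Q) : Prop :=
  ∃ v v', G.Y s = some v ∧ G.X v = some s' ∧ G.Y s' = some v' ∧ G.X v' = some s ∧ v' ≠ v ∧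
    G.inc v + G.inc v' = 0

/-- the link `s` is paired -/
def Paired (s : G.Q) : Prop := ∃ s', G.Pair s s'

variable {G}

theorem Pair.symm {s s' : G.Q} (h : G.Pair s s') : G.Pair s' s := by
  obtain ⟨v, v', h1, h2, h3, h4, h5, h6⟩ := h
  exact ⟨v', v, h3, h4, h1, h2, Ne.symm h5, by rw [add_comm]; exact h6⟩

theorem Pair.unique {s s' t : G.Q} (h : G.Pair s s') (h' : G.Pair s t) : s' = t := by
  obtain ⟨v, v', h1, h2, -, -, -, -⟩ := h
  obtain ⟨w, w', k1, k2, -, -, -, -⟩ := h'
  rw [h1, Option.some.injEq] at k1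
  subst k1
  rw [h2, Option.some.injEq] at k2
  exact k2

theorem paired_iff {s v : G.Q} (h : G.Y s = some v) : G.Paired s ↔ G.Good2 v := by
  constructor
  · rintro ⟨s', v1, v', h1, h2, h3, h4, h5, h6⟩
    rw [h, Option.some.injEq] at h1
    subst h1
    exact ⟨v', h5, XY_eq.2 ⟨s', h2, h3⟩, XY_eq.2 ⟨s, h4, h⟩, h6⟩
  · rintro ⟨v', h5, h1, h2, h6⟩
    obtain ⟨s', h3, h4⟩ := XY_eq.1 h1
    obtain ⟨u, h7, h8⟩ := XY_eq.1 h2
    have : u = s := G.Y.inj h8 h
    subst this
    exact ⟨s', v, v', h, h3, h4, h7, h5, h6⟩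

/-- the labels of paired units are reversed -/
theorem Pair.lab (hR : G.Red) {s s' v v' : G.Q} (h : G.Pair s s') (h1 : G.Y s = some v)
    (h2 : G.Y s' = some v') :
    S.rc (mt σ (G.ε s')) = S.rc (G.ε v) ∧ S.rc (G.ε v') = S.rc (mt σ (G.ε s)) ∧
    S.ht (G.ε v') - S.ht (mt σ (G.ε s')) = -(S.ht (G.ε v) - S.ht (mt σ (G.ε s))) := by
  obtain ⟨w, w', k1, k2, k3, k4, -, k6⟩ := h
  rw [h1, Option.some.injEq] at k1
  rw [h2, Option.some.injEq] at k3
  subst k1 k3
  rw [inc_eq k2 h2, inc_eq k4 h1] at k6
  have e1 := (hR.x v s' k2).1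
  have e2 := (hR.x v' s k4).1
  exact ⟨e1.symm, e2, by omega⟩

/-- the unordered units of paired links are different -/
theorem Pair.unit_ne (hR : G.Red) {s s' v v' : G.Q} (h : G.Pair s s') (h1 : G.Y s = some v)
    (h2 : G.Y s' = some v') :
    ¬ (mt σ (G.ε s') = mt σ (G.ε s) ∧ G.ε v' = G.ε v) ∧
    ¬ (mt σ (G.ε s') = G.ε v ∧ G.ε v' = mt σ (G.ε s)) := by
  obtain ⟨l1, l2, l3⟩ := h.lab hR h1 h2
  obtain ⟨w, w', k1, k2, k3, k4, -, k6⟩ := h
  rw [h1, Option.some.injEq] at k1
  rw [h2, Option.some.injEq] at k3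
  subst k1 k3
  constructor
  · rintro ⟨h3, h4⟩
    rw [h3] at l1 l3
    rw [h4] at l3
    have h5 := hR.y s v h1
    exact h5.2 (S.inj _ _ l1.symm h5.1.symm (by omega))
  · rintro ⟨h3, -⟩
    exact (hR.x v s' k2).2 h3.symm

/-- slope: if `v = Y s` lies on an `X`-cycle of length two, the partner of `v` is the link before
the partner of `s` -/
theorem Pair.slope {s s' v v' : G.Q} (h : G.Pair s s') (h1 : G.Y s = some v)
    (hX : G.GoodX v) (h' : G.Pair v v') : G.Y v' = some s' := by
  obtain ⟨w, w', k1, k2, k3, k4, -, k6⟩ := h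
  rw [h1, Option.some.injEq] at k1
  subst k1
  obtain ⟨z, z', l1, l2, l3, l4, -, -⟩ := h'
  obtain ⟨t, t1, t2⟩ := hX
  have e1 : z' = t := G.X.inj l4 t2
  subst e1
  rw [k2, Option.some.injEq] at t1
  rw [l3, t1]

open Classical in
/-- number of unpaired links -/
theorem unpaired_le (G : Glue σ) :
    (univ.filter fun s => (G.Y s).isSome ∧ ¬ G.Paired s).card ≤
      (Fintype.card G.Q - domc G.X) + G.badM := by
  -- elements outside the range of `X`
  have hran : (univ.filter fun s => ¬ (G.X.symm s).isSome).card = Fintype.card G.Q - domc G.X := by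
    have h1 : (univ.filter fun s => (G.X.symm s).isSome).card = domc G.X := by
      unfold domc
      refine Finset.card_bij' (fun s hs => (G.X.symm s).get (mem_filter.1 hs).2)
        (fun s hs => (G.X s).get (mem_filter.1 hs).2) ?_ ?_ ?_ ?_
      · intro s hs
        rw [mem_filter]
        refine ⟨mem_univ _, ?_⟩
        have : G.X ((G.X.symm s).get (mem_filter.1 hs).2) = some s := by
          rw [← PEquiv.eq_some_iff]
          exact (Option.some_get _).symm
        rw [this]
        rfl
      · intro s hs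
        rw [mem_filter]
        refine ⟨mem_univ _, ?_⟩
        have : G.X.symm ((G.X s).get (mem_filter.1 hs).2) = some s := by
          rw [PEquiv.eq_some_iff]
          exact (Option.some_get _).symm
        rw [this]
        rfl
      · intro s hs
        have : G.X ((G.X.symm s).get (mem_filter.1 hs).2) = some s := by
          rw [← PEquiv.eq_some_iff]
          exact (Option.some_get _).symm
        simp only [this, Option.get_some]
      · intro s hs
        have : G.X.symm ((G.X s).get (mem_filter.1 hs).2) = some s := by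
          rw [PEquiv.eq_some_iff]
          exact (Option.some_get _).symm
        simp only [this, Option.get_some]
    have h2 := Finset.card_filter_add_card_filter_not (s := (univ : Finset G.Q))
      (fun s => (G.X.symm s).isSome)
    rw [h1, Finset.card_univ] at h2
    omega
  -- the others
  have hsub : (univ.filter fun s => (G.Y s).isSome ∧ ¬ G.Paired s) ⊆
      (univ.filter fun s => ¬ (G.X.symm s).isSome) ∪
      ((univ.filter fun s => (G.XY s).isSome ∧ ¬ G.Good2 s).image fun s0 => (G.X s0).getD s0) := by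
    intro s hs
    rw [mem_filter] at hs
    obtain ⟨-, h1, h2⟩ := hs
    rw [mem_union]
    by_cases h3 : (G.X.symm s).isSome
    · right
      obtain ⟨s0, h4⟩ := Option.isSome_iff_exists.1 h3
      rw [PEquiv.eq_some_iff] at h4
      obtain ⟨v, hv⟩ := Option.isSome_iff_exists.1 h1
      rw [mem_image]
      refine ⟨s0, mem_filter.2 ⟨mem_univ _, ?_, ?_⟩, ?_⟩
      · rw [XY_eq.2 ⟨s, h4, hv⟩]
        rfl
      · rintro ⟨t, t1, t2, t3, t4⟩
        rw [XY_eq.2 ⟨s, h4, hv⟩, Option.some.injEq] at t2
        subst t2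
        exact h2 ((paired_iff hv).2 ⟨s0, Ne.symm t1, t3, XY_eq.2 ⟨s, h4, hv⟩,
          by rw [add_comm]; exact t4⟩)
      · rw [h4]
        rfl
    · left
      rw [mem_filter]
      exact ⟨mem_univ _, h3⟩
  refine (card_le_card hsub).trans ((card_union_le _ _).trans ?_)
  rw [hran]
  unfold badM
  have := card_image_le (s := univ.filter fun s => (G.XY s).isSome ∧ ¬ G.Good2 s)
    (f := fun s0 => (G.X s0).getD s0)
  omega

open Classical in
/-- number of breaks -/
theorem breaks_le (G : Glue σ) :
    (univ.filter fun s => G.Paired s ∧ ∀ v, G.Y s = some v → ¬ (G.GoodX v ∧ G.Paired v)).card ≤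
      G.badO + (Fintype.card G.Q - domc G.Y) + G.badM := by
  have hsub : (univ.filter fun s => G.Paired s ∧
      ∀ v, G.Y s = some v → ¬ (G.GoodX v ∧ G.Paired v)).card ≤
      ((univ.filter fun v => (G.X v).isSome ∧ ¬ G.GoodX v) ∪
        (univ.filter fun v => ¬ (G.Y v).isSome) ∪
        (univ.filter fun v => (G.Y v).isSome ∧ ¬ G.Paired v ∧ (G.X.symm v).isSome)).card := by
    refine Finset.card_le_card_of_injOn (fun s => (G.Y s).getD s) ?_ ?_
    · intro s hs
      have hs' := (mem_filter.1 (Finset.mem_coe.1 hs)).2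
      obtain ⟨⟨s', v, v', h1, h2, h3, h4, h5, h6⟩, hcon⟩ := hs'
      have h7 := hcon v h1
      simp only [h1, Option.getD_some]
      rw [Finset.mem_coe, mem_union, mem_union]
      by_cases hg : G.GoodX v
      · by_cases hy : (G.Y v).isSome
        · right
          rw [mem_filter]
          refine ⟨mem_univ _, hy, fun hp => h7 ⟨hg, hp⟩, ?_⟩
          obtain ⟨t, t1, t2⟩ := hg
          have : G.X.symm v = some t := (PEquiv.eq_some_iff _).2 t2
          rw [this]
          rfl
        · left; right
          rw [mem_filter]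
          exact ⟨mem_univ _, hy⟩
      · left; left
        rw [mem_filter]
        refine ⟨mem_univ _, ?_, hg⟩
        rw [h2]
        rfl
    · intro s hs t ht hst
      obtain ⟨⟨s', v, v', h1, -⟩, -⟩ := (mem_filter.1 (Finset.mem_coe.1 hs)).2
      obtain ⟨⟨t', w, w', k1, -⟩, -⟩ := (mem_filter.1 (Finset.mem_coe.1 ht)).2
      simp only [h1, k1, Option.getD_some] at hst
      subst hst
      exact G.Y.inj h1 k1
  have h2 : (univ.filter fun v => ¬ (G.Y v).isSome).card = Fintype.card G.Q - domc G.Y := by
    have h2 := Finset.card_filter_add_card_filter_not (s := (univ : Finset G.Q))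
      (fun s => (G.Y s).isSome)
    rw [Finset.card_univ] at h2
    unfold domc
    omega
  have h3 : (univ.filter fun v => (G.Y v).isSome ∧ ¬ G.Paired v ∧ (G.X.symm v).isSome).card
      ≤ G.badM := by
    have hsub3 : (univ.filter fun v => (G.Y v).isSome ∧ ¬ G.Paired v ∧ (G.X.symm v).isSome) ⊆
        ((univ.filter fun s => (G.XY s).isSome ∧ ¬ G.Good2 s).image
          fun s0 => (G.X s0).getD s0) := by
      intro s hs
      rw [mem_filter] at hs
      obtain ⟨-, h1, h2, h3⟩ := hs
      obtain ⟨s0, h4⟩ := Option.isSome_iff_exists.1 h3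
      rw [PEquiv.eq_some_iff] at h4
      obtain ⟨v, hv⟩ := Option.isSome_iff_exists.1 h1
      rw [mem_image]
      refine ⟨s0, mem_filter.2 ⟨mem_univ _, ?_, ?_⟩, ?_⟩
      · rw [XY_eq.2 ⟨s, h4, hv⟩]
        rfl
      · rintro ⟨t, t1, t2, t3, t4⟩
        rw [XY_eq.2 ⟨s, h4, hv⟩, Option.some.injEq] at t2
        subst t2
        exact h2 ((paired_iff hv).2 ⟨s0, Ne.symm t1, t3, XY_eq.2 ⟨s, h4, hv⟩,
          by rw [add_comm]; exact t4⟩)
      · rw [h4]
        rfl
    exact (card_le_card hsub3).trans card_image_le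
  have h4 := card_union_le ((univ.filter fun v => (G.X v).isSome ∧ ¬ G.GoodX v) ∪
        (univ.filter fun v => ¬ (G.Y v).isSome))
        (univ.filter fun v => (G.Y v).isSome ∧ ¬ G.Paired v ∧ (G.X.symm v).isSome)
  have h5 := card_union_le (univ.filter fun v => (G.X v).isSome ∧ ¬ G.GoodX v)
        (univ.filter fun v => ¬ (G.Y v).isSome)
  unfold badO
  omega

end Glue

end Vale.Agent.P201.S
end

section

/-!
P201, part C over a general system: labels of units and their densities
(port of the labels part of `Z/C/Defs.lean`, helper174; the arcs interface is not needed).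
-/

namespace Vale.Agent.P201.S

open Finset

variable {S : Sys}

/-! ## Labels of units -/

/-- labels of units: rows of the two ports, difference of heights -/
abbrev Lbl (S : Sys) : Type := S.R × S.R × ℤ

/-- ordered pair of distinct ports of the same block -/
def IsU (u : Port S × Port S) : Prop := S.blk u.1 = S.blk u.2 ∧ u.1 ≠ u.2

def lam (u : Port S × Port S) : Lbl S := (S.rc u.1, S.rc u.2, S.ht u.2 - S.ht u.1)

def rev (l : Lbl S) : Lbl S := (l.2.1, l.1, -l.2.2)

open Classical in
/-- number of units with a given label -/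
noncomputable def nlab (S : Sys) (l : Lbl S) : ℕ :=
  (univ.filter (fun u : Port S × Port S => IsU u ∧ lam u = l)).card

/-- density of a label: `nlab / #cells` -/
noncomputable def rho (S : Sys) (l : Lbl S) : ℝ :=
  (nlab S l : ℝ) / (Fintype.card S.C : ℝ)

/-- facts on densities (proved from `Ok`) -/
def RhoFacts (S : Sys) (D : ℕ) : Prop :=
  (∀ L : Finset (Lbl S), ∑ l ∈ L, rho S l ^ 2 ≤ 1 / 2) ∧
  (∀ u : Port S × Port S, IsU u → 1 ≤ (D : ℝ) * rho S (lam u)) ∧
  (∀ l : Lbl S, rho S (rev l) = rho S l)

def StmtRho : Prop := ∀ (S : Sys) (D : ℕ), S.Ok D → 0 < Fintype.card S.C → RhoFacts S D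

end Vale.Agent.P201.S
end

section

/-!
P201, interface C / LA over a general system: abstract patterns, inequality (U).
Port of `Z/LA/PDefs.lean` (helper26) to `S : Sys` (helper621).
-/

namespace Vale.Agent.P201.S

open Finset

variable {S : Sys}

/-! ## Abstract patterns -/

/-- An abstract pattern: `E` edges, `V` irregular vertices, `R` regular vertices, `C` label classes.
`att h` is the place of the half-edge `h = (e, side)`: an irregular vertex `v`, or the first
(`true`) / second (`false`) port of a regular vertex `r`.  `cl r` = class of `r` and sign. -/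
structure Ptn where
  E : Type
  V : Type
  R : Type
  C : Type
  [fE : Fintype E] [fV : Fintype V] [fR : Fintype R] [fC : Fintype C]
  [dE : DecidableEq E] [dV : DecidableEq V] [dR : DecidableEq R] [dC : DecidableEq C]
  att : E × Bool → V ⊕ (R × Bool)
  /-- the half-edge sitting at the first / second port of a regular vertex -/
  hf : R × Bool → E × Bool
  att_hf : ∀ x, att (hf x) = Sum.inr x
  hf_unique : ∀ h x, att h = Sum.inr x → h = hf x
  cl : R → C × Bool
  /-- every class is used -/
  cl_surj : ∀ c, ∃ r, (cl r).1 = c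

attribute [instance] Ptn.fE Ptn.fV Ptn.fR Ptn.fC Ptn.dE Ptn.dV Ptn.dR Ptn.dC

/-- number of half-edges at irregular vertices -/
def Ptn.H (P : Ptn) : ℕ := (univ.filter (fun h : P.E × Bool => (P.att h).isLeft = true)).card

/-- A realization of a pattern in the matching `σ`. -/
structure Rlz (P : Ptn) (σ : Equiv.Perm S.C) where
  prt : P.E × Bool → Port S
  mate : ∀ e, mt σ (prt (e, true)) = prt (e, false)
  inj : Function.Injective prt
  vb : P.V → S.B
  hv : ∀ h v, P.att h = Sum.inl v → S.blk (prt h) = vb v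
  L : P.C → Lbl S
  hblk : ∀ r, S.blk (prt (P.hf (r, true))) = S.blk (prt (P.hf (r, false)))
  hlam : ∀ r, lam (prt (P.hf (r, true)), prt (P.hf (r, false))) =
    if (P.cl r).2 then L (P.cl r).1 else rev (L (P.cl r).1)

/-- **Inequality (U)** for a realization (`K0 = log #family`). -/
def UIneq {P : Ptn} {σ : Equiv.Perm S.C} (r : Rlz P σ) (C1 K0 : ℝ) : Prop :=
  ((Fintype.card P.E : ℝ) - Fintype.card P.V - Fintype.card P.R) *
      Real.log (Fintype.card S.C) ≤
    ∑ x : P.R, Real.log (rho S (r.L (P.cl x).1)) -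
      ∑ c : P.C, (Real.log 2 + 2 * Real.log (rho S (r.L c))) +
      C1 * (Fintype.card P.V + P.H + 1) + K0

/-- PART C (from `StmtB` and `StmtRho`) -/
def StmtU : Prop :=
  ∀ D : ℕ, ∃ C1 : ℝ, 0 ≤ C1 ∧ ∀ S : Sys, S.Ok D → ∀ g M : ℕ, 0 < Fintype.card S.C →
    (2 * M + 2) * ((2 * D + 2) ^ (g + 3) + M) ≤ Fintype.card S.C →
    ∀ (ι : Type) [Fintype ι] [Nonempty ι] (PP : ι → Ptn), (∀ i, Fintype.card (PP i).E ≤ M) →
      ∃ σ : Equiv.Perm S.C, Girth σ g ∧ ∀ i, ∀ r : Rlz (PP i) σ,
        UIneq r C1 (Real.log (Fintype.card ι))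

end Vale.Agent.P201.S
end

section

/-!
P201, part LA: gluings with the same combinatorics (helper556).  If `G` and `G'` are similar, the
used ports and blocks of `G` correspond to those of `G'`.
-/

namespace Vale.Agent.P201.S

open Finset

variable {S : Sys} {σ σ' σ'' : Equiv.Perm (S.C)}

/-- the port of a half-side: `(s, false)` is the start, `(s, true)` the end corner -/
noncomputable def hp (G : Glue σ) (h : G.Q × Bool) : Port S := if h.2 then mt σ (G.ε h.1) else G.ε h.1

@[simp] theorem hp_false (G : Glue σ) (s : G.Q) : hp G (s, false) = G.ε s := rfl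

@[simp] theorem hp_true (G : Glue σ) (s : G.Q) : hp G (s, true) = mt σ (G.ε s) := rfl

theorem mt_hp (G : Glue σ) (s : G.Q) (a : Bool) : mt σ (hp G (s, a)) = hp G (s, !a) := by
  cases a
  · rfl
  · simp [mt_mt]

/-- similar gluings -/
structure Sim (G : Glue σ) (G' : Glue σ') where
  φ : G.Q ≃ G'.Q
  port : ∀ h k : G.Q × Bool, hp G h = hp G k ↔ hp G' (φ h.1, h.2) = hp G' (φ k.1, k.2)
  block : ∀ h k : G.Q × Bool, S.blk (hp G h) = S.blk (hp G k) ↔
    S.blk (hp G' (φ h.1, h.2)) = S.blk (hp G' (φ k.1, k.2))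
  y : ∀ s s', G.Y s = some s' ↔ G'.Y (φ s) = some (φ s')
  pair : ∀ s s', G.Pair s s' ↔ G'.Pair (φ s) (φ s')

/-- similarity from separate conditions -/
def Sim.mk' {G : Glue σ} {G' : Glue σ'} (φ : G.Q ≃ G'.Q)
    (p1 : ∀ s s', G.ε s = G.ε s' ↔ G'.ε (φ s) = G'.ε (φ s'))
    (p2 : ∀ s s', G.ε s = mt σ (G.ε s') ↔ G'.ε (φ s) = mt σ' (G'.ε (φ s')))
    (b1 : ∀ s s', S.blk (G.ε s) = S.blk (G.ε s') ↔ S.blk (G'.ε (φ s)) = S.blk (G'.ε (φ s')))
    (b2 : ∀ s s', S.blk (G.ε s) = S.blk (mt σ (G.ε s')) ↔
      S.blk (G'.ε (φ s)) = S.blk (mt σ' (G'.ε (φ s'))))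
    (b3 : ∀ s s', S.blk (mt σ (G.ε s)) = S.blk (mt σ (G.ε s')) ↔
      S.blk (mt σ' (G'.ε (φ s))) = S.blk (mt σ' (G'.ε (φ s'))))
    (y : ∀ s s', G.Y s = some s' ↔ G'.Y (φ s) = some (φ s'))
    (pair : ∀ s s', G.Pair s s' ↔ G'.Pair (φ s) (φ s')) : Sim G G' where
  φ := φ
  port := by
    rintro ⟨s, a⟩ ⟨s', a'⟩
    cases a <;> cases a' <;> simp only [hp_false, hp_true]
    · exact p1 s s'
    · exact p2 s s'
    · rw [eq_comm, p2 s' s, eq_comm]
    · constructor
      · intro h
        rw [(p1 s s').1 (by rw [← mt_mt σ (G.ε s), h, mt_mt])]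
      · intro h
        rw [(p1 s s').2 (by rw [← mt_mt σ' (G'.ε (φ s)), h, mt_mt])]
  block := by
    rintro ⟨s, a⟩ ⟨s', a'⟩
    cases a <;> cases a' <;> simp only [hp_false, hp_true]
    · exact b1 s s'
    · exact b2 s s'
    · rw [eq_comm, b2 s' s, eq_comm]
    · exact b3 s s'
  y := y
  pair := pair

namespace Sim

variable {G : Glue σ} {G' : Glue σ'} (h : Sim G G')

/-- the reverse similarity -/
def symm : Sim G' G where
  φ := h.φ.symm
  port := by
    intro k l
    rw [h.port (h.φ.symm k.1, k.2) (h.φ.symm l.1, l.2)]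
    simp
  block := by
    intro k l
    rw [h.block (h.φ.symm k.1, k.2) (h.φ.symm l.1, l.2)]
    simp
  y := by
    intro s s'
    rw [h.y]
    simp
  pair := by
    intro s s'
    rw [h.pair]
    simp

@[simp] theorem symm_φ : h.symm.φ = h.φ.symm := rfl

/-- a port is used -/
def Used (G : Glue σ) (q : Port S) : Prop := ∃ k, hp G k = q

/-- a block is used -/
def UsedB (G : Glue σ) (b : S.B) : Prop := ∃ k, S.blk (hp G k) = b

open Classical in
/-- the map of used ports -/
noncomputable def pm (q : Port S) : Port S :=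
  if hq : ∃ k, hp G k = q then hp G' (h.φ hq.choose.1, hq.choose.2) else q

open Classical in
/-- the map of used blocks -/
noncomputable def bm (b : S.B) : S.B :=
  if hq : ∃ k, S.blk (hp G k) = b then S.blk (hp G' (h.φ hq.choose.1, hq.choose.2)) else b

theorem pm_hp (s : G.Q) (a : Bool) : h.pm (hp G (s, a)) = hp G' (h.φ s, a) := by
  unfold pm
  have hq : ∃ k, hp G k = hp G (s, a) := ⟨_, rfl⟩
  rw [dif_pos hq]
  exact (h.port hq.choose (s, a)).1 hq.choose_spec

theorem bm_hp (s : G.Q) (a : Bool) : h.bm (S.blk (hp G (s, a))) = S.blk (hp G' (h.φ s, a)) := by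
  unfold bm
  have hq : ∃ k, S.blk (hp G k) = S.blk (hp G (s, a)) := ⟨_, rfl⟩
  rw [dif_pos hq]
  exact (h.block hq.choose (s, a)).1 hq.choose_spec

theorem pm_ε (s : G.Q) : h.pm (G.ε s) = G'.ε (h.φ s) := h.pm_hp s false

theorem pm_mtε (s : G.Q) : h.pm (mt σ (G.ε s)) = mt σ' (G'.ε (h.φ s)) := h.pm_hp s true

theorem bm_ε (s : G.Q) : h.bm (S.blk (G.ε s)) = S.blk (G'.ε (h.φ s)) := h.bm_hp s false

theorem bm_mtε (s : G.Q) : h.bm (S.blk (mt σ (G.ε s))) = S.blk (mt σ' (G'.ε (h.φ s))) :=
  h.bm_hp s true

theorem pm_mt {q : Port S} (hq : Used G q) : h.pm (mt σ q) = mt σ' (h.pm q) := by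
  obtain ⟨⟨s, a⟩, rfl⟩ := hq
  rw [mt_hp, h.pm_hp, h.pm_hp, mt_hp]

theorem used_mt {q : Port S} (hq : Used G q) : Used G (mt σ q) := by
  obtain ⟨⟨s, a⟩, rfl⟩ := hq
  exact ⟨(s, !a), by rw [mt_hp]⟩

theorem blk_pm {q : Port S} (hq : Used G q) : S.blk (h.pm q) = h.bm (S.blk q) := by
  obtain ⟨⟨s, a⟩, rfl⟩ := hq
  rw [h.pm_hp, h.bm_hp]

theorem used_pm {q : Port S} (hq : Used G q) : Used G' (h.pm q) := by
  obtain ⟨⟨s, a⟩, rfl⟩ := hq
  exact ⟨(h.φ s, a), by rw [h.pm_hp]⟩

theorem usedB_bm {b : S.B} (hb : UsedB G b) : UsedB G' (h.bm b) := by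
  obtain ⟨⟨s, a⟩, rfl⟩ := hb
  exact ⟨(h.φ s, a), by rw [h.bm_hp]⟩

theorem pm_pm {q : Port S} (hq : Used G q) : h.symm.pm (h.pm q) = q := by
  obtain ⟨⟨s, a⟩, rfl⟩ := hq
  rw [h.pm_hp, h.symm.pm_hp]
  simp

theorem bm_bm {b : S.B} (hb : UsedB G b) : h.symm.bm (h.bm b) = b := by
  obtain ⟨⟨s, a⟩, rfl⟩ := hb
  rw [h.bm_hp, h.symm.bm_hp]
  simp

theorem pm_pm' {q : Port S} (hq : Used G' q) : h.pm (h.symm.pm q) = q := by
  obtain ⟨⟨s, a⟩, rfl⟩ := hq
  rw [h.symm.pm_hp, h.pm_hp]
  simp

theorem bm_bm' {b : S.B} (hb : UsedB G' b) : h.bm (h.symm.bm b) = b := by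
  obtain ⟨⟨s, a⟩, rfl⟩ := hb
  rw [h.symm.bm_hp, h.bm_hp]
  simp only [symm_φ, Equiv.apply_symm_apply]

theorem pm_inj {q q' : Port S} (hq : Used G q) (hq' : Used G q') (he : h.pm q = h.pm q') :
    q = q' := by
  rw [← h.pm_pm hq, he, h.pm_pm hq']

theorem bm_inj {b b' : S.B} (hb : UsedB G b) (hb' : UsedB G b') (he : h.bm b = h.bm b') :
    b = b' := by
  rw [← h.bm_bm hb, he, h.bm_bm hb']

theorem y_none (s : G.Q) : G.Y s = none ↔ G'.Y (h.φ s) = none := by
  constructor
  · intro h0
    by_contra h1
    obtain ⟨v, hv⟩ := Option.ne_none_iff_exists'.1 h1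
    have := (h.y s (h.φ.symm v)).2 (by rw [hv]; simp)
    rw [h0] at this
    exact absurd this (by simp)
  · intro h0
    by_contra h1
    obtain ⟨v, hv⟩ := Option.ne_none_iff_exists'.1 h1
    have := (h.y s v).1 hv
    rw [h0] at this
    exact absurd this (by simp)

theorem ysymm (s s' : G.Q) : G.Y.symm s = some s' ↔ G'.Y.symm (h.φ s) = some (h.φ s') := by
  rw [PEquiv.eq_some_iff, PEquiv.eq_some_iff]
  exact h.y s' s

theorem ysymm_none (s : G.Q) : G.Y.symm s = none ↔ G'.Y.symm (h.φ s) = none := by
  constructor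
  · intro h0
    by_contra h1
    obtain ⟨v, hv⟩ := Option.ne_none_iff_exists'.1 h1
    have := (h.ysymm s (h.φ.symm v)).2 (by rw [hv]; simp)
    rw [h0] at this
    exact absurd this (by simp)
  · intro h0
    by_contra h1
    obtain ⟨v, hv⟩ := Option.ne_none_iff_exists'.1 h1
    have := (h.ysymm s v).1 hv
    rw [h0] at this
    exact absurd this (by simp)

end Sim

/-! ## Combinatorial records -/

/-- a combinatorial record on `Fin F`: same port, same block (of half-sides), `Y`, paired -/
structure Cmb (F : ℕ) where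
  sp : Fin F × Bool → Fin F × Bool → Prop
  sb : Fin F × Bool → Fin F × Bool → Prop
  yr : Fin F → Fin F → Prop
  pr : Fin F → Fin F → Prop

/-- the record of a gluing, for a numbering of the squares -/
def cmb {F : ℕ} (G : Glue σ) (e : G.Q ≃ Fin F) : Cmb F where
  sp h k := hp G (e.symm h.1, h.2) = hp G (e.symm k.1, k.2)
  sb h k := S.blk (hp G (e.symm h.1, h.2)) = S.blk (hp G (e.symm k.1, k.2))
  yr s s' := G.Y (e.symm s) = some (e.symm s')
  pr s s' := G.Pair (e.symm s) (e.symm s')

/-- `c` is the record of `G` for the numbering `e` -/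
def IsCmb {F : ℕ} (G : Glue σ) (e : G.Q ≃ Fin F) (c : Cmb F) : Prop := cmb G e = c

/-- gluings with the same record are similar -/
def Sim.of_cmb {F : ℕ} {G : Glue σ} {G' : Glue σ'} {e : G.Q ≃ Fin F} {e' : G'.Q ≃ Fin F}
    (h : cmb G e = cmb G' e') : Sim G G' where
  φ := e.trans e'.symm
  port := by
    intro k l
    have h1 := congrFun (congrFun (congrArg Cmb.sp h) (e k.1, k.2)) (e l.1, l.2)
    simp only [cmb, Equiv.symm_apply_apply] at h1
    rw [h1]
    rfl
  block := by
    intro k l
    have h1 := congrFun (congrFun (congrArg Cmb.sb h) (e k.1, k.2)) (e l.1, l.2)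
    simp only [cmb, Equiv.symm_apply_apply] at h1
    rw [h1]
    rfl
  y := by
    intro k l
    have h1 := congrFun (congrFun (congrArg Cmb.yr h) (e k)) (e l)
    simp only [cmb, Equiv.symm_apply_apply] at h1
    rw [h1]
    rfl
  pair := by
    intro k l
    have h1 := congrFun (congrFun (congrArg Cmb.pr h) (e k)) (e l)
    simp only [cmb, Equiv.symm_apply_apply] at h1
    rw [h1]
    rfl

end Vale.Agent.P201.S
end

section

/-!
P201, part LA: numbering of a finite set such that a partial injection is the successor map up to few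
exceptions (helper167).
-/

namespace Vale.Agent.P201.S.Numb

open Finset

variable {S : Type} (f : S ≃. S)

/-- decomposition in runs -/
structure Rns (LL : List (List S)) : Prop where
  ne : ∀ r ∈ LL, r ≠ []
  ch : ∀ r ∈ LL, r.IsChain (fun a b => f a = some b)
  nd : LL.flatten.Nodup
  all : ∀ s, s ∈ LL.flatten

variable {f}

theorem Rns.uniq {LL : List (List S)} (h : Rns f LL) {r r' : List S} (hr : r ∈ LL) (hr' : r' ∈ LL)
    {s : S} (hs : s ∈ r) (hs' : s ∈ r') : r = r' := by
  by_contra hne
  have h1 := (List.nodup_flatten.1 h.nd).2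
  have : Std.Symm (List.Disjoint (α := S)) := ⟨fun _ _ hd => List.Disjoint.symm hd⟩
  exact (List.Pairwise.forall h1 hr hr' hne) hs hs'

theorem Rns.rnd {LL : List (List S)} (h : Rns f LL) {r : List S} (hr : r ∈ LL) : r.Nodup :=
  (List.nodup_flatten.1 h.nd).1 r hr

theorem Rns.nodup {LL : List (List S)} (h : Rns f LL) : LL.Nodup := by
  have h1 := (List.nodup_flatten.1 h.nd).2
  refine List.Pairwise.imp_of_mem ?_ h1
  intro a b ha _ hd hab
  subst hab
  obtain ⟨x, hx⟩ := List.exists_mem_of_ne_nil a (h.ne a ha)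
  exact hd hx hx

theorem Rns.mem {LL : List (List S)} (h : Rns f LL) (s : S) : ∃ r ∈ LL, s ∈ r := by
  have := h.all s
  rwa [List.mem_flatten] at this

/-- merging two runs -/
theorem Rns.merge {LL : List (List S)} (h : Rns f LL) {r1 r2 : List S} (h1 : r1 ∈ LL)
    (h2 : r2 ∈ LL) (hne : r1 ≠ r2) {a b : S} (ha : r1.getLast? = some a) (hb : r2.head? = some b)
    (hab : f a = some b) : ∃ LL', Rns f LL' ∧ LL'.length < LL.length := by
  classical
  have h2' : r2 ∈ LL.erase r1 := (List.mem_erase_of_ne (Ne.symm hne)).2 h2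
  have hp : LL.Perm (r1 :: r2 :: (LL.erase r1).erase r2) :=
    (List.perm_cons_erase h1).trans ((List.perm_cons_erase h2').cons r1)
  have hpf : LL.flatten.Perm ((r1 ++ r2) :: (LL.erase r1).erase r2).flatten := by
    refine hp.flatten.trans ?_
    simp
  refine ⟨(r1 ++ r2) :: (LL.erase r1).erase r2, ⟨?_, ?_, ?_, ?_⟩, ?_⟩
  · intro r hr
    rcases List.mem_cons.1 hr with rfl | hr
    · have := h.ne r1 h1
      simp [this]
    · exact h.ne r (hp.mem_iff.2 (List.mem_cons_of_mem _ (List.mem_cons_of_mem _ hr)))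
  · intro r hr
    rcases List.mem_cons.1 hr with rfl | hr
    · refine (h.ch r1 h1).append (h.ch r2 h2) ?_
      intro x hx y hy
      rw [ha, Option.mem_def, Option.some.injEq] at hx
      rw [hb, Option.mem_def, Option.some.injEq] at hy
      subst hx hy
      exact hab
    · exact h.ch r (hp.mem_iff.2 (List.mem_cons_of_mem _ (List.mem_cons_of_mem _ hr)))
  · exact (hpf.nodup_iff).1 h.nd
  · intro s
    exact hpf.mem_iff.1 (h.all s)
  · have := hp.length_eq
    rw [this]
    simp only [List.length_cons, lt_add_iff_pos_right, Order.lt_one_iff]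

theorem exists_rns [Fintype S] : ∃ LL, Rns f LL := by
  classical
  refine ⟨(univ : Finset S).toList.map (fun s => [s]), ⟨?_, ?_, ?_, ?_⟩⟩
  · intro r hr
    obtain ⟨s, _, rfl⟩ := List.mem_map.1 hr
    simp
  · intro r hr
    obtain ⟨s, _, rfl⟩ := List.mem_map.1 hr
    simp
  · have : ((univ : Finset S).toList.map (fun s => [s])).flatten = (univ : Finset S).toList := by
      induction (univ : Finset S).toList with
      | nil => rfl
      | cons a l ih => simp [ih]
    rw [this]
    exact Finset.nodup_toList _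
  · intro s
    rw [List.mem_flatten]
    exact ⟨[s], List.mem_map.2 ⟨s, by simp only [mem_toList, mem_univ], rfl⟩, by simp⟩

/-- the last element of a run of a minimal decomposition -/
theorem last_closed {LL : List (List S)} (h : Rns f LL)
    (hmin : ∀ LL', Rns f LL' → LL.length ≤ LL'.length) {r : List S} (hr : r ∈ LL) {b t : S}
    (hb : r.getLast? = some b) (ht : f b = some t) : r.head? = some t := by
  obtain ⟨r', hr', htr⟩ := h.mem t
  obtain ⟨u, v, rfl⟩ := List.append_of_mem htr
  rcases List.eq_nil_or_concat u with rfl | ⟨u', a, rfl⟩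
  · -- t is the head of r'
    rw [List.nil_append] at hr' htr
    by_cases hrr : r = t :: v
    · rw [hrr]; rfl
    · exfalso
      obtain ⟨LL', h1, h2⟩ := h.merge hr hr' hrr hb rfl ht
      have := hmin LL' h1
      omega
  · exfalso
    have hch := h.ch _ hr'
    rw [List.concat_eq_append, List.append_assoc, List.singleton_append] at hch hr' htr
    have hat : f a = some t := by
      have := (List.isChain_append.1 hch).2.1
      rw [List.isChain_cons] at this
      exact this.1 t (by simp)
    have hab : a = b := f.inj (Option.mem_def.2 hat) (Option.mem_def.2 ht)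
    subst hab
    have har : a ∈ r := List.mem_of_getLast? hb
    have := h.uniq hr hr' har (by simp)
    rw [this] at hb
    have hnd := h.rnd hr'
    have hb' : (t :: v).getLast? = some a := by
      rw [List.getLast?_append, List.getLast?_cons_cons] at hb
      cases hv : (t :: v).getLast? with
      | none => simp at hv
      | some x =>
        rw [hv] at hb
        simpa using hb
    have hmem : a ∈ t :: v := List.mem_of_getLast? hb'
    rw [List.nodup_append] at hnd
    have := hnd.2.1
    rw [List.nodup_cons] at this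
    exact this.1 hmem

theorem run_pit {r : List S} {a : S} (hch : (a :: r).IsChain (fun a b => f a = some b)) {c : S}
    (hc : (a :: r).getLast? = some c) : pit f r.length a = some c := by
  induction r generalizing a with
  | nil =>
    simp only [List.getLast?_singleton, Option.some.injEq] at hc
    subst hc
    rfl
  | cons b r ih =>
    rw [List.getLast?_cons_cons] at hc
    rw [List.isChain_cons] at hch
    have hab := hch.1 b (by simp)
    rw [List.length_cons, pit_succ, hab]
    exact ih hch.2 hc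

theorem run_closed {r : List S} (hch : r.IsChain (fun a b => f a = some b)) {h0 l0 : S}
    (hh : r.head? = some h0) (hl : r.getLast? = some l0) (hcl : f l0 = some h0) {s t : S}
    (hs : s ∈ r) (ht : f s = some t) : t ∈ r := by
  obtain ⟨u, v, rfl⟩ := List.append_of_mem hs
  cases v with
  | nil =>
    rw [List.getLast?_append] at hl
    simp only [List.getLast?_singleton, Option.some_or, Option.some.injEq] at hl
    subst hl
    rw [hcl, Option.some.injEq] at ht
    subst ht
    exact List.mem_of_head? hh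
  | cons b v =>
    have h1 := (List.isChain_append.1 hch).2.1
    rw [List.isChain_cons] at h1
    have h2 := h1.1 b (by simp)
    rw [h2, Option.some.injEq] at ht
    subst ht
    simp

theorem orb_run [Fintype S] {r : List S} (hch : r.IsChain (fun a b => f a = some b)) {h0 l0 : S}
    (hh : r.head? = some h0) (hl : r.getLast? = some l0) (hcl : f l0 = some h0) {t : S}
    (ht : t ∈ orb f h0) : t ∈ r := by
  obtain ⟨k, hk⟩ := mem_orb.1 ht
  induction k generalizing t with
  | zero =>
    rw [pit_zero, Option.some.injEq] at hk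
    subst hk
    exact List.mem_of_head? hh
  | succ k ih =>
    rw [pit_succ', Option.bind_eq_some_iff] at hk
    obtain ⟨u, hu, hut⟩ := hk
    exact run_closed hch hh hl hcl (ih (mem_orb.2 ⟨k, hu⟩) hu) hut

theorem length_le [Fintype S] {LL : List (List S)} (h : Rns f LL)
    (hmin : ∀ LL', Rns f LL' → LL.length ≤ LL'.length) :
    LL.length ≤ (Fintype.card S - domc f) + cyc f := by
  classical
  have hlast : ∀ r ∈ LL, ∃ b, r.getLast? = some b := by
    intro r hr
    have := h.ne r hr
    exact ⟨r.getLast this, List.getLast?_eq_getLast_of_ne_nil this⟩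
  rw [← List.toFinset_card_of_nodup h.nodup]
  rw [← Finset.card_filter_add_card_filter_not (s := LL.toFinset)
    (fun r => ∃ b, r.getLast? = some b ∧ f b = none)]
  refine Nat.add_le_add ?_ ?_
  · have hc : Fintype.card S - domc f = (univ.filter (fun s => f s = none)).card := by
      unfold domc
      have h1 := Finset.card_filter_add_card_filter_not (s := (univ : Finset S))
        (fun s => (f s).isSome)
      have h2 : (univ.filter (fun s => ¬ (f s).isSome = true)) = univ.filter (fun s => f s = none) := by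
        ext s
        simp only [Bool.not_eq_true, Option.isSome_eq_false_iff, Option.isNone_iff_eq_none, mem_filter, mem_univ, true_and]
      rw [h2] at h1
      rw [← Finset.card_univ, ← h1]
      simp only [add_tsub_cancel_left]
    rw [hc]
    have hc2 : ((univ.filter (fun s => f s = none)).image some).card ≤
        (univ.filter (fun s => f s = none)).card := Finset.card_image_le
    refine le_trans (Finset.card_le_card_of_injOn (fun r => r.getLast?) ?_ ?_) hc2
    · intro r hr
      rw [Finset.mem_coe, Finset.mem_filter] at hr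
      obtain ⟨_, b, hb, hfb⟩ := hr
      rw [Finset.mem_coe, Finset.mem_image]
      exact ⟨b, by simp only [mem_filter, mem_univ, hfb, and_self], hb.symm⟩
    · intro r hr r' hr' he
      rw [Finset.mem_coe, Finset.mem_filter, List.mem_toFinset] at hr hr'
      obtain ⟨hr, b, hb, hfb⟩ := hr
      obtain ⟨hr', b', hb', hfb'⟩ := hr'
      have he' : r.getLast? = r'.getLast? := he
      rw [hb, hb', Option.some.injEq] at he'
      subst he'
      exact h.uniq hr hr' (List.mem_of_getLast? hb) (List.mem_of_getLast? hb')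
  · have hc2 : (((univ.filter (Per f)).image (orb f)).image some).card ≤ cyc f := by
      unfold cyc
      exact Finset.card_image_le
    have key : ∀ r ∈ LL.toFinset.filter (fun r => ¬ ∃ b, r.getLast? = some b ∧ f b = none),
        ∃ h0 l0, r ∈ LL ∧ r.head? = some h0 ∧ r.getLast? = some l0 ∧ f l0 = some h0 := by
      intro r hr
      rw [Finset.mem_filter, List.mem_toFinset] at hr
      obtain ⟨hr, hno⟩ := hr
      obtain ⟨b, hb⟩ := hlast r hr
      have : f b ≠ none := fun h4 => hno ⟨b, hb, h4⟩
      obtain ⟨t, ht⟩ := Option.ne_none_iff_exists'.1 this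
      exact ⟨t, b, hr, last_closed h hmin hr hb ht, hb, ht⟩
    refine le_trans (Finset.card_le_card_of_injOn (fun r => (r.head?).map (orb f)) ?_ ?_) hc2
    · intro r hr
      obtain ⟨h0, l0, hr, hh, hl, hcl⟩ := key r hr
      rw [Finset.mem_coe, Finset.mem_image]
      refine ⟨orb f h0, ?_, by simp [hh]⟩
      rw [Finset.mem_image]
      refine ⟨h0, ?_, rfl⟩
      rw [Finset.mem_filter]
      refine ⟨mem_univ _, r.length, ?_, ?_⟩
      · exact List.length_pos_of_ne_nil (h.ne r hr)
      · cases r with
        | nil => simp at hh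
        | cons a r =>
          simp only [List.head?_cons, Option.some.injEq] at hh
          subst hh
          rw [List.length_cons, pit_succ', run_pit (h.ch _ hr) hl]
          exact hcl
    · intro r hr r' hr' he
      obtain ⟨h0, l0, hr, hh, hl, hcl⟩ := key r hr
      obtain ⟨h0', l0', hr', hh', hl', hcl'⟩ := key r' hr'
      have he' : (r.head?).map (orb f) = (r'.head?).map (orb f) := he
      rw [hh, hh', Option.map_some, Option.map_some, Option.some.injEq] at he'
      have h5 : h0' ∈ orb f h0 := by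
        rw [he']
        exact self_mem_orb f h0'
      have h6 := orb_run (h.ch r hr) hh hl hcl h5
      exact h.uniq hr hr' h6 (List.mem_of_head? hh')

/-- **Numbering**: `f` is the successor map except for at most `(card S - domc f) + cyc f` elements. -/
theorem exists_numbering [Fintype S] (f : S ≃. S) :
    ∃ (e : S ≃ Fin (Fintype.card S)) (B : Finset S),
      B.card ≤ (Fintype.card S - domc f) + cyc f ∧
      ∀ s, s ∉ B → ∃ t, f s = some t ∧ (e t).1 = (e s).1 + 1 := by
  classical
  -- minimal decomposition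
  have hex : ∃ m, ∃ LL, Rns f LL ∧ LL.length = m := by
    obtain ⟨LL, h⟩ := exists_rns (f := f)
    exact ⟨_, LL, h, rfl⟩
  obtain ⟨LL, h, hm⟩ := Nat.find_spec hex
  have hmin : ∀ LL', Rns f LL' → LL.length ≤ LL'.length := by
    intro LL' h'
    rw [hm]
    exact Nat.find_min' hex ⟨LL', h', rfl⟩
  have hlen := length_le h hmin
  let L := LL.flatten
  let e0 : Fin L.length ≃ S := List.Nodup.getEquivOfForallMemList L h.nd h.all
  have hcard : L.length = Fintype.card S := by
    have := Fintype.card_congr e0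
    rwa [Fintype.card_fin] at this
  let e : S ≃ Fin (Fintype.card S) := e0.symm.trans (finCongr hcard)
  have he : ∀ (P Q : List S) (s : S), L = P ++ s :: Q → (e s).1 = P.length := by
    intro P Q s hL
    have hlt : P.length < L.length := by rw [hL]; simp only [List.length_append, List.length_cons, lt_add_iff_pos_right, Order.lt_add_one_iff, zero_le]
    have h1 : e0 ⟨P.length, hlt⟩ = s := by
      change L.get ⟨P.length, hlt⟩ = s
      simp [hL]
    have h2 : e0.symm s = ⟨P.length, hlt⟩ := by rw [← h1, Equiv.symm_apply_apply]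
    change ((e0.symm.trans (finCongr hcard)) s).1 = _
    rw [Equiv.trans_apply, h2]
    rfl
  refine ⟨e, (LL.filterMap List.getLast?).toFinset, ?_, ?_⟩
  · refine le_trans (List.toFinset_card_le _) (le_trans (List.length_filterMap_le _ _) hlen)
  · intro s hs
    obtain ⟨r, hr, hsr⟩ := h.mem s
    obtain ⟨u, v, rfl⟩ := List.append_of_mem hsr
    cases v with
    | nil =>
      exfalso
      apply hs
      rw [List.mem_toFinset, List.mem_filterMap]
      exact ⟨_, hr, by rw [List.getLast?_append]; simp⟩
    | cons t v =>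
      have h1 := (List.isChain_append.1 (h.ch _ hr)).2.1
      rw [List.isChain_cons] at h1
      refine ⟨t, h1.1 t (by simp), ?_⟩
      obtain ⟨A, C, hAC⟩ := List.append_of_mem hr
      have hL : L = (A.flatten ++ u) ++ s :: (t :: v ++ C.flatten) := by
        change LL.flatten = _
        rw [hAC]
        simp
      have hL' : L = (A.flatten ++ u ++ [s]) ++ t :: (v ++ C.flatten) := by
        rw [hL]
        simp
      rw [he _ _ _ hL, he _ _ _ hL']
      simp only [List.length_append, List.length_singleton]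

end Vale.Agent.P201.S.Numb
end
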