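import Vale.Agent.P201.Bd3.MathlibUsed
import Vale.Agent.P186.Defs

set_option linter.all false

section

/-! # P186: word-hyperbolic groups, area, and the target of block HYP (captain helper6)

`wordDist S g h` = distance of `g` and `h` in the Cayley graph of `G` with respect to the finite set `S` (edges `g — g s`, `s ∈ S`).
Geodesics are sequences of vertices `a 0, …, a l` with `wordDist (a i) (a j) = |i - j|`. -/

namespace Vale.Agent.P186.Hyp

variable {G : Type*} [Group G]

/-- there is a path of length `n` from `g` to `h` in the Cayley graph of `G` with respect to `S` -/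
def PathLen (S : Finset G) (g h : G) (n : ℕ) : Prop :=
  ∃ l : List G, l.length = n ∧ (∀ x ∈ l, x ∈ S ∨ x⁻¹ ∈ S) ∧ g * l.prod = h

/-- distance in the Cayley graph of `G` with respect to `S` -/
noncomputable def wordDist (S : Finset G) (g h : G) : ℕ := sInf {n | PathLen S g h n}

/-- `a 0, …, a l` is a geodesic of length `l` from `x` to `y` in the Cayley graph -/
structure IsGeod (S : Finset G) (x y : G) (a : ℕ → G) (l : ℕ) : Prop where
  start : a 0 = x
  stop : a l = y
  geod : ∀ i j, i ≤ j → j ≤ l → wordDist S (a i) (a j) = j - i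

/-- every geodesic triangle is `δ`-thin: every vertex of a side is at distance at most `δ` from the union of the two other sides -/
def ThinTriangles (S : Finset G) (δ : ℕ) : Prop :=
  ∀ (x y z : G) (a b c : ℕ → G) (l m n : ℕ), IsGeod S x y a l → IsGeod S y z b m → IsGeod S z x c n →
    ∀ i ≤ l, (∃ j ≤ m, wordDist S (a i) (b j) ≤ δ) ∨ (∃ j ≤ n, wordDist S (a i) (c j) ≤ δ)

/-- word-hyperbolic group: for some finite generating set all geodesic triangles of the Cayley graph are `δ`-thin -/
def WordHyperbolic (G : Type*) [Group G] : Prop :=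
  ∃ (S : Finset G) (δ : ℕ), Subgroup.closure (S : Set G) = ⊤ ∧ ThinTriangles S δ

/-! ## Area -/

variable {L : Type*}

/-- `Ar R k u`: `u` is a product of `k` conjugates of elements of `R` and their inverses -/
inductive Ar (R : Set (FreeGroup L)) : ℕ → FreeGroup L → Prop
  | nil : Ar R 0 1
  | cons (k : ℕ) (u v r : FreeGroup L) : r ∈ R → Ar R k u → Ar R (k + 1) (v * r * v⁻¹ * u)
  | cons' (k : ℕ) (u v r : FreeGroup L) : r ∈ R → Ar R k u → Ar R (k + 1) (v * r⁻¹ * v⁻¹ * u)

open Classical in
/-- the image of the generators in the presented group -/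
noncomputable def gens [Fintype L] (R : Set (FreeGroup L)) : Finset (PresentedGroup R) :=
  Finset.univ.image fun a : L => PresentedGroup.of a

/-- **HYP**: linear isoperimetric inequality implies thin triangles -/
def HypStmt : Prop := ∀ (L : Type) [Fintype L] (R : Set (FreeGroup L)), R.Finite → ∀ A : ℕ,
  (∀ u : List (L × Bool), PresentedGroup.mk R (FreeGroup.mk u) = 1 → ∃ k, k ≤ A * (u.length + 1) ∧ Ar R k (FreeGroup.mk u)) →
  ∃ δ : ℕ, ThinTriangles (gens R) δ

/-- **S1 + S2** (helper536). `α` = the geodesic `a 0, …, a l`, `γ` = a path (word) from `a l` back to `a 0` of length `n`; if all vertices of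
`γ` are at distance at least `R₀` from `a i`, `i₀ ≤ i ≤ i₁`, then `R₀ (i₁ - i₀) ≤ C (l + n)`. -/
def StokesStmt : Prop := ∀ (L : Type) [Fintype L] (R : Set (FreeGroup L)), R.Finite → ∀ A : ℕ,
  (∀ u : List (L × Bool), PresentedGroup.mk R (FreeGroup.mk u) = 1 → ∃ k, k ≤ A * (u.length + 1) ∧ Ar R k (FreeGroup.mk u)) →
  ∃ C : ℕ, ∀ (x y : PresentedGroup R) (a : ℕ → PresentedGroup R) (l : ℕ), IsGeod (gens R) x y a l →
    ∀ (w : ℕ → PresentedGroup R) (n : ℕ), w 0 = y → w n = x → (∀ i < n, wordDist (gens R) (w i) (w (i + 1)) ≤ 1) →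
    ∀ (R₀ i₀ i₁ : ℕ), i₀ ≤ i₁ → i₁ ≤ l → (∀ i, i₀ ≤ i → i ≤ i₁ → ∀ j ≤ n, R₀ ≤ wordDist (gens R) (a i) (w j)) →
      R₀ * (i₁ - i₀) ≤ C * (l + n + 1)

/-- **S3** (helper527, helper909): pure metric geometry. `S` generates `G`. -/
def ThinStmt : Prop := ∀ (G : Type) [Group G] (S : Finset G), Subgroup.closure (S : Set G) = ⊤ → ∀ C : ℕ,
  (∀ (x y : G) (a : ℕ → G) (l : ℕ), IsGeod S x y a l →
    ∀ (w : ℕ → G) (n : ℕ), w 0 = y → w n = x → (∀ i < n, wordDist S (w i) (w (i + 1)) ≤ 1) →
    ∀ (R₀ i₀ i₁ : ℕ), i₀ ≤ i₁ → i₁ ≤ l → (∀ i, i₀ ≤ i → i ≤ i₁ → ∀ j ≤ n, R₀ ≤ wordDist S (a i) (w j)) →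
      R₀ * (i₁ - i₀) ≤ C * (l + n + 1)) →
  ∃ δ : ℕ, ThinTriangles S δ

theorem gens_closure {L : Type} [Fintype L] (R : Set (FreeGroup L)) :
    Subgroup.closure (gens R : Set (PresentedGroup R)) = ⊤ := by
  classical
  have h : (gens R : Set (PresentedGroup R)) = Set.range (PresentedGroup.of (rels := R)) := by
    unfold gens
    simp only [Finset.coe_image, Finset.coe_univ, Set.image_univ]
  rw [h]
  exact PresentedGroup.closure_range_of R

theorem hyp_of (h1 : StokesStmt) (h2 : ThinStmt) : HypStmt := by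
  intro L _ R hR A hA
  obtain ⟨C, hC⟩ := h1 L R hR A hA
  exact h2 (PresentedGroup R) (gens R) (gens_closure R) C hC

theorem wordHyperbolic_of (h : HypStmt) {L : Type} [Fintype L] (R : Set (FreeGroup L)) (hR : R.Finite) (A : ℕ)
    (hA : ∀ u : List (L × Bool), PresentedGroup.mk R (FreeGroup.mk u) = 1 → ∃ k, k ≤ A * (u.length + 1) ∧ Ar R k (FreeGroup.mk u)) :
    WordHyperbolic (PresentedGroup R) := by
  obtain ⟨δ, hδ⟩ := h L R hR A hA
  exact ⟨gens R, δ, gens_closure R, hδ⟩

end Vale.Agent.P186.Hyp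
end

section

/-! # P186, block HYP: the two halves on the landed definitions (`Vale.Agent.P186.ThinTriangles`, `IsHyperbolicGroup`), captain helper6 -/

namespace Vale.Agent.P186.Hyp

/-- Stokes inequality for closed walks: `|∑ (f u + f v) (g v - g u)| ≤ C · length` for 1-Lipschitz `f`, `g` -/
def StokesIneq {V : Type} (Γ : SimpleGraph V) (C : ℕ) : Prop :=
  ∀ f g : V → ℤ, (∀ u v, Γ.Adj u v → |f u - f v| ≤ 1) → (∀ u v, Γ.Adj u v → |g u - g v| ≤ 1) →
    ∀ (x : V) (c : Γ.Walk x x),
      |(c.darts.map (fun d => (f d.fst + f d.snd) * (g d.snd - g d.fst))).sum| ≤ C * c.length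

/-- **GROUP PART** (helper536) -/
def LinStmt : Prop := ∀ (L : Type) [Fintype L] (R : Set (FreeGroup L)), R.Finite → ∀ A : ℕ,
  (∀ u : List (L × Bool), PresentedGroup.mk R (FreeGroup.mk u) = 1 →
    ∃ k, k ≤ A * (u.length + 1) ∧ Ar R k (FreeGroup.mk u)) →
  ∃ C : ℕ, StokesIneq (SimpleGraph.mulCayley (gens R : Set (PresentedGroup R))) C

/-- **GRAPH PART** (helper909, helper527) -/
def GraphStmt : Prop := ∀ (V : Type) (Γ : SimpleGraph V) (C : ℕ), Γ.Connected → StokesIneq Γ C →
  ∃ δ : ℕ, Vale.Agent.P186.ThinTriangles Γ δ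

/-- the Cayley graph of a generating set is connected -/
def ConnStmt : Prop := ∀ (G : Type) [Group G] (S : Set G), Subgroup.closure S = ⊤ →
  (SimpleGraph.mulCayley S).Connected

/-- linear isoperimetric inequality implies hyperbolic -/
theorem hyperbolic_of (h1 : LinStmt) (h2 : GraphStmt) (h3 : ConnStmt) {L : Type} [Fintype L] (R : Set (FreeGroup L))
    (hR : R.Finite) (A : ℕ)
    (hA : ∀ u : List (L × Bool), PresentedGroup.mk R (FreeGroup.mk u) = 1 →
      ∃ k, k ≤ A * (u.length + 1) ∧ Ar R k (FreeGroup.mk u)) :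
    Vale.Agent.P186.IsHyperbolicGroup (PresentedGroup R) := by
  obtain ⟨C, hC⟩ := h1 L R hR A hA
  obtain ⟨δ, hδ⟩ := h2 _ _ C (h3 _ _ (gens_closure R)) hC
  exact ⟨gens R, gens_closure R, δ, hδ⟩

end Vale.Agent.P186.Hyp
end

section

/-!
P186, block HYP, parts S1 and S2: a fat geodesic side costs area (Stokes for `f dg`).

`X` is a set with an integer valued metric `d` in which points are joined by geodesics (the vertex
set of a connected graph).  `Pth d f g x y n s` : there is a discrete path of `n` steps from `x` to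
`y` along which the discrete line integral `∑ (f a + f b) (g b - g a)` is `s`.  `St d C` is the
Stokes form of a linear isoperimetric inequality: the line integral of a pair of `1`-Lipschitz
functions along every closed path of `n` steps is at most `C * (n + 1)`.
-/

namespace Vale.Agent.P186.Hyp

section

variable {X : Type*}

/-- one step of the line integral of `f dg` (doubled) -/
def om (f g : X → ℤ) (x y : X) : ℤ := (f x + f y) * (g y - g x)

/-- discrete paths with their line integral -/
inductive Pth (d : X → X → ℕ) (f g : X → ℤ) : X → X → ℕ → ℤ → Prop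
  | nil (x : X) : Pth d f g x x 0 0
  | cons (x x' y : X) (n : ℕ) (s : ℤ) : d x x' ≤ 1 → Pth d f g x' y n s →
      Pth d f g x y (n + 1) (om f g x x' + s)

/-- discrete walks all of whose vertices satisfy `Q` -/
inductive Wk (d : X → X → ℕ) (Q : X → Prop) : X → X → ℕ → Prop
  | nil (x : X) : Q x → Wk d Q x x 0
  | cons (x x' y : X) (n : ℕ) : Q x → d x x' ≤ 1 → Wk d Q x' y n → Wk d Q x y (n + 1)

/-- discrete geodesics -/
def Geo (d : X → X → ℕ) (p : ℕ → X) (n : ℕ) : Prop := ∀ i j, i ≤ j → j ≤ n → d (p i) (p j) = j - i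

/-- `1`-Lipschitz functions -/
def Lip (d : X → X → ℕ) (f : X → ℤ) : Prop := ∀ x y, d x y ≤ 1 → |f x - f y| ≤ 1

/-- Stokes form of the linear isoperimetric inequality -/
def St (d : X → X → ℕ) (C : ℕ) : Prop :=
  ∀ f g : X → ℤ, Lip d f → Lip d g → ∀ x n s, Pth d f g x x n s → |s| ≤ C * (n + 1)

variable {d : X → X → ℕ} {f g : X → ℤ}

theorem Pth.append {x y z : X} {n m : ℕ} {s t : ℤ} (h : Pth d f g x y n s)
    (h' : Pth d f g y z m t) : Pth d f g x z (n + m) (s + t) := by
  induction h with
  | nil x => simpa using h'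
  | cons x x' y n s hd _ ih =>
    have h1 := Pth.cons (f := f) (g := g) x x' z (n + m) (s + t) hd (ih h')
    have e1 : n + 1 + m = n + m + 1 := by omega
    have e2 : om f g x x' + s + t = om f g x x' + (s + t) := by ring
    rw [e1, e2]
    exact h1

theorem Pth.single {x y : X} (h : d x y ≤ 1) : Pth d f g x y 1 (om f g x y) := by
  have := Pth.cons (f := f) (g := g) x y y 0 0 h (Pth.nil y)
  simpa using this

theorem Wk.append {Q : X → Prop} {x y z : X} {n m : ℕ} (h : Wk d Q x y n)
    (h' : Wk d Q y z m) : Wk d Q x z (n + m) := by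
  induction h with
  | nil x _ => simpa using h'
  | cons x x' y n hq hd _ ih =>
    have h1 := Wk.cons (Q := Q) x x' z (n + m) hq hd (ih h')
    have e1 : n + 1 + m = n + m + 1 := by omega
    rw [e1]
    exact h1

theorem Wk.head {Q : X → Prop} {x y : X} {n : ℕ} (h : Wk d Q x y n) : Q x := by
  cases h <;> assumption

theorem Wk.last {Q : X → Prop} {x y : X} {n : ℕ} (h : Wk d Q x y n) : Q y := by
  induction h with
  | nil x h => exact h
  | cons _ _ _ _ _ _ _ ih => exact ih

theorem Wk.mono {Q Q' : X → Prop} (hQ : ∀ x, Q x → Q' x) {x y : X} {n : ℕ} (h : Wk d Q x y n) :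
    Wk d Q' x y n := by
  induction h with
  | nil x h => exact Wk.nil x (hQ x h)
  | cons x x' y n hq hd _ ih => exact Wk.cons x x' y n (hQ x hq) hd ih

theorem Wk.symm (hs : ∀ x y, d x y = d y x) {Q : X → Prop} {x y : X} {n : ℕ}
    (h : Wk d Q x y n) : Wk d Q y x n := by
  induction h with
  | nil x h => exact Wk.nil x h
  | cons x x' y n hq hd hw ih =>
    have h1 : Wk d Q x' x 1 := by
      refine Wk.cons x' x x 0 hw.head ?_ (Wk.nil x hq)
      rw [hs]; exact hd
    exact ih.append h1

/-- a walk on which `f` vanishes has line integral zero -/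
theorem Wk.toPth {Q : X → Prop} (hf : ∀ x, Q x → f x = 0) {x y : X} {n : ℕ}
    (h : Wk d Q x y n) : Pth d f g x y n 0 := by
  induction h with
  | nil x _ => exact Pth.nil x
  | cons x x' y n hq hd hw ih =>
    have h1 := Pth.cons (f := f) (g := g) x x' y n 0 hd ih
    have e : om f g x x' + 0 = 0 := by
      unfold om
      rw [hf x hq, hf x' hw.head]
      simp
    rw [e] at h1
    exact h1

/-- pieces of a discrete geodesic as walks -/
theorem Geo.wk {p : ℕ → X} {n : ℕ} (hp : Geo d p n) {i : ℕ} (k : ℕ) (hk : i + k ≤ n) :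
    Wk d (fun x => ∃ l, i ≤ l ∧ l ≤ i + k ∧ x = p l) (p i) (p (i + k)) k := by
  induction k with
  | zero => exact Wk.nil _ ⟨i, le_refl _, le_refl _, rfl⟩
  | succ k ih =>
    have h1 := (ih (by omega)).mono (Q' := fun x => ∃ l, i ≤ l ∧ l ≤ i + (k + 1) ∧ x = p l)
      (fun x hx => by
        obtain ⟨l, h1, h2, h3⟩ := hx
        exact ⟨l, h1, by omega, h3⟩)
    have h2 : Wk d (fun x => ∃ l, i ≤ l ∧ l ≤ i + (k + 1) ∧ x = p l) (p (i + k))
        (p (i + (k + 1))) 1 := by
      refine Wk.cons _ _ _ 0 ⟨i + k, by omega, by (clear * -; omega), rfl⟩ ?_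
        (Wk.nil _ ⟨i + (k + 1), by omega, le_refl _, rfl⟩)
      rw [hp (i + k) (i + (k + 1)) (by omega) hk]
      (clear * -; omega)
    exact h1.append h2

/-- the cut-off function: `ρ - d (x, {p a, ..., p b})`, truncated at `0` -/
def cut (d : X → X → ℕ) (p : ℕ → X) (a b ρ : ℕ) (x : X) : ℕ :=
  (Finset.Icc a b).sup (fun i => ρ - d x (p i))

theorem cut_lip (hs : ∀ x y, d x y = d y x) (ht : ∀ x y z, d x z ≤ d x y + d y z)
    (p : ℕ → X) (a b ρ : ℕ) : Lip d (fun x => (cut d p a b ρ x : ℤ)) := by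
  have key : ∀ x y, d x y ≤ 1 → cut d p a b ρ x ≤ cut d p a b ρ y + 1 := by
    intro x y h
    unfold cut
    refine Finset.sup_le ?_
    intro i hi
    have h1 : ρ - d y (p i) ≤ (Finset.Icc a b).sup (fun i => ρ - d y (p i)) :=
      Finset.le_sup (f := fun i => ρ - d y (p i)) hi
    have h2 := ht y x (p i)
    have h3 := hs x y
    (clear * - h h1 h2 h3; omega)
  intro x y h
  have h1 := key x y h
  have h2 := key y x (by rw [hs]; exact h)
  simp only
  rw [abs_le]
  constructor <;> omega

theorem dist_lip (hs : ∀ x y, d x y = d y x) (ht : ∀ x y z, d x z ≤ d x y + d y z)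
    (u : X) : Lip d (fun x => (d u x : ℤ)) := by
  intro x y h
  have h1 := ht u x y
  have h2 := ht u y x
  have h3 := hs x y
  simp only
  rw [abs_le]
  constructor <;> omega

/-- the line integral along a geodesic against the distance from its origin -/
theorem Geo.pth {p : ℕ → X} {n : ℕ} (hp : Geo d p n) (k : ℕ) (hk : k ≤ n) :
    Pth d f (fun x => (d (p 0) x : ℤ)) (p 0) (p k) k
      (∑ i ∈ Finset.range k, (f (p i) + f (p (i + 1)))) := by
  induction k with
  | zero => simpa using Pth.nil (p 0)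
  | succ k ih =>
    have h1 := ih (by omega)
    have h2 : Pth d f (fun x => (d (p 0) x : ℤ)) (p k) (p (k + 1)) 1
        (om f (fun x => (d (p 0) x : ℤ)) (p k) (p (k + 1))) := by
      refine Pth.single ?_
      rw [hp k (k + 1) (by omega) hk]
      omega
    have e : om f (fun x => (d (p 0) x : ℤ)) (p k) (p (k + 1)) = f (p k) + f (p (k + 1)) := by
      unfold om
      simp only
      rw [hp 0 k (by omega) (by omega), hp 0 (k + 1) (by omega) hk]
      push_cast
      simp only [tsub_zero, add_sub_cancel_left, mul_one]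
    rw [e] at h2
    rw [Finset.sum_range_succ]
    exact h1.append h2

/-- **(S2)** a geodesic side with a fat segment `[a, b]` costs area `ρ (b - a)` -/
theorem fat_side (hs : ∀ x y, d x y = d y x) (h0 : ∀ x, d x x = 0)
    (ht : ∀ x y z, d x z ≤ d x y + d y z) {C : ℕ} (hSt : St d C) {p : ℕ → X} {L : ℕ}
    (hp : Geo d p L) {a b ρ P : ℕ} (hb : b ≤ L)
    (hγ : Wk d (fun x => ∀ i, a ≤ i → i ≤ b → ρ ≤ d x (p i)) (p L) (p 0) P) :
    2 * ρ * (b - a) ≤ C * (L + P + 1) := by
  set f : X → ℤ := fun x => (cut d p a b ρ x : ℤ) with hf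
  have h1 := hp.pth (f := f) L le_rfl
  have h2 : Pth d f (fun x => (d (p 0) x : ℤ)) (p L) (p 0) P 0 := by
    refine hγ.toPth ?_
    intro x hx
    have : cut d p a b ρ x = 0 := by
      unfold cut
      refine Nat.eq_zero_of_le_zero (Finset.sup_le ?_)
      intro i hi
      rw [Finset.mem_Icc] at hi
      have := hx i hi.1 hi.2
      omega
    simp [hf, this]
  have h3 := hSt f _ (cut_lip hs ht p a b ρ) (dist_lip hs ht (p 0)) (p 0) (L + P) _ (h1.append h2)
  have hmid : ∀ i, a ≤ i → i ≤ b → f (p i) ≥ ρ := by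
    intro i hi1 hi2
    have : ρ ≤ cut d p a b ρ (p i) := by
      unfold cut
      have h4 : ρ - d (p i) (p i) ≤ (Finset.Icc a b).sup (fun j => ρ - d (p i) (p j)) :=
        Finset.le_sup (f := fun j => ρ - d (p i) (p j)) (Finset.mem_Icc.mpr ⟨hi1, hi2⟩)
      rw [h0] at h4
      simpa only [ge_iff_le, tsub_zero] using h4
    simp only [hf]
    exact_mod_cast this
  have hnn : ∀ x, 0 ≤ f x := by
    intro x
    simp only [hf, Nat.cast_nonneg]
  have h5 : ((2 * ρ * (b - a) : ℕ) : ℤ) ≤
      ∑ i ∈ Finset.range L, (f (p i) + f (p (i + 1))) := by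
    have h6 : ∑ i ∈ Finset.Ico a b, (2 * ρ : ℤ) ≤
        ∑ i ∈ Finset.Ico a b, (f (p i) + f (p (i + 1))) := by
      refine Finset.sum_le_sum ?_
      intro i hi
      rw [Finset.mem_Ico] at hi
      have := hmid i hi.1 (by omega)
      have := hmid (i + 1) (by omega) (by omega)
      linarith
    have h7 : ∑ i ∈ Finset.Ico a b, (f (p i) + f (p (i + 1))) ≤
        ∑ i ∈ Finset.range L, (f (p i) + f (p (i + 1))) := by
      refine Finset.sum_le_sum_of_subset_of_nonneg ?_ ?_
      · intro i hi
        rw [Finset.mem_Ico] at hi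
        rw [Finset.mem_range]
        omega
      · intro i _ _
        have := hnn (p i)
        have := hnn (p (i + 1))
        (clear hs h0 ht C hSt hp P hb hγ h1 h2 h3 hmid h6; linarith)
    rw [Finset.sum_const, Nat.card_Ico] at h6
    have h8 : ((2 * ρ * (b - a) : ℕ) : ℤ) = (b - a) • (2 * ρ : ℤ) := by
      rw [nsmul_eq_mul]
      push_cast
      ring
    rw [h8]
    exact h6.trans h7
  have h9 : ((2 * ρ * (b - a) : ℕ) : ℤ) ≤ ((C * (L + P + 1) : ℕ) : ℤ) := by
    refine h5.trans ?_
    have := le_abs_self (∑ i ∈ Finset.range L, (f (p i) + f (p (i + 1))) + 0)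
    push_cast at h3 ⊢
    linarith
  exact_mod_cast h9

end

end Vale.Agent.P186.Hyp
end

section

/-!
P186, block HYP, part S1: the linear isoperimetric inequality in Stokes form, and `StokesStmt`.

For `1`-Lipschitz functions `f`, `g` on the presented group the line integral of `f dg` along a word
is invariant under free reduction, hence it is the sum of the integrals along the relators of an
expression, each of which is at most the square of the length of the relator.
-/

namespace Vale.Agent.P186.Hyp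

/-! ## The word metric -/

section

variable {G : Type*} [Group G] {S : Finset G}

theorem st_path (hS : Subgroup.closure (S : Set G) = ⊤) (x y : G) :
    PathLen S x y (wordDist S x y) := by
  have h : (x⁻¹ * y) ∈ Submonoid.closure ((S : Set G) ∪ (S : Set G)⁻¹) := by
    rw [← Subgroup.closure_toSubmonoid, hS]; trivial
  obtain ⟨l, hl, hp⟩ := Submonoid.exists_list_of_mem_closure h
  have hne : {n | PathLen S x y n}.Nonempty := by
    refine ⟨l.length, l, rfl, ?_, ?_⟩
    · intro z hz
      simpa only [Set.mem_union, SetLike.mem_coe, Set.mem_inv] using hl z hz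
    · rw [hp]; group
  exact Nat.sInf_mem hne

theorem st_le {x y : G} {n : ℕ} (h : PathLen S x y n) : wordDist S x y ≤ n := Nat.sInf_le h

theorem st_self (x : G) : wordDist S x x = 0 :=
  Nat.eq_zero_of_le_zero (st_le ⟨[], rfl, by simp only [List.not_mem_nil, IsEmpty.forall_iff, implies_true], by simp⟩)

theorem st_symm_le (hS : Subgroup.closure (S : Set G) = ⊤) (x y : G) :
    wordDist S y x ≤ wordDist S x y := by
  obtain ⟨l, h1, h2, h3⟩ := st_path hS x y
  refine st_le ⟨(l.map (fun a => a⁻¹)).reverse, by simp [h1], ?_, ?_⟩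
  · intro z hz
    rw [List.mem_reverse, List.mem_map] at hz
    obtain ⟨a, ha, rfl⟩ := hz
    rw [inv_inv]
    exact (h2 a ha).symm
  · rw [← h3, ← List.prod_inv_reverse]
    simp

theorem st_symm (hS : Subgroup.closure (S : Set G) = ⊤) (x y : G) :
    wordDist S x y = wordDist S y x :=
  le_antisymm (st_symm_le hS y x) (st_symm_le hS x y)

theorem st_triangle (hS : Subgroup.closure (S : Set G) = ⊤) (x y z : G) :
    wordDist S x z ≤ wordDist S x y + wordDist S y z := by
  obtain ⟨l, h1, h2, h3⟩ := st_path hS x y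
  obtain ⟨l', h1', h2', h3'⟩ := st_path hS y z
  refine st_le ⟨l ++ l', by simp [h1, h1'], ?_, ?_⟩
  · intro a ha
    rw [List.mem_append] at ha
    rcases ha with ha | ha
    · exact h2 a ha
    · exact h2' a ha
  · rw [List.prod_append, ← mul_assoc, h3, h3']

end

/-! ## The line integral of words -/

section

variable {L : Type} {R : Set (FreeGroup L)}

/-- value of a word -/
def evl (R : Set (FreeGroup L)) (l : List (L × Bool)) : PresentedGroup R :=
  PresentedGroup.mk R (FreeGroup.mk l)

theorem evl_nil : evl R [] = 1 := by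
  unfold evl
  rw [← FreeGroup.one_eq_mk, map_one]

theorem evl_append (l l' : List (L × Bool)) : evl R (l ++ l') = evl R l * evl R l' := by
  unfold evl
  rw [← FreeGroup.mul_mk, map_mul]

/-- line integral along the word `l` read from `x` -/
def Jl (f g : PresentedGroup R → ℤ) : List (L × Bool) → PresentedGroup R → ℤ
  | [], _ => 0
  | a :: l, x => om f g x (x * evl R [a]) + Jl f g l (x * evl R [a])

theorem Jl_append (f g : PresentedGroup R → ℤ) (l l' : List (L × Bool)) (x : PresentedGroup R) :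
    Jl f g (l ++ l') x = Jl f g l x + Jl f g l' (x * evl R l) := by
  induction l generalizing x with
  | nil => simp only [List.nil_append, Jl, evl_nil, mul_one, zero_add]
  | cons a l ih =>
    have h : evl R (a :: l) = evl R [a] * evl R l := evl_append [a] l
    simp only [List.cons_append, Jl]
    rw [ih, h]
    rw [mul_assoc]
    ring

theorem om_antisymm {X : Type*} (f g : X → ℤ) (x y : X) : om f g x y + om f g y x = 0 := by
  unfold om; ring

theorem evl_inv (a : L) (b : Bool) : evl R [(a, b)] * evl R [(a, !b)] = 1 := by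
  rw [← evl_append]
  unfold evl
  have : FreeGroup.mk ([(a, b)] ++ [(a, !b)]) = (1 : FreeGroup L) := by
    rw [FreeGroup.one_eq_mk]
    exact Quot.sound (FreeGroup.Red.Step.not (L₁ := []) (L₂ := []) (x := a) (b := b))
  rw [this, map_one]

theorem Jl_step (f g : PresentedGroup R → ℤ) {l l' : List (L × Bool)}
    (h : FreeGroup.Red.Step l l') (x : PresentedGroup R) : Jl f g l x = Jl f g l' x := by
  cases h with
  | @not l1 l2 a b =>
    rw [Jl_append, Jl_append]
    congr 1
    simp only [Jl]
    rw [mul_assoc (x * evl R l1), evl_inv, mul_one]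
    have h1 := om_antisymm f g (x * evl R l1) (x * evl R l1 * evl R [(a, b)])
    linarith only [h1]

theorem Jl_congr (f g : PresentedGroup R → ℤ) {l l' : List (L × Bool)}
    (h : FreeGroup.mk l = FreeGroup.mk l') (x : PresentedGroup R) : Jl f g l x = Jl f g l' x := by
  rw [FreeGroup.Red.exact] at h
  obtain ⟨m, h1, h2⟩ := h
  have key : ∀ l m : List (L × Bool), FreeGroup.Red l m → Jl f g l x = Jl f g m x := by
    intro l m h
    induction h with
    | refl => rfl
    | tail _ hs ih => rw [ih, Jl_step f g hs x]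
  rw [key _ _ h1, key _ _ h2]

theorem evl_eq {l : List (L × Bool)} {u : FreeGroup L} (h : FreeGroup.mk l = u) :
    evl R l = PresentedGroup.mk R u := by rw [← h]; rfl

/-- the integral along a word and back vanishes -/
theorem Jl_inv (f g : PresentedGroup R → ℤ) {l l' : List (L × Bool)}
    (h : FreeGroup.mk l' = (FreeGroup.mk l)⁻¹) (x : PresentedGroup R) :
    Jl f g l' (x * evl R l) = - Jl f g l x := by
  have h1 : FreeGroup.mk (l ++ l') = FreeGroup.mk [] := by
    rw [← FreeGroup.mul_mk, h, mul_inv_cancel, FreeGroup.one_eq_mk]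
  have h2 := Jl_congr f g h1 x
  rw [Jl_append] at h2
  simp only [Jl] at h2
  linarith only [h2]

/-- the line integral along a word of length `m` is close to the exact differential `2 c dg` -/
theorem Jl_near (f g : PresentedGroup R → ℤ)
    (hf : ∀ x a, |f x - f (x * evl R [a])| ≤ 1) (hg : ∀ x a, |g x - g (x * evl R [a])| ≤ 1)
    (c : ℤ) (l : List (L × Bool)) (x : PresentedGroup R) (t : ℤ) (ht : |f x - c| ≤ t) :
    |Jl f g l x - 2 * c * (g (x * evl R l) - g x)| ≤ l.length * (2 * t + l.length) := by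
  induction l generalizing x t with
  | nil => simp [Jl, evl_nil]
  | cons a l ih =>
    have h : evl R (a :: l) = evl R [a] * evl R l := evl_append [a] l
    have h1 : |f (x * evl R [a]) - c| ≤ t + 1 := by
      have := hf x a
      rw [abs_le] at this ht ⊢
      constructor <;> linarith only [ht, this]
    have h2 := ih (x * evl R [a]) (t + 1) h1
    have h3 : |om f g x (x * evl R [a]) - 2 * c * (g (x * evl R [a]) - g x)| ≤ 2 * t + 1 := by
      have e : om f g x (x * evl R [a]) - 2 * c * (g (x * evl R [a]) - g x) =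
          ((f x - c) + (f (x * evl R [a]) - c)) * (g (x * evl R [a]) - g x) := by
        unfold om; ring
      rw [e, abs_mul]
      have h4 : |(f x - c) + (f (x * evl R [a]) - c)| ≤ 2 * t + 1 :=
        (abs_add_le _ _).trans (by linarith only [ht, h1])
      have h5 : |g (x * evl R [a]) - g x| ≤ 1 := by rw [abs_sub_comm]; exact hg x a
      have h6 : 0 ≤ 2 * t + 1 := (abs_nonneg _).trans h4
      calc |(f x - c) + (f (x * evl R [a]) - c)| * |g (x * evl R [a]) - g x|
          ≤ (2 * t + 1) * 1 := mul_le_mul h4 h5 (abs_nonneg _) h6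
        _ = 2 * t + 1 := by ring
    have e : Jl f g (a :: l) x - 2 * c * (g (x * evl R (a :: l)) - g x) =
        (om f g x (x * evl R [a]) - 2 * c * (g (x * evl R [a]) - g x)) +
        (Jl f g l (x * evl R [a]) -
          2 * c * (g (x * evl R [a] * evl R l) - g (x * evl R [a]))) := by
      rw [h, ← mul_assoc]
      simp only [Jl]
      ring
    rw [e]
    refine (abs_add_le _ _).trans ((add_le_add h3 h2).trans (le_of_eq ?_))
    simp only [List.length_cons]
    push_cast
    ring

/-- bound for a closed word -/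
theorem Jl_closed (f g : PresentedGroup R → ℤ)
    (hf : ∀ x a, |f x - f (x * evl R [a])| ≤ 1) (hg : ∀ x a, |g x - g (x * evl R [a])| ≤ 1)
    (l : List (L × Bool)) (hl : evl R l = 1) (x : PresentedGroup R) :
    |Jl f g l x| ≤ (l.length : ℤ) * l.length := by
  have := Jl_near f g hf hg (f x) l x 0 (by simp)
  rw [hl, mul_one, sub_self, mul_zero, sub_zero, mul_zero, zero_add] at this
  exact this

theorem Jl_area [DecidableEq L] (f g : PresentedGroup R → ℤ)
    (hf : ∀ x a, |f x - f (x * evl R [a])| ≤ 1) (hg : ∀ x a, |g x - g (x * evl R [a])| ≤ 1)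
    (B : ℤ) (hB : ∀ r ∈ R, ((r.toWord.length : ℤ) * r.toWord.length) ≤ B)
    {k : ℕ} {u : FreeGroup L} (h : Ar R k u) :
    ∀ l, FreeGroup.mk l = u → PresentedGroup.mk R u = 1 ∧ ∀ x, |Jl f g l x| ≤ k * B := by
  have hR : ∀ r ∈ R, PresentedGroup.mk R r = 1 := fun r hr =>
    (QuotientGroup.eq_one_iff r).mpr (Subgroup.subset_normalClosure hr)
  -- one conjugate of a word with value one
  have conj : ∀ (k : ℕ) (u v r : FreeGroup L) (lr : List (L × Bool)), FreeGroup.mk lr = r →
      PresentedGroup.mk R r = 1 → (∀ y, |Jl f g lr y| ≤ B) →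
      (∀ l, FreeGroup.mk l = u → PresentedGroup.mk R u = 1 ∧ ∀ x, |Jl f g l x| ≤ k * B) →
      ∀ l, FreeGroup.mk l = v * r * v⁻¹ * u →
        PresentedGroup.mk R (v * r * v⁻¹ * u) = 1 ∧ ∀ x, |Jl f g l x| ≤ (k + 1 : ℕ) * B := by
    intro k u v r lr hlr hr hb ih l hl
    obtain ⟨h1, h2⟩ := ih u.toWord FreeGroup.mk_toWord
    constructor
    · rw [map_mul, map_mul, map_mul, hr, h1, mul_one, mul_one, map_inv, mul_inv_cancel]
    · intro x
      have e : FreeGroup.mk l =
          FreeGroup.mk (((v.toWord ++ lr) ++ (v⁻¹).toWord) ++ u.toWord) := by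
        rw [← FreeGroup.mul_mk, ← FreeGroup.mul_mk, ← FreeGroup.mul_mk, FreeGroup.mk_toWord,
          FreeGroup.mk_toWord, FreeGroup.mk_toWord, hlr, hl]
      rw [Jl_congr f g e x, Jl_append, Jl_append, Jl_append]
      have e1 : evl R lr = 1 := by rw [evl_eq hlr, hr]
      have e2 : evl R (v.toWord ++ lr) = evl R v.toWord := by rw [evl_append, e1, mul_one]
      have e3 : Jl f g (v⁻¹).toWord (x * evl R v.toWord) = - Jl f g v.toWord x := by
        refine Jl_inv f g ?_ x
        rw [FreeGroup.mk_toWord, FreeGroup.mk_toWord]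
      rw [e2, e3]
      have h3 := hb (x * evl R v.toWord)
      have h4 := h2 (x * evl R (v.toWord ++ lr ++ (v⁻¹).toWord))
      rw [abs_le] at h3 h4 ⊢
      push_cast
      constructor <;> linarith
  induction h with
  | nil =>
    intro l hl
    refine ⟨map_one _, fun x => ?_⟩
    have : Jl f g l x = 0 := by
      rw [Jl_congr f g (l' := []) (by rw [hl, FreeGroup.one_eq_mk]) x]
      rfl
    simp [this]
  | cons k u v r hr _ ih =>
    refine conj k u v r r.toWord FreeGroup.mk_toWord (hR r hr) ?_ ih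
    intro y
    refine (Jl_closed f g hf hg _ ?_ y).trans (hB r hr)
    rw [evl_eq FreeGroup.mk_toWord, hR r hr]
  | cons' k u v r hr _ ih =>
    refine conj k u v r⁻¹ (r⁻¹).toWord FreeGroup.mk_toWord (by rw [map_inv, hR r hr, inv_one]) ?_ ih
    intro y
    refine (Jl_closed f g hf hg _ ?_ y).trans ?_
    · rw [evl_eq FreeGroup.mk_toWord, map_inv, hR r hr, inv_one]
    · rw [FreeGroup.toWord_inv, FreeGroup.invRev_length]
      exact hB r hr

/-- a step of the word metric is a letter or trivial -/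
theorem step_letter [Fintype L] {x y : PresentedGroup R} (h : wordDist (gens R) x y ≤ 1) :
    x = y ∨ ∃ a : L × Bool, y = x * evl R [a] := by
  classical
  obtain ⟨l, h1, h2, h3⟩ := st_path (gens_closure R) x y
  have hl : l.length ≤ 1 := by omega
  match l, hl with
  | [], _ => left; simpa using h3
  | [z], _ =>
    right
    have hz := h2 z (by simp)
    have hg : ∀ z : PresentedGroup R, z ∈ gens R → ∃ a : L, z = evl R [(a, true)] := by
      intro z hz
      unfold gens at hz
      rw [Finset.mem_image] at hz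
      obtain ⟨a, _, rfl⟩ := hz
      exact ⟨a, rfl⟩
    have h3' : y = x * z := by simpa only [List.prod_cons, List.prod_nil, mul_one] using h3.symm
    rcases hz with hz | hz
    · obtain ⟨a, ha⟩ := hg z hz
      exact ⟨(a, true), by rw [h3', ha]⟩
    · obtain ⟨a, ha⟩ := hg _ hz
      refine ⟨(a, false), ?_⟩
      have h4 := evl_inv (R := R) a true
      simp only [Bool.not_true] at h4
      have h5 : z = (z⁻¹)⁻¹ := (inv_inv z).symm
      rw [h3', h5, ha, inv_eq_of_mul_eq_one_right h4]
  | _ :: _ :: _, hl => simp only [List.length_cons, add_le_iff_nonpos_left, nonpos_iff_eq_zero, Nat.add_eq_zero_iff, List.length_eq_zero_iff, one_ne_zero, and_false] at hl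

theorem letter_step [Fintype L] (x : PresentedGroup R) (a : L × Bool) :
    wordDist (gens R) x (x * evl R [a]) ≤ 1 := by
  classical
  refine st_le ⟨[evl R [a]], rfl, ?_, by simp⟩
  intro z hz
  rw [List.mem_singleton] at hz
  subst hz
  have hg : ∀ a : L, evl R [(a, true)] ∈ gens R := by
    intro a
    unfold gens
    rw [Finset.mem_image]
    exact ⟨a, Finset.mem_univ _, rfl⟩
  obtain ⟨a, b⟩ := a
  cases b
  · right
    have h4 := evl_inv (R := R) a false
    simp only [Bool.not_false] at h4
    rw [inv_eq_of_mul_eq_one_right h4]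
    exact hg a
  · left
    exact hg a

theorem Pth.word [Fintype L] {f g : PresentedGroup R → ℤ} {x y : PresentedGroup R} {n : ℕ} {s : ℤ}
    (h : Pth (wordDist (gens R)) f g x y n s) :
    ∃ l : List (L × Bool), l.length ≤ n ∧ y = x * evl R l ∧ Jl f g l x = s := by
  induction h with
  | nil x => exact ⟨[], le_rfl, by rw [evl_nil, mul_one], rfl⟩
  | cons x x' y n s hd _ ih =>
    obtain ⟨l, h1, h2, h3⟩ := ih
    rcases step_letter hd with rfl | ⟨a, rfl⟩
    · refine ⟨l, by omega, h2, ?_⟩
      rw [h3]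
      unfold om
      ring
    · refine ⟨a :: l, by simp only [List.length_cons, add_le_add_iff_right, h1], ?_, ?_⟩
      · rw [h2]
        have h : evl R (a :: l) = evl R [a] * evl R l := evl_append [a] l
        rw [h, mul_assoc]
      · simp only [Jl]
        rw [h3]

/-- **(S1)** the linear isoperimetric inequality in Stokes form -/
theorem st_of_linear [Fintype L] (hR : R.Finite) (A : ℕ)
    (hA : ∀ u : List (L × Bool), PresentedGroup.mk R (FreeGroup.mk u) = 1 →
      ∃ k, k ≤ A * (u.length + 1) ∧ Ar R k (FreeGroup.mk u)) :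
    ∃ C : ℕ, St (wordDist (gens R)) C := by
  classical
  obtain ⟨B, hB⟩ : ∃ B : ℕ, ∀ r ∈ R, r.toWord.length * r.toWord.length ≤ B := by
    refine ⟨∑ r ∈ hR.toFinset, r.toWord.length * r.toWord.length, ?_⟩
    intro r hr
    exact Finset.single_le_sum (f := fun r : FreeGroup L => r.toWord.length * r.toWord.length)
      (fun _ _ => Nat.zero_le _) (hR.mem_toFinset.mpr hr)
  refine ⟨A * B, ?_⟩
  intro f g hf hg x n s h
  obtain ⟨l, h1, h2, h3⟩ := h.word
  have h4 : evl R l = 1 := by
    have : x * evl R l = x * 1 := by rw [← h2, mul_one]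
    exact mul_left_cancel this
  obtain ⟨k, hk, har⟩ := hA l h4
  have h5 := (Jl_area f g (fun x a => hf _ _ (letter_step x a)) (fun x a => hg _ _ (letter_step x a))
    (B : ℤ) (fun r hr => by exact_mod_cast hB r hr) har l rfl).2 x
  rw [h3] at h5
  refine h5.trans ?_
  have h6 : k * B ≤ A * B * (n + 1) := by
    calc k * B ≤ A * (l.length + 1) * B := Nat.mul_le_mul_right B hk
      _ ≤ A * (n + 1) * B := Nat.mul_le_mul_right B (Nat.mul_le_mul_left A (by omega))
      _ = A * B * (n + 1) := by ring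
  exact_mod_cast h6

theorem wk_of_fun {X : Type*} {d : X → X → ℕ} {Q : X → Prop} (w : ℕ → X) (n : ℕ)
    (hw : ∀ i < n, d (w i) (w (i + 1)) ≤ 1) (hQ : ∀ j ≤ n, Q (w j)) (k : ℕ) (hk : k ≤ n) :
    Wk d Q (w 0) (w k) k := by
  induction k with
  | zero => exact Wk.nil _ (hQ 0 (Nat.zero_le _))
  | succ k ih =>
    exact (ih (by omega)).append (Wk.cons _ _ _ 0 (hQ k (by omega)) (hw k (by omega))
      (Wk.nil _ (hQ (k + 1) hk)))

/-- **S1 + S2** -/
theorem stokes : StokesStmt := by
  intro L _ R hR A hA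
  obtain ⟨C, hC⟩ := st_of_linear hR A hA
  refine ⟨C, ?_⟩
  intro x y a l ha w n hw0 hwn hw R₀ i₀ i₁ h01 h1l hfar
  have hS := gens_closure R
  have h1 : Wk (wordDist (gens R)) (fun z => ∀ i, i₀ ≤ i → i ≤ i₁ → R₀ ≤ wordDist (gens R) z (a i))
      (w 0) (w n) n := by
    refine wk_of_fun w n hw ?_ n le_rfl
    intro j hj i hi1 hi2
    rw [st_symm hS]
    exact hfar i hi1 hi2 j hj
  rw [hw0, hwn, ← ha.start, ← ha.stop] at h1
  have h2 := fat_side (st_symm hS) st_self (st_triangle hS) hC (p := a) (L := l) ha.geod h1l h1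
  refine le_trans ?_ h2
  have : R₀ * (i₁ - i₀) ≤ 2 * (R₀ * (i₁ - i₀)) := by omega
  calc R₀ * (i₁ - i₀) ≤ 2 * (R₀ * (i₁ - i₀)) := this
    _ = 2 * R₀ * (i₁ - i₀) := by ring

end

end Vale.Agent.P186.Hyp
end

section

/-!
P186, block HYP, GROUP PART: a linear isoperimetric inequality for the presentation gives the
Stokes inequality for closed walks of the Cayley graph.
-/

namespace Vale.Agent.P186.Hyp

section

variable {L : Type} [Fintype L] {R : Set (FreeGroup L)}

/-- adjacent vertices of the Cayley graph differ by a letter -/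
theorem adj_letter {x y : PresentedGroup R}
    (h : (SimpleGraph.mulCayley (gens R : Set (PresentedGroup R))).Adj x y) :
    ∃ a : L × Bool, y = x * evl R [a] := by
  classical
  rw [SimpleGraph.mulCayley_adj'] at h
  obtain ⟨_, z, hz, h⟩ := h
  have hz' : ∃ a : L, z = evl R [(a, true)] := by
    rw [Finset.mem_coe] at hz
    unfold gens at hz
    rw [Finset.mem_image] at hz
    obtain ⟨a, _, rfl⟩ := hz
    exact ⟨a, rfl⟩
  obtain ⟨a, rfl⟩ := hz'
  rcases h with h | h
  · exact ⟨(a, true), h.symm⟩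
  · refine ⟨(a, false), ?_⟩
    have h4 := evl_inv (R := R) a true
    simp only [Bool.not_true] at h4
    rw [h, mul_assoc, h4, mul_one]

/-- a letter is an edge or a loop -/
theorem letter_adj (x : PresentedGroup R) (a : L × Bool) : x = x * evl R [a] ∨
    (SimpleGraph.mulCayley (gens R : Set (PresentedGroup R))).Adj x (x * evl R [a]) := by
  classical
  by_cases hx : x = x * evl R [a]
  · exact Or.inl hx
  right
  rw [SimpleGraph.mulCayley_adj']
  refine ⟨hx, ?_⟩
  have hg : ∀ a : L, evl R [(a, true)] ∈ (gens R : Set (PresentedGroup R)) := by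
    intro a
    rw [Finset.mem_coe]
    unfold gens
    rw [Finset.mem_image]
    exact ⟨a, Finset.mem_univ _, rfl⟩
  obtain ⟨a, b⟩ := a
  cases b
  · refine ⟨evl R [(a, true)], hg a, Or.inr ?_⟩
    have h4 := evl_inv (R := R) a false
    simp only [Bool.not_false] at h4
    rw [mul_assoc, h4, mul_one]
  · exact ⟨evl R [(a, true)], hg a, Or.inl rfl⟩

theorem walk_word (f g : PresentedGroup R → ℤ) {x y : PresentedGroup R}
    (c : (SimpleGraph.mulCayley (gens R : Set (PresentedGroup R))).Walk x y) :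
    ∃ l : List (L × Bool), l.length = c.length ∧ y = x * evl R l ∧
      Jl f g l x = (c.darts.map (fun d => (f d.fst + f d.snd) * (g d.snd - g d.fst))).sum := by
  induction c with
  | nil => exact ⟨[], rfl, by rw [evl_nil, mul_one], by simp [Jl]⟩
  | @cons x y z h c ih =>
    obtain ⟨l, h1, h2, h3⟩ := ih
    obtain ⟨a, ha⟩ := adj_letter h
    have he : evl R (a :: l) = evl R [a] * evl R l := evl_append [a] l
    refine ⟨a :: l, by simp [h1], ?_, ?_⟩
    · rw [he, ← mul_assoc, ← ha, ← h2]
    · simp only [Jl, SimpleGraph.Walk.darts_cons, List.map_cons, List.sum_cons]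
      rw [← ha, h3]
      rfl

end

/-- **GROUP PART** -/
theorem lin : LinStmt := by
  classical
  intro L _ R hR A hA
  obtain ⟨B, hB⟩ : ∃ B : ℕ, ∀ r ∈ R, r.toWord.length * r.toWord.length ≤ B := by
    refine ⟨∑ r ∈ hR.toFinset, r.toWord.length * r.toWord.length, ?_⟩
    intro r hr
    exact Finset.single_le_sum (f := fun r : FreeGroup L => r.toWord.length * r.toWord.length)
      (fun _ _ => Nat.zero_le _) (hR.mem_toFinset.mpr hr)
  refine ⟨2 * (A * B), ?_⟩
  intro f g hf hg x c
  obtain ⟨l, h1, h2, h3⟩ := walk_word f g c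
  rw [← h3]
  have h4 : evl R l = 1 := by
    have : x * evl R l = x * 1 := by rw [← h2, mul_one]
    exact mul_left_cancel this
  have lipf : ∀ (f : PresentedGroup R → ℤ), (∀ u v, (SimpleGraph.mulCayley
      (gens R : Set (PresentedGroup R))).Adj u v → |f u - f v| ≤ 1) →
      ∀ x a, |f x - f (x * evl R [a])| ≤ 1 := by
    intro f hf x a
    rcases letter_adj x a with h | h
    · rw [← h]; simp only [sub_self, abs_zero, zero_le_one]
    · exact hf _ _ h
  rcases Nat.eq_zero_or_pos l.length with h0 | hpos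
  · have : l = [] := List.length_eq_zero_iff.mp h0
    subst this
    have h5 : Jl f g [] x = 0 := rfl
    rw [h5, abs_zero]
    (clear * -; positivity)
  · obtain ⟨k, hk, har⟩ := hA l h4
    have h5 := (Jl_area f g (lipf f hf) (lipf g hg) (B : ℤ)
      (fun r hr => by exact_mod_cast hB r hr) har l rfl).2 x
    refine h5.trans ?_
    have h6 : k * B ≤ 2 * (A * B) * c.length := by
      rw [← h1]
      calc k * B ≤ A * (l.length + 1) * B := Nat.mul_le_mul_right B hk
        _ ≤ A * (2 * l.length) * B := Nat.mul_le_mul_right B (Nat.mul_le_mul_left A (by omega))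
        _ = 2 * (A * B) * l.length := by ring
    exact_mod_cast h6

end Vale.Agent.P186.Hyp
end

section

/-!
P186, block HYP, graph part: a graph in which all closed walks satisfy the linear Stokes inequality
has thin geodesic triangles.
-/

namespace Vale.Agent.P186.HypG

open SimpleGraph

universe u

variable {V : Type u} {Γ : SimpleGraph V}

/-- Stokes sum `∑ (f + f') (g' - g)` along a walk. -/
def St (f g : V → ℤ) {x y : V} (w : Γ.Walk x y) : ℤ :=
  (w.darts.map (fun d => (f d.fst + f d.snd) * (g d.snd - g d.fst))).sum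

/-- The linear Stokes inequality for all closed walks. -/
def StokesIneq (Γ : SimpleGraph V) (C : ℕ) : Prop :=
  ∀ f g : V → ℤ, (∀ u v, Γ.Adj u v → |f u - f v| ≤ 1) → (∀ u v, Γ.Adj u v → |g u - g v| ≤ 1) →
    ∀ (x : V) (c : Γ.Walk x x), |St f g c| ≤ C * c.length

@[simp] theorem St_nil (f g : V → ℤ) (x : V) : St f g (Walk.nil : Γ.Walk x x) = 0 := by
  simp [St]

@[simp] theorem St_cons (f g : V → ℤ) {x y z : V} (h : Γ.Adj x y) (w : Γ.Walk y z) :
    St f g (Walk.cons h w) = (f x + f y) * (g y - g x) + St f g w := by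
  simp [St]

theorem St_append (f g : V → ℤ) {x y z : V} (w : Γ.Walk x y) (w' : Γ.Walk y z) :
    St f g (w.append w') = St f g w + St f g w' := by
  simp [St, Walk.darts_append]

theorem St_const (f g : V → ℤ) (m : ℤ) {x y : V} (w : Γ.Walk x y) (h : ∀ v ∈ w.support, f v = m) :
    St f g w = 2 * m * (g y - g x) := by
  induction w with
  | nil => simp
  | @cons a b c hab w ih =>
    rw [St_cons, ih (fun v hv => h v (by simp [hv])), h a (by simp only [Walk.support_cons, List.mem_cons, true_or]), h b (by simp)]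
    ring

theorem St_abs_le (f g : V → ℤ) (m : ℤ) (hm : 0 ≤ m) (hg : ∀ u v, Γ.Adj u v → |g u - g v| ≤ 1)
    {x y : V} (w : Γ.Walk x y) (h : ∀ v ∈ w.support, 0 ≤ f v ∧ f v ≤ m) :
    |St f g w| ≤ 2 * m * w.length := by
  induction w with
  | nil => simp
  | @cons a b c hab w ih =>
    have ih' := ih (fun v hv => h v (by simp [hv]))
    have h1 := h a (by simp only [Walk.support_cons, List.mem_cons, true_or])
    have h2 := h b (by simp)
    have h3 := hg b a hab.symm
    rw [St_cons, Walk.length_cons]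
    calc |(f a + f b) * (g b - g a) + St f g w| ≤ |(f a + f b) * (g b - g a)| + |St f g w| :=
          abs_add_le _ _
      _ ≤ 2 * m * 1 + 2 * m * w.length := by
          gcongr
          rw [abs_mul]
          have h4 : |f a + f b| ≤ 2 * m := by rw [abs_le]; constructor <;> linarith
          exact mul_le_mul h4 h3 (abs_nonneg _) (by linarith only [hm])
      _ = 2 * m * ((w.length + 1 : ℕ) : ℤ) := by push_cast; ring

/-- bump function of a finite set of vertices -/
noncomputable def bump (Γ : SimpleGraph V) (m : ℕ) (s : List V) (x : V) : ℕ :=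
  (s.map (fun y => m - Γ.dist x y)).foldr max 0

theorem le_bump (m : ℕ) (s : List V) (x y : V) (hy : y ∈ s) : m - Γ.dist x y ≤ bump Γ m s x := by
  unfold bump
  induction s with
  | nil => simp at hy
  | cons a s ih =>
    simp only [List.map_cons, List.foldr_cons]
    rcases List.mem_cons.1 hy with rfl | h
    · exact le_max_left _ _
    · exact (ih h).trans (le_max_right _ _)

theorem bump_le (m : ℕ) (s : List V) (x : V) (k : ℕ) (h : ∀ y ∈ s, m - Γ.dist x y ≤ k) :
    bump Γ m s x ≤ k := by
  unfold bump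
  induction s with
  | nil => simp only [List.map_nil, List.foldr_nil, zero_le]
  | cons a s ih =>
    simp only [List.map_cons, List.foldr_cons]
    exact max_le (h a (by simp)) (ih (fun y hy => h y (by simp [hy])))

theorem bump_lip (hc : Γ.Connected) (m : ℕ) (s : List V) (x x' : V) (h : Γ.Adj x x') :
    bump Γ m s x ≤ bump Γ m s x' + 1 := by
  apply bump_le
  intro y hy
  have h1 := le_bump (Γ := Γ) m s x' y hy
  have h2 : Γ.dist x' y ≤ Γ.dist x' x + Γ.dist x y := hc.dist_triangle
  have h3 : Γ.dist x' x = 1 := SimpleGraph.dist_eq_one_iff_adj.2 h.symm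
  omega

/-- Rectangle lemma. -/
theorem rect {C : ℕ} (hc : Γ.Connected) (hS : StokesIneq Γ C) (m : ℕ) {u v u' v' : V}
    (s : Γ.Walk u v) (hs : s.length = Γ.dist u v) (t : Γ.Walk v v') (w : Γ.Walk v' u')
    (t' : Γ.Walk u' u) (hw : ∀ a ∈ w.support, ∀ b ∈ s.support, m ≤ Γ.dist a b) :
    2 * m * s.length ≤ C * (s.length + t.length + w.length + t'.length) +
      2 * m * (t.length + t'.length) := by
  set f : V → ℤ := fun x => (bump Γ m s.support x : ℤ) with hf
  set g : V → ℤ := fun x => (Γ.dist u x : ℤ) with hg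
  have hfl : ∀ a b, Γ.Adj a b → |f a - f b| ≤ 1 := by
    intro a b hab
    have h1 := bump_lip hc m s.support a b hab
    have h2 := bump_lip hc m s.support b a hab.symm
    rw [abs_le]
    simp only [hf]
    constructor <;> omega
  have hgl : ∀ a b, Γ.Adj a b → |g a - g b| ≤ 1 := by
    intro a b hab
    have h1 : Γ.dist u a ≤ Γ.dist u b + Γ.dist b a := hc.dist_triangle
    have h2 : Γ.dist u b ≤ Γ.dist u a + Γ.dist a b := hc.dist_triangle
    have h3 : Γ.dist a b = 1 := SimpleGraph.dist_eq_one_iff_adj.2 hab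
    have h4 : Γ.dist b a = 1 := SimpleGraph.dist_eq_one_iff_adj.2 hab.symm
    rw [abs_le]
    simp only [hg]
    constructor <;> omega
  have hfm : ∀ a, 0 ≤ f a ∧ f a ≤ m := by
    intro a
    refine ⟨by simp only [hf, Nat.cast_nonneg], ?_⟩
    simp only [hf]
    exact_mod_cast bump_le m s.support a m (fun y _ => Nat.sub_le _ _)
  have hfs : ∀ a ∈ s.support, f a = m := by
    intro a ha
    have h1 := le_bump (Γ := Γ) m s.support a a ha
    rw [SimpleGraph.dist_self] at h1
    have h2 := (hfm a).2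
    simp only [hf] at h2 ⊢
    have h3 : m ≤ bump Γ m s.support a := by simpa only [tsub_zero] using h1
    have h4 : (m : ℤ) ≤ (bump Γ m s.support a : ℤ) := by exact_mod_cast h3
    omega
  have hfw : ∀ a ∈ w.support, f a = 0 := by
    intro a ha
    have : bump Γ m s.support a ≤ 0 :=
      bump_le m s.support a 0 (fun y hy => by have := hw a ha y hy; omega)
    simp only [hf]
    omega
  have hSt := hS f g hfl hgl u (s.append (t.append (w.append t')))
  rw [St_append, St_append, St_append, St_const f g m s hfs, St_const f g 0 w hfw] at hSt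
  have hgv : g v - g u = s.length := by simp only [hg, SimpleGraph.dist_self, CharP.cast_eq_zero, sub_zero, hs]
  rw [hgv] at hSt
  have h1 := St_abs_le f g m (by (clear * -; positivity)) hgl t (fun a _ => hfm a)
  have h2 := St_abs_le f g m (by (clear * -; positivity)) hgl t' (fun a _ => hfm a)
  have h3 := abs_le.1 h1
  have h4 := abs_le.1 h2
  have h5 := abs_le.1 hSt
  simp only [Walk.length_append] at h5
  have h6 := h5.2
  zify
  push_cast at h6
  linarith


/-- pieces of geodesics -/
theorem piece (hc : Γ.Connected) {x y : V} (p : Γ.Walk x y) (hp : p.length = Γ.dist x y)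
    (i j : ℕ) (hij : i ≤ j) (hj : j ≤ p.length) (a b : V) (ha : p.getVert i = a)
    (hb : p.getVert j = b) :
    ∃ s : Γ.Walk a b, s.length = j - i ∧ s.length = Γ.dist a b ∧
      ∀ v ∈ s.support, ∃ k, i ≤ k ∧ k ≤ j ∧ v = p.getVert k := by
  subst ha
  have hb' : (p.drop i).getVert (j - i) = b := by
    rw [Walk.drop_getVert, ← hb]; congr 1; omega
  subst hb'
  have hl : ((p.drop i).take (j - i)).length = j - i := by
    rw [Walk.take_length, Walk.drop_length]; omega
  refine ⟨(p.drop i).take (j - i), hl, ?_, ?_⟩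
  · apply le_antisymm _ (SimpleGraph.dist_le _)
    rw [hl]
    have h1 : Γ.dist x y ≤ Γ.dist x (p.getVert i) + Γ.dist (p.getVert i) y := hc.dist_triangle
    have h2 : Γ.dist (p.getVert i) y ≤ Γ.dist (p.getVert i) ((p.drop i).getVert (j - i)) +
        Γ.dist ((p.drop i).getVert (j - i)) y := hc.dist_triangle
    have h3 : Γ.dist x (p.getVert i) ≤ i := by
      have := SimpleGraph.dist_le (p.take i)
      rw [Walk.take_length] at this
      exact this.trans (min_le_left _ _)
    have h4 : Γ.dist ((p.drop i).getVert (j - i)) y ≤ p.length - j := by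
      have := SimpleGraph.dist_le ((p.drop i).drop (j - i))
      rw [Walk.drop_length, Walk.drop_length] at this
      (clear * - hp hij hj this; omega)
    omega
  · intro v hv
    obtain ⟨k, hk, hk'⟩ := Walk.mem_support_iff_exists_getVert.1 hv
    rw [hl] at hk'
    refine ⟨i + k, by omega, by omega, ?_⟩
    rw [← hk, Walk.take_getVert, Walk.drop_getVert]
    congr 2
    omega

theorem far_short (hc : Γ.Connected) {a b c : V} (m : ℕ) (t : Γ.Walk a b) (ht : t.length ≤ 2 * m)
    (ha : 2 * m ≤ Γ.dist a c) (hb : 2 * m ≤ Γ.dist b c) (v : V) (hv : v ∈ t.support) :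
    m ≤ Γ.dist v c := by
  obtain ⟨k, hk, hk'⟩ := Walk.mem_support_iff_exists_getVert.1 hv
  have h1 : Γ.dist a v ≤ k := by
    have := SimpleGraph.dist_le (t.take k)
    rw [Walk.take_length, hk] at this
    exact this.trans (min_le_left _ _)
  have h2 : Γ.dist v b ≤ t.length - k := by
    have := SimpleGraph.dist_le (t.drop k)
    rw [Walk.drop_length, hk] at this
    exact this
  have h3 : Γ.dist a c ≤ Γ.dist a v + Γ.dist v c := hc.dist_triangle
  have h4 : Γ.dist b c ≤ Γ.dist b v + Γ.dist v c := hc.dist_triangle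
  have h5 : Γ.dist b v = Γ.dist v b := SimpleGraph.dist_comm
  omega

theorem exists_greatest (P : ℕ → Prop) (h0 : P 0) (N : ℕ) :
    ∃ j ≤ N, P j ∧ ∀ k, j < k → k ≤ N → ¬ P k := by
  induction N with
  | zero => exact ⟨0, le_refl _, h0, fun k h1 h2 => by omega⟩
  | succ N ih =>
    by_cases h : P (N + 1)
    · exact ⟨N + 1, le_refl _, h, fun k h1 h2 => by omega⟩
    · obtain ⟨j, hj, hPj, hk⟩ := ih
      refine ⟨j, by omega, hPj, fun k h1 h2 => ?_⟩
      rcases Nat.lt_or_ge N k with h3 | h3
      · have : k = N + 1 := by omega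
        exact this ▸ h
      · exact hk k h1 h3

/-- The hexagon. -/
theorem hexagon {C : ℕ} (hc : Γ.Connected) (hS : StokesIneq Γ C) (m : ℕ) (hm : 4 * C + 1 ≤ m)
    {u1 u2 z v1 v2 : V} (a : Γ.Walk u1 u2) (ha : a.length = Γ.dist u1 u2)
    (b : Γ.Walk z v2) (hb : b.length = Γ.dist z v2) (g : Γ.Walk z v1) (hg : g.length = Γ.dist z v1)
    (h1 : Γ.dist u1 v1 ≤ 2 * m) (h2 : Γ.dist u2 v2 ≤ 2 * m)
    (hab : ∀ s ∈ a.support, ∀ t ∈ b.support, 2 * m ≤ Γ.dist s t)
    (hag : ∀ s ∈ a.support, ∀ t ∈ g.support, 2 * m ≤ Γ.dist s t) :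
    a.length ≤ 30 * m := by
  obtain ⟨j, hj, ⟨w1, hw1, hd⟩, hmax⟩ := exists_greatest
    (fun j => ∃ w ∈ g.support, Γ.dist (b.getVert j) w ≤ 2 * m)
    ⟨z, by simp, by simp⟩ b.length
  obtain ⟨l, hl, hl'⟩ := Walk.mem_support_iff_exists_getVert.1 hw1
  obtain ⟨b', hb'l, hb'd, hb's⟩ := piece hc b hb j b.length hj le_rfl (b.getVert j) v2 rfl
    b.getVert_length
  obtain ⟨g', hg'l, hg'd, hg's⟩ := piece hc g hg l g.length hl' le_rfl w1 v1 hl g.getVert_length
  obtain ⟨t, ht⟩ := hc.exists_walk_length_eq_dist (b.getVert j) w1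
  obtain ⟨s1, hs1⟩ := hc.exists_walk_length_eq_dist u1 v1
  obtain ⟨s2, hs2⟩ := hc.exists_walk_length_eq_dist u2 v2
  rw [← hs1] at h1
  rw [← hs2] at h2
  rw [← ht] at hd
  have hbs : ∀ v ∈ b'.support, v ∈ b.support := by
    intro v hv
    obtain ⟨k, hk1, hk2, rfl⟩ := hb's v hv
    exact b.getVert_mem_support k
  have hgs : ∀ v ∈ g'.support, v ∈ g.support := by
    intro v hv
    obtain ⟨k, hk1, hk2, rfl⟩ := hg's v hv
    exact g.getVert_mem_support k
  have hbj : b.getVert j ∈ b.support := b.getVert_mem_support j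
  have hv1 : v1 ∈ g.support := by simp
  have hv2 : v2 ∈ b.support := by simp
  have hu1 : u1 ∈ a.support := by simp
  have hu2 : u2 ∈ a.support := by simp
  -- distances between the sides `b'` and `g`
  have hbg : b'.length ≠ 0 → ∀ s ∈ b'.support, ∀ t ∈ g.support, 2 * m ≤ Γ.dist s t := by
    intro h0 s hs t0 ht0
    obtain ⟨k, hk1, hk2, rfl⟩ := hb's s hs
    rcases Nat.lt_or_ge j k with h3 | h3
    · have := hmax k h3 hk2
      push Not at this
      exact (this t0 ht0).le
    · have hkj : k = j := by omega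
      subst hkj
      have h4 := hmax (k + 1) (by omega) (by omega)
      push Not at h4
      have h5 := h4 t0 ht0
      have h6 : Γ.dist (b.getVert (k + 1)) t0 ≤
          Γ.dist (b.getVert (k + 1)) (b.getVert k) + Γ.dist (b.getVert k) t0 := hc.dist_triangle
      have h7 : Γ.dist (b.getVert (k + 1)) (b.getVert k) = 1 :=
        SimpleGraph.dist_eq_one_iff_adj.2 (b.adj_getVert_succ (by omega)).symm
      omega
  -- case A
  have hA := rect hc hS m a ha s2 (b'.reverse.append (t.append g')) s1.reverse (by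
    intro v hv s hs
    rw [Walk.mem_support_append_iff, Walk.mem_support_append_iff] at hv
    rcases hv with hv | hv | hv
    · rw [Walk.support_reverse, List.mem_reverse] at hv
      have := hab s hs v (hbs v hv)
      rw [SimpleGraph.dist_comm] at this
      omega
    · apply far_short hc m t (by omega) _ _ v hv
      · rw [SimpleGraph.dist_comm]; exact hab s hs _ hbj
      · rw [SimpleGraph.dist_comm]; exact hag s hs _ hw1
    · have := hag s hs v (hgs v hv)
      rw [SimpleGraph.dist_comm] at this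
      omega)
  simp only [Walk.length_append, Walk.length_reverse] at hA
  have hmpos : 0 < m := by omega
  by_cases h0 : b'.length = 0
  · -- degenerate case
    have h3 : Γ.dist w1 v1 ≤ Γ.dist w1 (b.getVert j) + Γ.dist (b.getVert j) v1 := hc.dist_triangle
    have h4 : b.getVert j = v2 := by
      have : Γ.dist (b.getVert j) v2 = 0 := by rw [← hb'd, h0]
      exact (hc.dist_eq_zero_iff).1 this
    have h5 : Γ.dist v2 v1 ≤ Γ.dist v2 u2 + Γ.dist u2 v1 := hc.dist_triangle
    have h6 : Γ.dist u2 v1 ≤ Γ.dist u2 u1 + Γ.dist u1 v1 := hc.dist_triangle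
    have h7 : Γ.dist w1 v2 = t.length := by rw [ht, h4, SimpleGraph.dist_comm]
    have h8 : Γ.dist v2 u2 = s2.length := by rw [hs2, SimpleGraph.dist_comm]
    have h9 : Γ.dist u2 u1 = a.length := by rw [ha, SimpleGraph.dist_comm]
    rw [h4] at h3
    have h10 : g'.length ≤ a.length + 6 * m := by (clear * - ha hg'l hg'd hd ht h1 hs1 h2 hs2 h3 h5 h6 h7 h8 h9; omega)
    by_contra hcon
    push Not at hcon
    have hC : 4 * C ≤ m := by omega
    have e1 : C * (a.length + s2.length + (b'.length + (t.length + g'.length)) + s1.length) ≤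
        C * (2 * a.length + 12 * m) := by
      apply Nat.mul_le_mul_left; omega
    have e2 : 4 * (C * (2 * a.length + 12 * m)) ≤ m * (2 * a.length + 12 * m) := by
      rw [← mul_assoc]; exact Nat.mul_le_mul_right _ hC
    have e3 : 2 * m * (s2.length + s1.length) ≤ 2 * m * (4 * m) := by
      apply Nat.mul_le_mul_left; (clear * - h1 hs1 h2 hs2 h8; omega)
    have e4 : m * (30 * m) < m * a.length := Nat.mul_lt_mul_of_pos_left hcon hmpos
    have e6 : m * (2 * a.length + 12 * m) = 2 * (m * a.length) + 12 * (m * m) := by ring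
    have e7 : m * (30 * m) = 30 * (m * m) := by ring
    have e8 : 2 * m * (4 * m) = 8 * (m * m) := by ring
    have e9 : 2 * m * a.length = 2 * (m * a.length) := by ring
    have eA := hA.trans (Nat.add_le_add e1 e3)
    rw [e8, e9] at eA
    rw [e6] at e2
    rw [e7] at e4
    generalize C * (2 * a.length + 12 * m) = X at *
    generalize m * a.length = Y at *
    generalize m * m = Z at *
    omega
  · have hbg' := hbg h0
    -- case B
    have hB := rect hc hS m b' hb'd s2.reverse (a.reverse.append (s1.append g'.reverse)) t.reverse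
      (by
        intro v hv s hs
        rw [Walk.mem_support_append_iff, Walk.mem_support_append_iff] at hv
        rcases hv with hv | hv | hv
        · rw [Walk.support_reverse, List.mem_reverse] at hv
          have := hab v hv s (hbs s hs)
          omega
        · apply far_short hc m s1 (by omega) _ _ v hv
          · exact hab u1 hu1 s (hbs s hs)
          · rw [SimpleGraph.dist_comm]; exact hbg' s hs v1 hv1
        · rw [Walk.support_reverse, List.mem_reverse] at hv
          have := hbg' s hs v (hgs v hv)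
          rw [SimpleGraph.dist_comm] at this
          omega)
    -- case C
    have hCc := rect hc hS m g' hg'd s1.reverse (a.append (s2.append b'.reverse)) t
      (by
        intro v hv s hs
        rw [Walk.mem_support_append_iff, Walk.mem_support_append_iff] at hv
        rcases hv with hv | hv | hv
        · have := hag v hv s (hgs s hs)
          omega
        · apply far_short hc m s2 (by omega) _ _ v hv
          · exact hag u2 hu2 s (hgs s hs)
          · exact hbg' v2 (by simp) s (hgs s hs)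
        · rw [Walk.support_reverse, List.mem_reverse] at hv
          have := hbg' v hv s (hgs s hs)
          omega)
    simp only [Walk.length_append, Walk.length_reverse] at hB hCc
    by_contra hcon
    push Not at hcon
    have hC : 4 * C ≤ m := by omega
    set S := a.length + b'.length + g'.length with hSd
    have e1 : C * (a.length + s2.length + (b'.length + (t.length + g'.length)) + s1.length) ≤
        C * (S + 6 * m) := by
      apply Nat.mul_le_mul_left; omega
    have e1' : C * (b'.length + s2.length + (a.length + (s1.length + g'.length)) + t.length) ≤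
        C * (S + 6 * m) := by
      apply Nat.mul_le_mul_left; omega
    have e1'' : C * (g'.length + s1.length + (a.length + (s2.length + b'.length)) + t.length) ≤
        C * (S + 6 * m) := by
      apply Nat.mul_le_mul_left; omega
    have e2 : 4 * (C * (S + 6 * m)) ≤ m * (S + 6 * m) := by
      rw [← mul_assoc]; exact Nat.mul_le_mul_right _ hC
    have e3 : 2 * m * (s2.length + s1.length) ≤ 2 * m * (4 * m) := by
      apply Nat.mul_le_mul_left; (clear * - h1 hs1 h2 hs2; omega)
    have e3' : 2 * m * (s2.length + t.length) ≤ 2 * m * (4 * m) := by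
      apply Nat.mul_le_mul_left; (clear * - hd ht h2 hs2; omega)
    have e3'' : 2 * m * (s1.length + t.length) ≤ 2 * m * (4 * m) := by
      apply Nat.mul_le_mul_left; omega
    have e4 : m * (30 * m) < m * S := Nat.mul_lt_mul_of_pos_left (by omega) hmpos
    have e5 : 2 * m * a.length + 2 * m * b'.length + 2 * m * g'.length = 2 * (m * S) := by
      rw [hSd]; ring
    have e6 : m * (S + 6 * m) = m * S + 6 * (m * m) := by ring
    have e7 : m * (30 * m) = 30 * (m * m) := by ring
    have e8 : 2 * m * (4 * m) = 8 * (m * m) := by ring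
    have e9 : 0 < m * m := Nat.mul_pos hmpos hmpos
    have eA := hA.trans (Nat.add_le_add e1 e3)
    have eB := hB.trans (Nat.add_le_add e1' e3')
    have eC := hCc.trans (Nat.add_le_add e1'' e3'')
    rw [e8] at eA eB eC
    rw [e6] at e2
    rw [e7] at e4
    generalize C * (S + 6 * m) = X at *
    generalize m * S = Y at *
    generalize m * m = Z at *
    (clear * - e5 eA eB eC e4 e6 e2; omega)

/-- **Graph part of HYP.** -/
theorem thin_of_stokes {C : ℕ} (hc : Γ.Connected) (hS : StokesIneq Γ C) :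
    ∃ d : ℕ, ThinTriangles Γ d := by
  obtain ⟨m, hm⟩ : ∃ m, m = 4 * C + 1 := ⟨_, rfl⟩
  refine ⟨18 * m, ?_⟩
  intro x y z p q r hp hq hr v hv
  by_contra hcon
  push Not at hcon
  obtain ⟨i0, hi0, hi0'⟩ := Walk.mem_support_iff_exists_getVert.1 hv
  subst hi0
  -- the set of the other two sides
  set B : V → Prop := fun w => w ∈ q.support ∨ w ∈ r.support with hB
  have hfar0 : ∀ w, B w → 18 * m < Γ.dist (p.getVert i0) w := hcon
  -- nearest near index below
  obtain ⟨i1, hi1, ⟨v1, hBv1, hv1⟩, hmax1⟩ := exists_greatest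
    (fun i => ∃ w, B w ∧ Γ.dist (p.getVert i) w ≤ 2 * m)
    ⟨x, Or.inr (by simp), by simp only [Walk.getVert_zero, SimpleGraph.dist_self, zero_le]⟩ i0
  obtain ⟨k2, hk2, ⟨v2, hBv2, hv2⟩, hmax2⟩ := exists_greatest
    (fun k => ∃ w, B w ∧ Γ.dist (p.getVert (p.length - k)) w ≤ 2 * m)
    ⟨y, Or.inl (by simp), by simp only [tsub_zero, Walk.getVert_length, SimpleGraph.dist_self, zero_le]⟩ (p.length - i0)
  have hgd : ∀ i j, i ≤ j → j ≤ p.length → Γ.dist (p.getVert i) (p.getVert j) = j - i := by
    intro i j hij hj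
    obtain ⟨s, hs1, hs2, _⟩ := piece hc p hp i j hij hj _ _ rfl rfl
    omega
  set i2 := p.length - k2 with hi2
  have hi1' : 16 * m < i0 - i1 := by
    have h1 := hfar0 v1 hBv1
    have h2 : Γ.dist (p.getVert i0) v1 ≤ Γ.dist (p.getVert i0) (p.getVert i1) +
      Γ.dist (p.getVert i1) v1 := hc.dist_triangle
    have h3 := hgd i1 i0 hi1 hi0'
    rw [SimpleGraph.dist_comm] at h3
    omega
  have hi2' : 16 * m < i2 - i0 := by
    have h1 := hfar0 v2 hBv2
    have h2 : Γ.dist (p.getVert i0) v2 ≤ Γ.dist (p.getVert i0) (p.getVert i2) +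
      Γ.dist (p.getVert i2) v2 := hc.dist_triangle
    have h3 := hgd i0 i2 (by (clear * - hp hi0' hi1 hk2; omega)) (by omega)
    omega
  have hmpos : 0 < m := by omega
  -- all vertices between are far
  have hfar : ∀ i, i1 ≤ i → i ≤ i2 → ∀ w, B w → 2 * m ≤ Γ.dist (p.getVert i) w := by
    have hin : ∀ i, i1 < i → i < i2 → ∀ w, B w → 2 * m < Γ.dist (p.getVert i) w := by
      intro i h1 h2 w hw
      by_contra hle
      push Not at hle
      rcases Nat.le_total i i0 with h3 | h3
      · exact hmax1 i h1 h3 ⟨w, hw, hle⟩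
      · refine hmax2 (p.length - i) (by (clear * - hp hi0' hi1 h2 h3; omega)) (by (clear * - hp hi0' hi1 h2 h3; omega)) ⟨w, hw, ?_⟩
        rw [show p.length - (p.length - i) = i by (clear * - hp hi1 h1 h2 h3; omega)]
        exact hle
    intro i h1 h2 w hw
    rcases Nat.lt_or_ge i1 i with h3 | h3
    · rcases Nat.lt_or_ge i i2 with h4 | h4
      · exact (hin i h3 h4 w hw).le
      · have hi : i = i2 := by (clear * - h2 h4; omega)
        have h5 := hin (i2 - 1) (by (clear * - hm hi1 hi2' h2 h3 h4; omega)) (by omega) w hw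
        have h6 : Γ.dist (p.getVert (i2 - 1)) w ≤ Γ.dist (p.getVert (i2 - 1)) (p.getVert i2) +
          Γ.dist (p.getVert i2) w := hc.dist_triangle
        have h7 := hgd (i2 - 1) i2 (by (clear * - h2 h4; omega)) (by omega)
        rw [hi]
        (clear * - hm h2 h3 h4 h5 h6 h7; omega)
    · have hi : i = i1 := by omega
      have h5 := hin (i1 + 1) (by omega) (by omega) w hw
      have h6 : Γ.dist (p.getVert (i1 + 1)) w ≤ Γ.dist (p.getVert (i1 + 1)) (p.getVert i1) +
        Γ.dist (p.getVert i1) w := hc.dist_triangle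
      have h7 := hgd i1 (i1 + 1) (by omega) (by omega)
      rw [SimpleGraph.dist_comm] at h7
      rw [hi]
      omega
  obtain ⟨a, hal, had, has⟩ := piece hc p hp i1 i2 (by omega) (by omega) _ _ rfl rfl
  -- it is enough to find two geodesics in `B` from a common vertex
  have key : ∀ (c : V) (b : Γ.Walk c v2) (g : Γ.Walk c v1), b.length = Γ.dist c v2 →
      g.length = Γ.dist c v1 → (∀ w ∈ b.support, B w) → (∀ w ∈ g.support, B w) → False := by
    intro c b g hbl hgl hb hg
    have := hexagon hc hS m (by omega) a had b hbl g hgl hv1 hv2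
      (fun s hs t ht => by
        obtain ⟨k, hk1, hk2, rfl⟩ := has s hs
        exact hfar k hk1 hk2 t (hb t ht))
      (fun s hs t ht => by
        obtain ⟨k, hk1, hk2, rfl⟩ := has s hs
        exact hfar k hk1 hk2 t (hg t ht))
    omega
  -- geodesics inside one side
  have side : ∀ {c d : V} (w : Γ.Walk c d), w.length = Γ.dist c d → ∀ s t, s ∈ w.support →
      t ∈ w.support → ∃ e : Γ.Walk s t, e.length = Γ.dist s t ∧ ∀ v ∈ e.support, v ∈ w.support := by
    intro c d w hw s t hs ht
    obtain ⟨i, hi, hi'⟩ := Walk.mem_support_iff_exists_getVert.1 hs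
    obtain ⟨j, hj, hj'⟩ := Walk.mem_support_iff_exists_getVert.1 ht
    rcases Nat.le_total i j with hij | hij
    · obtain ⟨e, he1, he2, he3⟩ := piece hc w hw i j hij hj' s t hi hj
      refine ⟨e, he2, fun v hv => ?_⟩
      obtain ⟨k, _, _, rfl⟩ := he3 v hv
      exact w.getVert_mem_support k
    · obtain ⟨e, he1, he2, he3⟩ := piece hc w hw j i hij hi' t s hj hi
      refine ⟨e.reverse, by rw [Walk.length_reverse, he2, SimpleGraph.dist_comm], fun v hv => ?_⟩
      rw [Walk.support_reverse, List.mem_reverse] at hv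
      obtain ⟨k, _, _, rfl⟩ := he3 v hv
      exact w.getVert_mem_support k
  rcases hBv1 with h1 | h1 <;> rcases hBv2 with h2 | h2
  · obtain ⟨e, he, he'⟩ := side q hq v2 v1 h2 h1
    exact key v2 Walk.nil e (by simp) he (by simpa only [Walk.support_nil, List.mem_cons, List.not_mem_nil, or_false, forall_eq] using Or.inl h2) (fun w hw => Or.inl (he' w hw))
  · obtain ⟨e, he, he'⟩ := side q hq z v1 (by simp) h1
    obtain ⟨e2, he2, he2'⟩ := side r hr z v2 (by simp) h2
    exact key z e2 e he2 he (fun w hw => Or.inr (he2' w hw)) (fun w hw => Or.inl (he' w hw))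
  · obtain ⟨e, he, he'⟩ := side r hr z v1 (by simp) h1
    obtain ⟨e2, he2, he2'⟩ := side q hq z v2 (by simp) h2
    exact key z e2 e he2 he (fun w hw => Or.inl (he2' w hw)) (fun w hw => Or.inr (he' w hw))
  · obtain ⟨e, he, he'⟩ := side r hr v2 v1 h2 h1
    exact key v2 Walk.nil e (by simp) he (by simpa only [Walk.support_nil, List.mem_cons, List.not_mem_nil, or_false, forall_eq] using Or.inr h2) (fun w hw => Or.inr (he' w hw))

end Vale.Agent.P186.HypG
end

section

/-!
P194, final algebra (helper22).  `gamma * beta = 0` (all ports of the first row group matched),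
`alpha * beta = g0` (all ports of the second row group but one matched), `gamma ≠ 0`.
Hence `a = g0⁻¹ alpha`, `b = beta` satisfy `a * b = 1`, `b * a ≠ 1`.
-/

namespace Vale.Agent.P194.M

open Finset

/-- abstract end of the argument -/
theorem not_df_of {R : Type} [Ring R] {a b c : R} (hcb : c * b = 0) (hc : c ≠ 0) :
    b * a ≠ 1 := by
  intro h
  apply hc
  calc c = c * (b * a) := by rw [h, mul_one]
    _ = c * b * a := by rw [mul_assoc]
    _ = 0 := by rw [hcb, zero_mul]

section

variable {G : Type} [Group G]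

/-- group elements in the group ring -/
noncomputable def em (g : G) : MonoidAlgebra (ZMod 2) G := MonoidAlgebra.of (ZMod 2) G g

/-- substitution of `t` in Laurent polynomials -/
noncomputable def ph (t : G) : AddMonoidAlgebra (ZMod 2) ℤ →ₐ[ZMod 2] MonoidAlgebra (ZMod 2) G :=
  AddMonoidAlgebra.lift (ZMod 2) (MonoidAlgebra (ZMod 2) G) ℤ
    ((MonoidAlgebra.of (ZMod 2) G).comp (zpowersHom G t))

theorem ph_single (t : G) (h : ℤ) (r : ZMod 2) :
    ph t (AddMonoidAlgebra.single h r) = r • em (t ^ h) := by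
  rw [ph, AddMonoidAlgebra.lift_single]
  simp only [MonoidHom.coe_comp, Function.comp_apply, zpowersHom_apply, toAdd_ofAdd, MonoidAlgebra.of_apply, MonoidAlgebra.smul_single, smul_eq_mul, mul_one, em]

theorem zmod2_of_ne {r : ZMod 2} (h : r ≠ 0) : r = 1 := by
  revert h; revert r; decide

theorem ph_eq (t : G) (f : AddMonoidAlgebra (ZMod 2) ℤ) :
    ph t f = ∑ h ∈ f.coeff.support, em (t ^ h) := by
  have h1 : f = ∑ h ∈ f.coeff.support, AddMonoidAlgebra.single h (f.coeff h) := by
    apply AddMonoidAlgebra.coeff_injective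
    rw [AddMonoidAlgebra.coeff_sum]
    simp only [AddMonoidAlgebra.coeff_single]
    exact (Finsupp.sum_single f.coeff).symm
  conv_lhs => rw [h1]
  rw [map_sum]
  refine Finset.sum_congr rfl fun h hh => ?_
  rw [ph_single, zmod2_of_ne (Finsupp.mem_support_iff.1 hh), one_smul]

theorem em_mul (g h : G) : em g * em h = em (g * h) := by
  simp [em]

theorem em_one : em (1 : G) = 1 := by
  rw [em, map_one]

/-- sum of the products of row elements `x r * P r` over a set of rows -/
noncomputable def rowSum {R : Type} (t : G) (x : R → G) (P : R → AddMonoidAlgebra (ZMod 2) ℤ)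
    (S : Finset R) : MonoidAlgebra (ZMod 2) G := ∑ r ∈ S, em (x r) * ph t (P r)

/-- sum over the blocks -/
noncomputable def colSum {B : Type} [Fintype B] (t : G) (y : B → G)
    (Q : B → AddMonoidAlgebra (ZMod 2) ℤ) : MonoidAlgebra (ZMod 2) G :=
  ∑ j, ph t (Q j) * em (y j)

/-- the product as a sum over ports -/
theorem rowSum_mul_colSum {R B : Type} [DecidableEq R] [Fintype B] [DecidableEq B] (t : G)
    (x : R → G) (y : B → G) (P : R → AddMonoidAlgebra (ZMod 2) ℤ)
    (Q : B → AddMonoidAlgebra (ZMod 2) ℤ) (S : Finset R) :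
    rowSum t x P S * colSum t y Q =
      ∑ r ∈ S, ∑ j, ∑ h ∈ (P r * Q j).coeff.support, em (x r * t ^ h * y j) := by
  unfold rowSum colSum
  rw [Finset.sum_mul]
  refine Finset.sum_congr rfl fun r _ => ?_
  rw [Finset.mul_sum]
  refine Finset.sum_congr rfl fun j _ => ?_
  rw [mul_assoc, ← mul_assoc (ph t (P r)), ← map_mul, ph_eq, Finset.sum_mul, Finset.mul_sum]
  refine Finset.sum_congr rfl fun h _ => ?_
  rw [em_mul, em_mul, ← mul_assoc]

/-- the ports as a finset of triples -/
noncomputable def ports {R B : Type} [DecidableEq R] [Fintype B] [DecidableEq B]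
    (P : R → AddMonoidAlgebra (ZMod 2) ℤ) (Q : B → AddMonoidAlgebra (ZMod 2) ℤ) (S : Finset R) :
    Finset (R × B × ℤ) :=
  S.biUnion fun r => univ.biUnion fun j => ((P r * Q j).coeff.support).image fun h => (r, j, h)

theorem mem_ports {R B : Type} [DecidableEq R] [Fintype B] [DecidableEq B]
    {P : R → AddMonoidAlgebra (ZMod 2) ℤ} {Q : B → AddMonoidAlgebra (ZMod 2) ℤ} {S : Finset R}
    {z : R × B × ℤ} :
    z ∈ ports P Q S ↔ z.1 ∈ S ∧ z.2.2 ∈ (P z.1 * Q z.2.1).coeff.support := by
  unfold ports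
  simp only [Finset.mem_biUnion, Finset.mem_image, Finset.mem_univ, true_and]
  constructor
  · rintro ⟨r, hr, j, h, hh, rfl⟩
    exact ⟨hr, hh⟩
  · rintro ⟨h1, h2⟩
    exact ⟨z.1, h1, z.2.1, z.2.2, h2, rfl⟩

theorem prod_eq_ports {R B : Type} [DecidableEq R] [Fintype B] [DecidableEq B] (t : G)
    (x : R → G) (y : B → G) (P : R → AddMonoidAlgebra (ZMod 2) ℤ)
    (Q : B → AddMonoidAlgebra (ZMod 2) ℤ) (S : Finset R) :
    rowSum t x P S * colSum t y Q =
      ∑ z ∈ ports P Q S, em (x z.1 * t ^ z.2.2 * y z.2.1) := by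
  rw [rowSum_mul_colSum]
  unfold ports
  rw [Finset.sum_biUnion]
  · refine Finset.sum_congr rfl fun r _ => ?_
    rw [Finset.sum_biUnion]
    · refine Finset.sum_congr rfl fun j _ => ?_
      rw [Finset.sum_image]
      intro a _ b _ h
      simpa using h
    · intro j _ j' _ hne
      rw [Function.onFun, Finset.disjoint_left]
      intro z hz hz'
      rw [Finset.mem_image] at hz hz'
      obtain ⟨_, _, rfl⟩ := hz
      obtain ⟨_, _, h2⟩ := hz'
      apply hne
      simp only [Prod.mk.injEq] at h2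
      exact h2.2.1.symm
  · intro r _ r' _ hne
    rw [Function.onFun, Finset.disjoint_left]
    intro z hz hz'
    rw [Finset.mem_biUnion] at hz hz'
    obtain ⟨_, _, hz⟩ := hz
    obtain ⟨_, _, hz'⟩ := hz'
    rw [Finset.mem_image] at hz hz'
    obtain ⟨_, _, rfl⟩ := hz
    obtain ⟨_, _, h2⟩ := hz'
    apply hne
    simp only [Prod.mk.injEq] at h2
    exact h2.1.symm

theorem add_self (a : MonoidAlgebra (ZMod 2) G) : a + a = 0 := by
  rw [← two_smul (ZMod 2), show (2 : ZMod 2) = 0 from rfl, zero_smul]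

/-- Main algebraic statement.  `C` = cells, ports `C × Bool`, colour `cl` preserved by `σ`;
`te q = x (rc q) * t ^ ht q * y (blk q)`, equal on matched ports.  All triples `(r,j,h)`,
`h ∈ supp (P r * Q j)`, are ports, except `(r0,j0,h0)`, which is not a port and has colour `false`. -/
theorem fin_alg {R B C : Type} [Fintype R] [DecidableEq R] [Fintype B] [DecidableEq B] [Fintype C]
    (t : G) (x : R → G) (y : B → G)
    (P : R → AddMonoidAlgebra (ZMod 2) ℤ) (Q : B → AddMonoidAlgebra (ZMod 2) ℤ)
    (col : R → Bool) (rc : C × Bool → R) (blk : C × Bool → B) (ht : C × Bool → ℤ) (cl : C → Bool)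
    (σ : Equiv.Perm C) (hσ : ∀ c, cl (σ c) = cl c)
    (hcl : ∀ q : C × Bool, col (rc q) = cl q.1)
    (hinj : ∀ q q' : C × Bool, rc q = rc q' → blk q = blk q' → ht q = ht q' → q = q')
    (r0 : R) (j0 : B) (h0 : ℤ) (hr0 : col r0 = false)
    (hmem0 : h0 ∈ (P r0 * Q j0).coeff.support)
    (hmem : ∀ q : C × Bool, ht q ∈ (P (rc q) * Q (blk q)).coeff.support)
    (himg : ∀ r j h, h ∈ (P r * Q j).coeff.support →
      (r = r0 ∧ j = j0 ∧ h = h0) ∨ ∃ q : C × Bool, rc q = r ∧ blk q = j ∧ ht q = h)
    (hnot : ∀ q : C × Bool, ¬ (rc q = r0 ∧ blk q = j0 ∧ ht q = h0))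
    (hrel : ∀ c, x (rc (c, true)) * t ^ ht (c, true) * y (blk (c, true)) =
      x (rc (σ c, false)) * t ^ ht (σ c, false) * y (blk (σ c, false)))
    (hx : ∀ r r' (h h' : ℤ), x r * t ^ h = x r' * t ^ h' → r = r' ∧ h = h')
    (hne : ∃ r, col r = true ∧ P r ≠ 0) :
    ∃ a b : MonoidAlgebra (ZMod 2) G, a * b = 1 ∧ b * a ≠ 1 := by
  classical
  set te : C × Bool → G := fun q => x (rc q) * t ^ ht q * y (blk q) with hte
  set tr : C × Bool → R × B × ℤ := fun q => (rc q, blk q, ht q) with htr
  have htrinj : Function.Injective tr := by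
    intro q q' h
    simp only [htr, Prod.mk.injEq] at h
    exact hinj q q' h.1 h.2.1 h.2.2
  -- sum over the matched ports of one colour vanishes
  have hzero : ∀ b : Bool, ∑ q ∈ univ.filter (fun q : C × Bool => cl q.1 = b), em (te q) = 0 := by
    intro b
    have h1 : (univ.filter (fun q : C × Bool => cl q.1 = b)) =
        (univ.filter (fun c : C => cl c = b)) ×ˢ (univ : Finset Bool) := by
      ext q
      simp only [mem_filter, mem_univ, true_and, Fintype.univ_bool, mem_product, mem_insert, mem_singleton, Bool.eq_true_or_eq_false_self, and_true]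
    rw [h1, Finset.sum_product]
    simp only [Fintype.sum_bool, Finset.sum_add_distrib]
    have h2 : ∑ c ∈ univ.filter (fun c : C => cl c = b), em (te (c, true)) =
        ∑ c ∈ univ.filter (fun c : C => cl c = b), em (te (c, false)) := by
      refine Finset.sum_bij (fun c _ => σ c) ?_ ?_ ?_ ?_
      · intro c hc
        rw [Finset.mem_filter] at hc ⊢
        exact ⟨Finset.mem_univ _, by rw [hσ]; exact hc.2⟩
      · intro c _ c' _ h
        exact σ.injective h
      · intro c hc
        refine ⟨σ.symm c, ?_, by simp⟩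
        rw [Finset.mem_filter] at hc ⊢
        refine ⟨Finset.mem_univ _, ?_⟩
        rw [← hσ, Equiv.apply_symm_apply]
        exact hc.2
      · intro c _
        congr 1
        exact hrel c
    rw [h2]
    exact add_self _
  -- the two row groups
  have hgam : rowSum t x P (univ.filter (fun r => col r = true)) * colSum t y Q = 0 := by
    rw [prod_eq_ports]
    have h1 : ports P Q (univ.filter (fun r => col r = true)) =
        (univ.filter (fun q : C × Bool => cl q.1 = true)).image tr := by
      ext z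
      rw [mem_ports, Finset.mem_image]
      simp only [Finset.mem_filter, Finset.mem_univ, true_and]
      constructor
      · rintro ⟨hz1, hz2⟩
        rcases himg z.1 z.2.1 z.2.2 hz2 with ⟨h3, _, _⟩ | ⟨q, h3, h4, h5⟩
        · rw [h3, hr0] at hz1; cases hz1
        · refine ⟨q, ?_, ?_⟩
          · rw [← hcl, h3]; exact hz1
          · simp only [htr, h3, h4, h5]
      · rintro ⟨q, hq, rfl⟩
        refine ⟨?_, hmem q⟩
        simp only [htr]
        rw [hcl]; exact hq
    rw [h1, Finset.sum_image (fun a _ b _ h => htrinj h)]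
    exact hzero true
  have halp : rowSum t x P (univ.filter (fun r => col r = false)) * colSum t y Q =
      em (x r0 * t ^ h0 * y j0) := by
    rw [prod_eq_ports]
    have h1 : ports P Q (univ.filter (fun r => col r = false)) =
        insert (r0, j0, h0) ((univ.filter (fun q : C × Bool => cl q.1 = false)).image tr) := by
      ext z
      rw [mem_ports, Finset.mem_insert, Finset.mem_image]
      simp only [Finset.mem_filter, Finset.mem_univ, true_and]
      constructor
      · rintro ⟨hz1, hz2⟩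
        rcases himg z.1 z.2.1 z.2.2 hz2 with ⟨h3, h4, h5⟩ | ⟨q, h3, h4, h5⟩
        · left
          rw [← h3, ← h4, ← h5]
        · right
          refine ⟨q, ?_, ?_⟩
          · rw [← hcl, h3]; exact hz1
          · simp only [htr, h3, h4, h5]
      · rintro (rfl | ⟨q, hq, rfl⟩)
        · exact ⟨hr0, hmem0⟩
        · refine ⟨?_, hmem q⟩
          simp only [htr]
          rw [hcl]; exact hq
    have h2 : (r0, j0, h0) ∉ (univ.filter (fun q : C × Bool => cl q.1 = false)).image tr := by
      intro h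
      rw [Finset.mem_image] at h
      obtain ⟨q, _, hq⟩ := h
      simp only [htr, Prod.mk.injEq] at hq
      exact hnot q hq
    rw [h1, Finset.sum_insert h2, Finset.sum_image (fun a _ b _ h => htrinj h)]
    have h3 := hzero false
    simp only [hte] at h3
    simp only [htr]
    rw [h3, add_zero]
  have hgne : rowSum t x P (univ.filter (fun r => col r = true)) ≠ 0 := by
    obtain ⟨i0, hi0, hP0⟩ := hne
    have h0 : ∃ k, k ∈ (P i0).coeff.support := by
      apply Finsupp.support_nonempty_iff.2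
      intro h
      exact hP0 (AddMonoidAlgebra.coeff_eq_zero.1 h)
    obtain ⟨k, hk⟩ := h0
    intro hz
    have h1 : (rowSum t x P (univ.filter (fun r => col r = true))).coeff (x i0 * t ^ k) = 1 := by
      unfold rowSum
      rw [MonoidAlgebra.coeff_sum, Finsupp.finsetSum_apply, Finset.sum_eq_single i0]
      · rw [ph_eq, Finset.mul_sum, MonoidAlgebra.coeff_sum, Finsupp.finsetSum_apply,
            Finset.sum_eq_single k]
        · rw [em_mul]
          simp [em]
        · intro h _ hne
          rw [em_mul]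
          simp only [em, MonoidAlgebra.of_apply, MonoidAlgebra.coeff_single]
          apply Finsupp.single_eq_of_ne
          intro he
          exact hne (hx _ _ _ _ he).2.symm
        · intro h; exact absurd hk h
      · intro i _ hne
        rw [ph_eq, Finset.mul_sum, MonoidAlgebra.coeff_sum, Finsupp.finsetSum_apply]
        apply Finset.sum_eq_zero
        intro h _
        rw [em_mul]
        simp only [em, MonoidAlgebra.of_apply, MonoidAlgebra.coeff_single]
        apply Finsupp.single_eq_of_ne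
        intro he
        exact hne (hx _ _ _ _ he).1.symm
      · intro h
        exfalso
        apply h
        rw [Finset.mem_filter]
        exact ⟨Finset.mem_univ _, hi0⟩
    rw [hz] at h1
    simp only [MonoidAlgebra.coeff_zero, Finsupp.coe_zero, Pi.zero_apply, zero_ne_one] at h1
  refine ⟨em (x r0 * t ^ h0 * y j0)⁻¹ * rowSum t x P (univ.filter (fun r => col r = false)),
    colSum t y Q, ?_, ?_⟩
  · rw [mul_assoc, halp, em_mul, inv_mul_cancel, em_one]
  · exact not_df_of (c := rowSum t x P (univ.filter (fun r => col r = true))) hgam hgne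

end

end Vale.Agent.P194.M
end

section

/-!
P201: disproof of the zero divisor conjecture over F_2.  Core definitions (captain helper201).
See `PROOF.md` in this folder.
-/

namespace Vale.Agent.P201.Z

open Finset

/-! ## Part A: the pattern -/

/-- Pattern: rows `I`, types `K`, Laurent polynomials over F_2. -/
structure Pat where
  I : Type
  K : Type
  [fI : Fintype I]
  [fK : Fintype K]
  [dI : DecidableEq I]
  [dK : DecidableEq K]
  P : I → AddMonoidAlgebra (ZMod 2) ℤ
  Q : K → AddMonoidAlgebra (ZMod 2) ℤ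

attribute [instance] Pat.fI Pat.fK Pat.dI Pat.dK

/-- cells of row `i` in type `k` -/
noncomputable def Pat.N (p : Pat) (i : p.I) (k : p.K) : Finset ℤ := (p.P i * p.Q k).coeff.support

noncomputable def Pat.Ttot (p : Pat) : ℕ := ∑ k, ∑ i, (p.N i k).card

/-- number of 4-cycles: `∑_{i,i',δ} c(i,i',δ)^2`, `c(i,i',δ) = ∑_k #{(h,h') : h' - h = δ}` -/
noncomputable def Pat.W4 (p : Pat) : ℕ :=
  ∑ k, ∑ k', ∑ i, ∑ i',
    (((p.N i k ×ˢ p.N i' k) ×ˢ (p.N i k' ×ˢ p.N i' k')).filter
      (fun x => x.1.2 - x.1.1 = x.2.2 - x.2.1)).card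

/-- augmentation -/
noncomputable def aug (f : AddMonoidAlgebra (ZMod 2) ℤ) : ZMod 2 := f.coeff.sum fun _ a => a

structure Pat.Good (p : Pat) : Prop where
  pos : 0 < p.Ttot
  w : 8 * p.W4 ≤ p.Ttot ^ 2
  aug : ∑ k, aug (p.Q k) = 1
  ne : ∃ i, p.P i ≠ 0

/-- PART A -/
def StmtA : Prop := ∃ p : Pat, p.Good

/-! ## Blocks, cells, ports -/

abbrev Blk (p : Pat) (n : ℕ) : Type := p.K × Fin n

/-- cells of the product: row, block, height -/
abbrev Cel (p : Pat) (n : ℕ) : Type := Σ x : p.I × Blk p n, {h : ℤ // h ∈ p.N x.1 x.2.1}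

variable {p : Pat} {n : ℕ}

noncomputable def row (c : Cel p n) : p.I := c.1.1
noncomputable def blk (c : Cel p n) : Blk p n := c.1.2
noncomputable def ht (c : Cel p n) : ℤ := c.2.1

/-- a port is a cell in copy 1 (`true`) or copy 2 (`false`) -/
abbrev Port (p : Pat) (n : ℕ) : Type := Cel p n × Bool

/-- row and copy of a port -/
noncomputable def rc (q : Port p n) : p.I × Bool := (row q.1, q.2)

/-- the matching involution on ports: copy-1 cell `c` with copy-2 cell `σ c` -/
noncomputable def mt (σ : Equiv.Perm (Cel p n)) (q : Port p n) : Port p n :=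
  if q.2 then (σ q.1, false) else (σ.symm q.1, true)

/-- reduced walk of the matching graph, given by its leaving ports -/
def IsWalk (σ : Equiv.Perm (Cel p n)) (l : List (Port p n)) : Prop :=
  l.IsChain (fun a b => blk (mt σ a).1 = blk b.1 ∧ b ≠ mt σ a)

/-- closed cyclically reduced walk -/
def IsCWalk (σ : Equiv.Perm (Cel p n)) (l : List (Port p n)) : Prop :=
  IsWalk σ l ∧ ∀ a ∈ l.getLast?, ∀ b ∈ l.head?, blk (mt σ a).1 = blk b.1 ∧ b ≠ mt σ a

/-- girth at least `g` -/
def Girth (σ : Equiv.Perm (Cel p n)) (g : ℕ) : Prop :=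
  ∀ l : List (Port p n), l ≠ [] → IsCWalk σ l → g ≤ l.length

/-! ## Part B: random matching of large girth (change of measure) -/

open Classical in
/-- graph of a permutation as a finset of pairs -/
noncomputable def gr (σ : Equiv.Perm (Cel p n)) : Finset (Cel p n × Cel p n) :=
  univ.image (fun c => (c, σ c))

/-- PART B. `D` bounds the number of ports of a block, `R = (2*D+2)^(g+3)`. -/
def StmtB : Prop :=
  ∀ (p : Pat) (n g D s : ℕ), (∀ b : Blk p n, (univ.filter (fun q : Port p n => blk q.1 = b)).card ≤ D) →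
    (2 * D + 2) ^ (g + 3) + s < Fintype.card (Cel p n) →
    ∀ Q : Finset (Cel p n × Cel p n) → ℝ, (∀ S, 0 ≤ Q S) → (∑ S, Q S ≤ 1) →
      (∀ S, Q S ≠ 0 → S.card ≤ s) →
      ∃ σ : Equiv.Perm (Cel p n), Girth σ g ∧
        ∀ S ⊆ gr σ, Q S * ((Fintype.card (Cel p n) : ℝ) - (2 * D + 2) ^ (g + 3) - s) ^ S.card ≤ 1

/-! ## Partial injections and cycles -/

/-- `k`-th iterate of a partial injection -/
def pit {S : Type} (f : S ≃. S) : ℕ → S → Option S
  | 0, s => some s
  | k + 1, s => (f s).bind (pit f k)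

/-- `s` lies on a cycle of `f` -/
def Per {S : Type} (f : S ≃. S) (s : S) : Prop := ∃ k, 0 < k ∧ pit f k s = some s

open Classical in
/-- forward orbit -/
noncomputable def orb {S : Type} [Fintype S] (f : S ≃. S) (s : S) : Finset S :=
  univ.filter (fun t => ∃ k, pit f k s = some t)

open Classical in
/-- number of cycles -/
noncomputable def cyc {S : Type} [Fintype S] (f : S ≃. S) : ℕ :=
  ((univ.filter (Per f)).image (orb f)).card

open Classical in
noncomputable def domc {S : Type} [Fintype S] (f : S ≃. S) : ℕ :=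
  (univ.filter (fun s => (f s).isSome)).card

/-! ## Gluing data: squares with partial injections `X`, `Y`

`ε s` is the port of the start corner of the (oriented) square `s`, `mt σ (ε s)` the port of its end
corner.  `Y s = some s'`: the end y-side of `s` is glued to the start y-side of `s'`.
`X s = some s'`: the start x-side of `s` is glued to the end x-side of `s'`. -/

structure Glue (σ : Equiv.Perm (Cel p n)) where
  S : Type
  [fS : Fintype S]
  [dS : DecidableEq S]
  ε : S → Port p n
  X : S ≃. S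
  Y : S ≃. S

attribute [instance] Glue.fS Glue.dS

namespace Glue

variable {σ : Equiv.Perm (Cel p n)} (G : Glue σ)

/-- `Y ∘ X` (first `X`, then `Y`) -/
def XY : G.S ≃. G.S := G.X.trans G.Y

/-- sides are glued to sides with the same letter and there is no mirror pair -/
structure Red : Prop where
  y : ∀ s s', G.Y s = some s' → blk (mt σ (G.ε s)).1 = blk (G.ε s').1 ∧ G.ε s' ≠ mt σ (G.ε s)
  x : ∀ s s', G.X s = some s' → rc (G.ε s) = rc (mt σ (G.ε s')) ∧ G.ε s ≠ mt σ (G.ε s')

/-- the label increment of one step `s ↦ X s = u ↦ Y u = v`: `ht (mt (ε u)) - ht (ε v)` -/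
noncomputable def inc (s : G.S) : ℤ :=
  match G.X s with
  | none => 0
  | some u => match G.Y u with
    | none => 0
    | some v => ht (mt σ (G.ε u)).1 - ht (G.ε v).1

/-- all cycles of `XY` except at most one have label sum zero -/
def Lab : Prop := ∃ E : Finset G.S, (∀ s s', s ∈ E → s' ∈ E → orb G.XY s = orb G.XY s') ∧
  ∀ s, Per G.XY s → s ∉ E → ∑ t ∈ orb G.XY s, G.inc t = 0

/-- Euler inequality -/
def Eul : Prop :=
  domc G.X + domc G.Y ≤ Fintype.card G.S + cyc G.X + cyc G.Y + cyc G.XY

end Glue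

/-- the local isoperimetric inequality up to area `M`, with weight `Y` of a y-letter -/
def LocIso (σ : Equiv.Perm (Cel p n)) (M Y : ℕ) (e1 : ℝ) : Prop :=
  ∀ G : Glue σ, G.Red → G.Lab → G.Eul → Fintype.card G.S ≤ M →
    e1 * (Fintype.card G.S : ℝ) ≤
      ((Fintype.card G.S : ℝ) - domc G.X) + Y * ((Fintype.card G.S : ℝ) - domc G.Y)

/-- PARTS B + C + LA: existence of good matchings. -/
def StmtLoc : Prop :=
  ∀ p : Pat, p.Good → ∃ c e1 : ℝ, 0 < c ∧ 0 < e1 ∧ ∀ K Y0 : ℕ, ∃ Y n : ℕ, Y0 ≤ Y ∧ Odd n ∧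
    ∃ σ : Equiv.Perm (Cel p n), ∃ g : ℕ, c * Y ≤ g ∧ Girth σ g ∧ LocIso σ (K * Y) Y e1

/-! ## The group -/

inductive Let (p : Pat) (n : ℕ)
  | t : Let p n
  | x : p.I → Bool → Let p n
  | y : Blk p n → Let p n

/-- the word `t^h` as a list of signed letters -/
def tw (p : Pat) (n : ℕ) (h : ℤ) : List (Let p n × Bool) :=
  List.replicate h.natAbs (Let.t, decide (0 ≤ h))

/-- inverse of a list word -/
def winv {A : Type} (l : List (A × Bool)) : List (A × Bool) := (l.map (fun a => (a.1, !a.2))).reverse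

/-- half relator of a port: `x_{row,copy} t^{ht} y_{blk}` -/
noncomputable def half (q : Port p n) : List (Let p n × Bool) :=
  (Let.x (row q.1) q.2, true) :: (tw p n (ht q.1) ++ [(Let.y (blk q.1), true)])

/-- the relator of a port (oriented square, read from the o-vertex):
`half q * (half (mt σ q))⁻¹`.  The relator of `mt σ q` is the inverse of that of `q`. -/
noncomputable def relw (σ : Equiv.Perm (Cel p n)) (q : Port p n) : List (Let p n × Bool) :=
  half q ++ winv (half (mt σ q))

/-- value of a list word in the free group -/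
def val {A : Type} (l : List (A × Bool)) : FreeGroup A := FreeGroup.mk l

/-- the set of relators -/
def rels (σ : Equiv.Perm (Cel p n)) : Set (FreeGroup (Let p n)) := Set.range (fun q => val (relw σ q))

abbrev Gp (σ : Equiv.Perm (Cel p n)) : Type := PresentedGroup (rels σ)

/-- weight of a letter: `t` 0, `x` 1, `y` Y -/
def wtl (Y : ℕ) : Let p n → ℕ
  | .t => 0
  | .x _ _ => 1
  | .y _ => Y

def wtw (Y : ℕ) (l : List (Let p n × Bool)) : ℕ := (l.map (fun a => wtl Y a.1)).sum

/-- chains: `ℤ[Gp]^{cells}`; the square of a port `(c,true)` is `+[g,c]`, of `(σ c,false)` is `-[g,c]`. -/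
abbrev Chn (σ : Equiv.Perm (Cel p n)) : Type := (Gp σ × Cel p n) →₀ ℤ

noncomputable def pch (σ : Equiv.Perm (Cel p n)) (g : Gp σ) (q : Port p n) : Chn σ :=
  if q.2 then Finsupp.single (g, q.1) 1 else Finsupp.single (g, σ.symm q.1) (-1)

/-- `Expr σ k u z`: the element `u` of the free group is a product of `k` conjugates of relators with
chain `z`. -/
inductive Expr (σ : Equiv.Perm (Cel p n)) : ℕ → FreeGroup (Let p n) → Chn σ → Prop
  | nil : Expr σ 0 1 0
  | cons (k : ℕ) (u : FreeGroup (Let p n)) (z : Chn σ) (v : FreeGroup (Let p n)) (q : Port p n) :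
      Expr σ k u z →
      Expr σ (k + 1) (v * val (relw σ q) * v⁻¹ * u) (pch σ (PresentedGroup.mk (rels σ) v) q + z)

/-- PARTS D + F: asphericity and injectivity for short words. -/
def StmtGlob : Prop :=
  ∀ p : Pat, p.Good → ∀ c e1 : ℝ, 0 < c → 0 < e1 → ∃ K Y0 : ℕ, ∀ Y n : ℕ, Y0 ≤ Y →
    ∀ (σ : Equiv.Perm (Cel p n)) (g : ℕ), c * Y ≤ g → Girth σ g → LocIso σ (K * Y) Y e1 →
      (∀ k z, Expr σ k 1 z → z = 0) ∧
      (∀ l : List (Let p n × Bool), (∀ a ∈ l, ∀ j, a.1 ≠ Let.y j) → wtw Y l ≤ 2 →
        PresentedGroup.mk (rels σ) (val l) = 1 → val l = 1)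

/-- PART G -/
def StmtG : Prop :=
  ∀ (p : Pat), p.Good → ∀ n : ℕ, Odd n → ∀ (Y : ℕ) (σ : Equiv.Perm (Cel p n)),
    (∀ k z, Expr σ k 1 z → z = 0) →
    (∀ l : List (Let p n × Bool), (∀ a ∈ l, ∀ j, a.1 ≠ Let.y j) → wtw Y l ≤ 2 →
        PresentedGroup.mk (rels σ) (val l) = 1 → val l = 1) →
    (∀ g : Gp σ, ∀ m : ℕ, 0 < m → g ^ m = 1 → g = 1) ∧
    ∃ a b : MonoidAlgebra (ZMod 2) (Gp σ), a ≠ 0 ∧ b ≠ 0 ∧ a * b = 0

theorem final (hA : StmtA) (hL : StmtLoc) (hGl : StmtGlob) (hG : StmtG) :
    ∃ (G : Type) (_ : Group G), (∀ g : G, ∀ m : ℕ, 0 < m → g ^ m = 1 → g = 1) ∧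
      ∃ a b : MonoidAlgebra (ZMod 2) G, a ≠ 0 ∧ b ≠ 0 ∧ a * b = 0 := by
  obtain ⟨p, hp⟩ := hA
  obtain ⟨c, e1, hc, he1, h⟩ := hL p hp
  obtain ⟨K, Y0, h2⟩ := hGl p hp c e1 hc he1
  obtain ⟨Y, n, hY, hn, σ, g, hg, hgi, hloc⟩ := h K Y0
  obtain ⟨h3, h4⟩ := h2 Y n hY σ g hg hgi hloc
  exact ⟨Gp σ, inferInstance, hG p hp n hn Y σ h3 h4⟩

/-- puts the equation lemmas of `wtl` into this module -/
theorem wtl_t_here (Y : ℕ) : wtl Y (Let.t : Let p n) = 0 := by simp [wtl]

theorem wtw_tw_zero (Y : ℕ) (m : ℤ) : wtw Y (tw p n m) = 0 := by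
  simp only [wtw, wtl, tw, List.map_replicate, List.sum_replicate, nsmul_zero]

theorem wtw_relw_here (σ : Equiv.Perm (Cel p n)) (Y : ℕ) (q : Port p n) :
    wtw Y (relw σ q) = 2 + 2 * Y := by
  unfold relw half winv tw wtw
  simp only [wtl, List.map_cons, Bool.not_true, List.map_append, List.map_replicate, List.map_nil, List.reverse_cons, List.reverse_append, List.reverse_nil, List.nil_append, List.reverse_replicate, List.cons_append, List.append_assoc, List.sum_cons, List.sum_append, List.sum_replicate, nsmul_zero, List.sum_nil, add_zero, zero_add]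
  ring

/-- puts the equation lemmas of `pit` into this module -/
theorem pit_zero_here {T : Type} (f : T ≃. T) (s : T) : pit f 0 s = some s := by simp only [pit]

end Vale.Agent.P201.Z
end

section

/-! P194, variant M': the rows and the blocks (see note 10194).  `u = t^M`, `D = 1+u+u^2`.
Rows: `D P_i` (copy `true` and copy `false`), `D (1+u^3)` (copy `true`), `D` (copy `false`).
Blocks: `(1+u) Q_k` (`n` times), `1+u+u^4` (`n+1` times), `1+u^2+u^5` (`n` times). -/

namespace Vale.Agent.P194.M

open Finset Vale.Agent.P201.Z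

abbrev F2Z : Type := AddMonoidAlgebra (ZMod 2) ℤ

/-- `∑_{a ∈ s} t^{M a}` -/
noncomputable def up (M : ℤ) (s : Finset ℕ) : F2Z :=
  ∑ a ∈ s, (AddMonoidAlgebra.single M (1 : ZMod 2) : F2Z) ^ a

/-- rows -/
abbrev Rw (p : Pat) : Type := (p.I × Bool) ⊕ Bool

/-- blocks -/
abbrev Bk (p : Pat) (n : ℕ) : Type := (p.K × Fin n) ⊕ (Fin (n + 1) ⊕ Fin n)

/-- copy of a row -/
def cpy {p : Pat} : Rw p → Bool
  | Sum.inl x => x.2
  | Sum.inr a => a

/-- polynomial of a row divided by `D` -/
noncomputable def Pq (p : Pat) (M : ℤ) : Rw p → F2Z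
  | Sum.inl x => p.P x.1
  | Sum.inr true => up M {0, 3}
  | Sum.inr false => 1

/-- polynomial of a row -/
noncomputable def Pr (p : Pat) (M : ℤ) (r : Rw p) : F2Z := Pq p M r * up M {0, 1, 2}

/-- polynomial of a block -/
noncomputable def Qb (p : Pat) (n : ℕ) (M : ℤ) : Bk p n → F2Z
  | Sum.inl y => up M {0, 1} * p.Q y.1
  | Sum.inr (Sum.inl _) => up M {0, 1, 4}
  | Sum.inr (Sum.inr _) => up M {0, 2, 5}

/-- exponents of `u` -/
def Au {p : Pat} {n : ℕ} : Rw p → Bk p n → Finset ℕ
  | Sum.inl _, Sum.inl _ => {0, 3}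
  | Sum.inr true, Sum.inl _ => {0, 6}
  | Sum.inr false, Sum.inl _ => {0, 3}
  | Sum.inl _, Sum.inr (Sum.inl _) => {0, 3, 4, 5, 6}
  | Sum.inl _, Sum.inr (Sum.inr _) => {0, 1, 3, 4, 5, 6, 7}
  | Sum.inr true, Sum.inr (Sum.inl _) => {0, 4, 5, 7, 8, 9}
  | Sum.inr false, Sum.inr (Sum.inl _) => {0, 3, 4, 5, 6}
  | Sum.inr true, Sum.inr (Sum.inr _) => {0, 1, 5, 8, 9, 10}
  | Sum.inr false, Sum.inr (Sum.inr _) => {0, 1, 3, 4, 5, 6, 7}

/-- the factor with small exponents -/
noncomputable def fu (p : Pat) (n : ℕ) : Rw p → Bk p n → F2Z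
  | Sum.inl x, Sum.inl y => p.P x.1 * p.Q y.1
  | Sum.inr _, Sum.inl y => p.Q y.1
  | Sum.inl x, Sum.inr _ => p.P x.1
  | Sum.inr _, Sum.inr _ => 1

/-- ports of row `r` in block `b` -/
noncomputable def Sf (p : Pat) (n : ℕ) (M : ℤ) (r : Rw p) (b : Bk p n) : Finset ℤ :=
  (Pr p M r * Qb p n M b).coeff.support

/-- `M` is large for `p` -/
structure Big (p : Pat) (M L : ℤ) : Prop where
  L0 : 0 ≤ L
  lt : 8 * L < M
  hN : ∀ i k, ∀ h ∈ p.N i k, |h| ≤ L
  hP : ∀ i, ∀ h ∈ (p.P i).coeff.support, |h| ≤ L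
  hQ : ∀ k, ∀ h ∈ (p.Q k).coeff.support, |h| ≤ L

theorem two_eq_zero : (2 : F2Z) = 0 := by
  have h : ((2 : ZMod 2)) = 0 := by decide
  calc (2 : F2Z) = algebraMap (ZMod 2) F2Z 2 := by rw [map_ofNat]
    _ = 0 := by rw [h, map_zero]

theorem mul_fac (p : Pat) (n : ℕ) (M : ℤ) (r : Rw p) (b : Bk p n) :
    Pr p M r * Qb p n M b = up M (Au r b) * fu p n r b := by
  have h2 := two_eq_zero
  have e1 : up M {0, 1, 2} = 1 + (AddMonoidAlgebra.single M (1 : ZMod 2) : F2Z) +
      (AddMonoidAlgebra.single M (1 : ZMod 2) : F2Z) ^ 2 := by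
    simp only [up, LaurentPolynomial.single_eq_C_mul_T, map_one, one_mul, LaurentPolynomial.T_pow, mem_insert, zero_ne_one, mem_singleton, OfNat.zero_ne_ofNat, or_self, not_false_eq_true, sum_insert, CharP.cast_eq_zero, zero_mul, LaurentPolynomial.T_zero, OfNat.one_ne_ofNat, Nat.cast_one, sum_singleton, Nat.cast_ofNat, add_assoc]
  have e2 : up M {0, 3} = 1 + (AddMonoidAlgebra.single M (1 : ZMod 2) : F2Z) ^ 3 := by
    simp only [up, LaurentPolynomial.single_eq_C_mul_T, map_one, one_mul, LaurentPolynomial.T_pow, mem_singleton, OfNat.zero_ne_ofNat, not_false_eq_true, sum_insert, CharP.cast_eq_zero, zero_mul, LaurentPolynomial.T_zero, sum_singleton, Nat.cast_ofNat]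
  have e3 : up M {0, 1} = 1 + (AddMonoidAlgebra.single M (1 : ZMod 2) : F2Z) := by
    simp only [up, LaurentPolynomial.single_eq_C_mul_T, map_one, one_mul, LaurentPolynomial.T_pow, mem_singleton, zero_ne_one, not_false_eq_true, sum_insert, CharP.cast_eq_zero, zero_mul, LaurentPolynomial.T_zero, sum_singleton, Nat.cast_one]
  have e4 : up M {0, 6} = 1 + (AddMonoidAlgebra.single M (1 : ZMod 2) : F2Z) ^ 6 := by
    simp only [up, LaurentPolynomial.single_eq_C_mul_T, map_one, one_mul, LaurentPolynomial.T_pow, mem_singleton, OfNat.zero_ne_ofNat, not_false_eq_true, sum_insert, CharP.cast_eq_zero, zero_mul, LaurentPolynomial.T_zero, sum_singleton, Nat.cast_ofNat]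
  have e5 : up M {0, 1, 4} = 1 + (AddMonoidAlgebra.single M (1 : ZMod 2) : F2Z) +
      (AddMonoidAlgebra.single M (1 : ZMod 2) : F2Z) ^ 4 := by
    simp only [up, LaurentPolynomial.single_eq_C_mul_T, map_one, one_mul, LaurentPolynomial.T_pow, mem_insert, zero_ne_one, mem_singleton, OfNat.zero_ne_ofNat, or_self, not_false_eq_true, sum_insert, CharP.cast_eq_zero, zero_mul, LaurentPolynomial.T_zero, OfNat.one_ne_ofNat, Nat.cast_one, sum_singleton, Nat.cast_ofNat, add_assoc]
  have e6 : up M {0, 2, 5} = 1 + (AddMonoidAlgebra.single M (1 : ZMod 2) : F2Z) ^ 2 +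
      (AddMonoidAlgebra.single M (1 : ZMod 2) : F2Z) ^ 5 := by
    simp only [up, LaurentPolynomial.single_eq_C_mul_T, map_one, one_mul, LaurentPolynomial.T_pow, mem_insert, OfNat.zero_ne_ofNat, mem_singleton, or_self, not_false_eq_true, sum_insert, CharP.cast_eq_zero, zero_mul, LaurentPolynomial.T_zero, Nat.reduceEqDiff, Nat.cast_ofNat, sum_singleton, add_assoc]
  have e7 : up M {0, 3, 4, 5, 6} = 1 + (AddMonoidAlgebra.single M (1 : ZMod 2) : F2Z) ^ 3 +
      (AddMonoidAlgebra.single M (1 : ZMod 2) : F2Z) ^ 4 +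
      (AddMonoidAlgebra.single M (1 : ZMod 2) : F2Z) ^ 5 +
      (AddMonoidAlgebra.single M (1 : ZMod 2) : F2Z) ^ 6 := by
    simp only [up, LaurentPolynomial.single_eq_C_mul_T, map_one, one_mul, LaurentPolynomial.T_pow, mem_insert, OfNat.zero_ne_ofNat, mem_singleton, or_self, not_false_eq_true, sum_insert, CharP.cast_eq_zero, zero_mul, LaurentPolynomial.T_zero, Nat.reduceEqDiff, Nat.cast_ofNat, sum_singleton, add_assoc]
  have e8 : up M {0, 1, 3, 4, 5, 6, 7} = 1 + (AddMonoidAlgebra.single M (1 : ZMod 2) : F2Z) +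
      (AddMonoidAlgebra.single M (1 : ZMod 2) : F2Z) ^ 3 +
      (AddMonoidAlgebra.single M (1 : ZMod 2) : F2Z) ^ 4 +
      (AddMonoidAlgebra.single M (1 : ZMod 2) : F2Z) ^ 5 +
      (AddMonoidAlgebra.single M (1 : ZMod 2) : F2Z) ^ 6 +
      (AddMonoidAlgebra.single M (1 : ZMod 2) : F2Z) ^ 7 := by
    simp only [up, LaurentPolynomial.single_eq_C_mul_T, map_one, one_mul, LaurentPolynomial.T_pow, mem_insert, zero_ne_one, OfNat.zero_ne_ofNat, mem_singleton, or_self, not_false_eq_true, sum_insert, CharP.cast_eq_zero, zero_mul, LaurentPolynomial.T_zero, OfNat.one_ne_ofNat, Nat.cast_one, Nat.reduceEqDiff, Nat.cast_ofNat, sum_singleton, add_assoc]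
  have e9 : up M {0, 4, 5, 7, 8, 9} = 1 + (AddMonoidAlgebra.single M (1 : ZMod 2) : F2Z) ^ 4 +
      (AddMonoidAlgebra.single M (1 : ZMod 2) : F2Z) ^ 5 +
      (AddMonoidAlgebra.single M (1 : ZMod 2) : F2Z) ^ 7 +
      (AddMonoidAlgebra.single M (1 : ZMod 2) : F2Z) ^ 8 +
      (AddMonoidAlgebra.single M (1 : ZMod 2) : F2Z) ^ 9 := by
    simp only [up, LaurentPolynomial.single_eq_C_mul_T, map_one, one_mul, LaurentPolynomial.T_pow, mem_insert, OfNat.zero_ne_ofNat, mem_singleton, or_self, not_false_eq_true, sum_insert, CharP.cast_eq_zero, zero_mul, LaurentPolynomial.T_zero, Nat.reduceEqDiff, Nat.cast_ofNat, sum_singleton, add_assoc]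
  have e10 : up M {0, 1, 5, 8, 9, 10} = 1 + (AddMonoidAlgebra.single M (1 : ZMod 2) : F2Z) +
      (AddMonoidAlgebra.single M (1 : ZMod 2) : F2Z) ^ 5 +
      (AddMonoidAlgebra.single M (1 : ZMod 2) : F2Z) ^ 8 +
      (AddMonoidAlgebra.single M (1 : ZMod 2) : F2Z) ^ 9 +
      (AddMonoidAlgebra.single M (1 : ZMod 2) : F2Z) ^ 10 := by
    simp only [up, LaurentPolynomial.single_eq_C_mul_T, map_one, one_mul, LaurentPolynomial.T_pow, mem_insert, zero_ne_one, OfNat.zero_ne_ofNat, mem_singleton, or_self, not_false_eq_true, sum_insert, CharP.cast_eq_zero, zero_mul, LaurentPolynomial.T_zero, OfNat.one_ne_ofNat, Nat.cast_one, Nat.reduceEqDiff, Nat.cast_ofNat, sum_singleton, add_assoc]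
  generalize (AddMonoidAlgebra.single M (1 : ZMod 2) : F2Z) = u at *
  rcases r with x | (_ | _) <;> rcases b with y | (y | y) <;>
    simp only [Pr, Pq, Qb, Au, fu, e1, e2, e3, e4, e5, e6, e7, e8, e9, e10]
  · linear_combination (p.P x.1 * p.Q y.1 * (u + u ^ 2)) * h2
  · linear_combination (p.P x.1 * (u + u ^ 2)) * h2
  · linear_combination (p.P x.1 * u ^ 2) * h2
  · linear_combination (p.Q y.1 * (u + u ^ 2)) * h2
  · linear_combination (u + u ^ 2) * h2
  · linear_combination (u ^ 2) * h2
  · linear_combination (p.Q y.1 * (u + u ^ 2 + u ^ 3 + u ^ 4 + u ^ 5)) * h2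
  · linear_combination (u + u ^ 2 + u ^ 3 + u ^ 4 + u ^ 5 + u ^ 6) * h2
  · linear_combination (u ^ 2 + u ^ 3 + u ^ 4 + u ^ 5 + u ^ 6 + u ^ 7) * h2

/-! ## supports -/

/-- dilation: `{M a + h}` -/
noncomputable def dil (M : ℤ) (s : Finset ℕ) (F : Finset ℤ) : Finset ℤ :=
  (s ×ˢ F).image (fun x => M * x.1 + x.2)

theorem dil_inj {M L : ℤ} (hM : 2 * L < M) {a b : ℕ} {h k : ℤ} (hh : |h| ≤ L) (hk : |k| ≤ L)
    (he : M * a + h = M * b + k) : a = b ∧ h = k := by
  have h1 := abs_le.1 hh
  have h2 := abs_le.1 hk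
  have hab : (a : ℤ) = b := by
    rcases lt_trichotomy (a : ℤ) b with hlt | heq | hlt
    · exfalso
      have : M * ((b : ℤ) - a) ≥ M * 1 := by
        apply mul_le_mul_of_nonneg_left
        · omega
        · linarith only [hM, h1]
      linarith
    · exact heq
    · exfalso
      have : M * ((a : ℤ) - b) ≥ M * 1 := by
        apply mul_le_mul_of_nonneg_left
        · omega
        · linarith only [hM, h1]
      linarith
  refine ⟨by exact_mod_cast hab, ?_⟩
  rw [hab] at he
  linarith only [he]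

theorem card_dil {M L : ℤ} (hM : 2 * L < M) (s : Finset ℕ) (F : Finset ℤ)
    (hF : ∀ h ∈ F, |h| ≤ L) : (dil M s F).card = s.card * F.card := by
  rw [dil, Finset.card_image_of_injOn, Finset.card_product]
  rintro ⟨a, h⟩ hx ⟨b, k⟩ hy he
  simp only [coe_product, Set.mem_prod, mem_coe] at hx hy
  have h12 : a = b ∧ h = k := dil_inj hM (hF h hx.2) (hF k hy.2) he
  rw [h12.1, h12.2]

theorem supp_up {M L : ℤ} (hM : 2 * L < M) (s : Finset ℕ) (f : F2Z)
    (hf : ∀ h ∈ f.coeff.support, |h| ≤ L) :
    (up M s * f).coeff.support = dil M s f.coeff.support := by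
  classical
  have hc : ∀ z : ℤ, (up M s * f).coeff z = ∑ a ∈ s, f.coeff (z - M * a) := by
    intro z
    rw [up, Finset.sum_mul, AddMonoidAlgebra.coeff_sum, Finsupp.finsetSum_apply]
    refine Finset.sum_congr rfl fun a _ => ?_
    rw [AddMonoidAlgebra.single_pow, one_pow]
    have : (a : ℕ) • M = M * a := by rw [nsmul_eq_mul, mul_comm]
    rw [this, AddMonoidAlgebra.coeff_single_mul_apply, one_mul]
    congr 1
    ring
  ext z
  rw [Finsupp.mem_support_iff, hc, dil, Finset.mem_image]
  constructor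
  · intro hz
    obtain ⟨a, ha, hne⟩ := Finset.exists_ne_zero_of_sum_ne_zero hz
    refine ⟨(a, z - M * a), ?_, by simp only [add_sub_cancel]⟩
    rw [Finset.mem_product]
    exact ⟨ha, Finsupp.mem_support_iff.2 hne⟩
  · rintro ⟨⟨a, h⟩, hx, rfl⟩
    rw [Finset.mem_product] at hx
    rw [Finset.sum_eq_single a]
    · simp only [add_sub_cancel_left]
      exact Finsupp.mem_support_iff.1 hx.2
    · intro b hb hne
      by_contra hcon
      have h3 := hf _ (Finsupp.mem_support_iff.2 hcon)
      have := dil_inj hM (a := b) (b := a) h3 (hf h hx.2) (by simp only [add_sub_cancel])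
      exact hne this.1
    · intro hn; exact absurd hx.1 hn

theorem fu_le {p : Pat} {n : ℕ} {M L : ℤ} (hB : Big p M L) (r : Rw p) (b : Bk p n) :
    ∀ h ∈ (fu p n r b).coeff.support, |h| ≤ L := by
  rcases r with x | x <;> rcases b with y | y <;> simp only [fu]
  · exact hB.hN x.1 y.1
  · exact hB.hP x.1
  · exact hB.hQ y.1
  · intro h hh
    have : h = 0 := by
      by_contra hne
      rw [Finsupp.mem_support_iff, AddMonoidAlgebra.one_def, AddMonoidAlgebra.coeff_single] at hh
      exact hh (Finsupp.single_eq_of_ne hne)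
    rw [this, abs_zero]
    exact hB.L0

/-- the ports of a row in a block -/
theorem Sf_eq {p : Pat} {n : ℕ} {M L : ℤ} (hB : Big p M L) (r : Rw p) (b : Bk p n) :
    Sf p n M r b = dil M (Au r b) (fu p n r b).coeff.support := by
  have := hB.lt
  have := hB.L0
  rw [Sf, mul_fac, supp_up (L := L) (by (clear n r b; linarith)) _ _ (fu_le hB r b)]

theorem card_Sf {p : Pat} {n : ℕ} {M L : ℤ} (hB : Big p M L) (r : Rw p) (b : Bk p n) :
    (Sf p n M r b).card = (Au r b).card * (fu p n r b).coeff.support.card := by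
  have := hB.lt
  have := hB.L0
  rw [Sf_eq hB, card_dil (L := L) (by (clear n r b; linarith)) _ _ (fu_le hB r b)]

theorem one_supp : (1 : F2Z).coeff.support = {0} := by
  classical
  rw [AddMonoidAlgebra.one_def, AddMonoidAlgebra.coeff_single]
  exact Finsupp.support_single _ (by decide)

/-- number of ports of a copy -/
noncomputable def num (p : Pat) (n : ℕ) (M : ℤ) (a : Bool) : ℕ :=
  ∑ r ∈ univ.filter (fun r : Rw p => cpy r = a), ∑ b : Bk p n, (Sf p n M r b).card

theorem num_eq (p : Pat) (n : ℕ) (M : ℤ) (a : Bool) :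
    num p n M a = ∑ i : p.I, ∑ b : Bk p n, (Sf p n M (Sum.inl (i, a)) b).card +
      ∑ b : Bk p n, (Sf p n M (Sum.inr a) b).card := by
  classical
  unfold num
  rw [Finset.sum_filter, Fintype.sum_sum_type, Fintype.sum_prod_type]
  congr 1
  · refine Finset.sum_congr rfl fun i _ => ?_
    cases a <;> simp [cpy]
  · cases a <;> simp [cpy]

theorem num_bal {p : Pat} {n : ℕ} {M L : ℤ} (hB : Big p M L) :
    num p n M true = num p n M false + 1 := by
  have c1 : ∀ a : Bool, ∀ i : p.I, ∀ b : Bk p n, (Sf p n M (Sum.inl (i, a)) b).card =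
      (Sf p n M (Sum.inl (i, false)) b).card := by
    intro a i b
    rw [card_Sf hB, card_Sf hB]
    rcases b with y | (y | y) <;> rfl
  rw [num_eq, num_eq]
  simp_rw [c1 true]
  have c2 : ∑ b : Bk p n, (Sf p n M (Sum.inr true) b).card =
      ∑ b : Bk p n, (Sf p n M (Sum.inr false) b).card + 1 := by
    rw [Fintype.sum_sum_type, Fintype.sum_sum_type, Fintype.sum_sum_type, Fintype.sum_sum_type]
    simp only [card_Sf hB, Au, fu, one_supp, Finset.card_singleton, mul_one]
    have d1 : ({0, 6} : Finset ℕ).card = 2 := by decide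
    have d2 : ({0, 3} : Finset ℕ).card = 2 := by decide
    have d3 : ({0, 4, 5, 7, 8, 9} : Finset ℕ).card = 6 := by decide
    have d4 : ({0, 3, 4, 5, 6} : Finset ℕ).card = 5 := by decide
    have d5 : ({0, 1, 5, 8, 9, 10} : Finset ℕ).card = 6 := by decide
    have d6 : ({0, 1, 3, 4, 5, 6, 7} : Finset ℕ).card = 7 := by decide
    rw [d1, d2, d3, d4, d5, d6]
    simp only [sum_const, card_univ, Fintype.card_fin, smul_eq_mul]
    ring
  rw [c2]
  ring

/-- lower bound for the number of cells -/
theorem num_ge {p : Pat} {n : ℕ} {M L : ℤ} (hB : Big p M L) :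
    2 * n * p.Ttot ≤ num p n M false := by
  rw [num_eq]
  refine le_trans ?_ (Nat.le_add_right _ _)
  have h1 : ∀ i : p.I, 2 * n * ∑ k, (p.N i k).card ≤
      ∑ b : Bk p n, (Sf p n M (Sum.inl (i, false)) b).card := by
    intro i
    rw [Fintype.sum_sum_type]
    refine le_trans ?_ (Nat.le_add_right _ _)
    rw [Fintype.sum_prod_type]
    simp only [card_Sf hB, Au, fu]
    have d2 : ({0, 3} : Finset ℕ).card = 2 := by decide
    rw [d2]
    simp only [Finset.sum_const, Finset.card_univ, Fintype.card_fin, smul_eq_mul]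
    rw [Finset.mul_sum]
    apply le_of_eq
    refine Finset.sum_congr rfl fun k _ => ?_
    rw [Pat.N]
    ring
  calc 2 * n * p.Ttot = ∑ i : p.I, 2 * n * ∑ k, (p.N i k).card := by
        rw [Pat.Ttot, Finset.sum_comm, Finset.mul_sum]
    _ ≤ _ := Finset.sum_le_sum fun i _ => h1 i

/-- for every pattern there are `L` and `M` -/
theorem exists_big (p : Pat) : ∃ M L : ℤ, Big p M L ∧ 0 < M := by
  classical
  have hfin : ∃ L : ℤ, 0 ≤ L ∧ (∀ i k, ∀ h ∈ p.N i k, |h| ≤ L) ∧
      (∀ i, ∀ h ∈ (p.P i).coeff.support, |h| ≤ L) ∧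
      (∀ k, ∀ h ∈ (p.Q k).coeff.support, |h| ≤ L) := by
    set A : Finset ℤ := (univ.biUnion fun i : p.I => univ.biUnion fun k : p.K => p.N i k) ∪
      (univ.biUnion fun i : p.I => (p.P i).coeff.support) ∪
      (univ.biUnion fun k : p.K => (p.Q k).coeff.support) with hA
    refine ⟨∑ h ∈ A, |h|, Finset.sum_nonneg fun _ _ => abs_nonneg _, ?_, ?_, ?_⟩
    · intro i k h hh
      apply Finset.single_le_sum (f := fun h : ℤ => |h|) (fun _ _ => abs_nonneg _)
      rw [hA]
      simp only [Finset.mem_union, Finset.mem_biUnion, Finset.mem_univ, true_and]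
      exact Or.inl (Or.inl ⟨i, k, hh⟩)
    · intro i h hh
      apply Finset.single_le_sum (f := fun h : ℤ => |h|) (fun _ _ => abs_nonneg _)
      rw [hA]
      simp only [Finset.mem_union, Finset.mem_biUnion, Finset.mem_univ, true_and]
      exact Or.inl (Or.inr ⟨i, hh⟩)
    · intro i h hh
      apply Finset.single_le_sum (f := fun h : ℤ => |h|) (fun _ _ => abs_nonneg _)
      rw [hA]
      simp only [Finset.mem_union, Finset.mem_biUnion, Finset.mem_univ, true_and]
      exact Or.inr ⟨i, hh⟩
  obtain ⟨L, h0, h1, h2, h3⟩ := hfin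
  exact ⟨8 * L + 1, L, ⟨h0, by linarith only [], h1, h2, h3⟩, by linarith only [h0]⟩

/-- the port that stays unmatched -/
theorem zero_mem {p : Pat} {n : ℕ} {M L : ℤ} (hB : Big p M L) :
    (0 : ℤ) ∈ Sf p n M (Sum.inr true) (Sum.inr (Sum.inl 0)) := by
  rw [Sf_eq hB, dil, Finset.mem_image]
  refine ⟨(0, 0), ?_, by simp⟩
  rw [Finset.mem_product]
  refine ⟨by simp only [Au, mem_insert, OfNat.zero_ne_ofNat, mem_singleton, or_self, or_false], ?_⟩
  simp only [fu, one_supp, Finset.mem_singleton]

end Vale.Agent.P194.M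
end

section

/-!
P201, part A, block A1: rank factorisation over `F_2` of the incidence matrix of the affine plane of
order `2 ^ e`, and incidence counts.
-/

namespace Vale.Agent.P201.Z

open Finset

/-- A matrix over a field `k` that factors through `ρ` over an extension factors over `k` through
every larger index set `T`, with a spare coordinate. -/
theorem factor_of_ext {k F : Type} [Field k] [Field F] [Algebra k F] {ι κ ρ T : Type}
    [Fintype κ] [Fintype ρ] [Fintype T] (A : ι → κ → k) (f : ι → ρ → F) (g : κ → ρ → F)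
    (h : ∀ i j, algebraMap k F (A i j) = ∑ r, f i r * g j r)
    (hT : Fintype.card ρ < Fintype.card T) :
    ∃ (xv : ι → T → k) (yv : κ → T → k) (t0 : T), (∀ i, xv i t0 = 0) ∧
      ∀ i j, ∑ r, xv i r * yv j r = A i j := by
  classical
  obtain ⟨d, v, hv, hspan, hli⟩ : ∃ (d : ℕ) (v : Fin d → κ → k), (∀ i, v i ∈ Set.range A) ∧
      Submodule.span k (Set.range v) = Submodule.span k (Set.range A) ∧ LinearIndependent k v :=
    ⟨_, Submodule.exists_fun_fin_finrank_span_eq k (Set.range A)⟩
  -- the vectors stay independent over `F`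
  have hliF : LinearIndependent F (fun i => (algebraMap k F) ∘ v i) :=
    linearIndependent_algebraMap_comp_iff.mpr hli
  have hmem : ∀ i, ((algebraMap k F) ∘ v i) ∈
      Submodule.span F (Set.range (fun r : ρ => fun j : κ => g j r)) := by
    intro i
    obtain ⟨a, ha⟩ := hv i
    have : ((algebraMap k F) ∘ v i) = ∑ r, f a r • (fun j : κ => g j r) := by
      funext j
      simp only [Function.comp_apply, ← ha, h, Finset.sum_apply, Pi.smul_apply, smul_eq_mul]
    rw [this]
    exact Submodule.sum_mem _ fun r _ => Submodule.smul_mem _ _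
      (Submodule.subset_span ⟨r, rfl⟩)
  have hdle : d ≤ Fintype.card ρ := by
    have h1 : LinearIndependent F (fun i : Fin d =>
        (⟨(algebraMap k F) ∘ v i, hmem i⟩ :
          Submodule.span F (Set.range (fun r : ρ => fun j : κ => g j r)))) := by
      apply LinearIndependent.of_comp (Submodule.subtype _)
      exact hliF
    have h2 := h1.fintype_card_le_finrank
    have h3 : Module.finrank F (Submodule.span F (Set.range (fun r : ρ => fun j : κ => g j r))) ≤
        Fintype.card ρ := finrank_range_le_card _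
    simpa only [ge_iff_le, Fintype.card_fin] using h2.trans h3
  -- injection
  have hdT : Fintype.card (Fin d) < Fintype.card T := by
    simpa only [Fintype.card_fin] using lt_of_le_of_lt hdle hT
  obtain ⟨emb⟩ : Nonempty (Fin d ↪ T) := Function.Embedding.nonempty_of_card_le hdT.le
  have hns : ∃ t0, t0 ∉ Set.range emb := by
    by_contra hcon
    push Not at hcon
    have hsurj : Function.Surjective emb := hcon
    have := Fintype.card_le_of_surjective _ hsurj
    omega
  obtain ⟨t0, ht0⟩ := hns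
  have hc : ∀ i, ∃ c : Fin d → k, ∑ j, c j • v j = A i := by
    intro i
    have : A i ∈ Submodule.span k (Set.range v) := by
      rw [hspan]
      exact Submodule.subset_span ⟨i, rfl⟩
    exact (Submodule.mem_span_range_iff_exists_fun k).1 this
  choose c hc using hc
  refine ⟨fun i => Function.extend emb (c i) 0, fun j => Function.extend emb (fun s => v s j) 0,
    t0, fun i => ?_, fun i j => ?_⟩
  · beta_reduce
    rw [Function.extend_apply' _ _ _ (by simpa only [not_exists, Set.mem_range] using ht0)]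
    rfl
  · have : A i j = ∑ s, c i s * v s j := by
      rw [← hc i]
      simp only [Finset.sum_apply, Pi.smul_apply, smul_eq_mul]
    rw [this]
    symm
    refine Fintype.sum_of_injective emb emb.injective _ _ (fun t ht => ?_) fun s => ?_
    · beta_reduce
      rw [Function.extend_apply' _ _ _ (by simpa only [not_exists, Set.mem_range] using ht)]
      simp only [Pi.zero_apply, zero_mul]
    · beta_reduce
      rw [emb.injective.extend_apply, emb.injective.extend_apply]

section plane

variable {F : Type} [Field F] [Fintype F] [DecidableEq F]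

/-- incidence of the affine plane: point `i`, line `k` -/
def inc (i k : F × F) : Prop := i.2 = k.1 * i.1 + k.2

instance (i k : F × F) : Decidable (inc i k) := by unfold inc; infer_instance

theorem card_inc (i : F × F) :
    (univ.filter (fun k : F × F => inc i k)).card = Fintype.card F := by
  have : (univ.filter (fun k : F × F => inc i k)) =
      univ.image (fun a : F => (a, i.2 - a * i.1)) := by
    ext ⟨a, b⟩
    rw [mem_filter, mem_image]
    simp only [mem_univ, true_and, Prod.mk.injEq]
    constructor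
    · intro h
      unfold inc at h
      exact ⟨a, rfl, by rw [h]; ring⟩
    · rintro ⟨a', rfl, rfl⟩
      unfold inc
      ring
  rw [this, card_image_of_injective _ (fun a b h => (Prod.mk.inj h).1), card_univ]

theorem card_inc_inc_le {i i' : F × F} (h : i ≠ i') :
    (univ.filter (fun k : F × F => inc i k ∧ inc i' k)).card ≤ 1 := by
  rw [card_le_one]
  rintro ⟨a, b⟩ h1 ⟨a', b'⟩ h2
  rw [mem_filter] at h1 h2
  obtain ⟨-, h1, h1'⟩ := h1
  obtain ⟨-, h2, h2'⟩ := h2
  unfold inc at h1 h1' h2 h2'
  simp only at h1 h1' h2 h2'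
  have hx : i.1 ≠ i'.1 := by
    intro hx
    apply h
    ext
    · exact hx
    · rw [h1, h1', hx]
  have e : (a - a') * (i.1 - i'.1) = 0 := by
    linear_combination h1' - h1 + h2 - h2'
  have ea : a = a' := by
    rcases mul_eq_zero.1 e with h | h
    · exact sub_eq_zero.1 h
    · exact absurd (sub_eq_zero.1 h) hx
  subst ea
  have eb : b = b' := by linear_combination h2 - h1
  rw [eb]

/-- number of incident quadruples -/
theorem sum_inc_sq_le : (∑ i : F × F, ∑ i' : F × F,
    (univ.filter (fun k : F × F => inc i k ∧ inc i' k)).card ^ 2) ≤ 2 * Fintype.card F ^ 4 := by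
  classical
  have key : ∀ i i' : F × F, (univ.filter (fun k : F × F => inc i k ∧ inc i' k)).card ^ 2 ≤
      (if i = i' then Fintype.card F ^ 2 else 0) + 1 := by
    intro i i'
    split_ifs with h
    · subst h
      simp only [and_self]
      rw [card_inc]
      omega
    · have := card_inc_inc_le h
      interval_cases (univ.filter (fun k : F × F => inc i k ∧ inc i' k)).card <;> simp
  calc _ ≤ ∑ i : F × F, ∑ i' : F × F, ((if i = i' then Fintype.card F ^ 2 else 0) + 1) :=
        sum_le_sum fun i _ => sum_le_sum fun i' _ => key i i'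
    _ = 2 * Fintype.card F ^ 4 := by
        simp only [sum_add_distrib, sum_ite_eq, mem_univ, if_true, sum_const, card_univ,
          Fintype.card_prod, smul_eq_mul, mul_one]
        ring

end plane

/-- Factorisation of the incidence matrix over `F` itself. -/
theorem inc_factor {F : Type} [Field F] [Fintype F] [DecidableEq F] [CharP F 2] {e : ℕ}
    (hF : Fintype.card F = 2 ^ e) : ∃ (f g : F × F → Option (Fin e → Fin 3) → F),
      ∀ i k, (if inc i k then (1 : F) else 0) = ∑ r, f i r * g k r := by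
  have : Fact (Nat.Prime 2) := ⟨Nat.prime_two⟩
  let u : F × F → Fin 3 → ℕ → F := fun i j s => ![i.2 ^ 2 ^ s, -i.1 ^ 2 ^ s, -1] j
  let w : F × F → Fin 3 → ℕ → F := fun k j s => ![1, k.1 ^ 2 ^ s, k.2 ^ 2 ^ s] j
  refine ⟨fun i r => r.elim 1 (fun c => - ∏ s : Fin e, u i (c s) s),
    fun k r => r.elim 1 (fun c => ∏ s : Fin e, w k (c s) s), fun i k => ?_⟩
  have h1 : ∀ z : F, (if z = 0 then (1 : F) else 0) = 1 - z ^ (2 ^ e - 1) := by
    intro z
    split_ifs with hz
    · subst hz
      have h2 : 2 ^ e - 1 ≠ 0 := by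
        have : 1 < Fintype.card F := Fintype.one_lt_card
        omega
      rw [zero_pow h2, sub_zero]
    · rw [← hF, FiniteField.pow_card_sub_one_eq_one z hz, sub_self]
  have h2 : ∀ z : F, z ^ (2 ^ e - 1) = ∏ s : Fin e, z ^ 2 ^ (s : ℕ) := by
    intro z
    rw [Finset.prod_pow_eq_pow_sum, Fin.sum_univ_eq_sum_range (fun s => 2 ^ s) e,
      Nat.geomSum_eq le_rfl]
    simp only [Nat.add_one_sub_one, Nat.div_one]
  have h3 : (if inc i k then (1 : F) else 0) = if i.2 - k.1 * i.1 - k.2 = 0 then (1 : F) else 0 := by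
    congr 1
    rw [eq_iff_iff, inc]
    constructor
    · intro h
      rw [h]; ring
    · intro h
      linear_combination h
  rw [h3, h1, h2, Fintype.sum_option]
  have h4 : ∀ s : Fin e, (i.2 - k.1 * i.1 - k.2) ^ 2 ^ (s : ℕ) = ∑ j : Fin 3, u i j s * w k j s := by
    intro s
    rw [sub_pow_char_pow, sub_pow_char_pow, mul_pow]
    simp only [u, w, Fin.sum_univ_three, Matrix.cons_val_zero, Matrix.cons_val_one,
      Matrix.cons_val_two, Matrix.head_cons, Matrix.tail_cons]
    ring
  rw [prod_congr rfl fun s _ => h4 s, Finset.prod_univ_sum, Fintype.piFinset_univ]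
  simp only [prod_mul_distrib, Option.elim_none, mul_one, Option.elim_some, neg_mul, sum_neg_distrib]
  ring

/-- BLOCK A1: the incidence matrix of the affine plane of order `2 ^ e` over `F_2`, indexed through
any set `T` with more than `3 ^ e + 1` elements, with a spare coordinate. -/
theorem exists_factor {e : ℕ} (he : e ≠ 0) {T : Type} [Fintype T] (hT : 3 ^ e + 1 < Fintype.card T) :
    ∃ (F : Type) (_ : Field F) (_ : Fintype F) (_ : DecidableEq F)
      (xv yv : F × F → T → ZMod 2) (t0 : T), Fintype.card F = 2 ^ e ∧ (∀ i, xv i t0 = 0) ∧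
      ∀ i k, ∑ r, xv i r * yv k r = if inc i k then 1 else 0 := by
  classical
  have : Fact (Nat.Prime 2) := ⟨Nat.prime_two⟩
  let F := GaloisField 2 e
  have : Finite F := inferInstance
  let _ : Fintype F := Fintype.ofFinite F
  have hF : Fintype.card F = 2 ^ e := by
    rw [← Nat.card_eq_fintype_card]
    exact GaloisField.card 2 e he
  obtain ⟨f, g, hfg⟩ := inc_factor hF
  have hcard : Fintype.card (Option (Fin e → Fin 3)) < Fintype.card T := by
    rw [Fintype.card_option, Fintype.card_fun, Fintype.card_fin, Fintype.card_fin]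
    exact hT
  obtain ⟨xv, yv, t0, h0, h⟩ := factor_of_ext (k := ZMod 2) (F := F) (T := T)
    (fun i k : F × F => if inc i k then 1 else 0) f g (fun i k => by
      rw [← hfg]; split_ifs <;> simp) hcard
  exact ⟨F, inferInstance, inferInstance, inferInstance, xv, yv, t0, hF, h0, h⟩

end Vale.Agent.P201.Z
end

section

/-!
P201, part A, block A2: the polynomials `P_i`, `Q_k`, their products and supports.
-/

namespace Vale.Agent.P201.Z.PA

open Finset AddMonoidAlgebra

/-- One coordinate of a monomial: no variable, or a variable to the power one (`false`) or two. -/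
abbrev O (q : ℕ) : Type := Option (Bool × Fin q)

/-- Degree of a coordinate. -/
def ty {q : ℕ} : O q → ℕ
  | none => 0
  | some (false, _) => 1
  | some (true, _) => 2

/-- Exponent vector of a coordinate. -/
def vv {q : ℕ} : O q → Fin q → ℕ
  | none => 0
  | some (t, s) => Pi.single s (if t then 2 else 1)

/-- The exponent of the variable `(j, s)`. -/
def bs (d q : ℕ) (j : Fin d) (s : Fin q) : ℕ := 5 ^ (finProdFinEquiv (j, s) : ℕ)

/-- The height of a coordinate, as a natural number. -/
def hc (d q : ℕ) (j : Fin d) (b : O q) : ℕ := ∑ s, vv b s * bs d q j s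

/-- The height of a monomial. -/
def Hn {d q : ℕ} (a : Fin d → O q) : ℕ := ∑ j, hc d q j (a j)

/-- The height of a monomial. -/
def H {d q : ℕ} (a : Fin d → O q) : ℤ := (Hn a : ℤ)

/-! ### Digits -/

theorem digits_inj {m : ℕ} (f g : Fin m → ℕ) (hf : ∀ x, f x < 5) (hg : ∀ x, g x < 5)
    (h : ∑ x, f x * 5 ^ (x : ℕ) = ∑ x, g x * 5 ^ (x : ℕ)) : f = g := by
  induction m with
  | zero => exact funext fun x => x.elim0
  | succ m ih =>
    rw [Fin.sum_univ_succ, Fin.sum_univ_succ] at h
    have e : ∀ u : Fin (m + 1) → ℕ, ∑ x : Fin m, u x.succ * 5 ^ ((x.succ : Fin (m + 1)) : ℕ) =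
        5 * ∑ x : Fin m, u x.succ * 5 ^ (x : ℕ) := by
      intro u
      rw [mul_sum]
      refine sum_congr rfl fun x _ => ?_
      rw [Fin.val_succ, pow_succ]
      ring
    rw [e, e] at h
    simp only [Fin.val_zero, pow_zero, mul_one] at h
    have h0 := hf 0
    have h1 := hg 0
    have h2 : f 0 = g 0 := by omega
    have h3 : ∑ x : Fin m, f x.succ * 5 ^ (x : ℕ) = ∑ x : Fin m, g x.succ * 5 ^ (x : ℕ) := by
      omega
    have h4 := ih (fun x => f x.succ) (fun x => g x.succ) (fun x => hf _) (fun x => hg _) h3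
    funext x
    refine Fin.cases h2 (fun y => ?_) x
    exact congrFun h4 y

theorem vv_le {q : ℕ} (b : O q) (s : Fin q) : vv b s ≤ 2 := by
  rcases b with _ | ⟨t, s'⟩
  · simp [vv]
  · by_cases hs : s = s'
    · subst hs
      cases t <;> simp [vv]
    · simp only [vv, ne_eq, hs, not_false_eq_true, Pi.single_eq_of_ne, zero_le]

theorem Hn_eq {d q : ℕ} (a : Fin d → O q) :
    Hn a = ∑ x : Fin (d * q), vv (a (finProdFinEquiv.symm x).1) (finProdFinEquiv.symm x).2 *
      5 ^ (x : ℕ) := by
  unfold Hn hc bs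
  rw [← Fintype.sum_prod_type' (f := fun j s => vv (a j) s * 5 ^ (finProdFinEquiv (j, s) : ℕ))]
  refine (Fintype.sum_equiv finProdFinEquiv.symm _ _ fun x => ?_).symm
  rw [Prod.mk.eta, Equiv.apply_symm_apply]

/-- The four term relation between heights is a relation between exponent vectors. -/
theorem rel_of_H {d q : ℕ} {a1 a2 a3 a4 : Fin d → O q} (h : H a2 - H a1 = H a4 - H a3) (j : Fin d) :
    vv (a2 j) + vv (a3 j) = vv (a1 j) + vv (a4 j) := by
  have h1 : Hn a2 + Hn a3 = Hn a1 + Hn a4 := by
    unfold H at h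
    omega
  rw [Hn_eq, Hn_eq, Hn_eq, Hn_eq, ← sum_add_distrib, ← sum_add_distrib] at h1
  simp only [← add_mul] at h1
  have h2 := digits_inj _ _ (fun x => ?_) (fun x => ?_) h1
  · funext s
    have h3 := congrFun h2 (finProdFinEquiv (j, s))
    simpa only [Pi.add_apply, Equiv.symm_apply_apply] using h3
  · have e1 := vv_le (a2 (finProdFinEquiv.symm x).1) (finProdFinEquiv.symm x).2
    have e2 := vv_le (a3 (finProdFinEquiv.symm x).1) (finProdFinEquiv.symm x).2
    omega
  · have e1 := vv_le (a1 (finProdFinEquiv.symm x).1) (finProdFinEquiv.symm x).2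
    have e2 := vv_le (a4 (finProdFinEquiv.symm x).1) (finProdFinEquiv.symm x).2
    omega

theorem vv_inj {q : ℕ} : Function.Injective (vv (q := q)) := by
  intro b b' h
  rcases b with _ | ⟨t, s⟩ <;> rcases b' with _ | ⟨t', s'⟩
  · rfl
  · have := congrFun h s'
    cases t' <;> simp [vv] at this
  · have := congrFun h s
    cases t <;> simp [vv] at this
  · have h1 := congrFun h s
    by_cases hs : s = s'
    · subst hs
      cases t <;> cases t' <;> simp_all [vv]
    · cases t <;> cases t' <;> simp [vv, hs] at h1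

theorem H_inj {d q : ℕ} : Function.Injective (H (d := d) (q := q)) := by
  intro a a' h
  funext j
  have := rel_of_H (a1 := a) (a2 := a') (a3 := a) (a4 := a) (by rw [h]) j
  exact (vv_inj (by simpa using this)).symm

/-! ### The polynomials -/

/-- Laurent polynomials over `F_2`. -/
abbrev R2 : Type := AddMonoidAlgebra (ZMod 2) ℤ

instance : CharP R2 2 := by
  refine charP_of_injective_algebraMap (R := ZMod 2) (A := R2) ?_ 2
  exact (algebraMap (ZMod 2) R2).injective

/-- The monomial of one coordinate. -/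
noncomputable def X (d q : ℕ) (j : Fin d) (b : O q) : R2 := single ((hc d q j b : ℕ) : ℤ) 1

/-- The sum of the variables of the coordinate `j`. -/
noncomputable def L (d q : ℕ) (j : Fin d) : R2 := ∑ s, X d q j (some (false, s))

theorem prod_X {d q : ℕ} (a : Fin d → O q) : ∏ j, X d q j (a j) = single (H a) 1 := by
  unfold X H Hn
  push_cast
  generalize (univ : Finset (Fin d)) = u
  induction u using Finset.induction_on with
  | empty => rw [prod_empty, sum_empty, AddMonoidAlgebra.one_def]
  | insert j u hj ih =>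
    rw [prod_insert hj, sum_insert hj, ih, single_mul_single, one_mul]

theorem hc_some {d q : ℕ} (j : Fin d) (t : Bool) (s : Fin q) :
    hc d q j (some (t, s)) = (if t then 2 else 1) * bs d q j s := by
  unfold hc vv
  rw [Finset.sum_eq_single s (fun b _ hb => by simp [hb]) (by simp only [mem_univ, not_true_eq_false, Pi.single_eq_same, ite_mul, one_mul, IsEmpty.forall_iff])]
  simp only [Pi.single_eq_same, ite_mul, one_mul]

theorem sum_ty_zero {d q : ℕ} (j : Fin d) : ∑ b ∈ univ.filter (fun b : O q => ty b = 0), X d q j b = 1 := by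
  have : univ.filter (fun b : O q => ty b = 0) = {none} := by
    ext b
    rw [mem_filter, mem_singleton]
    rcases b with _ | ⟨t, s⟩
    · simp only [mem_univ, ty, and_self]
    · cases t <;> simp [ty]
  rw [this, sum_singleton]
  have h0 : hc d q j none = 0 := by simp only [hc, vv, Pi.zero_apply, zero_mul, sum_const_zero]
  rw [X, h0, AddMonoidAlgebra.one_def, Nat.cast_zero]

theorem sum_ty_one {d q : ℕ} (j : Fin d) :
    ∑ b ∈ univ.filter (fun b : O q => ty b = 1), X d q j b = L d q j := by
  unfold L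
  have : univ.filter (fun b : O q => ty b = 1) = univ.image (fun s : Fin q => some (false, s)) := by
    ext b
    rw [mem_filter, mem_image]
    rcases b with _ | ⟨t, s⟩
    · simp only [mem_univ, ty, zero_ne_one, and_false, reduceCtorEq, exists_false]
    · cases t <;> simp [ty]
  rw [this, sum_image]
  intro s _ s' _ h
  simpa using h

theorem sum_ty_two {d q : ℕ} (j : Fin d) :
    ∑ b ∈ univ.filter (fun b : O q => ty b = 2), X d q j b = L d q j ^ 2 := by
  unfold L
  rw [CharTwo.sum_sq]
  have : univ.filter (fun b : O q => ty b = 2) = univ.image (fun s : Fin q => some (true, s)) := by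
    ext b
    rw [mem_filter, mem_image]
    rcases b with _ | ⟨t, s⟩
    · simp only [mem_univ, ty, OfNat.zero_ne_ofNat, and_false, reduceCtorEq, exists_false]
    · cases t <;> simp [ty]
  rw [this, sum_image]
  · refine sum_congr rfl fun s _ => ?_
    unfold X
    rw [sq, single_mul_single, hc_some, hc_some]
    simp only [if_true, Bool.false_eq_true, if_false]
    congr 1
    push_cast
    ring
  · intro s _ s' _ h
    simpa using h

/-- exponent of `L_j` in `∏_{S} L * ∏_{S'ᶜ} L` -/
def ex {d : ℕ} (S S' : Finset (Fin d)) (j : Fin d) : ℕ :=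
  (if j ∈ S then 1 else 0) + (if j ∈ S' then 0 else 1)

theorem term_eq {d q : ℕ} (S S' : Finset (Fin d)) :
    (∏ j ∈ S, L d q j) * (∏ j ∈ S'ᶜ, L d q j) =
      ∑ a : Fin d → O q, if (∀ j, ty (a j) = ex S S' j) then single (H a) 1 else 0 := by
  classical
  have h1 : (∏ j ∈ S, L d q j) * (∏ j ∈ S'ᶜ, L d q j) =
      ∏ j, ∑ b ∈ univ.filter (fun b : O q => ty b = ex S S' j), X d q j b := by
    have e1 : ∏ j ∈ S, L d q j = ∏ j, if j ∈ S then L d q j else 1 := by
      rw [prod_ite_mem, univ_inter]
    have e2 : ∏ j ∈ S'ᶜ, L d q j = ∏ j, if j ∈ S' then 1 else L d q j := by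
      have e3 : ∀ j, (if j ∈ S' then 1 else L d q j) = if j ∈ S'ᶜ then L d q j else 1 := by
        intro j
        by_cases hj : j ∈ S' <;> simp [hj]
      simp only [e3]
      rw [prod_ite_mem, univ_inter]
    rw [e1, e2, ← prod_mul_distrib]
    refine prod_congr rfl fun j _ => ?_
    unfold ex
    by_cases hj : j ∈ S <;> by_cases hj' : j ∈ S'
    · simp only [hj, hj', if_true, mul_one, add_zero]
      exact (sum_ty_one j).symm
    · simp only [hj, hj', if_true, if_false]
      rw [← sq]
      exact (sum_ty_two j).symm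
    · simp only [hj, hj', if_true, if_false, mul_one, add_zero]
      exact (sum_ty_zero j).symm
    · simp only [hj, hj', if_false, one_mul, zero_add]
      exact (sum_ty_one j).symm
  rw [h1, Finset.prod_univ_sum]
  simp only [prod_X]
  rw [← sum_filter]
  refine sum_congr ?_ fun _ _ => rfl
  ext a
  rw [Fintype.mem_piFinset, mem_filter]
  simp only [mem_filter, mem_univ, true_and]

/-! ### The product -/

variable {ι κ : Type} {d m q : ℕ}

/-- index set of the coordinates -/
abbrev TT (d m : ℕ) : Type := {S : Finset (Fin d) // S.card = m}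

/-- the rows -/
noncomputable def PP (q : ℕ) (xv : ι → TT d m → ZMod 2) (i : ι) : R2 :=
  ∑ S : TT d m, xv i S • ∏ j ∈ S.1, L d q j

/-- the types -/
noncomputable def QQ (q : ℕ) (yv : κ → TT d m → ZMod 2) (k : κ) : R2 :=
  ∑ S : TT d m, yv k S • ∏ j ∈ S.1ᶜ, L d q j

/-- coefficient of a monomial in `P_i Q_k` -/
def cf (xv : ι → TT d m → ZMod 2) (yv : κ → TT d m → ZMod 2) (i : ι) (k : κ) (a : Fin d → O q) :
    ZMod 2 :=
  ∑ S : TT d m, ∑ S' : TT d m,
    if (∀ j, ty (a j) = ex S.1 S'.1 j) then xv i S * yv k S' else 0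

theorem PP_mul_QQ (xv : ι → TT d m → ZMod 2) (yv : κ → TT d m → ZMod 2) (i : ι) (k : κ) :
    PP q xv i * QQ q yv k = ∑ a : Fin d → O q, cf xv yv i k a • (single (H a) 1 : R2) := by
  unfold PP QQ cf
  rw [sum_mul_sum]
  simp only [smul_mul_smul_comm, term_eq, smul_sum, sum_smul]
  rw [Finset.sum_comm (s := (univ : Finset (Fin d → O q)))]
  refine sum_congr rfl fun S _ => ?_
  rw [Finset.sum_comm (s := (univ : Finset (Fin d → O q)))]
  refine sum_congr rfl fun S' _ => sum_congr rfl fun a _ => ?_
  split_ifs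
  · rfl
  · rw [smul_zero, zero_smul]

theorem coeff_PP_mul_QQ (xv : ι → TT d m → ZMod 2) (yv : κ → TT d m → ZMod 2) (i : ι) (k : κ)
    (a : Fin d → O q) : (PP q xv i * QQ q yv k).coeff (H a) = cf xv yv i k a := by
  classical
  rw [PP_mul_QQ, coeff_sum, Finsupp.finsetSum_apply, Finset.sum_eq_single a]
  · rw [coeff_smul, coeff_single, Finsupp.smul_apply, Finsupp.single_eq_same, smul_eq_mul, mul_one]
  · intro b _ hb
    rw [coeff_smul, coeff_single, Finsupp.smul_apply,
      Finsupp.single_eq_of_ne (fun h => hb (H_inj h).symm), smul_zero]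
  · intro h
    exact absurd (mem_univ a) h

/-- The support of the product. -/
theorem mem_support_iff (xv : ι → TT d m → ZMod 2) (yv : κ → TT d m → ZMod 2) (i : ι) (k : κ)
    (h : ℤ) : h ∈ (PP q xv i * QQ q yv k).coeff.support ↔
      ∃ a : Fin d → O q, cf xv yv i k a ≠ 0 ∧ H a = h := by
  classical
  rw [Finsupp.mem_support_iff]
  constructor
  · intro hne
    rw [PP_mul_QQ, coeff_sum, Finsupp.finsetSum_apply] at hne
    obtain ⟨a, _, ha⟩ := exists_ne_zero_of_sum_ne_zero hne
    rw [coeff_smul, coeff_single, Finsupp.smul_apply] at ha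
    refine ⟨a, fun h0 => ha (by rw [h0, zero_smul]), ?_⟩
    by_contra hcon
    exact ha (by rw [Finsupp.single_eq_of_ne (fun h => hcon h.symm), smul_zero])
  · rintro ⟨a, ha, rfl⟩
    rwa [coeff_PP_mul_QQ]

/-- main monomials: every coordinate has degree one -/
def Main (a : Fin d → O q) : Prop := ∀ j, ty (a j) = 1

/-- low monomials: some coordinate has degree zero -/
def Low (a : Fin d → O q) : Prop := ∃ j, a j = none

theorem cf_main {xv : ι → TT d m → ZMod 2} {yv : κ → TT d m → ZMod 2} {i : ι} {k : κ}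
    {a : Fin d → O q} (ha : Main a) : cf xv yv i k a = ∑ S, xv i S * yv k S := by
  classical
  unfold cf
  refine sum_congr rfl fun S _ => ?_
  rw [Finset.sum_eq_single S]
  · rw [if_pos]
    intro j
    rw [ha j]
    unfold ex
    by_cases hj : j ∈ S.1 <;> simp [hj]
  · intro S' _ hne
    rw [if_neg]
    intro hcon
    apply hne
    apply Subtype.ext
    ext j
    have := hcon j
    rw [ha j] at this
    unfold ex at this
    by_cases hj : j ∈ S.1 <;> by_cases hj' : j ∈ S'.1 <;> simp_all
  · intro h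
    exact absurd (mem_univ _) h

theorem main_or_low {xv : ι → TT d m → ZMod 2} {yv : κ → TT d m → ZMod 2} {i : ι} {k : κ}
    {a : Fin d → O q} (ha : cf xv yv i k a ≠ 0) : Main a ∨ Low a := by
  classical
  unfold cf at ha
  obtain ⟨S, _, h1⟩ := exists_ne_zero_of_sum_ne_zero ha
  obtain ⟨S', _, h2⟩ := exists_ne_zero_of_sum_ne_zero h1
  have h3 : ∀ j, ty (a j) = ex S.1 S'.1 j := by
    by_contra hcon
    exact h2 (if_neg hcon)
  by_cases hS : S'.1 ⊆ S.1
  · left
    have : S'.1 = S.1 := eq_of_subset_of_card_le hS (by rw [S.2, S'.2])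
    intro j
    rw [h3 j, this]
    unfold ex
    by_cases hj : j ∈ S.1 <;> simp [hj]
  · right
    obtain ⟨j, hj', hj⟩ := not_subset.1 hS
    refine ⟨j, ?_⟩
    have := h3 j
    unfold ex at this
    rw [if_neg hj, if_pos hj', add_zero] at this
    rcases h4 : a j with _ | ⟨t, s⟩
    · rfl
    · rw [h4] at this
      cases t <;> simp [ty] at this

/-! ### Augmentation -/

/-- augmentation as an algebra homomorphism -/
noncomputable def augH : R2 →ₐ[ZMod 2] ZMod 2 := AddMonoidAlgebra.lift (ZMod 2) (ZMod 2) ℤ 1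

theorem augH_apply (f : R2) : augH f = f.coeff.sum fun _ a => a := by
  unfold augH
  rw [AddMonoidAlgebra.lift_apply]
  simp only [MonoidHom.one_apply, smul_eq_mul, mul_one]

theorem augH_L (j : Fin d) : augH (L d q j) = (q : ZMod 2) := by
  unfold L X
  rw [map_sum]
  simp only [augH_apply, coeff_single, Finsupp.sum_single_index, sum_const, card_univ,
    Fintype.card_fin, nsmul_eq_mul, mul_one]

theorem augH_QQ (hq : Odd q) (yv : κ → TT d m → ZMod 2) (k : κ) :
    augH (QQ q yv k) = ∑ S, yv k S := by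
  unfold QQ
  rw [map_sum]
  refine sum_congr rfl fun S _ => ?_
  rw [map_smul, map_prod]
  simp only [augH_L]
  have : (q : ZMod 2) = 1 := by
    rw [ZMod.natCast_eq_one_iff_odd]
    exact hq
  rw [this, prod_const_one, smul_eq_mul, mul_one]

end Vale.Agent.P201.Z.PA
end

section

/-!
P201 / P194, part A with parameters: for every `Λ` there is a pattern with small 4-cycle density and
short `P_i`, `Q_k`.
-/

namespace Vale.Agent.P201.Z.PA.Lam

open Finset AddMonoidAlgebra Vale.Agent.P201.Z.PA

/-! ### One coordinate -/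

/-- quadruples of coordinates -/
abbrev O4 (q : ℕ) : Type := (O q × O q) × (O q × O q)

/-- the four term relation -/
def Rel4 {q : ℕ} (x : O4 q) : Prop := vv x.1.2 + vv x.2.1 = vv x.1.1 + vv x.2.2

/-- the coordinates with the variable of `b` -/
def sset {q : ℕ} : O q → Finset (O q)
  | none => {none}
  | some (_, s) => {none, some (false, s), some (true, s)}

theorem none_mem_sset {q : ℕ} (b : O q) : none ∈ sset b := by
  rcases b with _ | ⟨t, s⟩ <;> simp [sset]

theorem card_sset {q : ℕ} (b : O q) : (sset b).card ≤ 3 := by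
  rcases b with _ | ⟨t, s⟩
  · simp [sset]
  · exact card_le_three

theorem vv_pos {q : ℕ} {b : O q} {s : Fin q} (h : vv b s ≠ 0) : ∃ t, b = some (t, s) := by
  rcases b with _ | ⟨t, s'⟩
  · simp [vv] at h
  · by_cases hs : s = s'
    · exact ⟨t, by rw [hs]⟩
    · simp [vv, hs] at h

theorem mem_sset_of_le {q : ℕ} {b b1 b4 : O q} (h : vv b ≤ vv b1 + vv b4) :
    b ∈ sset b1 ∪ sset b4 := by
  rcases b with _ | ⟨t, s⟩
  · exact mem_union_left _ (none_mem_sset _)
  · have h1 : vv (some (t, s) : O q) s ≤ vv b1 s + vv b4 s := h s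
    have h2 : 1 ≤ vv (some (t, s) : O q) s := by cases t <;> simp [vv]
    have h0 : 1 ≤ vv b1 s + vv b4 s := h2.trans h1
    rw [mem_union]
    rcases Nat.eq_zero_or_pos (vv b1 s) with h3 | h3
    · right
      have h4 : vv b4 s ≠ 0 := by omega
      obtain ⟨t', rfl⟩ := vv_pos h4
      cases t <;> simp [sset]
    · left
      have h4 : vv b1 s ≠ 0 := by omega
      obtain ⟨t', rfl⟩ := vv_pos h4
      cases t <;> simp [sset]

theorem card_O (q : ℕ) : Fintype.card (O q) = 2 * q + 1 := by
  simp only [O, Fintype.card_option, Fintype.card_prod, Fintype.card_bool, Fintype.card_fin, Nat.add_left_cancel_iff]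

/-- a set of related quadruples is bounded through the first and the last entry -/
theorem card_le_of {q c : ℕ} (A : Finset (O4 q)) (hA : ∀ x ∈ A, Rel4 x) (E : Finset (O q × O q))
    (hE : ∀ x ∈ A, (x.1.1, x.2.2) ∈ E)
    (hc : ∀ e ∈ E, (sset e.1 ∪ sset e.2).card ≤ c) : A.card ≤ c * E.card := by
  classical
  refine card_le_mul_card_image_of_maps_to (f := fun x : O4 q => (x.1.1, x.2.2)) hE c ?_
  intro e he
  refine le_trans (card_le_card_of_injOn (fun x => x.1.2) (t := sset e.1 ∪ sset e.2) ?_ ?_) (hc e he)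
  · intro x hx
    rw [mem_coe, mem_filter] at hx
    obtain ⟨hx1, hx2⟩ := hx
    have h1 := hA x hx1
    unfold Rel4 at h1
    rw [← hx2]
    have : vv x.1.2 ≤ vv x.1.1 + vv x.2.2 := by
      rw [← h1]
      exact le_add_of_nonneg_right (zero_le)
    exact mem_sset_of_le this
  · intro x hx y hy hxy
    rw [mem_coe, mem_filter] at hx hy
    obtain ⟨hx1, hx2⟩ := hx
    obtain ⟨hy1, hy2⟩ := hy
    have h1 := hA x hx1
    have h2 := hA y hy1
    unfold Rel4 at h1 h2
    have e1 : x.1.1 = y.1.1 := by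
      have := hx2.trans hy2.symm
      exact (Prod.mk.inj this).1
    have e2 : x.2.2 = y.2.2 := by
      have := hx2.trans hy2.symm
      exact (Prod.mk.inj this).2
    simp only at hxy
    rw [hxy, e1, e2, ← h2] at h1
    have e3 : x.2.1 = y.2.1 := vv_inj (add_left_cancel h1)
    exact Prod.ext (Prod.ext e1 hxy) (Prod.ext e3 e2)

instance {q : ℕ} : DecidablePred (Rel4 (q := q)) := fun x => by unfold Rel4; infer_instance

/-- all related quadruples -/
def ZA (q : ℕ) : Finset (O4 q) := univ.filter Rel4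

/-- related quadruples with an empty entry -/
def ZN (q : ℕ) : Finset (O4 q) := univ.filter
  (fun x => Rel4 x ∧ (x.1.1 = none ∨ x.1.2 = none ∨ x.2.1 = none ∨ x.2.2 = none))

/-- related quadruples of type one -/
def ZO (q : ℕ) : Finset (O4 q) := univ.filter
  (fun x => Rel4 x ∧ ty x.1.1 = 1 ∧ ty x.1.2 = 1 ∧ ty x.2.1 = 1 ∧ ty x.2.2 = 1)

theorem card_ZA {q : ℕ} (hq : 1 ≤ q) : (ZA q).card ≤ 54 * q ^ 2 := by
  have h1 := card_le_of (ZA q) (fun x hx => (mem_filter.1 hx).2) univ (fun _ _ => mem_univ _)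
    (c := 6) (fun e _ => (card_union_le _ _).trans (by
      have := card_sset e.1
      have := card_sset e.2
      omega))
  rw [card_univ, Fintype.card_prod, card_O] at h1
  nlinarith

theorem card_ZN_first {q : ℕ} (hq : 1 ≤ q) (A : Finset (O4 q)) (hA : ∀ x ∈ A, Rel4 x)
    (h : ∀ x ∈ A, x.1.1 = none) : A.card ≤ 12 * q := by
  classical
  have h1 := card_le_of A hA (univ.image (fun b : O q => (none, b)))
    (fun x hx => by
      rw [mem_image]
      exact ⟨x.2.2, mem_univ _, by rw [h x hx]⟩) (c := 4) (fun e he => by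
        rw [mem_image] at he
        obtain ⟨b, -, rfl⟩ := he
        refine (card_union_le _ _).trans ?_
        have h5 := card_sset b
        have h6 : (sset (none : O q)).card = 1 := rfl
        change (sset (none : O q)).card + (sset b).card ≤ 4
        omega)
  have h2 : (univ.image (fun b : O q => ((none : O q), b))).card ≤ 2 * q + 1 := by
    refine card_image_le.trans ?_
    rw [card_univ, card_O]
  (clear * - hq h1 h2; nlinarith)

/-- symmetries of the relation -/
def sw1 {q : ℕ} (x : O4 q) : O4 q := ((x.1.2, x.1.1), (x.2.2, x.2.1))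

def sw2 {q : ℕ} (x : O4 q) : O4 q := ((x.2.1, x.2.2), (x.1.1, x.1.2))

theorem sw1_inj {q : ℕ} : Function.Injective (sw1 (q := q)) := by
  rintro ⟨⟨a, b⟩, c, d⟩ ⟨⟨a', b'⟩, c', d'⟩ h
  simp only [sw1, Prod.mk.injEq] at h ⊢
  tauto

theorem sw2_inj {q : ℕ} : Function.Injective (sw2 (q := q)) := by
  rintro ⟨⟨a, b⟩, c, d⟩ ⟨⟨a', b'⟩, c', d'⟩ h
  simp only [sw2, Prod.mk.injEq] at h ⊢
  tauto

theorem rel_sw1 {q : ℕ} {x : O4 q} (h : Rel4 x) : Rel4 (sw1 x) := by
  unfold Rel4 at h ⊢
  simp only [sw1]
  exact h.symm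

theorem rel_sw2 {q : ℕ} {x : O4 q} (h : Rel4 x) : Rel4 (sw2 x) := by
  unfold Rel4 at h ⊢
  simp only [sw2]
  rw [add_comm, ← h, add_comm]

theorem card_ZN {q : ℕ} (hq : 1 ≤ q) : (ZN q).card ≤ 48 * q := by
  classical
  have key : ∀ (f : O4 q → O4 q), Function.Injective f → (∀ x, Rel4 x → Rel4 (f x)) →
      ((ZN q).filter (fun x => (f x).1.1 = none)).card ≤ 12 * q := by
    intro f hf hr
    rw [← card_image_of_injective _ hf]
    refine card_ZN_first hq _ (fun x hx => ?_) (fun x hx => ?_)
    · rw [mem_image] at hx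
      obtain ⟨y, hy, rfl⟩ := hx
      exact hr y (mem_filter.1 (mem_filter.1 hy).1).2.1
    · rw [mem_image] at hx
      obtain ⟨y, hy, rfl⟩ := hx
      exact (mem_filter.1 hy).2
  have h1 := key id Function.injective_id (fun _ h => h)
  have h2 := key sw1 sw1_inj (fun _ h => rel_sw1 h)
  have h3 := key sw2 sw2_inj (fun _ h => rel_sw2 h)
  have h4 := key (sw1 ∘ sw2) (sw1_inj.comp sw2_inj) (fun _ h => rel_sw1 (rel_sw2 h))
  have hsub : ZN q ⊆ ((ZN q).filter (fun x => (id x).1.1 = none) ∪
      (ZN q).filter (fun x => (sw1 x).1.1 = none)) ∪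
      ((ZN q).filter (fun x => (sw2 x).1.1 = none) ∪
      (ZN q).filter (fun x => ((sw1 ∘ sw2) x).1.1 = none)) := by
    intro x hx
    have h5 := (mem_filter.1 hx).2.2
    rcases h5 with h5 | h5 | h5 | h5
    · exact mem_union_left _ (mem_union_left _ (mem_filter.2 ⟨hx, h5⟩))
    · exact mem_union_left _ (mem_union_right _ (mem_filter.2 ⟨hx, h5⟩))
    · exact mem_union_right _ (mem_union_left _ (mem_filter.2 ⟨hx, h5⟩))
    · exact mem_union_right _ (mem_union_right _ (mem_filter.2 ⟨hx, h5⟩))
  refine (card_le_card hsub).trans ((card_union_le _ _).trans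
    ((add_le_add ((card_union_le _ _).trans (add_le_add h1 h2))
      ((card_union_le _ _).trans (add_le_add h3 h4))).trans ?_))
  omega

theorem ty_one {q : ℕ} {b : O q} (h : ty b = 1) : ∃ s, b = some (false, s) := by
  rcases b with _ | ⟨t, s⟩
  · simp [ty] at h
  · cases t
    · exact ⟨s, rfl⟩
    · simp [ty] at h

theorem card_ZO (q : ℕ) : (ZO q).card ≤ 2 * q ^ 2 := by
  classical
  have h1 : (ZO q).card ≤ 2 * ((univ : Finset (Fin q × Fin q)).image
      (fun p => ((some (false, p.1) : O q), (some (false, p.2) : O q)))).card := by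
    refine card_le_mul_card_image_of_maps_to (f := fun x : O4 q => (x.1.1, x.2.2)) ?_ 2 ?_
    · intro x hx
      obtain ⟨h1, h2, h3, h4, h5⟩ := (mem_filter.1 hx).2
      obtain ⟨s, hs⟩ := ty_one h2
      obtain ⟨s', hs'⟩ := ty_one h5
      rw [mem_image]
      exact ⟨(s, s'), mem_univ _, by rw [hs, hs']⟩
    · intro e he
      rw [mem_image] at he
      obtain ⟨⟨s, s'⟩, -, rfl⟩ := he
      refine le_trans (card_le_card_of_injOn (fun x => x.1.2)
        (t := {(some (false, s) : O q), (some (false, s') : O q)}) ?_ ?_) card_le_two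
      · intro x hx
        rw [mem_coe, mem_filter] at hx
        obtain ⟨hx1, hx2⟩ := hx
        obtain ⟨h1, h2, h3, h4, h5⟩ := (mem_filter.1 hx1).2
        have e1 := (Prod.mk.inj hx2).1
        have e2 := (Prod.mk.inj hx2).2
        have h6 : x.1.2 ∈ sset x.1.1 ∪ sset x.2.2 := by
          refine mem_sset_of_le ?_
          unfold Rel4 at h1
          rw [← h1]
          exact le_add_of_nonneg_right (zero_le)
        obtain ⟨s2, hs2⟩ := ty_one h3
        rw [e1, e2, hs2] at h6
        simp only [hs2]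
        simp only [coe_insert, coe_singleton, Set.mem_insert_iff, Set.mem_singleton_iff]
        have h7 : s2 = s' ∨ s2 = s := by simpa only [sset, union_insert, insert_union, singleton_union, mem_insert, reduceCtorEq, mem_singleton,     or_self, or_false, or_true, insert_eq_of_mem, Option.some.injEq, Prod.mk.injEq, true_and, Bool.false_eq_true,     false_and, false_or] using h6
        rcases h7 with h7 | h7
        · right; rw [h7]
        · left; rw [h7]
      · intro x hx y hy hxy
        rw [mem_coe, mem_filter] at hx hy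
        obtain ⟨hx1, hx2⟩ := hx
        obtain ⟨hy1, hy2⟩ := hy
        have h1 := (mem_filter.1 hx1).2.1
        have h2 := (mem_filter.1 hy1).2.1
        unfold Rel4 at h1 h2
        have e1 : x.1.1 = y.1.1 := (Prod.mk.inj (hx2.trans hy2.symm)).1
        have e2 : x.2.2 = y.2.2 := (Prod.mk.inj (hx2.trans hy2.symm)).2
        simp only at hxy
        rw [hxy, e1, e2, ← h2] at h1
        have e3 : x.2.1 = y.2.1 := vv_inj (add_left_cancel h1)
        exact Prod.ext (Prod.ext e1 hxy) (Prod.ext e3 e2)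
  refine h1.trans (Nat.mul_le_mul_left _ (card_image_le.trans ?_))
  rw [card_univ, Fintype.card_prod, Fintype.card_fin, sq]

/-! ### Quadruples of monomials -/

/-- the set `N` consists of main monomials (allowed only if `p`) and low monomials -/
def Cov (d q : ℕ) (N : Finset ℤ) (p : Prop) : Prop :=
  ∀ h ∈ N, ∃ a : Fin d → O q, H a = h ∧ ((Main a ∧ p) ∨ Low a)

theorem card_quad {d q : ℕ} (hq : 1 ≤ q) {N1 N2 N3 N4 : Finset ℤ} {p1 p2 p3 p4 : Prop}
    [Decidable (p1 ∧ p2 ∧ p3 ∧ p4)]
    (h1 : Cov d q N1 p1) (h2 : Cov d q N2 p2) (h3 : Cov d q N3 p3) (h4 : Cov d q N4 p4) :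
    (((N1 ×ˢ N2) ×ˢ (N3 ×ˢ N4)).filter (fun x => x.1.2 - x.1.1 = x.2.2 - x.2.1)).card ≤
      (if p1 ∧ p2 ∧ p3 ∧ p4 then (2 * q ^ 2) ^ d else 0) +
        d * ((48 * q) * (54 * q ^ 2) ^ (d - 1)) := by
  classical
  let G : (Fin d → O4 q) → (ℤ × ℤ) × (ℤ × ℤ) := fun x =>
    ((H (fun j => (x j).1.1), H (fun j => (x j).1.2)),
      (H (fun j => (x j).2.1), H (fun j => (x j).2.2)))
  let M : Finset (Fin d → O4 q) :=
    if p1 ∧ p2 ∧ p3 ∧ p4 then Fintype.piFinset (fun _ => ZO q) else ∅
  let Lw : Fin d → Finset (Fin d → O4 q) := fun j =>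
    Fintype.piFinset (fun j' => if j' = j then ZN q else ZA q)
  have hsub : ((N1 ×ˢ N2) ×ˢ (N3 ×ˢ N4)).filter (fun x => x.1.2 - x.1.1 = x.2.2 - x.2.1) ⊆
      (M ∪ univ.biUnion Lw).image G := by
    rintro ⟨⟨k1, k2⟩, k3, k4⟩ hx
    rw [mem_filter, mem_product, mem_product, mem_product] at hx
    obtain ⟨⟨⟨m1, m2⟩, m3, m4⟩, hr⟩ := hx
    obtain ⟨a1, e1, c1⟩ := h1 _ m1
    obtain ⟨a2, e2, c2⟩ := h2 _ m2
    obtain ⟨a3, e3, c3⟩ := h3 _ m3
    obtain ⟨a4, e4, c4⟩ := h4 _ m4
    simp only at e1 e2 e3 e4 hr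
    have hrel : ∀ j, Rel4 (((a1 j, a2 j), (a3 j, a4 j)) : O4 q) := by
      intro j
      have := rel_of_H (a1 := a1) (a2 := a2) (a3 := a3) (a4 := a4) (by rw [e1, e2, e3, e4]; exact hr) j
      exact this
    rw [mem_image]
    refine ⟨fun j => ((a1 j, a2 j), (a3 j, a4 j)), ?_, ?_⟩
    · have hlow : (Low a1 ∨ Low a2 ∨ Low a3 ∨ Low a4) →
          (fun j => ((a1 j, a2 j), (a3 j, a4 j))) ∈ M ∪ univ.biUnion Lw := by
        intro hl
        have : ∃ j, a1 j = none ∨ a2 j = none ∨ a3 j = none ∨ a4 j = none := by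
          rcases hl with ⟨j, hj⟩ | ⟨j, hj⟩ | ⟨j, hj⟩ | ⟨j, hj⟩
          · exact ⟨j, Or.inl hj⟩
          · exact ⟨j, Or.inr (Or.inl hj)⟩
          · exact ⟨j, Or.inr (Or.inr (Or.inl hj))⟩
          · exact ⟨j, Or.inr (Or.inr (Or.inr hj))⟩
        obtain ⟨j, hj⟩ := this
        refine mem_union_right _ (mem_biUnion.2 ⟨j, mem_univ _, ?_⟩)
        rw [Fintype.mem_piFinset]
        intro j'
        by_cases hjj : j' = j
        · subst hjj
          rw [if_pos rfl]
          exact mem_filter.2 ⟨mem_univ _, hrel _, hj⟩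
        · rw [if_neg hjj]
          exact mem_filter.2 ⟨mem_univ _, hrel _⟩
      rcases c1 with ⟨n1, q1⟩ | c1
      swap
      · exact hlow (Or.inl c1)
      rcases c2 with ⟨n2, q2⟩ | c2
      swap
      · exact hlow (Or.inr (Or.inl c2))
      rcases c3 with ⟨n3, q3⟩ | c3
      swap
      · exact hlow (Or.inr (Or.inr (Or.inl c3)))
      rcases c4 with ⟨n4, q4⟩ | c4
      swap
      · exact hlow (Or.inr (Or.inr (Or.inr c4)))
      refine mem_union_left _ ?_
      have hp : p1 ∧ p2 ∧ p3 ∧ p4 := ⟨q1, q2, q3, q4⟩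
      simp only [M, if_pos hp]
      rw [Fintype.mem_piFinset]
      intro j
      exact mem_filter.2 ⟨mem_univ _, hrel _, n1 j, n2 j, n3 j, n4 j⟩
    · simp only [G]
      rw [e1, e2, e3, e4]
  refine (card_le_card hsub).trans (card_image_le.trans ((card_union_le _ _).trans (add_le_add ?_ ?_)))
  · simp only [M]
    split_ifs with hp
    · rw [Fintype.card_piFinset, prod_const, card_univ, Fintype.card_fin]
      exact Nat.pow_le_pow_left (card_ZO q) d
    · simp
  · refine card_biUnion_le.trans ?_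
    have hL : ∀ j : Fin d, (Lw j).card ≤ (48 * q) * (54 * q ^ 2) ^ (d - 1) := by
      intro j
      simp only [Lw]
      rw [Fintype.card_piFinset, ← mul_prod_erase univ _ (mem_univ j), if_pos rfl]
      refine Nat.mul_le_mul (card_ZN hq) ?_
      have : ∏ x ∈ univ.erase j, (if x = j then ZN q else ZA q).card =
          ∏ x ∈ univ.erase j, (ZA q).card := by
        refine prod_congr rfl fun x hx => ?_
        rw [if_neg (ne_of_mem_erase hx)]
      rw [this, prod_const, card_erase_of_mem (mem_univ _), card_univ, Fintype.card_fin]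
      exact Nat.pow_le_pow_left (card_ZA hq) _
    refine (sum_le_sum fun j _ => hL j).trans ?_
    rw [sum_const, card_univ, Fintype.card_fin, smul_eq_mul]

/-! ### Number of terms -/

/-- number of terms -/
noncomputable def ns (f : R2) : ℕ := f.coeff.support.card

theorem ns_sum_le {σ : Type} (s : Finset σ) (f : σ → R2) : ns (∑ i ∈ s, f i) ≤ ∑ i ∈ s, ns (f i) := by
  classical
  induction s using Finset.induction_on with
  | empty => simp only [ns, sum_empty, coeff_zero, Finsupp.support_zero, card_empty, Std.le_refl]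
  | insert i s hi ih =>
    rw [sum_insert hi, sum_insert hi]
    refine le_trans ?_ (Nat.add_le_add_left ih _)
    unfold ns
    rw [coeff_add]
    exact (card_le_card Finsupp.support_add).trans (card_union_le _ _)

theorem ns_smul_le (c : ZMod 2) (f : R2) : ns (c • f) ≤ ns f := by
  unfold ns
  rw [coeff_smul]
  exact card_le_card Finsupp.support_smul

open scoped Pointwise in
theorem ns_mul_le (f g : R2) : ns (f * g) ≤ ns f * ns g := by
  classical
  exact (card_le_card (AddMonoidAlgebra.support_coeff_mul_subset f g)).trans card_add_le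

theorem ns_one_le : ns (1 : R2) ≤ 1 := by
  unfold ns
  rw [AddMonoidAlgebra.one_def, coeff_single]
  exact (card_le_card Finsupp.support_single_subset).trans (by simp)

theorem ns_L {d q : ℕ} (j : Fin d) : ns (L d q j) ≤ q := by
  unfold L
  refine (ns_sum_le _ _).trans ?_
  have : ∀ s : Fin q, ns (X d q j (some (false, s))) ≤ 1 := by
    intro s
    unfold ns X
    rw [coeff_single]
    exact (card_le_card Finsupp.support_single_subset).trans (by simp)
  refine (sum_le_sum fun s _ => this s).trans ?_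
  simp only [sum_const, card_univ, Fintype.card_fin, smul_eq_mul, mul_one, Std.le_refl]

theorem ns_prod_L {d q : ℕ} (S : Finset (Fin d)) : ns (∏ j ∈ S, L d q j) ≤ q ^ S.card := by
  classical
  induction S using Finset.induction_on with
  | empty => simpa only [prod_empty, card_empty, pow_zero] using ns_one_le
  | insert j S hj ih =>
    rw [prod_insert hj, card_insert_of_notMem hj, pow_succ, mul_comm (q ^ S.card)]
    exact (ns_mul_le _ _).trans (Nat.mul_le_mul (ns_L j) ih)

theorem card_TT (d m : ℕ) : Fintype.card (TT d m) = d.choose m := by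
  rw [Fintype.card_finset_len, Fintype.card_fin]

theorem ns_PP {ι : Type} {d m q : ℕ} (xv : ι → TT d m → ZMod 2) (i : ι) :
    ns (PP q xv i) ≤ d.choose m * q ^ m := by
  unfold PP
  refine (ns_sum_le _ _).trans ?_
  refine (sum_le_sum fun S _ => ((ns_smul_le _ _).trans (ns_prod_L S.1)).trans
    (le_of_eq (by rw [S.2]))).trans ?_
  rw [sum_const, card_univ, card_TT, smul_eq_mul]

theorem ns_QQ {κ : Type} {d m q : ℕ} (yv : κ → TT d m → ZMod 2) (k : κ) :
    ns (QQ q yv k) ≤ d.choose m * q ^ (d - m) := by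
  unfold QQ
  refine (ns_sum_le _ _).trans ?_
  refine (sum_le_sum fun S _ => ((ns_smul_le _ _).trans (ns_prod_L S.1ᶜ)).trans
    (le_of_eq (by rw [card_compl, S.2, Fintype.card_fin]))).trans ?_
  rw [sum_const, card_univ, card_TT, smul_eq_mul]

/-! ### The 4-cycle count -/

section count

variable {F : Type} [Field F] [Fintype F] [DecidableEq F]

theorem W4_abs {d q : ℕ} (hq : 1 ≤ q) (N : F × F → F × F → Finset ℤ)
    (hN : ∀ l x, Cov d q (N l x) (inc x l)) :
    (∑ k, ∑ k', ∑ i, ∑ i', (((N i k ×ˢ N i' k) ×ˢ (N i k' ×ˢ N i' k')).filter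
      (fun x => x.1.2 - x.1.1 = x.2.2 - x.2.1)).card) ≤
    (2 * q ^ 2) ^ d * (2 * Fintype.card F ^ 4) +
      Fintype.card F ^ 8 * (d * ((48 * q) * (54 * q ^ 2) ^ (d - 1))) := by
  classical
  set A := (2 * q ^ 2) ^ d with hA
  set E := d * ((48 * q) * (54 * q ^ 2) ^ (d - 1)) with hE
  have h1 : ∀ k k' i i', (((N i k ×ˢ N i' k) ×ˢ (N i k' ×ˢ N i' k')).filter
      (fun x => x.1.2 - x.1.1 = x.2.2 - x.2.1)).card ≤
      (if inc k i ∧ inc k' i then 1 else 0) * (if inc k i' ∧ inc k' i' then 1 else 0) * A + E := by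
    intro k k' i i'
    refine (card_quad hq (hN i k) (hN i' k) (hN i k') (hN i' k')).trans ?_
    refine Nat.add_le_add_right ?_ _
    split_ifs with h2 h3 h4 <;> first | omega | (exfalso; tauto)
  have h2 : ∀ k k', (∑ i, ∑ i', ((if inc k i ∧ inc k' i then 1 else 0) *
      (if inc k i' ∧ inc k' i' then 1 else 0) * A + E)) =
      (univ.filter (fun i : F × F => inc k i ∧ inc k' i)).card ^ 2 * A +
        Fintype.card F ^ 4 * E := by
    intro k k'
    have h3 : (univ.filter (fun i : F × F => inc k i ∧ inc k' i)).card =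
        ∑ i, (if inc k i ∧ inc k' i then 1 else 0) := by
      rw [card_filter]
    simp only [sum_add_distrib, sum_const, card_univ, Fintype.card_prod, smul_eq_mul]
    rw [h3, sq, Finset.sum_mul_sum, Finset.sum_mul]
    congr 1
    · refine sum_congr rfl fun i _ => ?_
      rw [Finset.sum_mul]
    · ring
  calc _ ≤ ∑ k : F × F, ∑ k' : F × F, ((univ.filter (fun i : F × F =>
        inc k i ∧ inc k' i)).card ^ 2 * A + Fintype.card F ^ 4 * E) := by
        refine sum_le_sum fun k _ => sum_le_sum fun k' _ => ?_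
        rw [← h2 k k']
        exact sum_le_sum fun i _ => sum_le_sum fun i' _ => h1 k k' i i'
    _ = (∑ k : F × F, ∑ k' : F × F, (univ.filter (fun i : F × F =>
        inc k i ∧ inc k' i)).card ^ 2) * A + Fintype.card F ^ 8 * E := by
        simp only [sum_add_distrib, sum_const, card_univ, Fintype.card_prod, smul_eq_mul,
          Finset.sum_mul]
        ring
    _ ≤ A * (2 * Fintype.card F ^ 4) + Fintype.card F ^ 8 * E := by
        refine Nat.add_le_add_right ?_ _
        rw [mul_comm A]
        exact Nat.mul_le_mul_right _ sum_inc_sq_le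

open Classical in
theorem card_main (d q : ℕ) : q ^ d ≤ (univ.filter (fun a : Fin d → O q => Main a)).card := by
  have h : (univ.image (fun s : Fin d → Fin q => (fun j => some (false, s j) : Fin d → O q))).card
      = q ^ d := by
    rw [card_image_of_injective]
    · rw [card_univ, Fintype.card_fun, Fintype.card_fin, Fintype.card_fin]
    · intro s s' hs
      funext j
      have := congrFun hs j
      simpa using this
  rw [← h]
  refine card_le_card fun a ha => ?_
  rw [mem_image] at ha
  obtain ⟨s, -, rfl⟩ := ha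
  exact mem_filter.2 ⟨mem_univ _, fun j => rfl⟩

end count

/-! ### The pattern -/

section pat

variable {F : Type} [Field F] [Fintype F] [DecidableEq F]

/-- rows = lines (long products), types = points (short products) -/
noncomputable def pat {d m : ℕ} (q : ℕ) (xv yv : F × F → TT d m → ZMod 2) : Pat where
  I := F × F
  K := F × F
  P := fun l => QQ q yv l
  Q := fun x => PP q xv x

omit [Field F] in
theorem N_eq {d m q : ℕ} (xv yv : F × F → TT d m → ZMod 2) (l x : F × F) :
    (pat q xv yv).N l x = (PP q xv x * QQ q yv l).coeff.support := by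
  unfold Pat.N pat
  rw [mul_comm]

theorem cov_N {d m q : ℕ} {xv yv : F × F → TT d m → ZMod 2}
    (h : ∀ x l, ∑ r, xv x r * yv l r = if inc x l then 1 else 0) (l x : F × F) :
    Cov d q ((pat q xv yv).N l x) (inc x l) := by
  intro k hk
  rw [N_eq, mem_support_iff] at hk
  obtain ⟨a, ha, hk⟩ := hk
  refine ⟨a, hk, ?_⟩
  rcases main_or_low ha with hm | hl
  · left
    refine ⟨hm, ?_⟩
    by_contra hcon
    apply ha
    rw [cf_main hm, h, if_neg hcon]
  · exact Or.inr hl

theorem card_N {d m q : ℕ} {xv yv : F × F → TT d m → ZMod 2}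
    (h : ∀ x l, ∑ r, xv x r * yv l r = if inc x l then 1 else 0) {l x : F × F} (hi : inc x l) :
    q ^ d ≤ ((pat q xv yv).N l x).card := by
  classical
  refine (card_main d q).trans ?_
  rw [← card_image_of_injective _ (H_inj (d := d) (q := q))]
  refine card_le_card fun k hk => ?_
  rw [mem_image] at hk
  obtain ⟨a, ha, rfl⟩ := hk
  rw [N_eq, mem_support_iff]
  refine ⟨a, ?_, rfl⟩
  rw [cf_main (mem_filter.1 ha).2, h, if_pos hi]
  exact one_ne_zero

theorem Ttot_ge {d m q : ℕ} {xv yv : F × F → TT d m → ZMod 2}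
    (h : ∀ x l, ∑ r, xv x r * yv l r = if inc x l then 1 else 0) :
    q ^ d * Fintype.card F ^ 3 ≤ (pat q xv yv).Ttot := by
  classical
  have h1 : ∀ x : F × F, Fintype.card F * q ^ d ≤ ∑ l : F × F, ((pat q xv yv).N l x).card := by
    intro x
    rw [← card_inc x, ← smul_eq_mul, ← sum_const]
    refine (sum_le_sum fun l hl => card_N h (mem_filter.1 hl).2).trans ?_
    exact sum_le_sum_of_subset (filter_subset _ _)
  have h2 : ∑ _x : F × F, Fintype.card F * q ^ d ≤ (pat q xv yv).Ttot :=
    sum_le_sum fun x _ => h1 x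
  refine le_trans (le_of_eq ?_) h2
  rw [sum_const, card_univ, Fintype.card_prod, smul_eq_mul]
  ring

theorem W4_le {d m q : ℕ} (hq : 1 ≤ q) {xv yv : F × F → TT d m → ZMod 2}
    (h : ∀ x l, ∑ r, xv x r * yv l r = if inc x l then 1 else 0) :
    (pat q xv yv).W4 ≤ (2 * q ^ 2) ^ d * (2 * Fintype.card F ^ 4) +
      Fintype.card F ^ 8 * (d * ((48 * q) * (54 * q ^ 2) ^ (d - 1))) :=
  W4_abs hq (fun l x => (pat q xv yv).N l x) (fun l x => cov_N h l x)

end pat

/-- PART A with parameters. -/
theorem stmtLam {e d m c1 c2 : ℕ} (he : e ≠ 0) (hm : 3 ^ e + 1 < d.choose m) (hd1 : 2 * m < d)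
    (hd2 : d < 3 * m) (hc : c1 * 2 ^ (d + 1) < c2 * 4 ^ e) (Λ : ℕ) :
    ∃ p : Pat, Fintype.card p.I = 4 ^ e ∧ Fintype.card p.K = 4 ^ e ∧ 0 < p.Ttot ∧
      c1 * p.W4 ≤ c2 * p.Ttot ^ 2 ∧
      (∀ k, Λ * (p.Q k).coeff.support.card ^ 2 ≤ p.Ttot) ∧
      (∀ i, Λ * (p.P i).coeff.support.card ^ 3 ≤ p.Ttot ^ 2) := by
  classical
  obtain ⟨F, _, _, _, xv, yv, t0, hF, -, h⟩ := exists_factor he (T := TT d m) (by rw [card_TT]; exact hm)
  set f := Fintype.card F with hf
  have hf0 : 0 < f := by rw [hF]; positivity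
  set E := f ^ 8 * (d * (48 * 54 ^ (d - 1))) with hE
  set q := 1 + c1 * E + Λ * (d.choose m) ^ 3 with hq
  have hq1 : 1 ≤ q := by omega
  have hT := Ttot_ge (q := q) h
  have hW := W4_le (q := q) hq1 h
  have hd : 1 ≤ d := by (clear * - hd1; omega)
  have hT0 : 0 < q ^ d * f ^ 3 := by (clear * - hd; positivity)
  have hcard : Fintype.card (F × F) = 4 ^ e := by
    rw [Fintype.card_prod, ← hf, hF, ← pow_add, ← two_mul, pow_mul]
    norm_num
  have hf2 : f ^ 2 = 4 ^ e := by
    rw [hF, ← pow_mul, mul_comm e 2, pow_mul]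
    norm_num
  have hC : 1 ≤ d.choose m := le_trans (Nat.le_add_left 1 (3 ^ e)) hm.le
  have hf3 : 1 ≤ f ^ 3 := Nat.one_le_pow _ _ hf0
  have hf4 : 1 ≤ f ^ 4 := Nat.one_le_pow _ _ hf0
  refine ⟨pat q xv yv, hcard, hcard, lt_of_lt_of_le hT0 hT, ?_, fun k => ?_, fun i => ?_⟩
  · have e1 : (2 * q ^ 2) ^ d * (2 * f ^ 4) + f ^ 8 * (d * ((48 * q) * (54 * q ^ 2) ^ (d - 1))) =
        2 ^ (d + 1) * (f ^ 4 * q ^ (2 * d)) + E * q ^ (2 * d - 1) := by
      have e2 : q * (q ^ 2) ^ (d - 1) = q ^ (2 * d - 1) := by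
        rw [← pow_mul, ← pow_succ']
        congr 1
        (clear * - hd; omega)
      rw [mul_pow, mul_pow 54, ← pow_mul, pow_succ, hE, ← e2]
      ring
    have e3 : q * q ^ (2 * d - 1) = q ^ (2 * d) := by
      rw [← pow_succ']
      congr 1
      (clear * - hd; omega)
    have h1 : c1 * (pat q xv yv).W4 ≤ c1 * 2 ^ (d + 1) * (f ^ 4 * q ^ (2 * d)) + q ^ (2 * d) := by
      calc c1 * (pat q xv yv).W4 ≤ c1 * (2 ^ (d + 1) * (f ^ 4 * q ^ (2 * d)) + E * q ^ (2 * d - 1)) := by
            refine Nat.mul_le_mul_left _ ?_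
            rw [← e1]
            exact hW
        _ = c1 * 2 ^ (d + 1) * (f ^ 4 * q ^ (2 * d)) + c1 * E * q ^ (2 * d - 1) := by ring
        _ ≤ _ := by
            refine Nat.add_le_add_left ?_ _
            rw [← e3]
            exact Nat.mul_le_mul_right _ (by (clear * -; omega))
    have h2 : q ^ (2 * d) ≤ f ^ 4 * q ^ (2 * d) := Nat.le_mul_of_pos_left _ (by omega)
    calc c1 * (pat q xv yv).W4 ≤ (c1 * 2 ^ (d + 1) + 1) * (f ^ 4 * q ^ (2 * d)) := by
          rw [add_mul, one_mul]
          exact h1.trans (Nat.add_le_add_left h2 _)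
      _ ≤ (c2 * 4 ^ e) * (f ^ 4 * q ^ (2 * d)) := Nat.mul_le_mul_right _ (by (clear * - hc; omega))
      _ = c2 * (q ^ d * f ^ 3) ^ 2 := by
          rw [← hf2]
          ring
      _ ≤ c2 * (pat q xv yv).Ttot ^ 2 := Nat.mul_le_mul_left _ (Nat.pow_le_pow_left hT 2)
  · have h1 : ((pat q xv yv).Q k).coeff.support.card ≤ d.choose m * q ^ m := ns_PP xv k
    calc Λ * ((pat q xv yv).Q k).coeff.support.card ^ 2 ≤ Λ * (d.choose m * q ^ m) ^ 2 :=
          Nat.mul_le_mul_left _ (Nat.pow_le_pow_left h1 2)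
      _ = Λ * (d.choose m) ^ 2 * q ^ (2 * m) := by ring
      _ ≤ q * q ^ (2 * m) := by
          refine Nat.mul_le_mul_right _ ?_
          have : Λ * (d.choose m) ^ 2 ≤ Λ * (d.choose m) ^ 3 :=
            Nat.mul_le_mul_left _ (Nat.pow_le_pow_right hC (by (clear * -; omega)))
          omega
      _ = q ^ (2 * m + 1) := by ring
      _ ≤ q ^ d := Nat.pow_le_pow_right hq1 (by (clear * - hd1; omega))
      _ ≤ q ^ d * f ^ 3 := Nat.le_mul_of_pos_right _ (by omega)
      _ ≤ _ := hT
  · have h1 : ((pat q xv yv).P i).coeff.support.card ≤ d.choose m * q ^ (d - m) := ns_QQ yv i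
    calc Λ * ((pat q xv yv).P i).coeff.support.card ^ 3 ≤ Λ * (d.choose m * q ^ (d - m)) ^ 3 :=
          Nat.mul_le_mul_left _ (Nat.pow_le_pow_left h1 3)
      _ = Λ * (d.choose m) ^ 3 * q ^ (3 * (d - m)) := by ring
      _ ≤ q * q ^ (3 * (d - m)) := Nat.mul_le_mul_right _ (by (clear * -; omega))
      _ = q ^ (3 * (d - m) + 1) := by ring
      _ ≤ q ^ (2 * d) := Nat.pow_le_pow_right hq1 (by (clear * - hd2 hd; omega))
      _ = (q ^ d) ^ 2 := by ring
      _ ≤ (q ^ d * f ^ 3) ^ 2 := Nat.pow_le_pow_left (Nat.le_mul_of_pos_right _ (by omega)) 2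
      _ ≤ _ := Nat.pow_le_pow_left hT 2

/-- the instance used for P194: `e = 20`, `d = 35`, `m = 17` -/
theorem stmtLam20 (Λ : ℕ) :
    ∃ p : Pat, Fintype.card p.I = 4 ^ 20 ∧ Fintype.card p.K = 4 ^ 20 ∧ 0 < p.Ttot ∧
      25 * p.W4 ≤ 2 * p.Ttot ^ 2 ∧
      (∀ k, Λ * (p.Q k).coeff.support.card ^ 2 ≤ p.Ttot) ∧
      (∀ i, Λ * (p.P i).coeff.support.card ^ 3 ≤ p.Ttot ^ 2) := by
  have h : (35 : ℕ).choose 17 = 4537567650 := by
    rw [Nat.choose_eq_descFactorial_div_factorial]
    rfl
  exact stmtLam (e := 20) (d := 35) (m := 17) (c1 := 25) (c2 := 2) (by norm_num)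
    (by rw [h]; norm_num) (by norm_num) (by norm_num) (by norm_num) Λ

end Vale.Agent.P201.Z.PA.Lam
end

section

/-!
P201, part F: real analysis (helper504).  See `../PROOF_F.md`, the function `psi` and the choice of `K`.

With `A = dl * K * Y` the function is
`psi e A x = (e/2) * (x + min x (sqrt (A x))) = min (e x) ((e/2) x + (e/2) sqrt (A x))`.
-/

namespace Vale.Agent.P201.S

open Real

/-- `min (e x) ((e/2) x + (e/2) sqrt (A x))` -/
noncomputable def psi (e A x : ℝ) : ℝ := e / 2 * (x + min x (sqrt (A * x)))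

namespace Psi

lemma psi_zero (e A : ℝ) : psi e A 0 = 0 := by
  simp [psi]

lemma min_mono {A x y : ℝ} (hA : 0 ≤ A) (hxy : x ≤ y) :
    min x (sqrt (A * x)) ≤ min y (sqrt (A * y)) := by
  apply min_le_min hxy
  apply Real.sqrt_le_sqrt
  exact mul_le_mul_of_nonneg_left hxy hA

lemma psi_mono {e A x y : ℝ} (he : 0 ≤ e) (hA : 0 ≤ A) (hxy : x ≤ y) :
    psi e A x ≤ psi e A y := by
  unfold psi
  have h := min_mono hA hxy
  apply mul_le_mul_of_nonneg_left _ (by (clear * - he; positivity))
  linarith

lemma min_nonneg {A x : ℝ} (hx : 0 ≤ x) : 0 ≤ min x (sqrt (A * x)) :=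
  le_min hx (Real.sqrt_nonneg _)

/-- mixed case of subadditivity -/
lemma sub_aux {A x y : ℝ} (hA : 0 ≤ A) (hx : 0 ≤ x) (hy : 0 ≤ y) (h : sqrt (A * y) ≤ y) :
    min (x + y) (sqrt (A * (x + y))) ≤ x + sqrt (A * y) := by
  rcases hy.eq_or_lt with h0 | hy0
  · subst h0
    exact (min_le_left _ _).trans (by simp)
  apply (min_le_right _ _).trans
  have hAy : A ≤ y := by
    have h1 : A * y ≤ y * y := by
      have := Real.sqrt_le_left (x := A * y) hy |>.mp h
      linarith
    exact le_of_mul_le_mul_right h1 hy0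
  have h2 : A ≤ sqrt (A * y) := by
    apply Real.le_sqrt_of_sq_le
    nlinarith only [hA, hAy]
  apply Real.sqrt_le_iff.mpr
  refine ⟨by (clear * - hx; positivity), ?_⟩
  have h3 : sqrt (A * y) ^ 2 = A * y := Real.sq_sqrt (by (clear * - hA hy0; positivity))
  nlinarith only [h3, hx, h2, mul_nonneg hx (Real.sqrt_nonneg (A * y))]

lemma min_sub {A x y : ℝ} (hA : 0 ≤ A) (hx : 0 ≤ x) (hy : 0 ≤ y) :
    min (x + y) (sqrt (A * (x + y))) ≤ min x (sqrt (A * x)) + min y (sqrt (A * y)) := by
  rcases le_total x (sqrt (A * x)) with h1 | h1 <;> rcases le_total y (sqrt (A * y)) with h2 | h2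
  · rw [min_eq_left h1, min_eq_left h2]; exact min_le_left _ _
  · rw [min_eq_left h1, min_eq_right h2]; exact sub_aux hA hx hy h2
  · rw [min_eq_right h1, min_eq_left h2]
    have := sub_aux hA hy hx h1
    rw [add_comm x y, add_comm (sqrt _) y]; exact this
  · rw [min_eq_right h1, min_eq_right h2]
    apply (min_le_right _ _).trans
    apply Real.sqrt_le_iff.mpr
    refine ⟨by positivity, ?_⟩
    have h3 : sqrt (A * y) ^ 2 = A * y := Real.sq_sqrt (by positivity)
    have h4 : sqrt (A * x) ^ 2 = A * x := Real.sq_sqrt (by positivity)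
    nlinarith only [h3, h4, mul_nonneg (Real.sqrt_nonneg (A * x)) (Real.sqrt_nonneg (A * y))]

/-- subadditivity -/
lemma psi_add {e A x y : ℝ} (he : 0 ≤ e) (hA : 0 ≤ A) (hx : 0 ≤ x) (hy : 0 ≤ y) :
    psi e A (x + y) ≤ psi e A x + psi e A y := by
  unfold psi
  have h := min_sub hA hx hy
  have h2 : e / 2 * (x + y + min (x + y) (sqrt (A * (x + y)))) ≤
      e / 2 * ((x + min x (sqrt (A * x))) + (y + min y (sqrt (A * y)))) := by
    apply mul_le_mul_of_nonneg_left _ (by positivity)
    linarith only [h]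
  linarith

/-- subadditivity for finite sums -/
lemma psi_sum {ι : Type*} (s : Finset ι) (f : ι → ℝ) {e A : ℝ} (he : 0 ≤ e) (hA : 0 ≤ A)
    (hf : ∀ i ∈ s, 0 ≤ f i) : psi e A (∑ i ∈ s, f i) ≤ ∑ i ∈ s, psi e A (f i) := by
  classical
  induction s using Finset.induction_on with
  | empty => simp [psi_zero]
  | insert a s ha ih =>
    rw [Finset.sum_insert ha, Finset.sum_insert ha]
    have h1 : ∀ i ∈ s, 0 ≤ f i := fun i hi => hf i (Finset.mem_insert_of_mem hi)
    have h2 := psi_add he hA (hf a (Finset.mem_insert_self a s)) (Finset.sum_nonneg h1)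
    have h3 := ih h1
    linarith

lemma psi_le {e A x : ℝ} (he : 0 ≤ e) : psi e A x ≤ e * x := by
  unfold psi
  have h : e / 2 * (x + min x (sqrt (A * x))) ≤ e / 2 * (x + x) := by
    apply mul_le_mul_of_nonneg_left _ (by positivity)
    linarith only [min_le_left x (sqrt (A * x))]
  linarith

lemma le_psi {e A x : ℝ} (he : 0 ≤ e) (hx : 0 ≤ x) : e / 2 * x ≤ psi e A x := by
  unfold psi
  apply mul_le_mul_of_nonneg_left _ (by (clear * - he; positivity))
  linarith [min_nonneg (A := A) hx]

lemma psi_nonneg {e A x : ℝ} (he : 0 ≤ e) (hx : 0 ≤ x) : 0 ≤ psi e A x :=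
  le_trans (by positivity) (le_psi he hx)

/-- small arguments -/
lemma psi_small {e A x : ℝ} (hx : 0 ≤ x) (h : x ≤ A) : psi e A x = e * x := by
  unfold psi
  have h1 : x ≤ sqrt (A * x) := Real.le_sqrt_of_sq_le (by nlinarith)
  rw [min_eq_left h1]; ring

/-- large arguments -/
lemma psi_large {e A x : ℝ} (hA : 0 ≤ A) (h : A ≤ x) :
    psi e A x = e / 2 * x + e / 2 * sqrt (A * x) := by
  unfold psi
  have hx : 0 ≤ x := hA.trans h
  have h1 : sqrt (A * x) ≤ x := by
    apply Real.sqrt_le_iff.mpr
    exact ⟨hx, by nlinarith⟩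
  rw [min_eq_right h1]; ring

/-- `sqrt t + sqrt (1-t) ≥ 1 + sqrt t / 2` in homogeneous form -/
lemma sqrt_gain {s F : ℝ} (hs : 0 ≤ s) (hF : s ≤ F / 2) :
    sqrt F + sqrt s / 2 ≤ sqrt s + sqrt (F - s) := by
  have hF0 : 0 ≤ F := by linarith only [hs, hF]
  have hsF : sqrt s ≤ sqrt F := Real.sqrt_le_sqrt (by linarith only [hs, hF])
  have h1 : sqrt s ^ 2 = s := Real.sq_sqrt hs
  have h2 : sqrt F ^ 2 = F := Real.sq_sqrt hF0
  have h3 : sqrt s ≤ 4 / 5 * sqrt F := by
    apply Real.sqrt_le_iff.mpr
    refine ⟨by (clear * -; positivity), ?_⟩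
    rw [mul_pow, h2]; linarith only [hs, hF]
  have h4 : sqrt F - sqrt s / 2 ≤ sqrt (F - s) := by
    apply Real.le_sqrt_of_sq_le
    nlinarith only [h1, h2, h3, Real.sqrt_nonneg s]
  linarith only [h4]

/-- gain of a balanced cut -/
lemma psi_cut {e A s F dl : ℝ} (he : 0 ≤ e) (hA : 0 ≤ A) (hs1 : A ≤ s)
    (hs2 : dl * F ≤ s) (hs : s ≤ F / 2) :
    psi e A F + e / 4 * sqrt (A * (dl * F)) ≤ psi e A s + psi e A (F - s) := by
  have hs0 : 0 ≤ s := hA.trans hs1
  have hF0 : 0 ≤ F := by linarith
  rw [psi_large hA hs1, psi_large hA (x := F) (by linarith), psi_large hA (x := F - s) (by linarith only [hs1, hs])]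
  rw [Real.sqrt_mul hA, Real.sqrt_mul hA, Real.sqrt_mul hA, Real.sqrt_mul hA]
  have h1 := sqrt_gain hs0 hs
  have h2 : sqrt (dl * F) ≤ sqrt s := Real.sqrt_le_sqrt hs2
  have h3 : 0 ≤ sqrt A := Real.sqrt_nonneg _
  have h4 : sqrt A * (sqrt F + sqrt (dl * F) / 2) ≤ sqrt A * (sqrt s + sqrt (F - s)) :=
    mul_le_mul_of_nonneg_left (by linarith only [h1, h2]) h3
  have h5 : e / 2 * (sqrt A * (sqrt F + sqrt (dl * F) / 2)) ≤
      e / 2 * (sqrt A * (sqrt s + sqrt (F - s))) := mul_le_mul_of_nonneg_left h4 (by positivity)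
  nlinarith only [h5]

/-- geometric growth bounds the number of steps -/
lemma growth {e g F : ℝ} (he : 0 < e) (hg : 0 < g) (m : ℕ → ℝ) (J : ℕ) (h0 : g ≤ m 0)
    (hs : ∀ j < J, (1 + e) * m j ≤ m (j + 1)) (hJ : m J ≤ F) :
    (J : ℝ) ≤ log (F / g) / log (1 + e) := by
  have h1 : ∀ j ≤ J, (1 + e) ^ j * g ≤ m j := by
    intro j
    induction j with
    | zero => intro _; simpa only [pow_zero, one_mul] using h0
    | succ j ih =>
      intro hj
      have h2 := ih (by omega)
      have h3 := hs j (by omega)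
      calc (1 + e) ^ (j + 1) * g = (1 + e) * ((1 + e) ^ j * g) := by ring
        _ ≤ (1 + e) * m j := mul_le_mul_of_nonneg_left h2 (by linarith only [he])
        _ ≤ _ := h3
  have h2 : (1 + e) ^ J * g ≤ F := (h1 J le_rfl).trans hJ
  have h3 : (1 + e) ^ J ≤ F / g := by rwa [le_div_iff₀ hg]
  have hl : 0 < log (1 + e) := Real.log_pos (by linarith only [he])
  rw [le_div_iff₀ hl, ← Real.log_pow]
  exact Real.log_le_log (by positivity) h3

/-- bound used for the choice of `K` -/
noncomputable def Bd (c e rho : ℝ) : ℝ := 8 * (log (rho / c) / log (1 + e / 4) + 5) + 2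

/-- choice of `K` -/
lemma exists_K (c e dl : ℝ) (hc : 0 < c) (he : 0 < e) (hdl : 0 < dl) :
    ∃ K1 : ℕ, 1 ≤ K1 ∧ c ≤ K1 ∧ ∀ K : ℕ, K1 ≤ K → ∀ rho : ℝ, (K : ℝ) ≤ rho →
      Bd c e rho < e * dl / 4 * sqrt (K * rho) := by
  have hl : 0 < log (1 + e / 4) := Real.log_pos (by linarith only [he])
  set a : ℝ := e * dl / 4 with ha
  have ha0 : 0 < a := by (clear * - he hdl; positivity)
  have h1 : ∀ᶠ x : ℝ in Filter.atTop, ‖log x‖ ≤ (a * log (1 + e / 4) / 32) * ‖x ^ (1 / 2 : ℝ)‖ :=
    (isLittleO_log_rpow_atTop (by norm_num : (0 : ℝ) < 1 / 2)).bound (by positivity)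
  have h2 : ∀ᶠ x : ℝ in Filter.atTop,
      (8 * (-log c / log (1 + e / 4) + 5) + 2) / (a / 4) < x ^ (1 / 2 : ℝ) :=
    (tendsto_rpow_atTop (by norm_num : (0 : ℝ) < 1 / 2)).eventually_gt_atTop _
  obtain ⟨x0, hx0⟩ := Filter.eventually_atTop.mp (h1.and h2)
  obtain ⟨K1, hK1⟩ := exists_nat_ge (max (max x0 1) c)
  have hK1a : x0 ≤ K1 := (le_max_left _ _).trans ((le_max_left _ _).trans hK1)
  have hK1b : (1 : ℝ) ≤ K1 := (le_max_right _ _).trans ((le_max_left _ _).trans hK1)
  have hK1c : c ≤ K1 := (le_max_right _ _).trans hK1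
  refine ⟨K1, by exact_mod_cast hK1b, hK1c, ?_⟩
  intro K hK rho hrho
  have hKr : (K1 : ℝ) ≤ K := by exact_mod_cast hK
  have hr1 : (1 : ℝ) ≤ rho := by linarith only [hK1b, hrho, hKr]
  obtain ⟨h3, h4⟩ := hx0 rho (by linarith only [hK1a, hrho, hKr])
  rw [Real.norm_eq_abs, Real.norm_eq_abs, ← Real.sqrt_eq_rpow, abs_of_nonneg (Real.sqrt_nonneg _)] at h3
  rw [← Real.sqrt_eq_rpow, div_lt_iff₀ (by positivity)] at h4
  have h5 : log rho ≤ a * log (1 + e / 4) / 32 * sqrt rho := (le_abs_self _).trans h3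
  have h6 : log rho / log (1 + e / 4) ≤ a / 32 * sqrt rho := by
    rw [div_le_iff₀ hl]; linarith only [h5]
  have h7 : log (rho / c) / log (1 + e / 4) = log rho / log (1 + e / 4) + -log c / log (1 + e / 4) := by
    rw [Real.log_div (by linarith only [hK1b, hrho, hKr]) hc.ne']; ring
  have h8 : sqrt rho ≤ sqrt (K * rho) := Real.sqrt_le_sqrt (by nlinarith only [hK1b, hKr, hrho])
  have h9 : 0 < sqrt rho := Real.sqrt_pos.mpr (by linarith only [hK1b, hrho, hKr])
  unfold Bd
  rw [h7]
  nlinarith only [h4, h6, ha0, h9, h8]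

/-- all the inequalities needed in F5 and F7.  `dl ≤ 1`, `A = dl K Y`. -/
theorem numerics (c e dl : ℝ) (hc : 0 < c) (he : 0 < e) (hdl : 0 < dl) :
    ∃ K1 : ℕ, 1 ≤ K1 ∧ ∀ K : ℕ, K1 ≤ K → ∀ Y : ℕ, 1 ≤ Y → ∀ F g : ℝ, c * Y ≤ g → (K * Y : ℝ) ≤ F →
      (∀ s : ℝ, dl * F ≤ s → s ≤ F / 2 →
        psi e (dl * K * Y) F + 2 * (2 * (2 * Y * (log (F / g) / log (1 + e / 4) + 4)) + Y) <
          psi e (dl * K * Y) s + psi e (dl * K * Y) (F - s) ∧
        2 * (2 * Y * (log (F / g) / log (1 + e / 4) + 4)) + Y < psi e (dl * K * Y) s) ∧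
      2 * (4 * Y * (log (F / g) / log (1 + e / 4) + 5)) + Y < e / 2 * (dl * F) := by
  obtain ⟨K1, hK1, hK1c, h⟩ := exists_K c e dl hc he hdl
  refine ⟨K1, hK1, ?_⟩
  intro K hK Y hY F g hg hF
  have hl : 0 < log (1 + e / 4) := Real.log_pos (by linarith only [he])
  have hKr : (K1 : ℝ) ≤ K := by exact_mod_cast hK
  have hK1r : (1 : ℝ) ≤ K1 := by exact_mod_cast hK1
  have hYr : (1 : ℝ) ≤ Y := by exact_mod_cast hY
  have hY0 : (0 : ℝ) < Y := by linarith only [hYr]
  have hF0 : 0 < F := by nlinarith only [hc, hK1c, hF, hKr, hYr]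
  set rho : ℝ := F / Y with hrho
  have hFr : F = rho * Y := by rw [hrho]; (clear * - hY hF0; field_simp)
  have hrK : (K : ℝ) ≤ rho := by rw [hrho, le_div_iff₀ hY0]; exact hF
  have h1 := h K hK rho hrK
  have hg0 : 0 < g := lt_of_lt_of_le (by positivity) hg
  have hlog : log (F / g) ≤ log (rho / c) := by
    apply Real.log_le_log (by (clear * - hF0 hg0; positivity))
    rw [div_le_div_iff₀ hg0 hc, hFr]
    have : 0 ≤ rho := by linarith only [hrK]
    nlinarith only [hg, hrK]
  have hL : log (F / g) / log (1 + e / 4) ≤ log (rho / c) / log (1 + e / 4) :=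
    div_le_div_of_nonneg_right hlog hl.le
  have hL0 : 0 ≤ log (rho / c) / log (1 + e / 4) := by
    apply div_nonneg _ hl.le
    apply Real.log_nonneg
    rw [le_div_iff₀ hc]; linarith only [hK1c, hKr, hrK]
  unfold Bd at h1
  set L := log (F / g) / log (1 + e / 4)
  set L' := log (rho / c) / log (1 + e / 4)
  have hrho0 : 0 ≤ rho := by linarith only [hrK]
  have hsq : sqrt (K * rho) ≤ rho := by
    apply Real.sqrt_le_iff.mpr
    exact ⟨hrho0, by nlinarith only [hrK]⟩
  have hA0 : 0 ≤ dl * K * Y := by (clear * - hdl hY; positivity)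
  have hmain : e * dl / 4 * sqrt (K * rho) ≤ e * dl / 4 * rho :=
    mul_le_mul_of_nonneg_left hsq (by positivity)
  have hlast : 2 * (4 * Y * (L + 5)) + Y < e / 2 * (dl * F) := by
    have h2 : 8 * (L + 5) + 1 < e / 2 * dl * rho := by
      have : 0 ≤ e * dl / 4 * rho := by positivity
      linarith
    calc 2 * (4 * Y * (L + 5)) + Y = (8 * (L + 5) + 1) * Y := by ring
      _ < (e / 2 * dl * rho) * Y := mul_lt_mul_of_pos_right h2 hY0
      _ = e / 2 * (dl * F) := by rw [hFr]; ring
  refine ⟨?_, hlast⟩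
  intro s hs1 hs2
  have hAs : dl * K * Y ≤ s := by
    calc dl * K * Y = dl * (K * Y) := by ring
      _ ≤ dl * F := mul_le_mul_of_nonneg_left hF hdl.le
      _ ≤ s := hs1
  constructor
  · have h2 := psi_cut he.le hA0 hAs hs1 hs2
    have h3 : e / 4 * sqrt (dl * K * Y * (dl * F)) = e * dl / 4 * sqrt (K * rho) * Y := by
      have : dl * K * Y * (dl * F) = (dl * Y) ^ 2 * (K * rho) := by rw [hFr]; ring
      rw [this, Real.sqrt_mul (by (clear * - hdl hY; positivity)), Real.sqrt_sq (by positivity)]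
      ring
    rw [h3] at h2
    have h4 : 2 * (2 * (2 * Y * (L + 4)) + Y) < e * dl / 4 * sqrt (K * rho) * Y := by
      calc 2 * (2 * (2 * Y * (L + 4)) + Y) = (8 * (L + 4) + 2) * Y := by ring
        _ < e * dl / 4 * sqrt (K * rho) * Y := by
          apply mul_lt_mul_of_pos_right _ hY0
          linarith only [h1, hL]
    linarith only [h2, h4]
  · have h2 := le_psi (A := dl * K * Y) he.le (hA0.trans hAs)
    have h3 : e / 2 * (dl * F) ≤ e / 2 * s := mul_le_mul_of_nonneg_left hs1 (by positivity)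
    have h4 : 2 * (2 * Y * (L + 4)) + Y < e / 2 * (dl * F) := by
      have h2 : 4 * (L + 4) + 1 < e / 2 * dl * rho := by
        have : 0 ≤ e * dl / 4 * rho := by positivity
        nlinarith only [h1, hL0, hL, hmain]
      calc 2 * (2 * Y * (L + 4)) + Y = (4 * (L + 4) + 1) * Y := by ring
        _ < (e / 2 * dl * rho) * Y := mul_lt_mul_of_pos_right h2 hY0
        _ = e / 2 * (dl * F) := by rw [hFr]; ring
    linarith only [h2, h3, h4]

end Psi

end Vale.Agent.P201.S
end

section

/-!
P201, part LA: relations on `Fin F` which are unions of few diagonal or antidiagonal runs, and the number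
of such relations (helper167).  Pure file.
-/

namespace Vale.Agent.P201.S.Runs

open Finset

/-- a run code `(i, j, len, sign)`: the pairs `(i + x, j + x)` (sign `true`) or `(i + x, j - x)`
(sign `false`), `x < len` -/
abbrev RunF (F : ℕ) : Type := Fin (F + 1) × Fin (F + 1) × Fin (F + 1) × Bool

def RunRel {F : ℕ} (c : RunF F) (a b : ℕ) : Prop :=
  ∃ x < c.2.2.1.val, a = c.1.val + x ∧
    ((c.2.2.2 = true ∧ b = c.2.1.val + x) ∨ (c.2.2.2 = false ∧ b + x = c.2.1.val))

/-- the relation `T` on natural numbers is a union of at most `k` runs -/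
def IsRunsF (F k : ℕ) (T : ℕ → ℕ → Prop) : Prop :=
  ∃ c : Fin k → RunF F, ∀ a b, T a b ↔ ∃ m, RunRel (c m) a b

theorem IsRunsF.congr {F k : ℕ} {T T' : ℕ → ℕ → Prop} (h : IsRunsF F k T)
    (hT : ∀ a b, T' a b ↔ T a b) : IsRunsF F k T' := by
  obtain ⟨c, hc⟩ := h
  exact ⟨c, fun a b => (hT a b).trans (hc a b)⟩

theorem IsRunsF.mono {F k k' : ℕ} {T : ℕ → ℕ → Prop} (h : IsRunsF F k T) (hk : k ≤ k') :
    IsRunsF F k' T := by
  obtain ⟨c, hc⟩ := h
  refine ⟨fun m => if hm : m.val < k then c ⟨m.val, hm⟩ else (0, 0, 0, true), fun a b => ?_⟩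
  rw [hc]
  constructor
  · rintro ⟨m, hm⟩
    refine ⟨⟨m.val, lt_of_lt_of_le m.2 hk⟩, ?_⟩
    simp only [m.2, dif_pos]
    exact hm
  · rintro ⟨m, hm⟩
    by_cases h1 : m.val < k
    · simp only [h1, dif_pos] at hm
      exact ⟨_, hm⟩
    · simp only [h1, dif_neg, not_false_eq_true] at hm
      obtain ⟨x, hx, -⟩ := hm
      simp only [Fin.coe_ofNat_eq_mod, Nat.zero_mod, not_lt_zero] at hx

theorem IsRunsF.empty (F : ℕ) {T : ℕ → ℕ → Prop} (h : ∀ a b, ¬ T a b) : IsRunsF F 0 T :=
  ⟨fun m => m.elim0, fun a b => ⟨fun h1 => absurd h1 (h a b), fun ⟨m, _⟩ => m.elim0⟩⟩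

/-- union over a finite index type -/
theorem IsRunsF.iUnion {F k : ℕ} {ι : Type} [Fintype ι] {T : ι → ℕ → ℕ → Prop}
    (h : ∀ w, IsRunsF F k (T w)) : IsRunsF F (Fintype.card ι * k) (fun a b => ∃ w, T w a b) := by
  classical
  choose c hc using h
  let e : Fin (Fintype.card ι * k) ≃ ι × Fin k :=
    finProdFinEquiv.symm.trans (Equiv.prodCongr (Fintype.equivFin ι).symm (Equiv.refl _))
  refine ⟨fun m => c (e m).1 (e m).2, fun a b => ?_⟩
  constructor
  · rintro ⟨w, hw⟩
    obtain ⟨m, hm⟩ := (hc w a b).1 hw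
    refine ⟨e.symm (w, m), ?_⟩
    change RunRel (c (e (e.symm (w, m))).1 (e (e.symm (w, m))).2) a b
    rw [Equiv.apply_symm_apply]
    exact hm
  · rintro ⟨m, hm⟩
    exact ⟨(e m).1, (hc _ a b).2 ⟨_, hm⟩⟩

theorem IsRunsF.union {F k l : ℕ} {T U : ℕ → ℕ → Prop} (h : IsRunsF F k T) (h' : IsRunsF F l U) :
    IsRunsF F (k + l) (fun a b => T a b ∨ U a b) := by
  obtain ⟨c, hc⟩ := h
  obtain ⟨d, hd⟩ := h'
  refine ⟨Fin.append c d, fun a b => ?_⟩
  constructor
  · rintro (h1 | h1)
    · obtain ⟨m, hm⟩ := (hc a b).1 h1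
      exact ⟨Fin.castAdd l m, by rw [Fin.append_left]; exact hm⟩
    · obtain ⟨m, hm⟩ := (hd a b).1 h1
      exact ⟨Fin.natAdd k m, by rw [Fin.append_right]; exact hm⟩
  · rintro ⟨m, hm⟩
    induction m using Fin.addCases with
    | left i =>
      rw [Fin.append_left] at hm
      exact Or.inl ((hc a b).2 ⟨i, hm⟩)
    | right i =>
      rw [Fin.append_right] at hm
      exact Or.inr ((hd a b).2 ⟨i, hm⟩)

/-- a finite set of pairs -/
theorem IsRunsF.of_finset {F : ℕ} (E : Finset (ℕ × ℕ)) (hE : ∀ x ∈ E, x.1 < F ∧ x.2 < F)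
    {T : ℕ → ℕ → Prop} (h : ∀ a b, T a b ↔ (a, b) ∈ E) : IsRunsF F E.card T := by
  classical
  let e := E.equivFin.symm
  refine ⟨fun m => (⟨(e m).1.1, by have := (hE _ (e m).2).1; omega⟩,
    ⟨(e m).1.2, by have := (hE _ (e m).2).2; omega⟩,
    ⟨1, by have := (hE _ (e m).2).2; omega⟩, true), fun a b => ?_⟩
  rw [h]
  constructor
  · intro hab
    refine ⟨E.equivFin ⟨(a, b), hab⟩, 0, ?_⟩
    simp only [Order.lt_one_iff, Equiv.symm_apply_apply, add_zero, and_self, Bool.true_eq_false, and_true, or_false, e]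
  · rintro ⟨m, x, hx, h1, h2⟩
    simp only [Nat.lt_one_iff] at hx
    subst hx
    simp only [Nat.add_zero, true_and, Bool.true_eq_false, false_and, or_false] at h1 h2
    subst h1 h2
    exact (e m).2

/-- **single run**: a functional relation any two points of which are joined by a run inside the
relation is a run. -/
theorem isRunsF_one {F : ℕ} {T : ℕ → ℕ → Prop} (hF : ∀ a b, T a b → a < F ∧ b < F)
    (hfun : ∀ a b b', T a b → T a b' → b = b')
    (hconn : ∀ a b a' b', T a b → T a' b' → a < a' →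
      (∀ x ≤ a' - a, T (a + x) (b + x)) ∨
      (∀ x ≤ a' - a, x ≤ b ∧ T (a + x) (b - x))) : IsRunsF F 1 T := by
  classical
  by_cases hne : ∃ a b, T a b
  · -- smallest and largest first coordinate
    have hex : ∃ a, ∃ b, T a b := hne
    obtain ⟨b0, hb0⟩ := Nat.find_spec hex
    have hmin : ∀ a b, T a b → Nat.find hex ≤ a := fun a b h => Nat.find_min' hex ⟨b, h⟩
    generalize Nat.find hex = a0 at hb0 hmin
    have hex2 : ∃ d, ∃ b, T (F - 1 - d) b ∧ d < F := by
      obtain ⟨h1, h2⟩ := hF _ _ hb0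
      refine ⟨F - 1 - a0, b0, ?_, by omega⟩
      rw [show F - 1 - (F - 1 - a0) = a0 by (clear * - h1; omega)]
      exact hb0
    obtain ⟨b1, hb1, hd⟩ := Nat.find_spec hex2
    have hmax : ∀ a b, T a b → a ≤ F - 1 - Nat.find hex2 := by
      intro a b h
      obtain ⟨h1, h2⟩ := hF _ _ h
      have := Nat.find_min' hex2 ⟨b, by
        rw [show F - 1 - (F - 1 - a) = a by (clear * - hex2 h1; omega)]
        exact ⟨h, by omega⟩⟩
      omega
    generalize F - 1 - Nat.find hex2 = a1 at hb1 hmax
    obtain ⟨f0, f0'⟩ := hF _ _ hb0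
    obtain ⟨f1, f1'⟩ := hF _ _ hb1
    have h01 : a0 ≤ a1 := hmin _ _ hb1
    rcases Nat.eq_or_lt_of_le h01 with h01' | h01'
    · -- one point
      subst h01'
      refine IsRunsF.mono (IsRunsF.of_finset {(a0, b0)} ?_ ?_) (by simp)
      · intro x hx
        rw [mem_singleton] at hx
        subst hx
        exact ⟨f0, f0'⟩
      · intro a b
        rw [mem_singleton, Prod.mk.injEq]
        constructor
        · intro h
          have h1 := hmin _ _ h
          have h2 := hmax _ _ h
          have h3 : a = a0 := by omega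
          subst h3
          exact ⟨rfl, hfun _ _ _ h hb0⟩
        · rintro ⟨rfl, rfl⟩
          exact hb0
    · rcases hconn _ _ _ _ hb0 hb1 h01' with hc | hc
      · have f2 := (hF _ _ (hc (a1 - a0) le_rfl)).2
        refine ⟨fun _ => (⟨a0, by omega⟩, ⟨b0, by omega⟩, ⟨a1 - a0 + 1, by omega⟩, true),
          fun a b => ?_⟩
        constructor
        · intro h
          have h1 := hmin _ _ h
          have h2 := hmax _ _ h
          have h3 := hc (a - a0) (by omega)
          rw [show a0 + (a - a0) = a by omega] at h3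
          have h4 := hfun _ _ _ h h3
          refine ⟨0, a - a0, ?_, ?_, Or.inl ⟨rfl, h4⟩⟩
          · change a - a0 < a1 - a0 + 1
            omega
          · change a = a0 + (a - a0)
            omega
        · rintro ⟨m, x, hx, h1, h2⟩
          have hx' : x < a1 - a0 + 1 := hx
          have h1' : a = a0 + x := h1
          rcases h2 with ⟨-, h2⟩ | ⟨h2, -⟩
          · have h2' : b = b0 + x := h2
            subst h1' h2'
            exact hc x (by omega)
          · exact absurd h2 (by simp)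
      · refine ⟨fun _ => (⟨a0, by omega⟩, ⟨b0, by omega⟩, ⟨a1 - a0 + 1, by omega⟩, false),
          fun a b => ?_⟩
        constructor
        · intro h
          have h1 := hmin _ _ h
          have h2 := hmax _ _ h
          obtain ⟨h5, h3⟩ := hc (a - a0) (by omega)
          rw [show a0 + (a - a0) = a by omega] at h3
          have h4 := hfun _ _ _ h h3
          refine ⟨0, a - a0, ?_, ?_, Or.inr ⟨rfl, ?_⟩⟩
          · change a - a0 < a1 - a0 + 1
            omega
          · change a = a0 + (a - a0)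
            omega
          · change b + (a - a0) = b0
            omega
        · rintro ⟨m, x, hx, h1, h2⟩
          have hx' : x < a1 - a0 + 1 := hx
          have h1' : a = a0 + x := h1
          rcases h2 with ⟨h2, -⟩ | ⟨-, h2⟩
          · exact absurd h2 (by simp)
          · have h2' : b + x = b0 := h2
            obtain ⟨h5, h6⟩ := hc x (by omega)
            subst h1'
            rw [show b = b0 - x by omega]
            exact h6
  · exact IsRunsF.mono (IsRunsF.empty F (fun a b h => hne ⟨a, b, h⟩)) (Nat.zero_le 1)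

/-- antidiagonal version of the slope rule: every pair is an end or has a successor
`(a + 1, b - 1)` -/
theorem isRunsF_of_anti {F : ℕ} {T : ℕ → ℕ → Prop} (hF : ∀ a b, T a b → a < F ∧ b < F)
    (E : Finset (ℕ × ℕ)) (hE : ∀ a b, T a b → (a, b) ∈ E ∨ (1 ≤ b ∧ T (a + 1) (b - 1))) :
    IsRunsF F E.card T := by
  classical
  -- backward length at a point
  let P : ℕ × ℕ → ℕ → Prop := fun q l => l ≤ F ∧ ∀ x < l, x ≤ q.1 ∧ T (q.1 - x) (q.2 + x)
  have hP : ∀ q : ℕ × ℕ, ∃ l, P q l ∧ ∀ l', P q l' → l' ≤ l := by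
    intro q
    have h0 : P q 0 := ⟨Nat.zero_le _, fun x hx => absurd hx (by omega)⟩
    refine ⟨Nat.findGreatest (P q) F, Nat.findGreatest_spec (P := P q) (Nat.zero_le F) h0, ?_⟩
    intro l' hl'
    exact Nat.le_findGreatest hl'.1 hl'
  choose len hlen hmaxl using hP
  let e := E.equivFin.symm
  have hb : ∀ q : ℕ × ℕ, 0 < len q → len q ≤ q.1 + 1 ∧ q.2 + (len q - 1) < F ∧ q.1 < F := by
    intro q hq
    have h1 := (hlen q).2 (len q - 1) (by omega)
    have h2 := (hlen q).2 0 hq
    have h3 := hF _ _ h1.2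
    have h4 := hF _ _ h2.2
    simp only [Nat.sub_zero] at h4
    exact ⟨by omega, h3.2, h4.1⟩
  refine ⟨fun m => if h : 0 < len (e m).1 then
      (⟨(e m).1.1 + 1 - len (e m).1, by have := hb _ h; omega⟩,
        ⟨(e m).1.2 + (len (e m).1 - 1), by have := hb _ h; omega⟩,
        ⟨len (e m).1, by have := (hlen (e m).1).1; omega⟩, false)
      else (0, 0, 0, true), fun a b => ?_⟩
  constructor
  · -- follow the antidiagonal until an end
    have key : ∀ (b a : ℕ), T a b → ∃ y, y ≤ b ∧ (a + y, b - y) ∈ E ∧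
        ∀ x ≤ y, T (a + x) (b - x) := by
      intro b
      induction b with
      | zero =>
        intro a h
        rcases hE _ _ h with h1 | ⟨h1, -⟩
        · exact ⟨0, le_rfl, h1, fun x hx => by
            rw [show x = 0 by omega]; exact h⟩
        · omega
      | succ b ih =>
        intro a h
        rcases hE _ _ h with h1 | ⟨-, h1⟩
        · exact ⟨0, by omega, h1, fun x hx => by
            rw [show x = 0 by omega]; exact h⟩
        · rw [Nat.add_sub_cancel] at h1
          obtain ⟨y, hy, hyE, hyT⟩ := ih _ h1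
          refine ⟨y + 1, by omega, ?_, ?_⟩
          · rw [show a + (y + 1) = a + 1 + y by omega, show b + 1 - (y + 1) = b - y by omega]
            exact hyE
          · intro x hx
            rcases Nat.eq_zero_or_pos x with rfl | hx0
            · exact h
            · have := hyT (x - 1) (by omega)
              rw [show a + x = a + 1 + (x - 1) by omega, show b + 1 - x = b - (x - 1) by omega]
              exact this
    intro h
    obtain ⟨y, hyb, hyE, hyT⟩ := key b a h
    have hF1 := hF _ _ (hyT y le_rfl)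
    have hPy : P (a + y, b - y) (y + 1) := by
      refine ⟨by have := (hF _ _ h).2; omega, fun x hx => ⟨by simp only; omega, ?_⟩⟩
      have := hyT (y - x) (by omega)
      rw [show a + (y - x) = a + y - x by omega, show b - (y - x) = b - y + x by omega] at this
      exact this
    have hl := hmaxl _ _ hPy
    refine ⟨E.equivFin ⟨(a + y, b - y), hyE⟩, ?_⟩
    have he : (e (E.equivFin ⟨(a + y, b - y), hyE⟩)) = ⟨(a + y, b - y), hyE⟩ := by
      simp only [Equiv.symm_apply_apply, e]
    have hpos : 0 < len (a + y, b - y) := by omega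
    have hb1 := hb _ hpos
    simp only at hb1
    have hkey : RunRel (F := F)
        (if h : 0 < len (e (E.equivFin ⟨(a + y, b - y), hyE⟩)).1 then
      (⟨(e (E.equivFin ⟨(a + y, b - y), hyE⟩)).1.1 + 1 - len (e (E.equivFin ⟨(a + y, b - y), hyE⟩)).1, by have := hb _ h; omega⟩,
        ⟨(e (E.equivFin ⟨(a + y, b - y), hyE⟩)).1.2 + (len (e (E.equivFin ⟨(a + y, b - y), hyE⟩)).1 - 1), by have := hb _ h; omega⟩,
        ⟨len (e (E.equivFin ⟨(a + y, b - y), hyE⟩)).1, by have := (hlen (e (E.equivFin ⟨(a + y, b - y), hyE⟩)).1).1; omega⟩, false)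
      else (0, 0, 0, true)) a b := by
      rw [dif_pos (by rw [he]; exact hpos)]
      refine ⟨len (a + y, b - y) - 1 - y, ?_, ?_, Or.inr ⟨rfl, ?_⟩⟩
      · change _ < len (e (E.equivFin ⟨(a + y, b - y), hyE⟩)).1
        rw [he]
        change _ < len (a + y, b - y)
        omega
      · change a = (e (E.equivFin ⟨(a + y, b - y), hyE⟩)).1.1 + 1 -
          len (e (E.equivFin ⟨(a + y, b - y), hyE⟩)).1 + _
        rw [he]
        change a = a + y + 1 - len (a + y, b - y) + _
        (clear * - hl hb1; omega)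
      · change b + _ = (e (E.equivFin ⟨(a + y, b - y), hyE⟩)).1.2 +
          (len (e (E.equivFin ⟨(a + y, b - y), hyE⟩)).1 - 1)
        rw [he]
        change b + _ = b - y + (len (a + y, b - y) - 1)
        omega
    exact hkey
  · rintro ⟨m, hm⟩
    by_cases h0 : 0 < len (e m).1
    · simp only [h0, dif_pos] at hm
      obtain ⟨x, hx, h1, h2⟩ := hm
      have hb1 := hb _ h0
      rcases h2 with ⟨h2, -⟩ | ⟨-, h2⟩
      · simp at h2
      · simp only at hx h1 h2
        have h3 := (hlen (e m).1).2 (len (e m).1 - 1 - x) (by omega)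
        rw [show (e m).1.1 - (len (e m).1 - 1 - x) = a by omega,
          show (e m).1.2 + (len (e m).1 - 1 - x) = b by omega] at h3
        exact h3.2
    · simp only [h0, dif_neg, not_false_eq_true] at hm
      obtain ⟨x, hx, -⟩ := hm
      simp at hx

/-- swapping the coordinates -/
theorem IsRunsF.swap {F k : ℕ} {T : ℕ → ℕ → Prop} (hF : ∀ a b, T a b → a < F ∧ b < F)
    (h : IsRunsF F k T) : IsRunsF F k (fun a b => T b a) := by
  classical
  obtain ⟨c, hc⟩ := h
  -- an antidiagonal run starts at its other end after the swap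
  have key : ∀ m, ∃ d : RunF F, ∀ a b, RunRel d a b ↔ RunRel (c m) b a := by
    intro m
    rcases hcm : c m with ⟨⟨i, hi⟩, ⟨j, hj⟩, ⟨l, hl⟩, s⟩
    cases s with
    | true =>
      refine ⟨(⟨j, hj⟩, ⟨i, hi⟩, ⟨l, hl⟩, true), fun a b => ?_⟩
      constructor
      · rintro ⟨x, hx, h1, ⟨-, h2⟩ | ⟨h2, -⟩⟩
        · exact ⟨x, hx, h2, Or.inl ⟨rfl, h1⟩⟩
        · exact absurd h2 (by simp)
      · rintro ⟨x, hx, h1, ⟨-, h2⟩ | ⟨h2, -⟩⟩
        · exact ⟨x, hx, h2, Or.inl ⟨rfl, h1⟩⟩
        · exact absurd h2 (by simp)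
    | false =>
      by_cases hl0 : l = 0
      · subst hl0
        refine ⟨(0, 0, 0, true), fun a b => ?_⟩
        constructor
        · rintro ⟨x, hx, -⟩
          simp at hx
        · rintro ⟨x, hx, -⟩
          simp at hx
      · -- the length is at most `j + 1`, otherwise truncate
        let l' := min l (j + 1)
        have hT : ∀ x < l', T (i + x) (j - x) := by
          intro x hx
          refine (hc _ _).2 ⟨m, ?_⟩
          rw [hcm]
          refine ⟨x, ?_, rfl, Or.inr ⟨rfl, ?_⟩⟩
          · change x < l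
            omega
          · change j - x + x = j
            omega
        have h1 := hF _ _ (hT (l' - 1) (by (clear * - hl0; omega)))
        refine ⟨(⟨j - (l' - 1), by omega⟩, ⟨i + (l' - 1), by omega⟩, ⟨l', by omega⟩, false),
          fun a b => ?_⟩
        constructor
        · rintro ⟨x, hx, h1, ⟨h2, -⟩ | ⟨-, h2⟩⟩
          · exact absurd h2 (by simp)
          · simp only at hx h1 h2
            refine ⟨l' - 1 - x, ?_, ?_, Or.inr ⟨rfl, ?_⟩⟩
            · change l' - 1 - x < l
              (clear * - hx; omega)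
            · change b = i + (l' - 1 - x)
              (clear * - hx h2; omega)
            · change a + (l' - 1 - x) = j
              omega
        · rintro ⟨x, hx, h1, ⟨h2, -⟩ | ⟨-, h2⟩⟩
          · exact absurd h2 (by simp)
          · simp only at hx h1 h2
            refine ⟨l' - 1 - x, ?_, ?_, Or.inr ⟨rfl, ?_⟩⟩
            · change l' - 1 - x < l'
              omega
            · change a = j - (l' - 1) + (l' - 1 - x)
              omega
            · change b + (l' - 1 - x) = i + (l' - 1)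
              omega
  choose d hd using key
  refine ⟨d, fun a b => ?_⟩
  refine (hc b a).trans ?_
  constructor
  · rintro ⟨m, hm⟩
    exact ⟨m, (hd m a b).2 hm⟩
  · rintro ⟨m, hm⟩
    exact ⟨m, (hd m a b).1 hm⟩

/-- diagonal version of the slope rule -/
theorem isRunsF_of_diag {F : ℕ} {T : ℕ → ℕ → Prop} (hF : ∀ a b, T a b → a < F ∧ b < F)
    (E : Finset (ℕ × ℕ)) (hE : ∀ a b, T a b → (a, b) ∈ E ∨ T (a + 1) (b + 1)) :
    IsRunsF F E.card T := by
  classical
  let P : ℕ × ℕ → ℕ → Prop := fun q l => l ≤ F ∧ ∀ x < l, x ≤ q.1 ∧ x ≤ q.2 ∧ T (q.1 - x) (q.2 - x)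
  have hP : ∀ q : ℕ × ℕ, ∃ l, P q l ∧ ∀ l', P q l' → l' ≤ l := by
    intro q
    have h0 : P q 0 := ⟨Nat.zero_le _, fun x hx => absurd hx (by omega)⟩
    refine ⟨Nat.findGreatest (P q) F, Nat.findGreatest_spec (P := P q) (Nat.zero_le F) h0, ?_⟩
    intro l' hl'
    exact Nat.le_findGreatest hl'.1 hl'
  choose len hlen hmaxl using hP
  let e := E.equivFin.symm
  have hb : ∀ q : ℕ × ℕ, 0 < len q → len q ≤ q.1 + 1 ∧ len q ≤ q.2 + 1 ∧ q.1 < F ∧ q.2 < F := by
    intro q hq
    have h1 := (hlen q).2 (len q - 1) (by omega)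
    have h2 := (hlen q).2 0 hq
    have h4 := hF _ _ h2.2.2
    simp only [Nat.sub_zero] at h4
    exact ⟨by omega, by omega, h4.1, h4.2⟩
  have hex : ∀ m, ∃ d : RunF F, ∀ a b, RunRel d a b ↔
      ∃ x < len (e m).1, a = (e m).1.1 - x ∧ b = (e m).1.2 - x := by
    intro m
    by_cases h : 0 < len (e m).1
    · have hb1 := hb _ h
      refine ⟨(⟨(e m).1.1 + 1 - len (e m).1, by omega⟩,
        ⟨(e m).1.2 + 1 - len (e m).1, by omega⟩,
        ⟨len (e m).1, by have := (hlen (e m).1).1; omega⟩, true), fun a b => ?_⟩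
      constructor
      · rintro ⟨x, hx, h1, ⟨-, h2⟩ | ⟨h2, -⟩⟩
        · simp only at hx h1 h2
          exact ⟨len (e m).1 - 1 - x, by omega, by omega, by omega⟩
        · exact absurd h2 (by simp)
      · rintro ⟨x, hx, h1, h2⟩
        refine ⟨len (e m).1 - 1 - x, ?_, ?_, Or.inl ⟨rfl, ?_⟩⟩
        · simp only; (clear * - hx; omega)
        · simp only; (clear * - hb1 hx h1; omega)
        · simp only; (clear * - hb1 hx h2; omega)
    · refine ⟨(0, 0, 0, true), fun a b => ?_⟩
      constructor
      · rintro ⟨x, hx, -⟩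
        simp at hx
      · rintro ⟨x, hx, -⟩
        omega
  choose d hd using hex
  refine ⟨d, fun a b => ?_⟩
  constructor
  · have key : ∀ (k a b : ℕ), F - a = k → T a b → ∃ y, (a + y, b + y) ∈ E ∧
        ∀ x ≤ y, T (a + x) (b + x) := by
      intro k
      induction k using Nat.strong_induction_on with
      | _ k ih =>
        intro a b hk h
        rcases hE _ _ h with h1 | h1
        · exact ⟨0, h1, fun x hx => by rw [show x = 0 by omega]; exact h⟩
        · have h2 := (hF _ _ h).1
          obtain ⟨y, hyE, hyT⟩ := ih (F - (a + 1)) (by omega) (a + 1) (b + 1) rfl h1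
          refine ⟨y + 1, ?_, ?_⟩
          · rw [show a + (y + 1) = a + 1 + y by omega, show b + (y + 1) = b + 1 + y by omega]
            exact hyE
          · intro x hx
            rcases Nat.eq_zero_or_pos x with rfl | hx0
            · exact h
            · have := hyT (x - 1) (by omega)
              rw [show a + x = a + 1 + (x - 1) by (clear * - hx0; omega), show b + x = b + 1 + (x - 1) by omega]
              exact this
    intro h
    obtain ⟨y, hyE, hyT⟩ := key _ a b rfl h
    have hF1 := hF _ _ (hyT y le_rfl)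
    have hPy : P (a + y, b + y) (y + 1) := by
      refine ⟨by omega, fun x hx => ⟨by simp only; omega, by simp only; omega, ?_⟩⟩
      have := hyT (y - x) (by omega)
      rw [show a + (y - x) = a + y - x by omega, show b + (y - x) = b + y - x by omega] at this
      exact this
    have hl := hmaxl _ _ hPy
    refine ⟨E.equivFin ⟨(a + y, b + y), hyE⟩, ?_⟩
    rw [hd]
    have he : (e (E.equivFin ⟨(a + y, b + y), hyE⟩)) = ⟨(a + y, b + y), hyE⟩ := by
      simp [e]
    rw [he]
    refine ⟨y, ?_, ?_, ?_⟩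
    · change y < len (a + y, b + y)
      omega
    · change a = a + y - y
      omega
    · change b = b + y - y
      omega
  · rintro ⟨m, hm⟩
    rw [hd] at hm
    obtain ⟨x, hx, rfl, rfl⟩ := hm
    exact ((hlen (e m).1).2 x hx).2.2

/-! ## The interface (form of helper621) -/

/-- a run `(i, j, len, sign)` -/
abbrev Run := ℕ × ℕ × ℕ × Bool

def Run.rel (r : Run) (i j : ℕ) : Prop :=
  ∃ x < r.2.2.1, i = r.1 + x ∧ (if r.2.2.2 then j = r.2.1 + x else j + x = r.2.1)

def IsRuns (F B : ℕ) (R : ℕ → ℕ → Prop) : Prop :=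
  ∃ c : Fin B → Run, (∀ b, (c b).1 ≤ F ∧ (c b).2.1 ≤ F ∧ (c b).2.2.1 ≤ F) ∧
    ∀ i j, R i j ↔ ∃ b, (c b).rel i j

theorem rel_iff {F : ℕ} (c : RunF F) (i j : ℕ) :
    Run.rel (c.1.val, c.2.1.val, c.2.2.1.val, c.2.2.2) i j ↔ RunRel c i j := by
  obtain ⟨a, b, l, s⟩ := c
  unfold Run.rel RunRel
  cases s <;> simp

theorem isRuns_iff {F B : ℕ} {R : ℕ → ℕ → Prop} : IsRuns F B R ↔ IsRunsF F B R := by
  constructor
  · rintro ⟨c, hb, hc⟩
    refine ⟨fun m => (⟨(c m).1, by have := hb m; omega⟩, ⟨(c m).2.1, by have := hb m; omega⟩,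
      ⟨(c m).2.2.1, by have := hb m; omega⟩, (c m).2.2.2), fun i j => ?_⟩
    rw [hc]
    refine exists_congr fun m => ?_
    exact rel_iff (F := F) (⟨(c m).1, by have := hb m; omega⟩,
      ⟨(c m).2.1, by have := hb m; omega⟩, ⟨(c m).2.2.1, by have := hb m; omega⟩, (c m).2.2.2) i j
  · rintro ⟨c, hc⟩
    refine ⟨fun m => ((c m).1.val, (c m).2.1.val, (c m).2.2.1.val, (c m).2.2.2), fun m => ?_,
      fun i j => ?_⟩
    · exact ⟨Nat.lt_succ_iff.1 (c m).1.2, Nat.lt_succ_iff.1 (c m).2.1.2,
        Nat.lt_succ_iff.1 (c m).2.2.1.2⟩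
    · rw [hc]
      exact exists_congr fun m => (rel_iff (c m) i j).symm

theorem IsRuns.mono {F B B' : ℕ} {R : ℕ → ℕ → Prop} (hB : B ≤ B') (h : IsRuns F B R) :
    IsRuns F B' R := isRuns_iff.2 ((isRuns_iff.1 h).mono hB)

theorem IsRuns.congr {F B : ℕ} {R R' : ℕ → ℕ → Prop} (h : IsRuns F B R)
    (hR : ∀ i j, R' i j ↔ R i j) : IsRuns F B R' := isRuns_iff.2 ((isRuns_iff.1 h).congr hR)

theorem IsRuns.union {F B B' : ℕ} {R R' : ℕ → ℕ → Prop} (h : IsRuns F B R)
    (h' : IsRuns F B' R') : IsRuns F (B + B') (fun i j => R i j ∨ R' i j) :=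
  isRuns_iff.2 ((isRuns_iff.1 h).union (isRuns_iff.1 h'))

theorem IsRuns.swap {F B : ℕ} {R : ℕ → ℕ → Prop} (hF : ∀ i j, R i j → i < F ∧ j < F)
    (h : IsRuns F B R) : IsRuns F B (fun i j => R j i) :=
  isRuns_iff.2 ((isRuns_iff.1 h).swap hF)

/-- window index of `i`: the number of cuts below `i` -/
def wix (cut : ℕ → Prop) [DecidablePred cut] (i : ℕ) : ℕ := ((range i).filter cut).card

theorem wix_mono (cut : ℕ → Prop) [DecidablePred cut] {i j : ℕ} (h : i ≤ j) :
    wix cut i ≤ wix cut j := by
  refine card_le_card (filter_subset_filter _ ?_)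
  intro x hx
  rw [mem_range] at hx ⊢
  omega

theorem wix_nocut (cut : ℕ → Prop) [DecidablePred cut] {i j : ℕ}
    (hw : wix cut i = wix cut j) {y : ℕ} (h1 : i ≤ y) (h2 : y < j) : ¬ cut y := by
  intro hy
  have h3 : wix cut i < wix cut j := by
    refine card_lt_card ?_
    rw [Finset.ssubset_iff_of_subset]
    · refine ⟨y, ?_, ?_⟩
      · rw [mem_filter, mem_range]
        exact ⟨h2, hy⟩
      · rw [mem_filter, mem_range]
        omega
    · refine filter_subset_filter _ ?_
      intro x hx
      rw [mem_range] at hx ⊢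
      omega
  omega

/-- In each pair of windows the relation is one run. -/
theorem windows_runs (cut : ℕ → Prop) [DecidablePred cut] (F W : ℕ)
    (hW : ((range F).filter cut).card ≤ W) (R : ℕ → ℕ → Prop)
    (hF : ∀ i j, R i j → i < F ∧ j < F)
    (H : ∀ i j m m', (∀ y, i ≤ y → y < i + m → ¬ cut y) → (∀ y, j ≤ y → y < j + m' → ¬ cut y) →
      i + m < F → j + m' < F →
      (R i j → R (i + m) (j + m') → m = m' ∧ ∀ x ≤ m, R (i + x) (j + x)) ∧
      (R i (j + m') → R (i + m) j → m = m' ∧ ∀ x ≤ m, R (i + x) (j + m' - x))) :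
    IsRuns F ((W + 1) * (W + 1)) R := by
  classical
  have hwl : ∀ i, i < F → wix cut i ≤ W := fun i hi => (wix_mono cut hi.le).trans hW
  let T : Fin (W + 1) × Fin (W + 1) → ℕ → ℕ → Prop := fun w i j =>
    R i j ∧ wix cut i = w.1.val ∧ wix cut j = w.2.val
  have hT : ∀ w, IsRunsF F 1 (T w) := by
    rintro ⟨u, v⟩
    refine isRunsF_one (fun a b h => hF a b h.1) ?_ ?_
    · rintro a b b' ⟨h, hu, hv⟩ ⟨h', hu', hv'⟩
      have f1 := hF _ _ h
      have f2 := hF _ _ h'
      simp only at hv hv'
      rcases Nat.le_total b b' with hb | hb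
      · have := (H a b 0 (b' - b) (fun y h1 h2 => by omega)
          (fun y h1 h2 => wix_nocut cut (hv.trans hv'.symm) h1 (by omega)) (by omega)
          (by omega)).1 h (by
            rw [show a + 0 = a by omega, show b + (b' - b) = b' by (clear * - hb; omega)]; exact h')
        (clear * - hb this; omega)
      · have := (H a b' 0 (b - b') (fun y h1 h2 => by omega)
          (fun y h1 h2 => wix_nocut cut (hv'.trans hv.symm) h1 (by omega)) (by omega)
          (by omega)).1 h' (by
            rw [show a + 0 = a by omega, show b' + (b - b') = b by (clear * - hb; omega)]; exact h)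
        omega
    · rintro a b a' b' ⟨h, hu, hv⟩ ⟨h', hu', hv'⟩ haa
      have f1 := hF _ _ h
      have f2 := hF _ _ h'
      simp only at hu hv hu' hv'
      rcases Nat.le_total b b' with hb | hb
      · left
        obtain ⟨hm, hx⟩ := (H a b (a' - a) (b' - b)
          (fun y h1 h2 => wix_nocut cut (hu.trans hu'.symm) h1 (by omega))
          (fun y h1 h2 => wix_nocut cut (hv.trans hv'.symm) h1 (by omega)) (by omega)
          (by omega)).1 h (by
            rw [show a + (a' - a) = a' by omega, show b + (b' - b) = b' by omega]; exact h')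
        intro x hxa
        refine ⟨hx x hxa, ?_, ?_⟩
        · have m1 := wix_mono cut (show a ≤ a + x by omega)
          have m2 := wix_mono cut (show a + x ≤ a' by omega)
          simp only
          omega
        · have m1 := wix_mono cut (show b ≤ b + x by omega)
          have m2 := wix_mono cut (show b + x ≤ b' by omega)
          simp only
          omega
      · right
        obtain ⟨hm, hx⟩ := (H a b' (a' - a) (b - b')
          (fun y h1 h2 => wix_nocut cut (hu.trans hu'.symm) h1 (by (clear * - haa h2; omega)))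
          (fun y h1 h2 => wix_nocut cut (hv'.trans hv.symm) h1 (by omega)) (by omega)
          (by omega)).2 (by
            rw [show b' + (b - b') = b by omega]; exact h) (by
            rw [show a + (a' - a) = a' by omega]; exact h')
        intro x hxa
        have hx' := hx x hxa
        rw [show b' + (b - b') - x = b - x by (clear * - hb hm hxa; omega)] at hx'
        refine ⟨by omega, hx', ?_, ?_⟩
        · have m1 := wix_mono cut (show a ≤ a + x by omega)
          have m2 := wix_mono cut (show a + x ≤ a' by (clear * - haa hb hm hxa; omega))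
          simp only
          omega
        · have m1 := wix_mono cut (show b' ≤ b - x by omega)
          have m2 := wix_mono cut (show b - x ≤ b by omega)
          simp only
          omega
  have hU := IsRunsF.iUnion hT
  rw [Fintype.card_prod, Fintype.card_fin, Nat.mul_one] at hU
  refine isRuns_iff.2 (hU.congr fun i j => ?_)
  constructor
  · intro h
    have f1 := hF _ _ h
    exact ⟨(⟨wix cut i, by have := hwl i f1.1; omega⟩, ⟨wix cut j, by have := hwl j f1.2; omega⟩),
      h, rfl, rfl⟩
  · rintro ⟨w, h, -⟩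
    exact h

open Classical in
theorem runs_of_ends_diag (F B : ℕ) (R : ℕ → ℕ → Prop) (hF : ∀ i j, R i j → i < F ∧ j < F)
    (hB : ((range F ×ˢ range F).filter (fun q => R q.1 q.2 ∧ ¬ R (q.1 + 1) (q.2 + 1))).card ≤ B) :
    IsRuns F B R := by
  refine isRuns_iff.2 (IsRunsF.mono (isRunsF_of_diag hF _ ?_) hB)
  intro a b h
  by_cases h1 : R (a + 1) (b + 1)
  · exact Or.inr h1
  · left
    rw [mem_filter, mem_product, mem_range, mem_range]
    exact ⟨hF _ _ h, h, h1⟩

open Classical in
theorem runs_of_ends_anti (F B : ℕ) (R : ℕ → ℕ → Prop) (hF : ∀ i j, R i j → i < F ∧ j < F)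
    (hB : ((range F ×ˢ range F).filter
      (fun q => R q.1 q.2 ∧ ¬ (1 ≤ q.2 ∧ R (q.1 + 1) (q.2 - 1)))).card ≤ B) :
    IsRuns F B R := by
  refine isRuns_iff.2 (IsRunsF.mono (isRunsF_of_anti hF _ ?_) hB)
  intro a b h
  by_cases h1 : 1 ≤ b ∧ R (a + 1) (b - 1)
  · exact Or.inr h1
  · left
    rw [mem_filter, mem_product, mem_range, mem_range]
    exact ⟨hF _ _ h, h, h1⟩

/-- the number of records -/
theorem codes (V B : ℕ) : ∃ CC : Finset (ℕ × (Fin 7 → ℕ → ℕ → Prop)),
    CC.card ≤ (V + 1) * ((2 * (V + 1) ^ 3) ^ B) ^ 7 ∧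
    ∀ F ≤ V, ∀ R : Fin 7 → ℕ → ℕ → Prop, (∀ k, IsRuns F B (R k)) → (F, R) ∈ CC := by
  classical
  let X : Type := Fin (V + 1) × (Fin 7 → Fin B → Fin (V + 1) × Fin (V + 1) × Fin (V + 1) × Bool)
  let dc : X → ℕ × (Fin 7 → ℕ → ℕ → Prop) := fun x =>
    (x.1.val, fun k i j => ∃ b, Run.rel ((x.2 k b).1.val, (x.2 k b).2.1.val, (x.2 k b).2.2.1.val,
      (x.2 k b).2.2.2) i j)
  refine ⟨(univ : Finset X).image dc, ?_, ?_⟩
  · refine le_trans card_image_le ?_
    have h1 : (univ : Finset X).card =
        (V + 1) * (((V + 1) * ((V + 1) * ((V + 1) * 2))) ^ B) ^ 7 := by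
      simp only [card_univ, Fintype.card_prod, Fintype.card_fin, Fintype.card_pi, Fintype.card_bool, prod_const, X]
    rw [h1]
    refine le_of_eq ?_
    congr 3
    ring
  · intro F hF R hR
    choose c hb hc using hR
    rw [mem_image]
    refine ⟨(⟨F, by omega⟩, fun k b => (⟨(c k b).1, by have := hb k b; omega⟩,
      ⟨(c k b).2.1, by have := hb k b; omega⟩, ⟨(c k b).2.2.1, by have := hb k b; omega⟩,
      (c k b).2.2.2)), mem_univ _, ?_⟩
    refine Prod.ext rfl ?_
    funext k i j
    exact propext (hc k i j).symm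

end Vale.Agent.P201.S.Runs
end

section

/-!
P201, LA5: the class bound `2 * mult b ≤ ∑_{class} mult + bad` (pure part, helper540).
-/

namespace Vale.Agent.P201.S.ClsA

open Finset Classical

variable {Q B Γ : Type*} [Fintype B] [DecidableEq B] [DecidableEq Γ]

/-- the links of the regular blocks of a class without partner at a regular block -/
noncomputable def bad (L : Finset Q) (bl : Q → B) (Reg : B → Prop) (rep : B → Γ)
    (Pr : Q → Q → Prop) (c : Γ) : ℕ :=
  (L.filter (fun s => Reg (bl s) ∧ rep (bl s) = c ∧ ¬ ∃ s', Pr s s' ∧ Reg (bl s'))).card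

/-- **class bound** -/
theorem class_bound (L : Finset Q) (bl : Q → B) (Reg : B → Prop) (rep : B → Γ)
    (Pr : Q → Q → Prop) (hsymm : ∀ s s', Pr s s' → Pr s' s)
    (huniq : ∀ s s' t, Pr s s' → Pr s t → s' = t) (hL : ∀ s s', Pr s s' → s ∈ L)
    (hcls : ∀ s s', Pr s s' → Reg (bl s) → Reg (bl s') →
      rep (bl s) = rep (bl s') ∧ bl s ≠ bl s') (b : B) (hb : Reg b) :
    2 * (L.filter (fun s => bl s = b)).card ≤
      ∑ b' ∈ (univ.filter Reg).filter (fun b' => rep b' = rep b),
        (L.filter (fun s => bl s = b')).card + bad L bl Reg rep Pr (rep b) := by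
  set A := L.filter (fun s => Reg (bl s) ∧ rep (bl s) = rep b) with hA
  have e1 : ∑ b' ∈ (univ.filter Reg).filter (fun b' => rep b' = rep b),
      (L.filter (fun s => bl s = b')).card = A.card := by
    rw [Finset.card_eq_sum_card_fiberwise (f := bl)
      (t := (univ.filter Reg).filter (fun b' => rep b' = rep b)) (s := A)]
    · refine Finset.sum_congr rfl fun b' hb' => ?_
      congr 1
      ext s
      simp only [mem_filter, mem_univ, true_and, hA] at hb' ⊢
      constructor
      · rintro ⟨h1, rfl⟩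
        exact ⟨⟨h1, hb'.1, hb'.2⟩, rfl⟩
      · rintro ⟨⟨h1, -⟩, h2⟩
        exact ⟨h1, h2⟩
    · intro s hs
      simp only [hA, coe_filter, Set.mem_ofPred_eq] at hs ⊢
      exact ⟨mem_filter.2 ⟨mem_univ _, hs.2.1⟩, hs.2.2⟩
  rw [e1]
  set P := L.filter (fun s => bl s = b) with hP
  set P1 := P.filter (fun s => ∃ s', Pr s s' ∧ Reg (bl s')) with hP1
  set P2 := P.filter (fun s => ¬ ∃ s', Pr s s' ∧ Reg (bl s')) with hP2
  have e2 : P1.card + P2.card = P.card := by
    rw [hP1, hP2]; exact Finset.card_filter_add_card_filter_not _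
  have e3 : P2.card ≤ bad L bl Reg rep Pr (rep b) := by
    refine Finset.card_le_card fun s hs => ?_
    simp only [hP2, hP, mem_filter] at hs ⊢
    obtain ⟨⟨h1, rfl⟩, h2⟩ := hs
    exact ⟨h1, hb, rfl, h2⟩
  have hPA : P ⊆ A := by
    intro s hs
    simp only [hP, hA, mem_filter] at hs ⊢
    obtain ⟨h1, rfl⟩ := hs
    exact ⟨h1, hb, rfl⟩
  have e4 : P1.card ≤ (A \ P).card := by
    refine Finset.card_le_card_of_injOn
      (fun s => if h : ∃ s', Pr s s' ∧ Reg (bl s') then h.choose else s) ?_ ?_
    · intro s hs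
      simp only [coe_filter, hP1, Set.mem_ofPred_eq] at hs
      have hex := hs.2
      have hsp := hex.choose_spec
      simp only [hex, dif_pos]
      have hs1 := hs.1
      simp only [hP, mem_filter] at hs1
      obtain ⟨h1, h2⟩ := hs1
      have hr : Reg (bl s) := by rw [h2]; exact hb
      have h3 := hcls _ _ hsp.1 hr hsp.2
      simp only [coe_sdiff, Set.mem_sdiff, mem_coe, hA, hP, mem_filter]
      refine ⟨⟨hL _ _ (hsymm _ _ hsp.1), hsp.2, by rw [← h3.1, h2]⟩, fun h4 => h3.2 ?_⟩
      rw [h2, h4.2]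
    · intro s hs t ht hst
      simp only [coe_filter, hP1, Set.mem_ofPred_eq] at hs ht
      have hexs := hs.2
      have hext := ht.2
      simp only [hexs, hext, dif_pos] at hst
      have h1 := hexs.choose_spec.1
      have h2 := hext.choose_spec.1
      rw [← hst] at h2
      exact huniq _ _ _ (hsymm _ _ h1) (hsymm _ _ h2)
  have e5 : (A \ P).card + P.card = A.card := Finset.card_sdiff_add_card_eq_card hPA
  omega

/-- **the total number of bad links** -/
theorem sum_bad_le (L : Finset Q) (bl : Q → B) (Reg : B → Prop) (rep : B → Γ)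
    (Pr : Q → Q → Prop) (hsymm : ∀ s s', Pr s s' → Pr s' s)
    (huniq : ∀ s s' t, Pr s s' → Pr s t → s' = t) (hL : ∀ s s', Pr s s' → s ∈ L) :
    ∑ c ∈ (univ.filter Reg).image rep, bad L bl Reg rep Pr c ≤
      (L.filter (fun s => ¬ ∃ s', Pr s s')).card + (L.filter (fun s => ¬ Reg (bl s))).card := by
  set D := L.filter (fun s => Reg (bl s) ∧ ¬ ∃ s', Pr s s' ∧ Reg (bl s')) with hD
  have e1 : ∑ c ∈ (univ.filter Reg).image rep, bad L bl Reg rep Pr c = D.card := by
    rw [Finset.card_eq_sum_card_fiberwise (f := fun s => rep (bl s))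
      (t := (univ.filter Reg).image rep) (s := D)]
    · refine Finset.sum_congr rfl fun c _ => ?_
      unfold bad
      congr 1
      ext s
      simp only [mem_filter, hD]
      (clear * -; tauto)
    · intro s hs
      simp only [hD, coe_filter, Set.mem_ofPred_eq] at hs
      simp only [coe_image, Set.mem_image, coe_filter, mem_univ, true_and, Set.mem_ofPred_eq]
      exact ⟨bl s, hs.2.1, rfl⟩
  rw [e1]
  set D2 := D.filter (fun s => ∃ s', Pr s s') with hD2
  set D1 := D.filter (fun s => ¬ ∃ s', Pr s s') with hD1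
  have e2 : D2.card + D1.card = D.card := by
    rw [hD1, hD2]; exact Finset.card_filter_add_card_filter_not _
  have e3 : D1.card ≤ (L.filter (fun s => ¬ ∃ s', Pr s s')).card := by
    refine Finset.card_le_card fun s hs => ?_
    simp only [hD1, hD, mem_filter] at hs ⊢
    exact ⟨hs.1.1, hs.2⟩
  have e4 : D2.card ≤ (L.filter (fun s => ¬ Reg (bl s))).card := by
    refine Finset.card_le_card_of_injOn
      (fun s => if h : ∃ s', Pr s s' then h.choose else s) ?_ ?_
    · intro s hs
      simp only [coe_filter, hD2, hD, Set.mem_ofPred_eq, mem_filter] at hs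
      have hex := hs.2
      have hsp := hex.choose_spec
      simp only [hex, dif_pos, coe_filter, Set.mem_ofPred_eq]
      refine ⟨hL _ _ (hsymm _ _ hsp), fun hreg => hs.1.2.2 ⟨_, hsp, hreg⟩⟩
    · intro s hs t ht hst
      simp only [coe_filter, hD2, Set.mem_ofPred_eq] at hs ht
      have hexs := hs.2
      have hext := ht.2
      simp only [hexs, hext, dif_pos] at hst
      have h1 := hexs.choose_spec
      have h2 := hext.choose_spec
      rw [← hst] at h2
      exact huniq _ _ _ (hsymm _ _ h1) (hsymm _ _ h2)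
  omega

end Vale.Agent.P201.S.ClsA
end

section

/-!
P201, LA5: the arithmetic of the sum over the levels (helper540).
-/

namespace Vale.Agent.P201.S.LevA

open Finset

/-- layer cake: `∑_{t = 1}^{tmax} ∑_{x : t ≤ m x} f x = ∑_x m x * f x` -/
theorem layer {α : Type*} (s : Finset α) (m : α → ℕ) (tmax : ℕ) (hm : ∀ x ∈ s, m x ≤ tmax)
    (f : α → ℝ) :
    ∑ t ∈ Icc 1 tmax, ∑ x ∈ s.filter (fun x => t ≤ m x), f x = ∑ x ∈ s, (m x : ℝ) * f x := by
  simp_rw [Finset.sum_filter]
  rw [Finset.sum_comm]
  refine Finset.sum_congr rfl fun x hx => ?_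
  rw [← Finset.sum_filter, Finset.sum_const, nsmul_eq_mul]
  congr 2
  have : (Icc 1 tmax).filter (fun t => t ≤ m x) = Icc 1 (m x) := by
    ext t
    simp only [mem_filter, mem_Icc]
    have := hm x hx
    omega
  rw [this, Nat.card_Icc]
  omega

/-- `∑_{t = 1}^{tmax} #{x | t ≤ m x} = ∑_x m x` -/
theorem layer_card {α : Type*} (s : Finset α) (m : α → ℕ) (tmax : ℕ)
    (hm : ∀ x ∈ s, m x ≤ tmax) :
    ∑ t ∈ Icc 1 tmax, (s.filter (fun x => t ≤ m x)).card = ∑ x ∈ s, m x := by
  have h := layer s m tmax hm (fun _ => 1)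
  simp only [Finset.sum_const, nsmul_eq_mul, mul_one] at h
  exact_mod_cast h

/-- `∑_{t = 1}^{tmax}` of the sum over the classes which meet `{x | t ≤ m x}` -/
theorem layer_cls {α β : Type*} [DecidableEq β] (s : Finset α) (cls : α → β) (m : α → ℕ)
    (tmax : ℕ) (hm : ∀ x ∈ s, m x ≤ tmax) (g : β → ℝ) :
    ∑ t ∈ Icc 1 tmax, ∑ c ∈ (s.filter (fun x => t ≤ m x)).image cls, g c =
      ∑ c ∈ s.image cls, (((s.filter (fun x => cls x = c)).sup m : ℕ) : ℝ) * g c := by
  rw [← layer (s.image cls) (fun c => (s.filter (fun x => cls x = c)).sup m) tmax ?_ g]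
  · refine Finset.sum_congr rfl fun t ht => Finset.sum_congr ?_ fun _ _ => rfl
    rw [mem_Icc] at ht
    ext c
    simp only [mem_image, mem_filter]
    constructor
    · rintro ⟨x, ⟨hx, htx⟩, rfl⟩
      exact ⟨⟨x, hx, rfl⟩, le_trans htx (Finset.le_sup (f := m) (by simp [hx]))⟩
    · rintro ⟨-, htc⟩
      by_contra hcon
      push Not at hcon
      have : (s.filter (fun x => cls x = c)).sup m < t := by
        rw [Finset.sup_lt_iff (by simp only [bot_eq_zero]; omega)]
        intro x hx
        rw [mem_filter] at hx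
        by_contra h
        exact hcon x ⟨hx.1, not_lt.1 h⟩ hx.2
      omega
  · intro c _
    refine Finset.sup_le fun x hx => ?_
    rw [mem_filter] at hx
    exact hm x hx.1

/-- the inequality for one class -/
theorem one_class {N M b : ℕ} {r T : ℝ} (hT : 1 ≤ T) (h1 : 1 ≤ T * r) (h2 : r ^ 2 ≤ 1 / 2)
    (hb : 2 * M ≤ N + b) :
    (N : ℝ) * Real.log r - M * (Real.log 2 + 2 * Real.log r) ≤
      -(Real.log 2 / 2) * N + Real.log T * b := by
  have hr : 0 < r := by
    by_contra h
    have : T * r ≤ 0 := mul_nonpos_of_nonneg_of_nonpos (by linarith only [hT]) (not_lt.1 h)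
    linarith only [h1, this]
  have hlr : Real.log r ≤ -(Real.log 2 / 2) := by
    have : Real.log (r ^ 2) ≤ Real.log (1 / 2) := Real.log_le_log (by positivity) h2
    rw [Real.log_pow, Real.log_div one_ne_zero two_ne_zero, Real.log_one] at this
    push_cast at this
    linarith only [this]
  have hlT : -Real.log r ≤ Real.log T := by
    have : 0 ≤ Real.log (T * r) := Real.log_nonneg h1
    rw [Real.log_mul (by linarith only [hT]) hr.ne'] at this
    linarith only [this]
  have hT0 : 0 ≤ Real.log T := Real.log_nonneg hT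
  have hl2 : 0 < Real.log 2 := Real.log_pos one_lt_two
  have hb0 : (0 : ℝ) ≤ b := Nat.cast_nonneg b
  rcases le_total (2 * M) N with h | h
  · have h' : (2 * M : ℝ) ≤ N := by exact_mod_cast h
    have e : (N - 2 * M : ℝ) * Real.log r ≤ (N - 2 * M : ℝ) * -(Real.log 2 / 2) :=
      mul_le_mul_of_nonneg_left hlr (by linarith only [h'])
    nlinarith only [e, hT0]
  · have h' : (N : ℝ) ≤ 2 * M := by exact_mod_cast h
    have hbR : (2 * M - N : ℝ) ≤ b := by
      have : (2 * M : ℝ) ≤ N + b := by exact_mod_cast hb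
      linarith only [this]
    have e : (2 * M - N : ℝ) * -Real.log r ≤ (2 * M - N : ℝ) * Real.log T :=
      mul_le_mul_of_nonneg_left hlT (by linarith only [h'])
    have e2 : (2 * M - N : ℝ) * Real.log T ≤ b * Real.log T :=
      mul_le_mul_of_nonneg_right hbR hT0
    nlinarith only [hlT, hl2, hlr, hbR]

/-- **The sum over the levels.** -/
theorem lev_sum {α β : Type*} [DecidableEq β] (s : Finset α) (cls : α → β) (m : α → ℕ)
    (ρ : β → ℝ) (b : β → ℕ) {T : ℝ} (tmax : ℕ) (hT : 1 ≤ T)
    (h1 : ∀ x ∈ s, 1 ≤ T * ρ (cls x)) (h2 : ∀ x ∈ s, ρ (cls x) ^ 2 ≤ 1 / 2)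
    (hm : ∀ x ∈ s, m x ≤ tmax)
    (hb : ∀ x ∈ s, 2 * m x ≤ ∑ y ∈ s.filter (fun y => cls y = cls x), m y + b (cls x)) :
    ∑ t ∈ Icc 1 tmax, (∑ x ∈ s.filter (fun x => t ≤ m x), Real.log (ρ (cls x)) -
        ∑ c ∈ (s.filter (fun x => t ≤ m x)).image cls, (Real.log 2 + 2 * Real.log (ρ c))) ≤
      -(Real.log 2 / 2) * ∑ x ∈ s, (m x : ℝ) + Real.log T * ∑ c ∈ s.image cls, (b c : ℝ) := by
  rw [Finset.sum_sub_distrib, layer s m tmax hm, layer_cls s cls m tmax hm]
  have e1 : ∑ x ∈ s, (m x : ℝ) * Real.log (ρ (cls x)) =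
      ∑ c ∈ s.image cls, (∑ y ∈ s.filter (fun y => cls y = c), m y : ℕ) * Real.log (ρ c) := by
    rw [← Finset.sum_fiberwise_of_maps_to (s := s) (t := s.image cls) (g := cls)
      (fun x hx => mem_image_of_mem cls hx)]
    refine Finset.sum_congr rfl fun c _ => ?_
    push_cast
    rw [Finset.sum_mul]
    refine Finset.sum_congr rfl fun x hx => ?_
    rw [mem_filter] at hx
    rw [hx.2]
  have e2 : ∑ x ∈ s, (m x : ℝ) =
      ∑ c ∈ s.image cls, ((∑ y ∈ s.filter (fun y => cls y = c), m y : ℕ) : ℝ) := by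
    rw [← Finset.sum_fiberwise_of_maps_to (s := s) (t := s.image cls) (g := cls)
      (fun x hx => mem_image_of_mem cls hx)]
    refine Finset.sum_congr rfl fun c _ => ?_
    push_cast
    rfl
  rw [e1, e2, Finset.mul_sum, Finset.mul_sum, ← Finset.sum_sub_distrib,
    ← Finset.sum_add_distrib]
  refine Finset.sum_le_sum fun c hc => ?_
  obtain ⟨x, hx, rfl⟩ := mem_image.1 hc
  refine one_class hT (h1 x hx) (h2 x hx) ?_
  obtain ⟨y, hy, hy2⟩ := Finset.exists_mem_eq_sup (s.filter (fun y => cls y = cls x))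
    ⟨x, by simp [hx]⟩ m
  rw [hy2]
  rw [mem_filter] at hy
  have := hb y hy.1
  rw [hy.2] at this
  exact this

/-- subtype form of the two sums -/
theorem sum_sub {α : Type*} [Fintype α] (Reg : α → Prop) [DecidablePred Reg] (m : α → ℕ) (t : ℕ)
    [Fintype {x // Reg x ∧ t ≤ m x}] (f : α → ℝ) :
    ∑ x : {x // Reg x ∧ t ≤ m x}, f x =
      ∑ x ∈ (univ.filter Reg).filter (fun x => t ≤ m x), f x := by
  rw [Finset.sum_subtype ((univ.filter Reg).filter (fun x => t ≤ m x))
    (p := fun x => Reg x ∧ t ≤ m x) (fun x => by simp only [mem_filter, mem_univ, true_and])]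

theorem sum_sub_cls {α β : Type*} [Fintype α] [DecidableEq β] (Reg : α → Prop)
    [DecidablePred Reg] (cls : α → β) (m : α → ℕ) (t : ℕ)
    [Fintype {k // ∃ x, Reg x ∧ t ≤ m x ∧ cls x = k}] (g : β → ℝ) :
    ∑ c : {k // ∃ x, Reg x ∧ t ≤ m x ∧ cls x = k}, g c =
      ∑ c ∈ ((univ.filter Reg).filter (fun x => t ≤ m x)).image cls, g c := by
  rw [Finset.sum_subtype (((univ.filter Reg).filter (fun x => t ≤ m x)).image cls)
    (p := fun k => ∃ x, Reg x ∧ t ≤ m x ∧ cls x = k) (fun x => by simp only [mem_image, mem_filter, mem_univ, true_and, and_assoc])]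

/-- **The sum over the levels**, subtype form. -/
theorem lev_sum_sub {α β : Type*} [Fintype α] [DecidableEq β] (Reg : α → Prop)
    [DecidablePred Reg] (cls : α → β) (m : α → ℕ) (ρ : β → ℝ) (b : β → ℕ) {T : ℝ} (tmax : ℕ)
    [∀ t, Fintype {x // Reg x ∧ t ≤ m x}]
    [∀ t, Fintype {k // ∃ x, Reg x ∧ t ≤ m x ∧ cls x = k}] (hT : 1 ≤ T)
    (h1 : ∀ x, Reg x → 1 ≤ T * ρ (cls x)) (h2 : ∀ x, Reg x → ρ (cls x) ^ 2 ≤ 1 / 2)
    (hm : ∀ x, Reg x → m x ≤ tmax)
    (hb : ∀ x, Reg x → 2 * m x ≤
      ∑ y ∈ (univ.filter Reg).filter (fun y => cls y = cls x), m y + b (cls x)) :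
    ∑ t ∈ Icc 1 tmax, (∑ x : {x // Reg x ∧ t ≤ m x}, Real.log (ρ (cls x)) -
        ∑ c : {k // ∃ x, Reg x ∧ t ≤ m x ∧ cls x = k}, (Real.log 2 + 2 * Real.log (ρ c))) ≤
      -(Real.log 2 / 2) * ∑ x ∈ univ.filter Reg, (m x : ℝ) +
        Real.log T * ∑ c ∈ (univ.filter Reg).image cls, (b c : ℝ) := by
  have := lev_sum (univ.filter Reg) cls m ρ b tmax hT (fun x hx => h1 x (by simpa only [mem_filter, mem_univ, true_and] using hx))
    (fun x hx => h2 x (by simpa only [mem_filter, mem_univ, true_and] using hx)) (fun x hx => hm x (by simpa only [mem_filter, mem_univ, true_and] using hx))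
    (fun x hx => hb x (by simpa only [mem_filter, mem_univ, true_and] using hx))
  refine le_trans (le_of_eq (Finset.sum_congr rfl fun t _ => ?_)) this
  rw [sum_sub Reg m t (fun x => Real.log (ρ (cls x))),
    sum_sub_cls Reg cls m t (fun c => Real.log 2 + 2 * Real.log (ρ c))]

end Vale.Agent.P201.S.LevA
end

section

/-! P201 / P194, block B in abstract form (generic cells, blocks, colours).  helper585.

Cells `C`, ports `C × Bool`, blocks `V`, `bl : C × Bool → V`, colours `cl : C → K`.
-/

namespace Vale.Agent.P201.G.B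

open Finset

section Abs

variable {P V : Type} (β : P → V) (m : P → P)

/-- one step of a reduced walk -/
def St (a b : P) : Prop := β (m a) = β b ∧ b ≠ m a

/-- walks (not necessarily reduced) with exactly `k` edges -/
def Wk : ℕ → V → V → Prop
  | 0, u, v => u = v
  | k + 1, u, v => ∃ q : P, β q = u ∧ Wk k (β (m q)) v

/-- closed reduced walks (as `a :: l`) have length at least `g` -/
def AG (g : ℕ) : Prop := ∀ a l, (a :: (l ++ [a])).IsChain (St β m) → g ≤ l.length + 1

end Abs

variable {C V K : Type} [Fintype C] [DecidableEq C]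

/-- the matching involution on ports -/
def amt (σ : Equiv.Perm C) (q : C × Bool) : C × Bool :=
  if q.2 then (σ q.1, false) else (σ.symm q.1, true)

/-- the edges of `a` and `c` have distance at least `g` -/
def AFar (bl : C × Bool → V) (σ : Equiv.Perm C) (g : ℕ) (a c : C) : Prop :=
  ∀ u, (u = (a, true) ∨ u = (σ a, false)) → ∀ v, (v = (c, true) ∨ v = (σ c, false)) →
    ∀ k < g, ¬ Wk bl (amt σ) k (bl u) (bl v)

def AOld (σ : Equiv.Perm C) (a c : C) (q : C × Bool) : Prop :=
  q = (a, true) ∨ q = (σ a, false) ∨ q = (c, true) ∨ q = (σ c, false)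

/-- B1, abstract (proved in `BB1.lean`): closed reduced walks `x :: l` of length `≤ g` after the
switch avoid the four ports and are old walks. -/
def AB1 : Prop :=
  ∀ (C V : Type) [Fintype C] [DecidableEq C] (bl : C × Bool → V) (σ : Equiv.Perm C) (g : ℕ)
    (a c : C), AG bl (amt σ) g → AFar bl σ g a c →
    ∀ x l, (x :: (l ++ [x])).IsChain (St bl (amt (σ * Equiv.swap a c))) → l.length + 1 ≤ g →
      (x :: (l ++ [x])).IsChain (St bl (amt σ)) ∧ ∀ q ∈ x :: l, ¬ AOld σ a c q

open Classical in
/-- B2, abstract: few near cells. -/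
def AB2 : Prop :=
  ∀ (C V : Type) [Fintype C] [DecidableEq C] (bl : C × Bool → V) (g D : ℕ),
    (∀ b : V, (univ.filter (fun q : C × Bool => bl q = b)).card ≤ D) →
    ∀ (σ : Equiv.Perm C) (a : C),
      (univ.filter (fun c : C => ¬ AFar bl σ g a c)).card ≤ (2 * D + 2) ^ (g + 3)

open Classical in
/-- B3, abstract: existence of a colour preserving matching of girth `≥ g`. -/
def AB3 : Prop :=
  ∀ (C V K : Type) [Fintype C] [DecidableEq C] (bl : C × Bool → V) (cl : C → K) (g D N : ℕ),
    (∀ b : V, (univ.filter (fun q : C × Bool => bl q = b)).card ≤ D) →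
    (∀ a : C, N ≤ (univ.filter (fun c : C => cl c = cl a)).card) →
    (2 * D + 2) ^ (g + 3) < N →
    ∃ σ : Equiv.Perm C, (∀ c, cl (σ c) = cl c) ∧ AG bl (amt σ) g

open Classical in
/-- block B, abstract -/
def AStmtB : Prop :=
  ∀ (C V K : Type) [Fintype C] [DecidableEq C] (bl : C × Bool → V) (cl : C → K)
    (g D N s : ℕ),
    (∀ b : V, (univ.filter (fun q : C × Bool => bl q = b)).card ≤ D) →
    (∀ a : C, N ≤ (univ.filter (fun c : C => cl c = cl a)).card) →
    (2 * D + 2) ^ (g + 3) + s < N →
    ∀ Q : Finset (C × C) → ℝ, (∀ S, 0 ≤ Q S) → (∑ S, Q S ≤ 1) →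
      (∀ S, Q S ≠ 0 → S.card ≤ s) →
      ∃ σ : Equiv.Perm C, (∀ c, cl (σ c) = cl c) ∧ AG bl (amt σ) g ∧
        ∀ S : Finset (C × C), (∀ x ∈ S, σ x.1 = x.2) →
          Q S * ((N : ℝ) - (2 * D + 2) ^ (g + 3) - s) ^ S.card ≤ 1

end Vale.Agent.P201.G.B
end

section

/-! P201 / P194, block B1 abstract: the switching lemma.  helper585. -/

namespace Vale.Agent.P201.G.B

open Finset

section Core

variable {P V : Type} (β : P → V) (m : P → P)

theorem wk_snoc (k : ℕ) (u : V) (q : P) (h : Wk β m k u (β q)) : Wk β m (k + 1) u (β (m q)) := by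
  induction k generalizing u with
  | zero => exact ⟨q, h.symm, rfl⟩
  | succ k ih =>
    obtain ⟨q', h1, h2⟩ := h
    exact ⟨q', h1, ih _ h2⟩

theorem wk_symm (hm : ∀ q, m (m q) = q) (k : ℕ) (u v : V) (h : Wk β m k u v) :
    Wk β m k v u := by
  induction k generalizing u v with
  | zero => exact Eq.symm h
  | succ k ih =>
    obtain ⟨q, h1, h2⟩ := h
    have := wk_snoc β m k v (m q) (ih _ _ h2)
    rw [hm, h1] at this
    exact this

theorem wk_of_chain (s : List P) (u : V) (q : P) (h0 : ∀ y ∈ (s ++ [q]).head?, u = β y)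
    (h : (s ++ [q]).IsChain (St β m)) : Wk β m s.length u (β q) := by
  induction s generalizing u with
  | nil => exact h0 q (by simp)
  | cons y t ih =>
    have h1 : u = β y := h0 y (by simp)
    rw [List.cons_append, List.isChain_cons] at h
    exact ⟨y, h1.symm, ih _ (fun z hz => (h.1 z hz).1) h.2⟩

/-- reduced walks with equal end blocks have length at least `g` -/
theorem girth_closed (hm : ∀ q, m (m q) = q) (hfix : ∀ q, m q ≠ q) {g : ℕ} (hg : AG β m g) :
    ∀ N : ℕ, ∀ f : P, ∀ t : List P, t.length ≤ N → (f :: t).IsChain (St β m) →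
      (∀ e ∈ (f :: t).getLast?, β (m e) = β f) → g ≤ t.length + 1 := by
  intro N
  induction N using Nat.strong_induction_on with
  | _ N ih =>
    intro f t ht hch hcl
    rcases List.eq_nil_or_concat t with h0 | ⟨t', e, h0⟩
    · subst h0
      have h1 : β (m f) = β f := hcl f (by simp)
      have := hg f [] (by
        rw [List.nil_append, List.isChain_pair]
        exact ⟨h1, fun h => hfix f h.symm⟩)
      simpa only [List.length_nil, zero_add, ge_iff_le] using this
    · rw [List.concat_eq_append] at h0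
      subst h0
      have h1 : β (m e) = β f := hcl e (by rw [← List.cons_append, List.getLast?_concat]; rfl)
      by_cases hfe : f = m e
      · -- strip
        have hef : e = m f := by rw [hfe, hm]
        cases t' with
        | nil =>
          exfalso
          rw [List.nil_append, List.isChain_pair] at hch
          exact hch.2 hef
        | cons h t'' =>
          rw [List.cons_append, List.isChain_cons_cons] at hch
          obtain ⟨hfh, hch2⟩ := hch
          rw [← List.cons_append, List.isChain_append] at hch2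
          obtain ⟨hch3, _, hlast⟩ := hch2
          have hN : t''.length < N := by
            simp only [List.length_cons, List.length_append, List.length_nil] at ht
            omega
          have hcl' : ∀ x ∈ (h :: t'').getLast?, β (m x) = β h := by
            intro x hx
            have h3 := (hlast x hx e (by simp)).1
            rw [h3, hef]
            exact hfh.1
          have := ih t''.length hN h t'' le_rfl hch3 hcl'
          simp only [List.length_cons, List.length_append, List.length_nil]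
          omega
      · have := hg f (t' ++ [e]) (by
          rw [← List.cons_append, List.isChain_append]
          refine ⟨hch, List.isChain_singleton _, ?_⟩
          intro x hx y hy
          have hxe : x = e := by
            rw [← List.cons_append, List.getLast?_append] at hx
            simpa using hx.symm
          have hyf : y = f := by simpa using hy.symm
          subst hxe hyf
          exact ⟨h1, hfe⟩)
        exact this

theorem chain_congr (m' : P → P) (s : List P) (q : P) (hs : ∀ x ∈ s, m' x = m x)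
    (h : (s ++ [q]).IsChain (St β m')) : (s ++ [q]).IsChain (St β m) := by
  induction s with
  | nil => exact List.isChain_singleton _
  | cons x t ih =>
    rw [List.cons_append, List.isChain_cons] at h ⊢
    refine ⟨fun y hy => ?_, ih (fun z hz => hs z (List.mem_cons_of_mem _ hz)) h.2⟩
    have h1 := h.1 y hy
    unfold St at h1 ⊢
    rw [hs x (List.mem_cons_self)] at h1
    exact h1

theorem first_split (N : P → Prop) (l : List P) (h : ∃ x ∈ l, N x) :
    ∃ s q r, l = s ++ q :: r ∧ (∀ x ∈ s, ¬ N x) ∧ N q := by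
  induction l with
  | nil => obtain ⟨x, hx, _⟩ := h; simp at hx
  | cons y t ih =>
    by_cases hy : N y
    · exact ⟨[], y, t, rfl, by simp, hy⟩
    · obtain ⟨x, hx, hN⟩ := h
      have hxt : x ∈ t := by
        rcases List.mem_cons.1 hx with h1 | h1
        · exact absurd (h1 ▸ hN) hy
        · exact h1
      obtain ⟨s, q, r, h1, h2, h3⟩ := ih ⟨x, hxt, hN⟩
      refine ⟨y :: s, q, r, by rw [h1]; rfl, ?_, h3⟩
      intro z hz
      rcases List.mem_cons.1 hz with h4 | h4
      · rw [h4]; exact hy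
      · exact h2 z h4

theorem switch_core (hm : ∀ q, m (m q) = q) (hfix : ∀ q, m q ≠ q) (m' : P → P) (a c : P)
    (e1 : m' a = m c) (e2 : m' (m c) = a) (e3 : m' c = m a) (e4 : m' (m a) = c)
    (e5 : ∀ q, q ≠ a → q ≠ m a → q ≠ c → q ≠ m c → m' q = m q)
    {g : ℕ} (hg : AG β m g)
    (hfar : ∀ u, (u = a ∨ u = m a) → ∀ v, (v = c ∨ v = m c) → ∀ k < g, ¬ Wk β m k (β u) (β v))
    (q : P) (l : List P) (hq : (q = a ∨ q = m a) ∨ (q = c ∨ q = m c))
    (hch : (q :: (l ++ [q])).IsChain (St β m')) (hl : l.length + 1 ≤ g) : False := by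
  obtain ⟨s, q2, r, hs1, hs2, hs3⟩ := first_split
    (fun x => (x = a ∨ x = m a) ∨ (x = c ∨ x = m c)) (l ++ [q]) ⟨q, by simp, hq⟩
  have hlen : l.length + 1 = s.length + (r.length + 1) := by
    have := congrArg List.length hs1
    simpa only [List.length_append, List.length_cons, List.length_nil, zero_add] using this
  rw [hs1, List.isChain_cons_split, List.isChain_cons] at hch
  obtain ⟨⟨hhead, hch1⟩, _⟩ := hch
  have hch2 : (s ++ [q2]).IsChain (St β m) := by
    refine chain_congr β m m' s q2 (fun x hx => ?_) hch1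
    have := hs2 x hx
    push Not at this
    exact e5 x this.1.1 this.1.2 this.2.1 this.2.2
  set u := m' q with hu
  have hW : Wk β m s.length (β u) (β q2) :=
    wk_of_chain β m s (β u) q2 (fun y hy => (hhead y hy).1) hch2
  have hsg : s.length < g := by omega
  have hdisj : ∀ x, (x = a ∨ x = m a) → (x = c ∨ x = m c) → False := fun x h1 h2 =>
    hfar x h1 x h2 0 (by omega) rfl
  have hside : ((q = a ∨ q = m a) ∧ (u = c ∨ u = m c)) ∨
      ((q = c ∨ q = m c) ∧ (u = a ∨ u = m a)) := by
    rcases hq with (h | h) | (h | h)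
    · left; exact ⟨Or.inl h, Or.inr (by rw [hu, h, e1])⟩
    · left; exact ⟨Or.inr h, Or.inl (by rw [hu, h, e4])⟩
    · right; exact ⟨Or.inl h, Or.inr (by rw [hu, h, e3])⟩
    · right; exact ⟨Or.inr h, Or.inl (by rw [hu, h, e2])⟩
  have hsame : ((u = a ∨ u = m a) ∧ (q2 = a ∨ q2 = m a)) ∨
      ((u = c ∨ u = m c) ∧ (q2 = c ∨ q2 = m c)) := by
    rcases hside with ⟨_, h2⟩ | ⟨_, h2⟩
    · rcases hs3 with h3 | h3
      · exact (hfar q2 h3 u h2 s.length hsg (wk_symm β m hm _ _ _ hW)).elim
      · exact Or.inr ⟨h2, h3⟩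
    · rcases hs3 with h3 | h3
      · exact Or.inl ⟨h2, h3⟩
      · exact (hfar u h2 q2 h3 s.length hsg hW).elim
  have hr : r ≠ [] := by
    intro hr0
    subst hr0
    have hqq : q2 = q := by
      have h1 := congrArg List.getLast? hs1
      simpa using h1.symm
    subst hqq
    rcases hside with ⟨h1, h2⟩ | ⟨h1, h2⟩ <;> rcases hsame with ⟨h3, h4⟩ | ⟨h3, h4⟩
    · exact hdisj _ h3 h2
    · exact hdisj _ h1 h4
    · exact hdisj _ h4 h1
    · exact hdisj _ h2 h3
  have hr1 : 1 ≤ r.length := List.length_pos_iff.2 hr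
  have hq2 : q2 = u ∨ q2 = m u := by
    rcases hsame with ⟨h3 | h3, h4 | h4⟩ | ⟨h3 | h3, h4 | h4⟩ <;> rw [h3, h4] <;> simp [hm]
  rcases hq2 with hq2 | hq2
  · cases s with
    | nil =>
      exact (hhead q2 (by simp)).2 hq2
    | cons f t =>
      have hch3 : (f :: t).IsChain (St β m) := (List.isChain_append.1 hch2).1
      have hlast := (List.isChain_append.1 hch2).2.2
      have := girth_closed β m hm hfix hg t.length f t le_rfl hch3 (by
        intro e he
        rw [(hlast e he q2 (by simp)).1, hq2]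
        exact (hhead f (by simp)).1)
      simp only [List.length_cons] at hsg
      omega
  · have := hg q2 s (by
      rw [List.isChain_cons]
      refine ⟨fun y hy => ?_, hch2⟩
      have h1 := hhead y hy
      refine ⟨?_, ?_⟩
      · rw [hq2, hm]; exact h1.1
      · rw [hq2, hm]; exact h1.2)
    omega

end Core

variable {C V : Type} [DecidableEq C]

theorem amt_amt (σ : Equiv.Perm C) (q : C × Bool) : amt σ (amt σ q) = q := by
  obtain ⟨x, b⟩ := q
  cases b <;> simp [amt]

theorem amt_ne (σ : Equiv.Perm C) (q : C × Bool) : amt σ q ≠ q := by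
  obtain ⟨x, b⟩ := q
  cases b <;> simp [amt]

/-- rotation of closed walks -/
theorem chain_rotate {P V : Type} (β : P → V) (m : P → P) (a : P) (l : List P)
    (h : (a :: (l ++ [a])).IsChain (St β m)) (q : P) (hq : q ∈ a :: l) :
    ∃ l', l'.length = l.length ∧ (q :: (l' ++ [q])).IsChain (St β m) := by
  rcases List.mem_cons.1 hq with h1 | h1
  · subst h1; exact ⟨l, rfl, h⟩
  · obtain ⟨l1, l2, rfl⟩ := List.append_of_mem h1
    refine ⟨l2 ++ a :: l1, by simp only [List.length_append, List.length_cons]; omega, ?_⟩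
    rw [List.append_assoc, List.cons_append, List.isChain_cons_split] at h
    rw [List.append_assoc, List.cons_append, List.isChain_cons_split]
    exact ⟨h.2, h.1⟩

theorem amt_switch (σ : Equiv.Perm C) (a c : C) (q : C × Bool) (hq : ¬ AOld σ a c q) :
    amt (σ * Equiv.swap a c) q = amt σ q := by
  obtain ⟨x, b⟩ := q
  unfold AOld at hq
  push Not at hq
  obtain ⟨h1, h2, h3, h4⟩ := hq
  cases b
  · have h2' : σ.symm x ≠ a := by
      rintro h; exact h2 (by rw [← h]; simp)
    have h4' : σ.symm x ≠ c := by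
      rintro h; exact h4 (by rw [← h]; simp)
    simp only [amt, Bool.false_eq_true, if_false]
    refine Prod.ext ?_ rfl
    show (σ * Equiv.swap a c).symm x = σ.symm x
    rw [Equiv.symm_apply_eq]
    simp only [Equiv.Perm.coe_mul, Function.comp_apply, Equiv.swap_apply_of_ne_of_ne h2' h4', Equiv.apply_symm_apply]
  · have h1' : x ≠ a := by rintro rfl; exact h1 rfl
    have h3' : x ≠ c := by rintro rfl; exact h3 rfl
    simp only [amt, if_true]
    refine Prod.ext ?_ rfl
    simp only [Equiv.Perm.coe_mul, Function.comp_apply, Equiv.swap_apply_of_ne_of_ne h1' h3']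

theorem aB1 : AB1 := by
  intro C V _ _ bl σ g a c hg hfar x l hw hlen
  have hno : ∀ q ∈ x :: l, ¬ AOld σ a c q := by
    intro q hq hold
    obtain ⟨l', hl', hw'⟩ := chain_rotate _ _ x l hw q hq
    refine switch_core bl (amt σ) (amt_amt σ) (amt_ne σ) (amt (σ * Equiv.swap a c)) (a, true)
      (c, true) ?_ ?_ ?_ ?_ ?_ hg ?_ q l' ?_ hw' (by omega)
    · simp only [amt, ↓reduceIte, Equiv.Perm.coe_mul, Function.comp_apply, Equiv.swap_apply_left]
    · simp only [amt, if_true, Bool.false_eq_true, if_false]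
      refine Prod.ext ?_ rfl
      show (σ * Equiv.swap a c).symm (σ c) = a
      rw [Equiv.symm_apply_eq]; simp only [Equiv.Perm.coe_mul, Function.comp_apply, Equiv.swap_apply_left]
    · simp only [amt, ↓reduceIte, Equiv.Perm.coe_mul, Function.comp_apply, Equiv.swap_apply_right]
    · simp only [amt, if_true, Bool.false_eq_true, if_false]
      refine Prod.ext ?_ rfl
      show (σ * Equiv.swap a c).symm (σ a) = c
      rw [Equiv.symm_apply_eq]; simp
    · intro q h1 h2 h3 h4
      refine amt_switch σ a c q ?_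
      unfold AOld
      simp only [amt, if_true] at h2 h4
      push Not
      exact ⟨h1, h2, h3, h4⟩
    · intro u hu v hv k hk hW
      simp only [amt, if_true] at hu hv
      exact hfar u hu v hv k hk hW
    · simp only [amt, if_true]
      rcases hold with h | h | h | h
      · exact Or.inl (Or.inl h)
      · exact Or.inl (Or.inr h)
      · exact Or.inr (Or.inl h)
      · exact Or.inr (Or.inr h)
  refine ⟨?_, hno⟩
  rw [← List.cons_append] at hw ⊢
  exact chain_congr bl (amt σ) (amt (σ * Equiv.swap a c)) (x :: l) x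
    (fun y hy => amt_switch σ a c y (hno y hy)) hw

/-- the switched matching has girth `≥ g` -/
theorem ag_switch [Fintype C] {bl : C × Bool → V} {σ : Equiv.Perm C} {g : ℕ} {a c : C}
    (hg : AG bl (amt σ) g) (hf : AFar bl σ g a c) : AG bl (amt (σ * Equiv.swap a c)) g := by
  intro x l hw
  by_contra hlt
  have h1 := (aB1 C V bl σ g a c hg hf x l hw (by omega)).1
  have := hg x l h1
  omega

end Vale.Agent.P201.G.B
end

section

/-! P201 / P194, block B4 + B5 abstract (counting).  helper585. -/

namespace Vale.Agent.P201.G.B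

open Finset

section Count

variable {C : Type} [Fintype C] [DecidableEq C]

/-- B4: if every `σ ∈ GG` has, for each `a`, at most `R` bad `c` (`σ * swap a c ∉ GG`), then
a prescribed set of `|S| ≤ s` pairs is contained in the graph of few `σ ∈ GG`. -/
theorem count_contain (GG : Finset (Equiv.Perm C)) (N R s : ℕ)
    (H : ∀ σ ∈ GG, ∀ a : C, N ≤ (univ.filter (fun c => σ * Equiv.swap a c ∈ GG)).card + R)
    (S : Finset (C × C)) (hS : S.card ≤ s) :
    (GG.filter (fun σ => ∀ x ∈ S, σ x.1 = x.2)).card * (N - R - s) ^ S.card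
      ≤ GG.card := by
  classical
  induction S using Finset.induction_on with
  | empty => simp only [notMem_empty, IsEmpty.forall_iff, implies_true, filter_true, card_empty, pow_zero, mul_one, Std.le_refl]
  | insert ab S' hab ih =>
    obtain ⟨a, b⟩ := ab
    have hS' : S'.card ≤ s := by
      rw [card_insert_of_notMem hab] at hS; omega
    have ih' := ih hS'
    rw [card_insert_of_notMem hab] at hS ⊢
    set A := GG.filter (fun σ => ∀ x ∈ insert (a, b) S', σ x.1 = x.2) with hA
    set B := GG.filter (fun σ => ∀ x ∈ S', σ x.1 = x.2) with hB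
    set K := N - R - s with hK
    -- the good `c`s
    let good : Equiv.Perm C → Finset C := fun σ =>
      univ.filter (fun c => σ * Equiv.swap a c ∈ GG ∧ c ∉ (insert (a, b) S').image Prod.fst)
    have hgood : ∀ σ ∈ A, K ≤ (good σ).card := by
      intro σ hσ
      have hσG : σ ∈ GG := (mem_filter.1 hσ).1
      have h1 := H σ hσG a
      have h2 : (univ.filter (fun c => σ * Equiv.swap a c ∈ GG)) ⊆ good σ ∪
          (insert (a, b) S').image Prod.fst := by
        intro c hc
        have h3 := (mem_filter.1 hc).2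
        by_cases h4 : c ∈ (insert (a, b) S').image Prod.fst
        · exact mem_union_right _ h4
        · exact mem_union_left _ (mem_filter.2 ⟨mem_univ _, h3, h4⟩)
      have h5 := card_le_card h2
      have h6 := card_union_le (good σ) ((insert (a, b) S').image Prod.fst)
      have h8 : ((insert (a, b) S').image Prod.fst).card ≤ s := by
        refine card_image_le.trans ?_
        rw [card_insert_of_notMem hab]; exact hS
      omega
    -- injection
    have hinj : (A.sigma good).card ≤ B.card := by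
      refine card_le_card_of_injOn (fun x => x.1 * Equiv.swap a x.2) ?_ ?_
      · rintro ⟨σ, c⟩ hx
        have hx' : σ ∈ A ∧ c ∈ good σ := by simpa using hx
        obtain ⟨h1, h2⟩ := hx'
        have h2' := mem_filter.1 h2
        obtain ⟨_, h3, h4⟩ := h2'
        have h1' := mem_filter.1 h1
        have hgoal : σ * Equiv.swap a c ∈ B := by
          refine mem_filter.2 ⟨h3, ?_⟩
          intro x hx
          have hxa : x.1 ≠ a := by
            intro hxa
            have e1 := h1'.2 x (mem_insert_of_mem hx)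
            have e2 := h1'.2 (a, b) (mem_insert_self _ _)
            have : x = (a, b) := by
              refine Prod.ext hxa ?_
              rw [← e1, hxa]; exact e2
            exact hab (this ▸ hx)
          have hxc : x.1 ≠ c := by
            intro hxc
            exact h4 (mem_image.2 ⟨x, mem_insert_of_mem hx, hxc⟩)
          simp only [Equiv.Perm.coe_mul, Function.comp_apply]
          rw [Equiv.swap_apply_of_ne_of_ne hxa hxc]
          exact h1'.2 x (mem_insert_of_mem hx)
        simpa using hgoal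
      · rintro ⟨σ, c⟩ hx ⟨τ, d⟩ hy hxy
        have hx' : σ ∈ A ∧ c ∈ good σ := by simpa using hx
        have hy' : τ ∈ A ∧ d ∈ good τ := by simpa using hy
        obtain ⟨h1, h2⟩ := hx'
        obtain ⟨h1', h2'⟩ := hy'
        have e1 : σ a = b := (mem_filter.1 h1).2 (a, b) (mem_insert_self _ _)
        have e2 : τ a = b := (mem_filter.1 h1').2 (a, b) (mem_insert_self _ _)
        have hxy' : σ * Equiv.swap a c = τ * Equiv.swap a d := hxy
        have f1 : (σ * Equiv.swap a c) c = b := by
          simp only [Equiv.Perm.coe_mul, Function.comp_apply, Equiv.swap_apply_right, e1]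
        have f2 : (τ * Equiv.swap a d) d = b := by
          simp only [Equiv.Perm.coe_mul, Function.comp_apply, Equiv.swap_apply_right, e2]
        have hcd : c = d := by
          apply (τ * Equiv.swap a d).injective
          rw [f2, ← hxy', f1]
        subst hcd
        have : σ = τ := by
          have := congrArg (fun π => π * Equiv.swap a c) hxy'
          simpa only [mul_assoc, Equiv.swap_mul_self, mul_one] using this
        subst this
        rfl
    have hsum : A.card * K ≤ (A.sigma good).card := by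
      rw [card_sigma]
      calc A.card * K = ∑ _σ ∈ A, K := by rw [sum_const, smul_eq_mul]
        _ ≤ ∑ σ ∈ A, (good σ).card := sum_le_sum hgood
    calc A.card * K ^ (S'.card + 1) = (A.card * K) * K ^ S'.card := by ring
      _ ≤ B.card * K ^ S'.card := Nat.mul_le_mul_right _ (hsum.trans hinj)
      _ ≤ GG.card := ih'

/-- B5: averaging. -/
theorem exists_good_perm (GG : Finset (Equiv.Perm C)) (hne : GG.Nonempty) (N R s : ℕ)
    (hR : R + s < N)
    (H : ∀ σ ∈ GG, ∀ a : C, N ≤ (univ.filter (fun c => σ * Equiv.swap a c ∈ GG)).card + R)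
    (Q : Finset (C × C) → ℝ) (hQ0 : ∀ S, 0 ≤ Q S) (hQ1 : ∑ S, Q S ≤ 1)
    (hQs : ∀ S, Q S ≠ 0 → S.card ≤ s) :
    ∃ σ ∈ GG, ∀ S : Finset (C × C), (∀ x ∈ S, σ x.1 = x.2) →
      Q S * ((N : ℝ) - R - s) ^ S.card ≤ 1 := by
  classical
  set Kr : ℝ := (N : ℝ) - R - s with hKr
  have hKrN : Kr = ((N - R - s : ℕ) : ℝ) := by
    rw [hKr, Nat.sub_sub, Nat.cast_sub hR.le]
    push_cast
    ring
  have hK0 : 0 ≤ Kr := by rw [hKrN]; (clear * -; positivity)
  -- each S
  have h1 : ∀ S : Finset (C × C),
      ((GG.filter (fun σ => ∀ x ∈ S, σ x.1 = x.2)).card : ℝ) * (Q S * Kr ^ S.card)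
        ≤ Q S * GG.card := by
    intro S
    by_cases hS : Q S = 0
    · simp only [Prod.forall, hS, zero_mul, mul_zero, Std.le_refl]
    · have h2 := count_contain GG N R s H S (hQs S hS)
      have h3 : ((GG.filter (fun σ => ∀ x ∈ S, σ x.1 = x.2)).card : ℝ) * Kr ^ S.card
          ≤ GG.card := by
        rw [hKrN]; exact_mod_cast h2
      calc ((GG.filter (fun σ => ∀ x ∈ S, σ x.1 = x.2)).card : ℝ) * (Q S * Kr ^ S.card)
          = Q S * (((GG.filter (fun σ => ∀ x ∈ S, σ x.1 = x.2)).card : ℝ) * Kr ^ S.card) := by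
            ring
        _ ≤ Q S * GG.card := mul_le_mul_of_nonneg_left h3 (hQ0 S)
  have h4 : ∑ σ ∈ GG, ∑ S ∈ univ.filter (fun S : Finset (C × C) => ∀ x ∈ S, σ x.1 = x.2),
      Q S * Kr ^ S.card ≤ ∑ _σ ∈ GG, (1 : ℝ) := by
    have h5 : ∑ σ ∈ GG, ∑ S ∈ univ.filter (fun S : Finset (C × C) => ∀ x ∈ S, σ x.1 = x.2),
        Q S * Kr ^ S.card
        = ∑ S : Finset (C × C), ((GG.filter (fun σ => ∀ x ∈ S, σ x.1 = x.2)).card : ℝ) *
            (Q S * Kr ^ S.card) := by
      simp_rw [sum_filter]
      rw [sum_comm]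
      refine sum_congr rfl (fun S _ => ?_)
      rw [← sum_filter, sum_const, nsmul_eq_mul]
    rw [h5]
    calc ∑ S : Finset (C × C), ((GG.filter (fun σ => ∀ x ∈ S, σ x.1 = x.2)).card : ℝ) *
            (Q S * Kr ^ S.card) ≤ ∑ S : Finset (C × C), Q S * GG.card :=
          sum_le_sum (fun S _ => h1 S)
      _ = (∑ S : Finset (C × C), Q S) * GG.card := by rw [sum_mul]
      _ ≤ 1 * GG.card := mul_le_mul_of_nonneg_right hQ1 (by (clear * - hne; positivity))
      _ = ∑ _σ ∈ GG, (1 : ℝ) := by simp only [one_mul, sum_const, nsmul_eq_mul, mul_one]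
  obtain ⟨σ, hσ, h6⟩ := exists_le_of_sum_le hne h4
  refine ⟨σ, hσ, fun S hS => ?_⟩
  refine le_trans ?_ h6
  exact single_le_sum (f := fun S : Finset (C × C) => Q S * Kr ^ S.card)
    (fun S _ => mul_nonneg (hQ0 S) (pow_nonneg hK0 _))
    (mem_filter.2 ⟨mem_univ _, hS⟩)

end Count

end Vale.Agent.P201.G.B
end

section

/-! P201 / P194, block B in abstract form: B2 (few near cells), B3 (existence), and the
assembly `aStmtB : AStmtB`.  helper333. -/

namespace Vale.Agent.P201.G.B

open Finset

section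

variable {C V K : Type} [Fintype C] [DecidableEq C]

open Classical in
theorem card_wk (bl : C × Bool → V) (σ : Equiv.Perm C) (D : ℕ)
    (hD : ∀ b : V, (univ.filter (fun q : C × Bool => bl q = b)).card ≤ D) : ∀ (k : ℕ) (X : V),
    (univ.filter (fun r : C × Bool => Wk bl (amt σ) k X (bl r))).card ≤ D ^ (k + 1) := by
  intro k
  induction k with
  | zero =>
    intro X
    have h : (univ.filter (fun r : C × Bool => Wk bl (amt σ) 0 X (bl r))) ⊆
        univ.filter (fun q : C × Bool => bl q = X) := by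
      intro r hr
      simp only [mem_filter, mem_univ, true_and] at hr ⊢
      exact Eq.symm hr
    refine (card_le_card h).trans ?_
    simpa only [zero_add, pow_one] using hD X
  | succ k ih =>
    intro X
    have h : (univ.filter (fun r : C × Bool => Wk bl (amt σ) (k + 1) X (bl r))) ⊆
        (univ.filter (fun q : C × Bool => bl q = X)).biUnion
          (fun q => univ.filter (fun r : C × Bool => Wk bl (amt σ) k (bl (amt σ q)) (bl r))) := by
      intro r hr
      simp only [mem_filter, mem_univ, true_and] at hr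
      obtain ⟨q, h1, h2⟩ := hr
      simp only [mem_biUnion, mem_filter, mem_univ, true_and]
      exact ⟨q, h1, h2⟩
    refine (card_le_card h).trans (card_biUnion_le.trans ?_)
    refine (sum_le_card_nsmul _ _ (D ^ (k + 1)) (fun q _ => ih _)).trans ?_
    rw [smul_eq_mul, pow_succ D (k + 1), mul_comm]
    exact Nat.mul_le_mul_left _ (hD X)

theorem sum_pow_le (D g : ℕ) : ∑ k ∈ range g, D ^ (k + 1) ≤ (D + 1) ^ g := by
  induction g with
  | zero => simp only [range_zero, sum_empty, pow_zero, zero_le]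
  | succ g ih =>
    rw [sum_range_succ]
    have h : D ^ (g + 1) ≤ D * (D + 1) ^ g := by
      rw [pow_succ, mul_comm]
      exact Nat.mul_le_mul_left _ (Nat.pow_le_pow_left (by omega) g)
    calc _ ≤ (D + 1) ^ g + D * (D + 1) ^ g := Nat.add_le_add ih h
      _ = (D + 1) ^ (g + 1) := by ring

open Classical in
theorem card_near (bl : C × Bool → V) (σ : Equiv.Perm C) (D : ℕ)
    (hD : ∀ b : V, (univ.filter (fun q : C × Bool => bl q = b)).card ≤ D) (g : ℕ) (X : V) :
    (univ.filter (fun r : C × Bool => ∃ k < g, Wk bl (amt σ) k X (bl r))).card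
      ≤ (D + 1) ^ g := by
  have h : (univ.filter (fun r : C × Bool => ∃ k < g, Wk bl (amt σ) k X (bl r))) ⊆
      (range g).biUnion
        (fun k => univ.filter (fun r : C × Bool => Wk bl (amt σ) k X (bl r))) := by
    intro r hr
    simp only [mem_filter, mem_univ, true_and] at hr
    obtain ⟨k, h1, h2⟩ := hr
    simp only [mem_biUnion, mem_filter, mem_univ, true_and, mem_range]
    exact ⟨k, h1, h2⟩
  refine (card_le_card h).trans (card_biUnion_le.trans ?_)
  exact (sum_le_sum (fun k _ => card_wk bl σ D hD k X)).trans (sum_pow_le D g)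

/-- the cell of a port -/
def ced (σ : Equiv.Perm C) (q : C × Bool) : C := if q.2 then q.1 else σ.symm q.1

theorem aB2' (bl : C × Bool → V) (g D : ℕ)
    (hD : ∀ [DecidableEq V], ∀ b : V, (univ.filter (fun q : C × Bool => bl q = b)).card ≤ D)
    (σ : Equiv.Perm C) (a : C) [DecidablePred (fun c : C => ¬ AFar bl σ g a c)] :
      (univ.filter (fun c : C => ¬ AFar bl σ g a c)).card ≤ (2 * D + 2) ^ (g + 1) := by
  classical
  have hsub : (univ.filter (fun c : C => ¬ AFar bl σ g a c)) ⊆
      ((univ.filter (fun r : C × Bool => ∃ k < g, Wk bl (amt σ) k (bl (a, true)) (bl r))) ∪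
       (univ.filter (fun r : C × Bool => ∃ k < g,
          Wk bl (amt σ) k (bl (σ a, false)) (bl r)))).image (ced σ) := by
    intro c hc
    simp only [mem_filter, mem_univ, true_and] at hc
    unfold AFar at hc
    push Not at hc
    obtain ⟨u, hu, v, hv, k, hk, h⟩ := hc
    rw [mem_image]
    refine ⟨v, ?_, ?_⟩
    · rw [mem_union, mem_filter, mem_filter]
      rcases hu with rfl | rfl
      · exact Or.inl ⟨mem_univ _, k, hk, h⟩
      · exact Or.inr ⟨mem_univ _, k, hk, h⟩
    · rcases hv with rfl | rfl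
      · simp [ced]
      · simp [ced]
  refine (card_le_card hsub).trans (card_image_le.trans ((card_union_le _ _).trans ?_))
  have h1 := card_near bl σ D hD g (bl (a, true))
  have h2 := card_near bl σ D hD g (bl (σ a, false))
  refine (Nat.add_le_add h1 h2).trans ?_
  have h3 : (D + 1) ^ g ≤ (2 * D + 2) ^ g := Nat.pow_le_pow_left (by (clear * -; omega)) g
  calc (D + 1) ^ g + (D + 1) ^ g = (D + 1) ^ g * 2 := by ring
    _ ≤ (2 * D + 2) ^ g * (2 * D + 2) := Nat.mul_le_mul h3 (by (clear * -; omega))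
    _ = (2 * D + 2) ^ (g + 1) := by rw [pow_succ]

end

theorem aB2 : AB2 := by
  classical
  intro C V _ _ bl g D hD σ a
  have hD' : ∀ [DecidableEq V], ∀ b : V,
      (univ.filter (fun q : C × Bool => bl q = b)).card ≤ D := by
    intro _ b
    have h := hD b
    convert h
  have h0 : (2 * D + 2) ^ (g + 1) ≤ (2 * D + 2) ^ (g + 3) :=
    Nat.pow_le_pow_right (by omega) (by omega)
  have h := (aB2' bl g D hD' σ a).trans h0
  convert h

theorem aB3 : AB3 := by
  classical
  intro C V K _ _ bl cl g D N hD hcl hN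
  have hD' : ∀ [DecidableEq V], ∀ b : V,
      (univ.filter (fun q : C × Bool => bl q = b)).card ≤ D := by
    intro _ b
    have h := hD b
    convert h
  suffices H : ∀ g' ≤ g, ∃ σ : Equiv.Perm C, (∀ c, cl (σ c) = cl c) ∧ AG bl (amt σ) g' from
    H g le_rfl
  intro g'
  induction g' with
  | zero => intro _; exact ⟨1, fun _ => rfl, fun _ _ _ => Nat.zero_le _⟩
  | succ k ih =>
    intro hk
    obtain ⟨σ0, hσ0, hσ0'⟩ := ih (by omega)
    let W : Equiv.Perm C → Finset (List.Vector (C × Bool) k) :=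
      fun σ => univ.filter (fun v => ∃ x l, v.1 = x :: l ∧
        (x :: (l ++ [x])).IsChain (St bl (amt σ)))
    have hW : ∀ σ v, v ∈ W σ ↔ ∃ x l, v.1 = x :: l ∧
        (x :: (l ++ [x])).IsChain (St bl (amt σ)) := by
      intro σ v
      simp only [W, mem_filter, mem_univ, true_and]
    obtain ⟨σ, hσ, hmin⟩ := Finset.exists_min_image
      (univ.filter (fun σ : Equiv.Perm C => (∀ c, cl (σ c) = cl c) ∧ AG bl (amt σ) k))
      (fun σ => (W σ).card) ⟨σ0, mem_filter.2 ⟨mem_univ _, hσ0, hσ0'⟩⟩
    rw [mem_filter] at hσ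
    obtain ⟨-, hcol, hG⟩ := hσ
    refine ⟨σ, hcol, ?_⟩
    intro x l hl
    have h1 := hG x l hl
    by_contra hlt
    have hlen : (x :: l).length = k := by
      simp only [List.length_cons]; omega
    -- the cell of the first port
    have hbad := aB2' bl k D hD' σ (ced σ x)
    have hlt2 : (univ.filter (fun c : C => ¬ AFar bl σ k (ced σ x) c)).card <
        (univ.filter (fun c : C => cl c = cl (ced σ x))).card := by
      refine lt_of_le_of_lt hbad (lt_of_le_of_lt ?_ (lt_of_lt_of_le hN (hcl _)))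
      exact Nat.pow_le_pow_right (by omega) (by omega)
    obtain ⟨c, hc1, hc2⟩ := Finset.exists_mem_notMem_of_card_lt_card hlt2
    rw [mem_filter] at hc1 hc2
    have hfar : AFar bl σ k (ced σ x) c := by
      by_contra h; exact hc2 ⟨mem_univ _, h⟩
    have hG' := ag_switch hG hfar
    have hcol' : ∀ d, cl ((σ * Equiv.swap (ced σ x) c) d) = cl d := by
      intro d
      rw [Equiv.Perm.coe_mul, Function.comp_apply, hcol]
      rcases eq_or_ne d (ced σ x) with rfl | h3
      · rw [Equiv.swap_apply_left]; exact hc1.2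
      · rcases eq_or_ne d c with rfl | h4
        · rw [Equiv.swap_apply_right]; exact hc1.2.symm
        · rw [Equiv.swap_apply_of_ne_of_ne h3 h4]
    have hle := hmin (σ * Equiv.swap (ced σ x) c) (mem_filter.2 ⟨mem_univ _, hcol', hG'⟩)
    have hss : W (σ * Equiv.swap (ced σ x) c) ⊂ W σ := by
      rw [Finset.ssubset_iff_of_subset]
      · refine ⟨⟨x :: l, hlen⟩, (hW _ _).2 ⟨x, l, rfl, hl⟩, ?_⟩
        intro hmem
        obtain ⟨x', l', hx', hch⟩ := (hW _ _).1 hmem
        simp only [List.cons.injEq] at hx'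
        obtain ⟨rfl, rfl⟩ := hx'
        have := (aB1 C V bl σ k _ c hG hfar x l hch (by simpa only [Order.add_one_le_iff, List.length_cons] using hlen.le)).2 x (by simp)
        apply this
        unfold AOld ced
        obtain ⟨y, b⟩ := x
        cases b
        · right; left; simp only [Bool.false_eq_true, ↓reduceIte, Equiv.apply_symm_apply]
        · left; simp
      · intro m hm
        obtain ⟨x', l', hx', hch⟩ := (hW _ _).1 hm
        have hl' : l'.length + 1 ≤ k := by
          have h5 := m.2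
          rw [hx'] at h5
          simp only [List.length_cons] at h5
          (clear * - h1 hlt hlen h5; omega)
        exact (hW _ _).2 ⟨x', l', hx', (aB1 C V bl σ k _ c hG hfar x' l' hch hl').1⟩
    exact absurd hle (not_le.2 (card_lt_card hss))

end Vale.Agent.P201.G.B
end
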