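import Vale.Agent.P201.Bd3.MathlibUsed
import Vale.Agent.P201.Bd3.B1
import Vale.Agent.P201.Bd3.B2

set_option linter.all false

section

/-!
P201, part LA2 over a general system: labels of paired units.
-/

namespace Vale.Agent.P201.S

open Finset

variable {S : Sys} {σ : Equiv.Perm (S.C)}

theorem rev_rev (l : Lbl S) : rev (rev l) = l := by
  obtain ⟨a, b, d⟩ := l
  simp only [rev, neg_neg]

theorem lam_swap (q q' : Port S) : lam (q', q) = rev (lam (q, q')) := by
  simp only [lam, rev, neg_sub]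

/-- no unit has a symmetric label -/
theorem lam_ne_rev {q q' : Port S} (hb : S.blk q = S.blk q') (hne : q ≠ q') :
    lam (q, q') ≠ rev (lam (q, q')) := by
  intro h
  simp only [lam, rev, Prod.mk.injEq] at h
  obtain ⟨h1, -, h3⟩ := h
  exact hne (S.inj q q' h1 hb (by omega))

namespace Glue

variable {G : Glue σ}

/-- the labels of paired units are reversed -/
theorem Pair.lam_eq (hR : G.Red) {s s' v v' : G.Q} (h : G.Pair s s') (h1 : G.Y s = some v)
    (h2 : G.Y s' = some v') :
    lam (mt σ (G.ε s'), G.ε v') = rev (lam (mt σ (G.ε s), G.ε v)) := by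
  obtain ⟨l1, l2, l3⟩ := h.lab hR h1 h2
  simp only [lam, rev, Prod.mk.injEq]
  exact ⟨l1, l2, l3⟩

end Glue

end Vale.Agent.P201.S
end

section

/-!
P201, part LA3: multiplicities, regular blocks, classes (helper576).
-/

namespace Vale.Agent.P201.S

open Finset

variable {S : Sys} {σ : Equiv.Perm (S.C)}

/-- the port of a half-edge `(c, side)`: `(c, true)` or `(σ c, false)` -/
noncomputable def hc (σ : Equiv.Perm (S.C)) (h : S.C × Bool) : Port S :=
  if h.2 then (h.1, true) else (σ h.1, false)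

/-- the half-edge of a port -/
noncomputable def qh (σ : Equiv.Perm (S.C)) (q : Port S) : S.C × Bool :=
  if q.2 then (q.1, true) else (σ.symm q.1, false)

theorem hc_qh (q : Port S) : hc σ (qh σ q) = q := by
  obtain ⟨c, e⟩ := q
  cases e <;> simp [hc, qh]

theorem qh_hc (h : S.C × Bool) : qh σ (hc σ h) = h := by
  obtain ⟨c, e⟩ := h
  cases e <;> simp only [qh, hc, Bool.false_eq_true, ↓reduceIte, Equiv.symm_apply_apply]

theorem mt_hc (c : S.C) (e : Bool) : mt σ (hc σ (c, e)) = hc σ (c, !e) := by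
  cases e <;> simp [hc, mt]

namespace Glue

variable (G : Glue σ)

open Classical in
/-- multiplicity of the edge of the port `q` -/
noncomputable def mulP (q : Port S) : ℕ :=
  (univ.filter fun s : G.Q => G.ε s = q ∨ mt σ (G.ε s) = q).card

open Classical in
/-- multiplicity of a block: number of y-edges at the block -/
noncomputable def mulB (b : S.B) : ℕ :=
  (univ.filter fun s : G.Q => S.blk (mt σ (G.ε s)) = b).card +
  (univ.filter fun s : G.Q => G.Y.symm s = none ∧ S.blk (G.ε s) = b).card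

/-- regular blocks -/
structure Reg (b : S.B) : Prop where
  vis : ∃ s, S.blk (mt σ (G.ε s)) = b
  dom : ∀ s, S.blk (mt σ (G.ε s)) = b → ∃ v, G.Y s = some v
  ran : ∀ s, S.blk (G.ε s) = b → ∃ r, G.Y r = some s
  unit : ∀ s v s' v', G.Y s = some v → G.Y s' = some v' → S.blk (mt σ (G.ε s)) = b →
    S.blk (mt σ (G.ε s')) = b →
    (mt σ (G.ε s') = mt σ (G.ε s) ∧ G.ε v' = G.ε v) ∨
    (mt σ (G.ε s') = G.ε v ∧ G.ε v' = mt σ (G.ε s))

/-- `u` is an oriented unit used at the regular block `b` -/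
def OU (b : S.B) (u : Port S × Port S) : Prop :=
  G.Reg b ∧ ∃ s v, G.Y s = some v ∧ S.blk (mt σ (G.ε s)) = b ∧
    (u = (mt σ (G.ε s), G.ε v) ∨ u = (G.ε v, mt σ (G.ε s)))

/-- elementary correspondence of oriented units given by a pair of links -/
def OR (u w : Port S × Port S) : Prop :=
  ∃ s s' v v', G.Pair s s' ∧ G.Y s = some v ∧ G.Y s' = some v' ∧
    G.Reg (S.blk (mt σ (G.ε s))) ∧ G.Reg (S.blk (mt σ (G.ε s'))) ∧
    u = (mt σ (G.ε s), G.ε v) ∧ w = (G.ε v', mt σ (G.ε s'))

/-- correspondence of oriented units -/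
def OE (u w : Port S × Port S) : Prop := Relation.EqvGen G.OR u w

/-- regular blocks of the same class -/
def RB (b b' : S.B) : Prop := ∃ u u', G.OU b u ∧ G.OU b' u' ∧ G.OE u u'

open Classical in
/-- the representative of a class of regular blocks -/
noncomputable def rep (b : S.B) : S.B :=
  if h : ∃ b', G.RB b b' then Classical.choose h else b

variable {G}

theorem Reg.ex {b : S.B} (h : G.Reg b) : ∃ u, G.OU b u := by
  obtain ⟨s, hs⟩ := h.vis
  obtain ⟨v, hv⟩ := h.dom s hs
  exact ⟨_, h, s, v, hv, hs, Or.inl rfl⟩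

theorem OU.reg {b : S.B} {u : Port S × Port S} (h : G.OU b u) : G.Reg b := h.1

theorem OU.swap {b : S.B} {u : Port S × Port S} (h : G.OU b u) : G.OU b u.swap := by
  obtain ⟨hr, s, v, h1, h2, h3⟩ := h
  refine ⟨hr, s, v, h1, h2, ?_⟩
  rcases h3 with rfl | rfl
  · exact Or.inr rfl
  · exact Or.inl rfl

theorem OU.two {b : S.B} {u w : Port S × Port S} (h : G.OU b u) (h' : G.OU b w) :
    w = u ∨ w = u.swap := by
  obtain ⟨hr, s, v, h1, h2, h3⟩ := h
  obtain ⟨-, s', v', k1, k2, k3⟩ := h'
  rcases hr.unit s v s' v' h1 k1 h2 k2 with ⟨e1, e2⟩ | ⟨e1, e2⟩ <;>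
  rcases h3 with rfl | rfl <;> rcases k3 with rfl | rfl <;> rw [e1, e2] <;> simp

theorem OU.isU (hR : G.Red) {b : S.B} {u : Port S × Port S} (h : G.OU b u) : IsU u := by
  obtain ⟨hr, s, v, h1, h2, h3⟩ := h
  have h4 := hR.y s v h1
  rcases h3 with rfl | rfl
  · exact ⟨h4.1, Ne.symm h4.2⟩
  · exact ⟨h4.1.symm, h4.2⟩

theorem OU.blk1 (hR : G.Red) {b : S.B} {u : Port S × Port S} (h : G.OU b u) :
    S.blk u.1 = b := by
  obtain ⟨hr, s, v, h1, h2, h3⟩ := h
  have h4 := hR.y s v h1
  rcases h3 with rfl | rfl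
  · exact h2
  · exact h4.1.symm.trans h2

theorem OU.blk2 (hR : G.Red) {b : S.B} {u : Port S × Port S} (h : G.OU b u) :
    S.blk u.2 = b := h.swap.blk1 hR

theorem OR.lam_eq (hR : G.Red) {u w : Port S × Port S} (h : G.OR u w) : lam u = lam w := by
  obtain ⟨s, s', v, v', h1, h2, h3, -, -, rfl, rfl⟩ := h
  have h4 := Glue.Pair.lam_eq hR h1 h2 h3
  rw [lam_swap (mt σ (G.ε s')) (G.ε v'), h4, rev_rev]

theorem OR.swap {u w : Port S × Port S} (h : G.OR u w) : G.OR w.swap u.swap := by
  obtain ⟨s, s', v, v', h1, h2, h3, h4, h5, rfl, rfl⟩ := h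
  exact ⟨s', s, v', v, h1.symm, h3, h2, h5, h4, rfl, rfl⟩

theorem OE.lam_eq (hR : G.Red) {u w : Port S × Port S} (h : G.OE u w) : lam u = lam w := by
  induction h with
  | rel _ _ h => exact h.lam_eq hR
  | refl _ => rfl
  | symm _ _ _ ih => exact ih.symm
  | trans _ _ _ _ _ ih1 ih2 => exact ih1.trans ih2

theorem OE.swap {u w : Port S × Port S} (h : G.OE u w) : G.OE u.swap w.swap := by
  induction h with
  | rel _ _ h => exact Relation.EqvGen.symm _ _ (Relation.EqvGen.rel _ _ h.swap)
  | refl _ => exact Relation.EqvGen.refl _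
  | symm _ _ _ ih => exact Relation.EqvGen.symm _ _ ih
  | trans _ _ _ _ _ ih1 ih2 => exact Relation.EqvGen.trans _ _ _ ih1 ih2

theorem OE.refl (u : Port S × Port S) : G.OE u u := Relation.EqvGen.refl _

theorem OE.symm {u w : Port S × Port S} (h : G.OE u w) : G.OE w u :=
  Relation.EqvGen.symm _ _ h

theorem OE.trans {u w z : Port S × Port S} (h : G.OE u w) (h' : G.OE w z) : G.OE u z :=
  Relation.EqvGen.trans _ _ _ h h'

theorem Reg.rb {b : S.B} (h : G.Reg b) : G.RB b b := by
  obtain ⟨u, hu⟩ := h.ex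
  exact ⟨u, u, hu, hu, OE.refl u⟩

theorem RB.symm {b b' : S.B} (h : G.RB b b') : G.RB b' b := by
  obtain ⟨u, u', h1, h2, h3⟩ := h
  exact ⟨u', u, h2, h1, h3.symm⟩

theorem RB.trans {b b' b'' : S.B} (h : G.RB b b') (h' : G.RB b' b'') : G.RB b b'' := by
  obtain ⟨u, u', h1, h2, h3⟩ := h
  obtain ⟨w, w', k1, k2, k3⟩ := h'
  rcases h2.two k1 with rfl | rfl
  · exact ⟨u, w', h1, k2, h3.trans k3⟩
  · exact ⟨u, w'.swap, h1, k2.swap, h3.trans (by simpa using k3.swap)⟩

theorem Reg.rep {b : S.B} (h : G.Reg b) : G.RB b (G.rep b) := by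
  have h1 : ∃ b', G.RB b b' := ⟨b, h.rb⟩
  unfold Glue.rep
  rw [dif_pos h1]
  exact Classical.choose_spec h1

theorem RB.reg {b b' : S.B} (h : G.RB b b') : G.Reg b' := by
  obtain ⟨u, u', h1, h2, h3⟩ := h
  exact h2.reg

theorem RB.rep_eq {b b' : S.B} (h : G.RB b b') : G.rep b = G.rep b' := by
  have h1 : G.RB b = G.RB b' := by
    funext x
    exact propext ⟨fun hx => h.symm.trans hx, fun hx => h.trans hx⟩
  have h2 : ∃ x, G.RB b x := ⟨b', h⟩
  have h3 : ∃ x, G.RB b' x := ⟨b, h.symm⟩
  unfold Glue.rep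
  rw [dif_pos h2, dif_pos h3]
  congr 1

theorem Reg.rep_reg {b : S.B} (h : G.Reg b) : G.Reg (G.rep b) := h.rep.reg

theorem Reg.rep_rep {b : S.B} (h : G.Reg b) : G.rep (G.rep b) = G.rep b :=
  (h.rep.rep_eq).symm

variable (G)

/-- base unit of a regular block -/
noncomputable def u0 (b : S.B) (h : G.Reg b) : Port S × Port S := Classical.choose h.ex

theorem u0_spec (b : S.B) (h : G.Reg b) : G.OU b (G.u0 b h) := Classical.choose_spec h.ex

theorem fu_ex (b : S.B) (h : G.Reg b) :
    ∃ u, G.OU b u ∧ G.OE (G.u0 (G.rep b) h.rep_reg) u := by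
  obtain ⟨u, u', h1, h2, h3⟩ := h.rep
  rcases h2.two (G.u0_spec (G.rep b) h.rep_reg) with h4 | h4
  · exact ⟨u, h1, by rw [h4]; exact h3.symm⟩
  · exact ⟨u.swap, h1.swap, by rw [h4]; exact h3.symm.swap⟩

/-- the ordered unit of a regular block -/
noncomputable def fu (b : S.B) (h : G.Reg b) : Port S × Port S :=
  Classical.choose (G.fu_ex b h)

theorem fu_ou (b : S.B) (h : G.Reg b) : G.OU b (G.fu b h) :=
  (Classical.choose_spec (G.fu_ex b h)).1

theorem fu_oe (b : S.B) (h : G.Reg b) : G.OE (G.u0 (G.rep b) h.rep_reg) (G.fu b h) :=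
  (Classical.choose_spec (G.fu_ex b h)).2

theorem fu_lam (hR : G.Red) (b : S.B) (h : G.Reg b) :
    lam (G.fu b h) = lam (G.u0 (G.rep b) h.rep_reg) := ((G.fu_oe b h).lam_eq hR).symm

end Glue

end Vale.Agent.P201.S
end

section

/-!
P201, part LA: the interfaces of the blocks of LA3-LA5 (helper26).  Props only; the assembly
`stmtLA_of` is in `Main.lean`.
-/

namespace Vale.Agent.P201.S

open Finset

variable {S : Sys} {σ : Equiv.Perm (S.C)}

open Classical in
/-- density of the label of a regular block (1 at other blocks) -/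
noncomputable def Glue.dens (G : Glue σ) (b : S.B) : ℝ :=
  if h : G.Reg b then rho S (lam (G.u0 b h)) else 1

open Classical in
/-- inequality (U) for the pattern of level `t`, in terms of `G` only -/
def Glue.LevU (G : Glue σ) (C1 K0 : ℝ) (t : ℕ) : Prop :=
  (((univ.filter fun c : S.C => t ≤ G.mulP (c, true)).card : ℝ) -
      (univ.filter fun b : S.B => t ≤ G.mulB b).card) * Real.log (Fintype.card (S.C)) ≤
    ∑ b ∈ univ.filter (fun b : S.B => G.Reg b ∧ t ≤ G.mulB b), Real.log (G.dens (G.rep b)) -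
      ∑ k ∈ (univ.filter fun b : S.B => G.Reg b ∧ t ≤ G.mulB b).image G.rep,
        (Real.log 2 + 2 * Real.log (G.dens k)) +
      C1 * ((univ.filter fun b : S.B => ¬ G.Reg b ∧ t ≤ G.mulB b).card +
        (univ.filter fun q : Port S => ¬ G.Reg (S.blk q) ∧ t ≤ G.mulP q).card + 1) + K0

open Classical in
/-- the three bounds of block (B2) -/
structure Glue.Bnd (G : Glue σ) (B : ℕ) : Prop where
  irr : (univ.filter fun b : S.B => ¬ G.Reg b ∧ 0 < G.mulB b).card ≤ B
  mul : ∀ b, G.mulB b ≤ B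
  unp : (univ.filter fun s : G.Q => (G.Y s).isSome ∧ ¬ G.Paired s).card ≤
    (Fintype.card G.Q - domc G.X) + B

/-- (A2) the level pattern is a function of the record -/
def StmtRcd : Prop :=
  ∀ (S : Sys) (F : ℕ) (c : Cmb F) (t : ℕ), 1 ≤ t → ∃ P : Ptn, Fintype.card P.E ≤ F ∧
    ∀ (σ : Equiv.Perm (S.C)) (G : Glue σ) (e : G.Q ≃ Fin F), G.Red → IsCmb G e c →
      ∀ C1 K0 : ℝ, (∀ r : Rlz P σ, UIneq r C1 K0) → G.LevU C1 K0 t

/-- (B3) few records -/
def StmtCode : Prop :=
  ∀ A : ℕ, ∃ B : ℕ, ∀ (S : Sys) (F g : ℕ), 3 ≤ g → F ≤ A * g → ∃ CC : Set (Cmb F),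
    CC.Finite ∧ CC.ncard ≤ (F + 2) ^ B ∧
    ∀ (σ : Equiv.Perm (S.C)), Girth σ g → ∀ G : Glue σ, G.Red → G.Lab → G.Eul →
      Fintype.card G.Q = F → F ≤ domc G.Y + A → ∃ e : G.Q ≃ Fin F, ∃ c ∈ CC, IsCmb G e c

/-- (B2) the bounds -/
def StmtCnt : Prop :=
  ∀ A : ℕ, ∃ B : ℕ, ∀ (S : Sys) (g : ℕ), 3 ≤ g → ∀ (σ : Equiv.Perm (S.C)), Girth σ g →
    ∀ G : Glue σ, G.Red → G.Lab → G.Eul → Fintype.card G.Q ≤ A * g →
      Fintype.card G.Q ≤ domc G.Y + A → G.Bnd B

/-- (C) the sum over the levels -/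
def StmtLev : Prop :=
  ∀ (S : Sys) (D : ℕ) (σ : Equiv.Perm (S.C)) (G : Glue σ), G.Red → RhoFacts S D →
    0 < Fintype.card (S.C) → ∀ (B : ℕ) (C1 K0 : ℝ), 0 ≤ C1 → 0 ≤ K0 → G.Bnd B →
      (∀ t, 1 ≤ t → t ≤ B → G.LevU C1 K0 t) →
      Real.log 2 / 2 * Fintype.card G.Q ≤
        Real.log D * ((Fintype.card G.Q : ℝ) - domc G.X) +
          ((Fintype.card G.Q : ℝ) - domc G.Y) * Real.log (Fintype.card (S.C)) +
          (4 * B ^ 2 + 4 * B) * (1 + C1 + K0 + Real.log D)

/-- (N) the numerics -/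
def StmtNum : Prop :=
  ∀ L0 : ℝ, 0 ≤ L0 → ∃ e1 : ℝ, 0 < e1 ∧ ∀ (c D : ℝ) (K : ℕ), 0 < c → 0 ≤ D → ∃ Y0 : ℕ,
    ∀ (Y g F op dx : ℕ), Y0 ≤ Y → c * Y ≤ g → F ≤ K * Y → (op = 0 → F = 0 ∨ g ≤ F) →
      Real.log 2 / 2 * F ≤ L0 * dx + op * Y + D * (Real.log (K * Y + 2) + 1) →
      e1 * F ≤ dx + Y * op

end Vale.Agent.P201.S
end

section

/-!
P201, assembly of `StmtLoc` from part C (`StmtU`) and part LA (`StmtLA`): choice of the parameters
(helper621).
-/

namespace Vale.Agent.P201.S

open Finset Filter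

/-- PART LA: for all large systems a finite family of patterns whose inequalities (U) imply the
local isoperimetric inequality.  The family is chosen before `σ`. -/
def StmtLA : Prop :=
  ∀ D : ℕ, ∀ c : ℝ, 0 < c → ∀ C1 : ℝ, 0 ≤ C1 → ∃ e1 : ℝ, 0 < e1 ∧ ∀ K : ℕ,
    ∃ N0 : ℕ, ∀ S : Sys, S.Ok D → N0 ≤ Fintype.card S.C → ∀ Y g : ℕ,
      Real.log (Fintype.card S.C) ≤ Y → (Y : ℝ) ≤ 2 * Real.log (Fintype.card S.C) →
      c * Y ≤ g →
      (2 * (K * Y) + 2) * ((2 * D + 2) ^ (g + 3) + K * Y) ≤ Fintype.card S.C →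
      ∃ (ι : Type) (_ : Fintype ι) (_ : Nonempty ι) (PP : ι → Ptn),
        (∀ i, Fintype.card (PP i).E ≤ K * Y) ∧
        ∀ σ : Equiv.Perm S.C, Girth σ g →
          (∀ i, ∀ r : Rlz (PP i) σ, UIneq r C1 (Real.log (Fintype.card ι))) →
          LocIso σ (K * Y) Y e1

private theorem ev_lin (a b d : ℝ) (hd : 0 < d) :
    ∀ᶠ x : ℝ in atTop, a * x + b ≤ Real.exp (d * x) := by
  have h1 : (fun x : ℝ => x ^ 1) =o[atTop] fun x => Real.exp (d * x) :=
    isLittleO_pow_exp_pos_mul_atTop 1 hd
  have h0 : (fun x : ℝ => x ^ 0) =o[atTop] fun x => Real.exp (d * x) :=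
    isLittleO_pow_exp_pos_mul_atTop 0 hd
  have e1 := h1.def (c := 1 / (2 * (|a| + 1))) (by (clear * -; positivity))
  have e0 := h0.def (c := 1 / (2 * (|b| + 1))) (by (clear * -; positivity))
  filter_upwards [e1, e0, eventually_ge_atTop 0] with x hx1 hx0 hx
  have hE : 0 < Real.exp (d * x) := Real.exp_pos _
  rw [Real.norm_of_nonneg hE.le, pow_one, Real.norm_of_nonneg hx] at hx1
  rw [Real.norm_of_nonneg hE.le, pow_zero, norm_one] at hx0
  have k1 : |a| * x ≤ Real.exp (d * x) / 2 := by
    have : (|a| + 1) * x ≤ Real.exp (d * x) / 2 := by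
      have := mul_le_mul_of_nonneg_left hx1 (by positivity : (0:ℝ) ≤ |a| + 1)
      calc (|a| + 1) * x ≤ (|a| + 1) * (1 / (2 * (|a| + 1)) * Real.exp (d * x)) := this
        _ = Real.exp (d * x) / 2 := by field_simp
    linarith
  have k0 : |b| ≤ Real.exp (d * x) / 2 := by
    have : (|b| + 1) * 1 ≤ Real.exp (d * x) / 2 := by
      have := mul_le_mul_of_nonneg_left hx0 (by (clear * -; positivity) : (0:ℝ) ≤ |b| + 1)
      calc (|b| + 1) * 1 ≤ (|b| + 1) * (1 / (2 * (|b| + 1)) * Real.exp (d * x)) := this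
        _ = Real.exp (d * x) / 2 := by field_simp
    linarith only [this]
  have := mul_le_mul_of_nonneg_right (le_abs_self a) hx
  linarith only [k1, k0, this, le_abs_self b]

/-- the parameter inequality -/
theorem ev_param (T K : ℕ) :
    ∀ᶠ L : ℝ in atTop, ∀ Y g : ℕ, (Y : ℝ) ≤ L + 1 →
      (g : ℝ) ≤ 1 / (16 * Real.log (2 * T + 2)) * Y + 1 →
      ((2 * (K * Y) + 2 : ℕ) : ℝ) * (((2 * T + 2) ^ (g + 3) + K * Y : ℕ) : ℝ) ≤ Real.exp L := by
  have a1 := ev_lin (2 * K) (2 * K + 2) (1 / 4) (by norm_num)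
  have a2 := ev_lin K K (1 / 8) (by norm_num)
  have a3 := ev_lin 0 ((2 * T + 2) ^ 4 * Real.exp (1 / 16) + 1) (1 / 16) (by norm_num)
  filter_upwards [a1, a2, a3, eventually_ge_atTop 0] with L h1 h2 h3 hL Y g hY hg
  have hT : (1 : ℝ) < 2 * T + 2 := by
    have : (0 : ℝ) ≤ T := Nat.cast_nonneg T
    linarith only []
  have hlog : 0 < Real.log (2 * T + 2) := Real.log_pos hT
  push_cast
  have hp : ((2 * T + 2 : ℝ)) ^ (g + 3) ≤
      (2 * T + 2) ^ 4 * Real.exp (1 / 16) * Real.exp (1 / 16 * L) := by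
    have e1 : ((2 * T + 2 : ℝ)) ^ (g + 3) = Real.exp (Real.log (2 * T + 2) * (g + 3)) := by
      rw [← Real.rpow_natCast, Real.rpow_def_of_pos (by linarith only [])]
      push_cast
      rfl
    have e2 : ((2 * T + 2 : ℝ)) ^ 4 = Real.exp (Real.log (2 * T + 2) * 4) := by
      rw [← Real.rpow_natCast, Real.rpow_def_of_pos (by linarith only [])]
      norm_num
    rw [e1, e2, ← Real.exp_add, ← Real.exp_add]
    apply Real.exp_le_exp.2
    have : Real.log (2 * T + 2) * g ≤ 1 / 16 * Y + Real.log (2 * T + 2) := by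
      calc Real.log (2 * T + 2) * g
          ≤ Real.log (2 * T + 2) * (1 / (16 * Real.log (2 * T + 2)) * Y + 1) :=
            mul_le_mul_of_nonneg_left hg hlog.le
        _ = 1 / 16 * Y + Real.log (2 * T + 2) := by
            generalize Real.log (2 * (T : ℝ) + 2) = l at hlog
            (clear * - hlog; field_simp)
    nlinarith only [hY, this]
  have hY0 : (0 : ℝ) ≤ Y := Nat.cast_nonneg Y
  have hK0 : (0 : ℝ) ≤ K := Nat.cast_nonneg K
  have hKY : (K : ℝ) * Y ≤ K * L + K := by nlinarith only [hY]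
  have b1 : (2 * ((K : ℝ) * Y) + 2) ≤ Real.exp (1 / 4 * L) := by nlinarith only [h1, hKY]
  have e8 : Real.exp (1 / 16 * L) * Real.exp (1 / 16 * L) = Real.exp (1 / 8 * L) := by
    rw [← Real.exp_add]; ring_nf
  have hx : (0:ℝ) < Real.exp (1 / 16 * L) := Real.exp_pos _
  have b2 : ((2 * T + 2 : ℝ)) ^ (g + 3) + K * Y ≤ 2 * Real.exp (1 / 8 * L) := by
    have : (2 * T + 2) ^ 4 * Real.exp (1 / 16) * Real.exp (1 / 16 * L) ≤
        Real.exp (1 / 8 * L) := by
      rw [← e8]
      exact mul_le_mul_of_nonneg_right (by linarith only [h3]) hx.le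
    linarith only [h2, hp, hKY, this]
  have b3 : 2 * Real.exp (1 / 8 * L) ≤ Real.exp (1 / 4 * L) := by
    have e4 : Real.exp (1 / 8 * L) * Real.exp (1 / 8 * L) = Real.exp (1 / 4 * L) := by
      rw [← Real.exp_add]; ring_nf
    have h16 : (2 : ℝ) ≤ Real.exp (1 / 16 * L) := by
      have : (1 : ℝ) ≤ (2 * T + 2) ^ 4 * Real.exp (1 / 16) := by
        have u1 : (1 : ℝ) ≤ (2 * T + 2) ^ 4 := one_le_pow₀ hT.le
        have u2 : (1 : ℝ) ≤ Real.exp (1 / 16) := Real.one_le_exp (by norm_num)
        nlinarith only [u1, u2]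
      linarith only [h3, this]
    have h8 : (2 : ℝ) ≤ Real.exp (1 / 8 * L) := by
      rw [← e8]; nlinarith only [h16]
    rw [← e4]
    exact mul_le_mul_of_nonneg_right h8 (Real.exp_pos _).le
  calc (2 * ((K : ℝ) * Y) + 2) * ((2 * T + 2) ^ (g + 3) + K * Y)
      ≤ Real.exp (1 / 4 * L) * Real.exp (1 / 4 * L) := by
        apply mul_le_mul b1 (b2.trans b3) (by (clear * -; positivity)) (Real.exp_pos _).le
    _ = Real.exp (1 / 2 * L) := by rw [← Real.exp_add]; ring_nf
    _ ≤ Real.exp L := Real.exp_le_exp.2 (by linarith only [hL])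

/-- existence of parameters -/
theorem exists_param (T K Y0 : ℕ) :
    ∃ N0 : ℕ, ∀ N : ℕ, N0 ≤ N → 0 < N ∧ ∃ Y g : ℕ, Y0 ≤ Y ∧
      Real.log (N : ℝ) ≤ Y ∧ (Y : ℝ) ≤ 2 * Real.log (N : ℝ) ∧
      1 / (16 * Real.log (2 * T + 2)) * Y ≤ g ∧
      (2 * (K * Y) + 2) * ((2 * T + 2) ^ (g + 3) + K * Y) ≤ N := by
  have htend : Tendsto (fun m : ℕ => Real.log (m : ℝ)) atTop atTop :=
    Real.tendsto_log_atTop.comp tendsto_natCast_atTop_atTop
  have ev := htend.eventually ((ev_param T K).and (eventually_ge_atTop (max 1 (Y0 : ℝ))))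
  obtain ⟨N0, hN0⟩ := eventually_atTop.1 (ev.and (eventually_ge_atTop 1))
  refine ⟨N0, fun N hN => ?_⟩
  obtain ⟨⟨hm, hm1⟩, hm2⟩ := hN0 N hN
  refine ⟨hm2, ?_⟩
  set L := Real.log (N : ℝ) with hLdef
  have hL1 : 1 ≤ L := (le_max_left _ _).trans hm1
  have hL0 : (Y0 : ℝ) ≤ L := (le_max_right _ _).trans hm1
  set Y := ⌈L⌉₊ with hYdef
  have hY1 : L ≤ Y := Nat.le_ceil L
  have hY2 : (Y : ℝ) ≤ L + 1 := (Nat.ceil_lt_add_one (by linarith only [hL1])).le
  set g := ⌈1 / (16 * Real.log (2 * T + 2)) * (Y : ℝ)⌉₊ with hgdef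
  have hlog : 0 < Real.log ((2 : ℝ) * T + 2) := by
    apply Real.log_pos
    have : (0 : ℝ) ≤ T := Nat.cast_nonneg T
    linarith only []
  have hg1 : 1 / (16 * Real.log (2 * T + 2)) * (Y : ℝ) ≤ g := Nat.le_ceil _
  have hg2 : (g : ℝ) ≤ 1 / (16 * Real.log (2 * T + 2)) * (Y : ℝ) + 1 :=
    (Nat.ceil_lt_add_one (by (clear * - hlog hL1; positivity))).le
  refine ⟨Y, g, ?_, hY1, by linarith only [hL1, hY2], hg1, ?_⟩
  · exact_mod_cast hL0.trans hY1
  · have h := hm Y g hY2 hg2
    have hpos : (0 : ℝ) < (N : ℝ) := by exact_mod_cast hm2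
    rw [hLdef, Real.exp_log hpos] at h
    exact_mod_cast h

/-- **`StmtLoc` from parts C and LA.** -/
theorem stmtLoc_of (hU : StmtU) (hLA : StmtLA) : StmtLoc := by
  intro D
  obtain ⟨C1, hC1, hU⟩ := hU D
  have hlog : 0 < Real.log ((2 : ℝ) * D + 2) := by
    apply Real.log_pos
    have : (0 : ℝ) ≤ D := Nat.cast_nonneg _
    linarith only []
  have hc : 0 < 1 / (16 * Real.log ((2 : ℝ) * D + 2)) := by positivity
  obtain ⟨e1, he1, hLA⟩ := hLA D _ hc C1 hC1
  refine ⟨_, e1, hc, he1, fun K Y0 => ?_⟩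
  obtain ⟨N1, hLA⟩ := hLA K
  obtain ⟨N2, hpar⟩ := exists_param D K Y0
  refine ⟨max N1 N2, fun S hS hN => ?_⟩
  obtain ⟨hpos, Y, g, hY0, h1, h2, h3, h4⟩ := hpar _ ((le_max_right _ _).trans hN)
  obtain ⟨ι, _, _, PP, hE, hloc⟩ := hLA S hS ((le_max_left _ _).trans hN) Y g h1 h2 h3 h4
  obtain ⟨σ, hσ, hUI⟩ := hU S hS g (K * Y) hpos h4 ι PP hE
  exact ⟨Y, hY0, σ, g, h3, hσ, hloc σ hσ hUI⟩

end Vale.Agent.P201.S
end

section

/-!
P201, part LA: reduced walks and girth.
-/

namespace Vale.Agent.P201.S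

open Finset

variable {S : Sys} {σ : Equiv.Perm (S.C)}

/-- reduced walk from the block `u` to the block `v`, given by its leaving ports -/
def RW (σ : Equiv.Perm (S.C)) : S.B → List (Port S) → S.B → Prop
  | u, [], v => u = v
  | u, a :: l, v => S.blk a = u ∧ (∀ b ∈ l.head?, b ≠ mt σ a) ∧ RW σ (S.blk (mt σ a)) l v

theorem RW.nil_iff {u v : S.B} : RW σ u [] v ↔ u = v := Iff.rfl

theorem RW.cons_iff {u v : S.B} {a : Port S} {l : List (Port S)} :
    RW σ u (a :: l) v ↔
      S.blk a = u ∧ (∀ b ∈ l.head?, b ≠ mt σ a) ∧ RW σ (S.blk (mt σ a)) l v := Iff.rfl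

theorem RW.head {u v : S.B} {l : List (Port S)} (h : RW σ u l v) :
    ∀ a ∈ l.head?, S.blk a = u := by
  cases l with
  | nil => intro a ha; simp at ha
  | cons b l =>
    intro a ha
    simp only [List.head?_cons, Option.mem_def, Option.some.injEq] at ha
    subst ha
    exact h.1

theorem RW.isWalk {u v : S.B} {l : List (Port S)} (h : RW σ u l v) : IsWalk σ l := by
  induction l generalizing u with
  | nil => exact List.isChain_nil
  | cons a l ih =>
    unfold IsWalk
    rw [List.isChain_cons]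
    refine ⟨fun b hb => ⟨?_, h.2.1 b hb⟩, ih h.2.2⟩
    exact (h.2.2.head b hb).symm

theorem RW.last {u v : S.B} {l : List (Port S)} (h : RW σ u l v) :
    ∀ a ∈ l.getLast?, S.blk (mt σ a) = v := by
  induction l generalizing u with
  | nil => intro a ha; simp at ha
  | cons b l ih =>
    intro a ha
    cases l with
    | nil =>
      simp only [List.getLast?_singleton, Option.mem_def, Option.some.injEq] at ha
      subst ha
      exact h.2.2
    | cons c l =>
      rw [List.getLast?_cons_cons] at ha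
      exact ih h.2.2 a ha

theorem RW.append {u v w : S.B} {l l' : List (Port S)} (h : RW σ u l v) (h' : RW σ v l' w)
    (hj : ∀ a ∈ l.getLast?, ∀ b ∈ l'.head?, b ≠ mt σ a) : RW σ u (l ++ l') w := by
  induction l generalizing u with
  | nil =>
    have : u = v := h
    subst this
    exact h'
  | cons a l ih =>
    rw [List.cons_append, RW.cons_iff]
    refine ⟨h.1, ?_, ?_⟩
    · intro b hb
      cases l with
      | nil =>
        exact hj a (by simp) b hb
      | cons c l =>
        exact h.2.1 b (by simpa using hb)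
    · refine ih h.2.2 ?_
      intro c hc b hb
      cases l with
      | nil => simp at hc
      | cons d l => exact hj c (by rw [List.getLast?_cons_cons]; exact hc) b hb

theorem RW.split {u w : S.B} {l l' : List (Port S)} (h : RW σ u (l ++ l') w) :
    ∃ v, RW σ u l v ∧ RW σ v l' w ∧ ∀ a ∈ l.getLast?, ∀ b ∈ l'.head?, b ≠ mt σ a := by
  induction l generalizing u with
  | nil => exact ⟨u, rfl, h, fun a ha => by simp at ha⟩
  | cons a l ih =>
    rw [List.cons_append, RW.cons_iff] at h
    obtain ⟨h1, h2, h3⟩ := h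
    obtain ⟨v, k1, k2, k3⟩ := ih h3
    refine ⟨v, ⟨h1, ?_, k1⟩, k2, ?_⟩
    · intro b hb
      refine h2 b ?_
      cases l with
      | nil => simp at hb
      | cons c l => simpa using hb
    · intro c hc b hb
      cases l with
      | nil =>
        simp only [List.getLast?_singleton, Option.mem_def, Option.some.injEq] at hc
        subst hc
        exact h2 b (by simpa using hb)
      | cons d l =>
        rw [List.getLast?_cons_cons] at hc
        exact k3 c hc b hb

theorem RW.single (a : Port S) : RW σ (S.blk a) [a] (S.blk (mt σ a)) :=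
  ⟨rfl, fun b hb => by simp at hb, rfl⟩

/-- reversed walk -/
noncomputable def rvw (σ : Equiv.Perm (S.C)) (l : List (Port S)) : List (Port S) :=
  (l.map (mt σ)).reverse

theorem rvw_cons (a : Port S) (l : List (Port S)) : rvw σ (a :: l) = rvw σ l ++ [mt σ a] := by
  simp [rvw]

theorem rvw_length (l : List (Port S)) : (rvw σ l).length = l.length := by simp [rvw]

theorem rvw_getLast (l : List (Port S)) : (rvw σ l).getLast? = l.head?.map (mt σ) := by
  unfold rvw
  rw [List.getLast?_reverse, List.head?_map]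

theorem RW.reverse {u v : S.B} {l : List (Port S)} (h : RW σ u l v) :
    RW σ v (rvw σ l) u := by
  induction l generalizing u with
  | nil => exact Eq.symm h
  | cons a l ih =>
    rw [rvw_cons]
    refine (ih h.2.2).append (v := S.blk (mt σ a)) ?_ ?_
    · have := RW.single (σ := σ) (mt σ a)
      rw [mt_mt, h.1] at this
      exact this
    · intro c hc b hb
      simp only [List.head?_cons, Option.mem_def, Option.some.injEq] at hb
      subst hb
      rw [rvw_getLast, Option.mem_def, Option.map_eq_some_iff] at hc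
      obtain ⟨d, hd, rfl⟩ := hc
      rw [mt_mt]
      exact Ne.symm (h.2.1 d hd)

theorem RW.of_isWalk {l : List (Port S)} (h : IsWalk σ l) {a : Port S} (ha : a ∈ l.head?)
    {b : Port S} (hb : b ∈ l.getLast?) : RW σ (S.blk a) l (S.blk (mt σ b)) := by
  induction l generalizing a with
  | nil => simp at ha
  | cons c l ih =>
    simp only [List.head?_cons, Option.mem_def, Option.some.injEq] at ha
    subst ha
    unfold IsWalk at h
    rw [List.isChain_cons] at h
    refine ⟨rfl, fun b hb => (h.1 b hb).2, ?_⟩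
    cases l with
    | nil =>
      simp only [List.getLast?_singleton, Option.mem_def, Option.some.injEq] at hb
      subst hb
      rfl
    | cons d l =>
      rw [List.getLast?_cons_cons] at hb
      rw [(h.1 d (by simp)).1]
      exact ih h.2 (by simp) hb

/-- GL0: a nonempty reduced walk which returns to its block is long -/
theorem gl0 {g : ℕ} (hg : Girth σ g) :
    ∀ (m : ℕ) (u : S.B) (l : List (Port S)), l.length = m → RW σ u l u → l ≠ [] →
      g ≤ l.length := by
  intro m
  induction m using Nat.strong_induction_on with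
  | _ m ih =>
    intro u l hm h hl
    by_contra hlt
    -- not cyclically reduced
    have hnc : ¬ IsCWalk σ l := fun hc => hlt (hg l hl hc)
    obtain ⟨a, l1, rfl⟩ : ∃ a l1, l = a :: l1 := by
      cases l with
      | nil => exact absurd rfl hl
      | cons a l1 => exact ⟨a, l1, rfl⟩
    rcases List.eq_nil_or_concat l1 with rfl | ⟨l2, b, rfl⟩
    · -- length one
      apply hnc
      refine ⟨h.isWalk, ?_⟩
      intro c hc d hd
      simp only [List.getLast?_singleton, List.head?_cons, Option.mem_def,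
        Option.some.injEq] at hc hd
      subst hc hd
      exact ⟨by rw [h.last a (by simp), h.1], (mt_ne σ a).symm⟩
    · by_cases hab : a = mt σ b
      · -- strip both ends
        obtain ⟨h1, h2, h3⟩ := h
        rw [List.concat_eq_append] at h2 h3 hm hlt
        obtain ⟨v, k1, k2, k3⟩ := h3.split
        cases l2 with
        | nil =>
          simp only [List.nil_append, List.head?_cons, Option.mem_def, Option.some.injEq,
            forall_eq'] at h2
          apply h2
          rw [hab, mt_mt]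
        | cons c l3 =>
          have hv : v = S.blk (mt σ a) := by
            have h4 := k2.1
            rw [hab, mt_mt, h4]
          rw [hv] at k1
          have h5 := ih (c :: l3).length (by
            rw [← hm]; simp only [List.length_cons, List.length_append]; omega)
            _ _ rfl k1 (by simp)
          apply hlt
          simp only [List.length_cons, List.length_append] at h5 ⊢
          omega
      · apply hnc
        refine ⟨h.isWalk, ?_⟩
        intro c hc d hd
        have hlast : (a :: l2.concat b).getLast? = some b := by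
          rw [List.concat_eq_append, ← List.cons_append, List.getLast?_append]
          simp
        rw [hlast] at hc
        simp only [List.head?_cons, Option.mem_def, Option.some.injEq] at hc hd
        subst hc hd
        exact ⟨by rw [h.last b hlast, h.1], hab⟩

/-- GL0 -/
theorem RW.girth {g : ℕ} (hg : Girth σ g) {u : S.B} {l : List (Port S)} (h : RW σ u l u)
    (hl : l ≠ []) : g ≤ l.length := gl0 hg l.length u l rfl h hl

/-- GL: two short reduced walks with the same ends are equal -/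
theorem RW.unique {g : ℕ} (hg : Girth σ g) {u v : S.B} {l l' : List (Port S)}
    (h : RW σ u l v) (h' : RW σ u l' v) (hlt : l.length + l'.length < g) : l = l' := by
  induction l generalizing u l' with
  | nil =>
    have : u = v := h
    subst this
    by_contra hne
    have := h'.girth hg (Ne.symm hne)
    simp only [List.length_nil] at hlt
    omega
  | cons a l ih =>
    cases l' with
    | nil =>
      exfalso
      have : u = v := h'
      subst this
      have := h.girth hg (by simp)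
      omega
    | cons b l' =>
      by_cases hab : a = b
      · subst hab
        rw [ih h.2.2 h'.2.2 (by simp only [List.length_cons] at hlt; omega)]
      · exfalso
        have h1 := h'.reverse.append h (by
          intro c hc d hd
          rw [rvw_getLast] at hc
          simp only [List.head?_cons, Option.map_some, Option.mem_def, Option.some.injEq] at hc hd
          subst hc hd
          rw [mt_mt]
          exact hab)
        have h2 := h1.girth hg (by simp)
        rw [List.length_append, rvw_length] at h2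
        omega

end Vale.Agent.P201.S
end

section

/-!
P201, part LA: windows. A partial injection is cut in few short pieces.
-/

namespace Vale.Agent.P201.S

open Finset

variable {S : Type}

theorem pit_symm {f : S ≃. S} {k : ℕ} {s t : S} : pit f.symm k t = some s ↔ pit f k s = some t := by
  induction k generalizing s t with
  | zero =>
    rw [pit_zero, pit_zero, Option.some.injEq, Option.some.injEq]
    exact eq_comm
  | succ k ih =>
    rw [pit_succ, pit_succ', Option.bind_eq_some_iff, Option.bind_eq_some_iff]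
    constructor
    · rintro ⟨u, h1, h2⟩
      exact ⟨u, ih.1 h2, (PEquiv.eq_some_iff f).1 h1⟩
    · rintro ⟨u, h1, h2⟩
      exact ⟨u, (PEquiv.eq_some_iff f).2 h2, ih.2 h1⟩

/-- `t` is `L`-close to `s` along `f` (strictly after `s`) -/
def Cl (f : S ≃. S) (L : ℕ) (s t : S) : Prop := ∃ k, 0 < k ∧ k < L ∧ pit f k s = some t

/-- `T` is separated: no element of `T` is close after another one, unless the later one is a source;
sources have no predecessor anyway -/
def Sep (f : S ≃. S) (L : ℕ) (T : Finset S) : Prop := ∀ s ∈ T, ∀ t ∈ T, ¬ Cl f L s t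

variable [Fintype S] [DecidableEq S]

/-- sources -/
def src (f : S ≃. S) : Finset S := univ.filter fun s => (f.symm s).isNone

theorem mem_src {f : S ≃. S} {s : S} : s ∈ src f ↔ f.symm s = none := by
  unfold src
  simp only [Option.isNone_iff_eq_none, mem_filter, mem_univ, true_and]

theorem card_src (f : S ≃. S) : (src f).card = Fintype.card S - domc f := by
  classical
  have h1 : (univ.filter fun s => (f.symm s).isSome).card = domc f := by
    unfold domc
    refine Finset.card_bij' (fun s hs => (f.symm s).get (mem_filter.1 hs).2)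
      (fun s hs => (f s).get (mem_filter.1 hs).2) ?_ ?_ ?_ ?_
    · intro s hs
      rw [mem_filter]
      refine ⟨mem_univ _, ?_⟩
      have : f ((f.symm s).get (mem_filter.1 hs).2) = some s := by
        rw [← PEquiv.eq_some_iff]
        exact (Option.some_get _).symm
      rw [this]
      rfl
    · intro s hs
      rw [mem_filter]
      refine ⟨mem_univ _, ?_⟩
      have : f.symm ((f s).get (mem_filter.1 hs).2) = some s := by
        rw [PEquiv.eq_some_iff]
        exact (Option.some_get _).symm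
      rw [this]
      rfl
    · intro s hs
      have : f ((f.symm s).get (mem_filter.1 hs).2) = some s := by
        rw [← PEquiv.eq_some_iff]
        exact (Option.some_get _).symm
      simp only [this, Option.get_some]
    · intro s hs
      have : f.symm ((f s).get (mem_filter.1 hs).2) = some s := by
        rw [PEquiv.eq_some_iff]
        exact (Option.some_get _).symm
      simp only [this, Option.get_some]
  have h2 := Finset.card_filter_add_card_filter_not (s := (univ : Finset S))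
    (fun s => (f.symm s).isSome)
  rw [h1, Finset.card_univ] at h2
  have h3 : (src f) = univ.filter fun s => ¬ (f.symm s).isSome := by
    ext s
    rw [mem_src, mem_filter]
    simp only [mem_univ, Bool.not_eq_true, Option.isSome_eq_false_iff, Option.isNone_iff_eq_none, true_and]
  rw [h3]
  omega

theorem src_sep (f : S ≃. S) (L : ℕ) : Sep f L (src f) := by
  intro s _ t ht hc
  obtain ⟨k, hk, -, h⟩ := hc
  obtain ⟨k, rfl⟩ : ∃ m, k = m + 1 := ⟨k - 1, by omega⟩
  rw [pit_succ', Option.bind_eq_some_iff] at h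
  obtain ⟨u, -, h2⟩ := h
  have h3 : f.symm t = some u := (PEquiv.eq_some_iff f).2 h2
  rw [mem_src] at ht
  rw [ht] at h3
  exact absurd h3 (by simp)

/-- a maximal separated set containing the sources -/
theorem exists_max_sep (f : S ≃. S) (L : ℕ) : ∃ T : Finset S, src f ⊆ T ∧ Sep f L T ∧
    ∀ s, s ∉ T → ¬ Sep f L (insert s T) := by
  classical
  obtain ⟨T, hT1, hT2⟩ := Finset.exists_max_image
    (univ.filter fun T : Finset S => src f ⊆ T ∧ Sep f L T) Finset.card
    ⟨src f, mem_filter.2 ⟨mem_univ _, Subset.rfl, src_sep f L⟩⟩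
  rw [mem_filter] at hT1
  refine ⟨T, hT1.2.1, hT1.2.2, fun s hs hsep => ?_⟩
  have := hT2 (insert s T) (mem_filter.2 ⟨mem_univ _, hT1.2.1.trans (subset_insert _ _), hsep⟩)
  rw [card_insert_of_notMem hs] at this
  omega

/-- every element is the image of a source or lies on a cycle: going back `m` steps is possible or
one meets a source -/
theorem back_or_src (f : S ≃. S) (s : S) (m : ℕ) :
    (∃ t, pit f m t = some s) ∨ ∃ k t, k < m ∧ pit f k t = some s ∧ t ∈ src f := by
  induction m with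
  | zero => exact Or.inl ⟨s, rfl⟩
  | succ m ih =>
    rcases ih with ⟨t, ht⟩ | ⟨k, t, hk, ht, hs⟩
    · cases h : f.symm t with
      | none => exact Or.inr ⟨m, t, by omega, ht, mem_src.2 h⟩
      | some u =>
        left
        refine ⟨u, ?_⟩
        rw [pit_succ]
        rw [PEquiv.eq_some_iff] at h
        rw [h]
        exact ht
    · exact Or.inr ⟨k, t, by omega, ht, hs⟩

/-- windows -/
theorem exists_win (f : S ≃. S) {L : ℕ} (hL : 0 < L)
    (hcyc : ∀ s k, 0 < k → pit f k s = some s → 2 * L ≤ k) :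
    ∃ T : Finset S, src f ⊆ T ∧ (T.card - (Fintype.card S - domc f)) * L ≤ Fintype.card S ∧
      ∀ s, ∃ k t, k < 2 * L ∧ t ∈ T ∧ pit f k t = some s := by
  classical
  obtain ⟨T, hT1, hT2, hT3⟩ := exists_max_sep f L
  refine ⟨T, hT1, ?_, ?_⟩
  · -- counting
    have hcard : (T \ src f).card = T.card - (Fintype.card S - domc f) := by
      rw [card_sdiff_of_subset hT1, card_src]
    rw [← hcard]
    -- the map `(t, k) ↦` the element `k` steps before `t`
    have hback : ∀ t ∈ T \ src f, ∀ k < L, ∃ u, pit f k u = some t := by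
      intro t ht k hk
      rcases back_or_src f t k with h | ⟨j, u, hj, hu, hus⟩
      · exact h
      · exfalso
        rw [mem_sdiff] at ht
        rcases Nat.eq_zero_or_pos j with rfl | hj0
        · rw [pit_zero, Option.some.injEq] at hu
          subst hu
          exact ht.2 hus
        · exact hT2 u (hT1 hus) t ht.1 ⟨j, hj0, by omega, hu⟩
    choose! B hB using hback
    have hinj : Set.InjOn (fun x : S × ℕ => B x.1 x.2)
        (((T \ src f) ×ˢ range L : Finset (S × ℕ)) : Set (S × ℕ)) := by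
      rintro ⟨t, k⟩ hx ⟨t', k'⟩ hx' heq
      simp only [coe_product, Set.mem_prod, mem_coe, mem_range] at hx hx' heq
      have e1 := hB t hx.1 k hx.2
      have e2 := hB t' hx'.1 k' hx'.2
      rw [← heq] at e2
      have key : ∀ a b : ℕ, ∀ u v w : S, a < b → b < L → pit f a w = some u →
          pit f b w = some v → u ∈ T → v ∈ T → False := by
        intro a b u v w hab hbL hu hv huT hvT
        obtain ⟨c, rfl⟩ : ∃ c, b = a + c := ⟨b - a, by omega⟩
        rw [pit_add, hu, Option.bind_some] at hv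
        exact hT2 u huT v hvT ⟨c, by omega, by omega, hv⟩
      rcases lt_trichotomy k k' with h | h | h
      · exact (key k k' t t' _ h hx'.2 e1 e2 (mem_sdiff.1 hx.1).1 (mem_sdiff.1 hx'.1).1).elim
      · subst h
        rw [e1, Option.some.injEq] at e2
        rw [e2]
      · exact (key k' k t' t _ h hx.2 e2 e1 (mem_sdiff.1 hx'.1).1 (mem_sdiff.1 hx.1).1).elim
    have h1 := Finset.card_le_card_of_injOn (t := (univ : Finset S)) _
      (fun x _ => mem_coe.2 (mem_univ _)) hinj
    rw [card_product, card_range, card_univ] at h1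
    exact h1
  · -- covering
    intro s
    by_contra hcon
    push Not at hcon
    -- go back `L` steps
    have hb : ∃ u, pit f L u = some s := by
      rcases back_or_src f s L with h | ⟨j, u, hj, hu, hus⟩
      · exact h
      · exact (hcon j u (by omega) (hT1 hus) hu).elim
    obtain ⟨u, hu⟩ := hb
    have huT : u ∉ T := fun h => hcon L u (by omega) h hu
    apply hT3 u huT
    intro a ha b hb hc
    obtain ⟨k, hk0, hkL, hk⟩ := hc
    rw [mem_insert] at ha hb
    rcases ha with rfl | ha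
    · rcases hb with rfl | hb
      · have := hcyc _ k hk0 hk
        omega
      · -- `b` is between `a` and `s`
        obtain ⟨c, hc⟩ : ∃ c, L = k + c := ⟨L - k, by omega⟩
        rw [hc, pit_add, hk, Option.bind_some] at hu
        exact hcon c b (by omega) hb hu
    · rcases hb with rfl | hb
      · refine hcon (k + L) a (by omega) ha ?_
        rw [pit_add, hk, Option.bind_some, hu]
      · exact hT2 a ha b hb ⟨k, hk0, hkL, hk⟩

/-- coordinates: every element has a unique position in a window -/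
theorem exists_coord (f : S ≃. S) {T : Finset S} {m : ℕ} {s : S}
    (h : ∃ k t, k < m ∧ t ∈ T ∧ pit f k t = some s) :
    ∃ k t, k < m ∧ t ∈ T ∧ pit f k t = some s ∧
      ∀ j, 0 < j → j ≤ k → ∀ u, pit f j t = some u → u ∉ T := by
  classical
  let P : ℕ → Prop := fun k => ∃ t, k < m ∧ t ∈ T ∧ pit f k t = some s
  have hP : ∃ k, P k := h
  obtain ⟨t, h1, h2, h3⟩ := Nat.find_spec hP
  refine ⟨Nat.find hP, t, h1, h2, h3, fun j hj hjk u hu huT => ?_⟩
  obtain ⟨c, hc⟩ : ∃ c, Nat.find hP = j + c := ⟨Nat.find hP - j, by omega⟩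
  refine Nat.find_min hP (m := c) (by omega) ⟨u, by omega, huT, ?_⟩
  have h4 : pit f (Nat.find hP) t = some s := h3
  rw [hc, pit_add, hu, Option.bind_some] at h4
  exact h4

/-- uniqueness of the coordinates -/
theorem coord_unique (f : S ≃. S) {T : Finset S} {s t t' : S} {k k' : ℕ} (ht : t ∈ T)
    (ht' : t' ∈ T) (h : pit f k t = some s) (h' : pit f k' t' = some s)
    (hn : ∀ j, 0 < j → j ≤ k → ∀ u, pit f j t = some u → u ∉ T)
    (hn' : ∀ j, 0 < j → j ≤ k' → ∀ u, pit f j t' = some u → u ∉ T) : k = k' ∧ t = t' := by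
  have key : ∀ (a b : ℕ) (u v : S), pit f a u = some s → pit f b v = some s → v ∈ T → a < b →
      (∀ j, 0 < j → j ≤ b → ∀ w, pit f j v = some w → w ∉ T) → u ∈ T → False := by
    intro a b u v hu hv _ hab hnv huT
    obtain ⟨c, rfl⟩ : ∃ c, b = c + a := ⟨b - a, by omega⟩
    rw [pit_add, Option.bind_eq_some_iff] at hv
    obtain ⟨w, hw1, hw2⟩ := hv
    have := pit_inj hw2 hu
    subst this
    exact hnv c (by omega) (by omega) _ hw1 huT
  rcases lt_trichotomy k k' with hlt | heq | hlt
  · exact (key k k' t t' h h' ht' hlt hn' ht).elim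
  · subst heq
    exact ⟨rfl, pit_inj h h'⟩
  · exact (key k' k t' t h' h ht hlt hn ht').elim

end Vale.Agent.P201.S
end

section

/-!
P201, part LA: fans are reduced walks; the girth bound for closed fans.
-/

namespace Vale.Agent.P201.S

open Finset

section minper

variable {S : Type} {f : S ≃. S}

theorem exists_minper {s : S} (hs : Per f s) : ∃ k, 0 < k ∧ pit f k s = some s ∧
    ∀ j, 0 < j → j < k → pit f j s ≠ some s := by
  classical
  refine ⟨Nat.find hs, (Nat.find_spec hs).1, (Nat.find_spec hs).2, fun j hj hjk h => ?_⟩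
  exact Nat.find_min hs hjk ⟨hj, h⟩

theorem pit_isSome {s : S} {k j : ℕ} (hjk : j ≤ k) (h : (pit f k s).isSome) :
    (pit f j s).isSome := by
  obtain ⟨i, rfl⟩ := Nat.exists_eq_add_of_le hjk
  rw [pit_add] at h
  cases hj : pit f j s with
  | none => rw [hj] at h; exact absurd h (by simp)
  | some u => rfl

variable [Fintype S]

/-- The orbit of a periodic point has at least as many elements as the minimal period. -/
theorem minper_le {s : S} {k : ℕ} (hk : pit f k s = some s)
    (hmin : ∀ j, 0 < j → j < k → pit f j s ≠ some s) : k ≤ (orb f s).card := by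
  classical
  have hsome : ∀ i : Fin k, (pit f i s).isSome := fun i =>
    pit_isSome i.2.le (by rw [hk]; rfl)
  let F : Fin k → S := fun i => (pit f i s).get (hsome i)
  have hF : ∀ i : Fin k, pit f i s = some (F i) := fun i => (Option.some_get _).symm
  have key : ∀ i j : Fin k, i < j → F i ≠ F j := by
    intro i j hij h
    have h1 : pit f (k - j) (F j) = some s := by
      have h2 : pit f (j + (k - j)) s = some s := by
        rw [Nat.add_sub_cancel' j.2.le]
        exact hk
      rw [pit_add, hF j] at h2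
      exact h2
    have h3 : pit f (i + (k - j)) s = some s := by
      rw [pit_add, hF i, h]
      exact h1
    have := i.2
    have := j.2
    have hij' : (i : ℕ) < j := hij
    exact hmin _ (by omega) (by omega) h3
  have hinj : Function.Injective F := by
    intro i j h
    rcases lt_trichotomy i j with h1 | h1 | h1
    · exact absurd h (key i j h1)
    · exact h1
    · exact absurd h.symm (key j i h1)
  have himg : univ.image F ⊆ orb f s := by
    intro t ht
    obtain ⟨i, _, rfl⟩ := mem_image.1 ht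
    exact mem_orb.2 ⟨i, hF i⟩
  have := card_le_card himg
  rwa [card_image_of_injective _ hinj, card_univ, Fintype.card_fin] at this

end minper

variable {S : Sys} {σ : Equiv.Perm S.C}

namespace Glue

variable {G : Glue σ}

/-- the ports of a fan starting at `s` with `k + 1` squares -/
noncomputable def fan (G : Glue σ) : ℕ → G.Q → List (Port S)
  | 0, s => [G.ε s]
  | k + 1, s => G.ε s :: (match G.Y s with
    | none => []
    | some u => fan G k u)

theorem fan_succ {k : ℕ} {s u : G.Q} (h : G.Y s = some u) :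
    G.fan (k + 1) s = G.ε s :: G.fan k u := by
  show G.ε s :: (match G.Y s with
    | none => []
    | some u => fan G k u) = _
  rw [h]

theorem fan_head (k : ℕ) (s : G.Q) : (G.fan k s).head? = some (G.ε s) := by
  cases k <;> rfl

theorem fan_walk (h : G.Red) {k : ℕ} {s : G.Q} (hk : (pit G.Y k s).isSome) :
    IsWalk σ (G.fan k s) := by
  induction k generalizing s with
  | zero => exact List.isChain_singleton _
  | succ k ih =>
    rw [pit_succ] at hk
    cases hY : G.Y s with
    | none => rw [hY] at hk; exact absurd hk (by simp)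
    | some u =>
      rw [hY] at hk
      rw [fan_succ hY]
      have h1 := ih hk
      unfold IsWalk at h1 ⊢
      refine List.IsChain.cons h1 ?_
      intro y hy
      rw [fan_head] at hy
      obtain rfl := Option.some.inj hy
      exact h.y s u hY

theorem fan_last {k : ℕ} {s t : G.Q} (hk : pit G.Y k s = some t) :
    (G.fan k s).getLast? = some (G.ε t) := by
  induction k generalizing s with
  | zero =>
    rw [pit_zero] at hk
    obtain rfl := Option.some.inj hk
    rfl
  | succ k ih =>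
    rw [pit_succ] at hk
    cases hY : G.Y s with
    | none => rw [hY] at hk; exact absurd hk (by simp)
    | some u =>
      rw [hY] at hk
      rw [fan_succ hY, List.getLast?_cons, ih hk]
      rfl

theorem fan_length {k : ℕ} {s t : G.Q} (hk : pit G.Y k s = some t) :
    (G.fan k s).length = k + 1 := by
  induction k generalizing s with
  | zero => rfl
  | succ k ih =>
    rw [pit_succ] at hk
    cases hY : G.Y s with
    | none => rw [hY] at hk; exact absurd hk (by simp)
    | some u =>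
      rw [hY] at hk
      rw [fan_succ hY, List.length_cons, ih hk]

/-- the `i`-th port of a fan -/
theorem fan_getElem? {k : ℕ} {s t u : G.Q} (hk : pit G.Y k s = some t) {i : ℕ} (hi : i ≤ k)
    (hu : pit G.Y i s = some u) : (G.fan k s)[i]? = some (G.ε u) := by
  induction k generalizing s i with
  | zero =>
    obtain rfl : i = 0 := by omega
    rw [pit_zero] at hu
    obtain rfl := Option.some.inj hu
    rfl
  | succ k ih =>
    rw [pit_succ] at hk
    cases hY : G.Y s with
    | none => rw [hY] at hk; exact absurd hk (by simp)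
    | some v =>
      rw [hY] at hk
      rw [fan_succ hY]
      cases i with
      | zero =>
        rw [pit_zero] at hu
        obtain rfl := Option.some.inj hu
        rfl
      | succ i =>
        rw [pit_succ, hY] at hu
        rw [List.getElem?_cons_succ]
        exact ih hk (by omega) hu

/-- A closed fan is a closed reduced walk. -/
theorem girth_per (h : G.Red) {g : ℕ} (hg : Girth σ g) {k : ℕ} (hk0 : 0 < k) {s : G.Q}
    (hk : pit G.Y k s = some s) : g ≤ k := by
  obtain ⟨k, rfl⟩ : ∃ j, k = j + 1 := ⟨k - 1, by omega⟩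
  rw [pit_succ'] at hk
  cases ht : pit G.Y k s with
  | none => rw [ht] at hk; exact absurd hk (by simp)
  | some t =>
    rw [ht] at hk
    have hY : G.Y t = some s := hk
    have h1 := hg (G.fan k s) (by
      intro h0
      have := fan_head (G := G) k s
      rw [h0] at this
      exact absurd this (by simp)) ⟨fan_walk h (by rw [ht]; rfl), by
        intro a ha b hb
        rw [fan_last ht] at ha
        rw [fan_head] at hb
        obtain rfl := Option.some.inj ha
        obtain rfl := Option.some.inj hb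
        exact h.y t s hY⟩
    rwa [fan_length ht] at h1

theorem girth_orb (h : G.Red) {g : ℕ} (hg : Girth σ g) {s : G.Q} (hs : Per G.Y s) :
    g ≤ (orb G.Y s).card := by
  obtain ⟨k, hk0, hk, hmin⟩ := exists_minper hs
  exact (girth_per h hg hk0 hk).trans (minper_le hk hmin)

/-- `g` times the number of closed fans is at most the number of squares. -/
theorem girth_cyc (h : G.Red) {g : ℕ} (hg : Girth σ g) : g * cyc G.Y ≤ Fintype.card G.Q := by
  classical
  refine (cyc_weight0 G.Y (fun _ => 1) g ?_).trans ?_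
  · intro s hs
    rw [sum_const, smul_eq_mul, mul_one]
    exact girth_orb h hg hs
  · rw [sum_const, smul_eq_mul, mul_one]
    exact card_le_univ _

end Glue

end Vale.Agent.P201.S
end

section

/-!
P201, part LA: assembly of `StmtLA` from the blocks of `Skel.lean` (helper26).
-/

namespace Vale.Agent.P201.S

open Finset

variable {S : Sys} {σ : Equiv.Perm (S.C)}

namespace LAMain

/-- a total partial injection of a finite type is periodic -/
theorem per_of_total {S : Type} [Fintype S] [DecidableEq S] (f : S ≃. S)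
    (h : Fintype.card S = domc f) (s : S) : Per f s := by
  classical
  have hsrc : src f = ∅ := by
    rw [← Finset.card_eq_zero, card_src, h, Nat.sub_self]
  have hb : ∀ m, ∃ t, pit f m t = some s := by
    intro m
    rcases back_or_src f s m with h1 | ⟨k, t, -, -, h2⟩
    · exact h1
    · rw [hsrc] at h2
      simp at h2
  choose t ht using hb
  obtain ⟨a, b, hab, heq⟩ := Finite.exists_ne_map_eq_of_infinite t
  wlog hlt : a < b generalizing a b
  · exact this b a (Ne.symm hab) heq.symm (by omega)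
  refine ⟨b - a, by omega, ?_⟩
  have h1 := ht b
  rw [show b = a + (b - a) by omega, pit_add] at h1
  rw [show a + (b - a) = b by omega, ← heq, ht a, Option.bind_some] at h1
  exact h1

theorem big (G : Glue σ) (hR : G.Red) {g : ℕ} (hg : Girth σ g)
    (h : Fintype.card G.Q = domc G.Y) : Fintype.card G.Q = 0 ∨ g ≤ Fintype.card G.Q := by
  rcases Nat.eq_zero_or_pos (Fintype.card G.Q) with h0 | h0
  · exact Or.inl h0
  · right
    obtain ⟨s⟩ := Fintype.card_pos_iff.1 h0
    exact (Glue.girth_orb hR hg (per_of_total G.Y h s)).trans (card_le_univ _)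

/-- size of the family -/
theorem log_card (M B1 B2 k : ℕ) (h : k ≤ (M + 1) * (M + 2) ^ B1 * B2 + 1) (hk : 0 < k) :
    Real.log k ≤ (B1 + 1 + B2) * (Real.log (M + 2) + 1) := by
  have hM : (0 : ℝ) ≤ Real.log (M + 2) := Real.log_nonneg (by
    have : (0 : ℝ) ≤ M := Nat.cast_nonneg M
    linarith only [])
  have h1 : k ≤ (M + 2) ^ (B1 + 1) * (B2 + 1) := by
    have h2 : 1 ≤ (M + 2) ^ B1 := Nat.one_le_pow _ _ (by omega)
    have h3 : (M + 1) * (M + 2) ^ B1 * B2 ≤ (M + 2) ^ (B1 + 1) * B2 := by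
      rw [pow_succ']
      gcongr
      omega
    have h4 : 1 ≤ (M + 2) ^ (B1 + 1) := Nat.one_le_pow _ _ (by omega)
    calc k ≤ (M + 1) * (M + 2) ^ B1 * B2 + 1 := h
      _ ≤ (M + 2) ^ (B1 + 1) * B2 + (M + 2) ^ (B1 + 1) := by omega
      _ = _ := by ring
  have h5 : Real.log k ≤ Real.log (((M + 2) ^ (B1 + 1) * (B2 + 1) : ℕ) : ℝ) := by
    apply Real.log_le_log
    · exact_mod_cast hk
    · exact_mod_cast h1
  have h6 : Real.log (((M + 2) ^ (B1 + 1) * (B2 + 1) : ℕ) : ℝ) =
      (B1 + 1) * Real.log (M + 2) + Real.log (B2 + 1) := by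
    push_cast
    rw [Real.log_mul (by positivity) (by positivity), Real.log_pow]
    push_cast
    ring
  have h7 : Real.log ((B2 : ℝ) + 1) ≤ B2 := by
    have := Real.log_le_sub_one_of_pos (show (0 : ℝ) < (B2 : ℝ) + 1 by positivity)
    linarith only [this]
  have hB1 : (0 : ℝ) ≤ B1 := Nat.cast_nonneg _
  have hB2 : (0 : ℝ) ≤ B2 := Nat.cast_nonneg _
  nlinarith only [h5, h6, h7, hM]

end LAMain

open LAMain in
/-- **`StmtLA` from the blocks** -/
theorem stmtLA_of (hRho : StmtRho) (hRec : StmtRcd) (hCode : StmtCode) (hCnt : StmtCnt)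
    (hLev : StmtLev) (hNum : StmtNum) : StmtLA := by
  classical
  intro D0 c hc C1 hC1
  have hL0 : 0 ≤ Real.log (D0 : ℝ) := Real.log_natCast_nonneg _
  obtain ⟨e1, he1, hNum⟩ := hNum _ hL0
  refine ⟨e1, he1, fun K => ?_⟩
  obtain ⟨A, hA1, hA2⟩ : ∃ A : ℕ, (K : ℝ) / c ≤ A ∧ e1 * K ≤ A :=
    ⟨max ⌈(K : ℝ) / c⌉₊ ⌈e1 * K⌉₊, by
      push_cast
      exact (Nat.le_ceil _).trans (le_max_left _ _), by
      push_cast
      exact (Nat.le_ceil _).trans (le_max_right _ _)⟩
  obtain ⟨B1, hCode⟩ := hCode A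
  obtain ⟨B2, hCnt⟩ := hCnt A
  have hB1 : (0 : ℝ) ≤ B1 := Nat.cast_nonneg _
  have hB2 : (0 : ℝ) ≤ B2 := Nat.cast_nonneg _
  obtain ⟨D, hDdef⟩ : ∃ D : ℝ, D = (4 * (B2 : ℝ) ^ 2 + 4 * B2) *
      (1 + C1 + (B1 + 1 + B2) + Real.log D0) := ⟨_, rfl⟩
  have hD : 0 ≤ D := by rw [hDdef]; (clear * - hC1; positivity)
  obtain ⟨Y0, hNum⟩ := hNum c D K hc hD
  refine ⟨max 1 ⌈Real.exp (max (Y0 : ℝ) (3 / c))⌉₊, ?_⟩
  intro S hS hn Y g hY1 hY2 hg hsize
  have hNpos : 0 < Fintype.card (S.C) := (le_max_left _ _).trans hn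
  have hn2 : Real.exp (max (Y0 : ℝ) (3 / c)) ≤ Fintype.card (S.C) :=
    (Nat.le_ceil _).trans (by exact_mod_cast (le_max_right _ _).trans hn)
  have hYbig : max (Y0 : ℝ) (3 / c) ≤ Y := by
    refine le_trans ?_ hY1
    rw [Real.le_log_iff_exp_le (by exact_mod_cast hNpos)]
    exact hn2
  have hYY0 : Y0 ≤ Y := by exact_mod_cast (le_max_left _ _).trans hYbig
  have hg3 : 3 ≤ g := by
    have h1 : 3 / c ≤ Y := (le_max_right _ _).trans hYbig
    have h2 : (3 : ℝ) ≤ c * Y := by
      rw [div_le_iff₀ hc] at h1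
      linarith only [h1]
    exact_mod_cast h2.trans hg
  have hKY : K * Y ≤ A * g := by
    have h1 : (K : ℝ) ≤ A * c := by rwa [div_le_iff₀ hc] at hA1
    have h2 : (K : ℝ) * Y ≤ A * g := by
      calc (K : ℝ) * Y ≤ A * c * Y := mul_le_mul_of_nonneg_right h1 (Nat.cast_nonneg _)
        _ = A * (c * Y) := by ring
        _ ≤ A * g := mul_le_mul_of_nonneg_left hg (Nat.cast_nonneg _)
    exact_mod_cast h2
  -- the codes
  have hC : ∀ F : Fin (K * Y + 1), ∃ CC : Set (Cmb F),
      CC.Finite ∧ CC.ncard ≤ (F.1 + 2) ^ B1 ∧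
      ∀ (σ : Equiv.Perm (S.C)), Girth σ g → ∀ G : Glue σ, G.Red → G.Lab → G.Eul →
        Fintype.card G.Q = F → F ≤ domc G.Y + A → ∃ e : G.Q ≃ Fin F, ∃ c ∈ CC, IsCmb G e c :=
    fun F => hCode S F g hg3 ((Nat.lt_succ_iff.1 F.2).trans hKY)
  choose CC hfin hcc1 hcc2 using hC
  -- the patterns
  have hP : ∀ (F : ℕ) (c : Cmb F) (t : ℕ), ∃ P : Ptn, Fintype.card P.E ≤ F ∧
    ∀ (σ : Equiv.Perm (S.C)) (G : Glue σ) (e : G.Q ≃ Fin F), G.Red → IsCmb G e c →
      ∀ C1 K0 : ℝ, (∀ r : Rlz P σ, UIneq r C1 K0) → G.LevU C1 K0 (t + 1) :=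
    fun F c t => hRec S F c (t + 1) (by omega)
  choose PP hPE hPP using hP
  have : ∀ F, Fintype (CC F) := fun F => (hfin F).fintype
  let ι : Type := Option (Σ F : Fin (K * Y + 1), (CC F) × Fin B2)
  let PF : ι → Ptn := fun i => match i with
    | none => PP 0 ⟨fun _ _ => True, fun _ _ => True, fun _ _ => True, fun _ _ => True⟩ 0
    | some x => PP x.1 x.2.1.1 x.2.2.1
  refine ⟨ι, inferInstance, inferInstance, PF, ?_, ?_⟩
  · intro i
    match i with
    | none => exact (hPE _ _ _).trans (Nat.zero_le _)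
    | some x => exact (hPE _ _ _).trans (Nat.lt_succ_iff.1 x.1.2)
  intro σ hσ hUI G hR hL hE hF
  have hX := domc_le_card G.X
  have hY := domc_le_card G.Y
  by_cases hop : Fintype.card G.Q ≤ domc G.Y + A
  swap
  · -- trivial case
    have h1 : (A : ℝ) ≤ (Fintype.card G.Q : ℝ) - domc G.Y := by
      have : domc G.Y + A ≤ Fintype.card G.Q := by omega
      have h2 : ((domc G.Y + A : ℕ) : ℝ) ≤ (Fintype.card G.Q : ℕ) := by exact_mod_cast this
      push_cast at h2
      linarith only [h2]
    have h2 : (0 : ℝ) ≤ (Fintype.card G.Q : ℝ) - domc G.X := by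
      have : (domc G.X : ℝ) ≤ (Fintype.card G.Q : ℕ) := by exact_mod_cast hX
      linarith only [this]
    have h3 : (Fintype.card G.Q : ℝ) ≤ K * Y := by exact_mod_cast hF
    have hYn : (0 : ℝ) ≤ Y := Nat.cast_nonneg _
    calc e1 * (Fintype.card G.Q : ℝ) ≤ e1 * (K * Y) := mul_le_mul_of_nonneg_left h3 he1.le
      _ = e1 * K * Y := by ring
      _ ≤ A * Y := mul_le_mul_of_nonneg_right hA2 hYn
      _ = Y * A := mul_comm _ _
      _ ≤ Y * ((Fintype.card G.Q : ℝ) - domc G.Y) := mul_le_mul_of_nonneg_left h1 hYn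
      _ ≤ _ := by linarith only [h2]
  -- main case
  have hBnd := hCnt S g hg3 σ hσ G hR hL hE (hF.trans hKY) hop
  have hK0 : (0 : ℝ) ≤ Real.log (Fintype.card ι) := Real.log_natCast_nonneg _
  have hlev : ∀ t, 1 ≤ t → t ≤ B2 → G.LevU C1 (Real.log (Fintype.card ι)) t := by
    intro t ht1 ht2
    obtain ⟨e, c', hc', hIs⟩ := hcc2 ⟨Fintype.card G.Q, by omega⟩ σ hσ G hR hL hE rfl hop
    have h := hPP (Fintype.card G.Q) c' (t - 1) σ G e hR hIs C1 (Real.log (Fintype.card ι))
      (fun r => hUI (some ⟨⟨Fintype.card G.Q, by omega⟩, ⟨c', hc'⟩, ⟨t - 1, by omega⟩⟩) r)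
    rwa [show t - 1 + 1 = t by omega] at h
  have hfinal := hLev S D0 σ G hR (hRho S D0 hS hNpos) hNpos B2 C1 _ hC1 hK0 hBnd hlev
  -- size of the family
  have hcardι : Fintype.card ι ≤ (K * Y + 1) * (K * Y + 2) ^ B1 * B2 + 1 := by
    have h1 : Fintype.card ι = (∑ F : Fin (K * Y + 1), Fintype.card (CC F) * B2) + 1 := by
      simp only [Fintype.card_option, Fintype.card_sigma, Fintype.card_prod, Fintype.card_fin, ι]
    rw [h1]
    have h2 : ∀ F : Fin (K * Y + 1), Fintype.card (CC F) * B2 ≤ (K * Y + 2) ^ B1 * B2 := by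
      intro F
      have h3 : Fintype.card (CC F) = (CC F).ncard := by
        rw [← Nat.card_coe_set_eq, Nat.card_eq_fintype_card]
      rw [h3]
      refine Nat.mul_le_mul_right _ ((hcc1 F).trans ?_)
      exact Nat.pow_le_pow_left (by have := F.2; (clear * - this; omega)) _
    have h4 := Finset.sum_le_sum fun F (_ : F ∈ (univ : Finset (Fin (K * Y + 1)))) => h2 F
    rw [sum_const, card_univ, Fintype.card_fin, smul_eq_mul] at h4
    rw [mul_assoc]
    omega
  have hlogι := log_card (K * Y) B1 B2 _ hcardι Fintype.card_pos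
  push_cast at hlogι
  have hlogM : (0 : ℝ) ≤ Real.log (K * Y + 2) := Real.log_nonneg (by
    have : (0 : ℝ) ≤ (K : ℝ) * Y := by (clear * -; positivity)
    linarith only [this])
  -- numerics
  have hnum := hNum Y g (Fintype.card G.Q) (Fintype.card G.Q - domc G.Y)
    (Fintype.card G.Q - domc G.X) hYY0 hg hF
    (fun h0 => big G hR hσ (by (clear * - hY h0; omega))) ?_
  · rw [Nat.cast_sub hX, Nat.cast_sub hY] at hnum
    exact hnum
  · rw [Nat.cast_sub hX, Nat.cast_sub hY]
    refine hfinal.trans ?_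
    have h1 : ((Fintype.card G.Q : ℝ) - domc G.Y) * Real.log (Fintype.card (S.C)) ≤
        ((Fintype.card G.Q : ℝ) - domc G.Y) * Y := by
      apply mul_le_mul_of_nonneg_left hY1
      have : (domc G.Y : ℝ) ≤ (Fintype.card G.Q : ℕ) := by exact_mod_cast hY
      linarith only [this]
    have h2 : (4 * (B2 : ℝ) ^ 2 + 4 * B2) *
        (1 + C1 + Real.log (Fintype.card ι) + Real.log D0) ≤
        D * (Real.log (K * Y + 2) + 1) := by
      rw [hDdef, mul_assoc]
      apply mul_le_mul_of_nonneg_left _ (by (clear * -; positivity))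
      nlinarith only [hlogι, hlogM, hC1, hL0]
    linarith only [h1, h2]

end Vale.Agent.P201.S
end

section

/-!
P201, part LA3: level patterns of gluing data and their canonical realization (helper576).
-/

namespace Vale.Agent.P201.S

open Finset

variable {S : Sys} {σ : Equiv.Perm S.C}

/-- no loops in the matching graph -/
def NoLoop (σ : Equiv.Perm S.C) : Prop := ∀ q : Port S, S.blk (mt σ q) ≠ S.blk q

theorem Girth.noLoop {g : ℕ} (hg : Girth σ g) (h2 : 2 ≤ g) : NoLoop σ := by
  intro q hq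
  have h1 : IsCWalk σ [q] := by
    refine ⟨List.isChain_singleton q, ?_⟩
    intro a ha b hb
    simp only [List.getLast?_singleton, List.head?_cons, Option.mem_def, Option.some.injEq] at ha hb
    subst ha hb
    exact ⟨hq, (mt_ne σ q).symm⟩
  have := hg [q] (by simp) h1
  simp only [List.length_cons, List.length_nil, zero_add] at this
  omega

namespace Glue

variable {G : Glue σ}

theorem mulP_mt (q : Port S) : G.mulP (mt σ q) = G.mulP q := by
  unfold mulP
  congr 1
  ext s
  simp only [mem_filter, mem_univ, true_and]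
  constructor
  · rintro (h | h)
    · exact Or.inr (by rw [h, mt_mt])
    · exact Or.inl (mt_inj σ h)
  · rintro (h | h)
    · exact Or.inr (by rw [h])
    · exact Or.inl (by rw [← h, mt_mt])

open Classical in
theorem mulP_le (hR : G.Red) (q : Port S) : G.mulP q ≤ G.mulB (S.blk q) := by
  unfold mulP mulB
  have hsub : (univ.filter fun s : G.Q => G.ε s = q ∨ mt σ (G.ε s) = q) ⊆
      ((univ.filter fun s : G.Q => mt σ (G.ε s) = q) ∪
        (univ.filter fun s : G.Q => G.ε s = q ∧ ∃ r, G.Y r = some s)) ∪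
      (univ.filter fun s : G.Q => G.Y.symm s = none ∧ S.blk (G.ε s) = S.blk q) := by
    intro s hs
    simp only [mem_union, mem_filter, mem_univ, true_and] at hs ⊢
    rcases hs with h | h
    · cases h1 : G.Y.symm s with
      | none => exact Or.inr ⟨rfl, by rw [h]⟩
      | some r =>
        left; right
        exact ⟨h, r, (PEquiv.eq_some_iff _).1 h1⟩
    · exact Or.inl (Or.inl h)
  refine (card_le_card hsub).trans ((card_union_le _ _).trans (Nat.add_le_add_right ?_ _))
  refine Finset.card_le_card_of_injOn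
    (fun s => if mt σ (G.ε s) = q then s else (G.Y.symm s).getD s) ?_ ?_
  · intro s hs
    rw [mem_coe, mem_union, mem_filter, mem_filter] at hs
    rw [mem_coe, mem_filter]
    refine ⟨mem_univ _, ?_⟩
    by_cases h1 : mt σ (G.ε s) = q
    · simp only [h1, if_true]
    · rcases hs with h | h
      · exact absurd h.2 h1
      · obtain ⟨-, h2, r, h3⟩ := h
        have h4 : G.Y.symm s = some r := (PEquiv.eq_some_iff _).2 h3
        simp only [h1, if_false, h4, Option.getD_some]
        rw [(hR.y r s h3).1, h2]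
  · intro s hs t ht hst
    rw [mem_coe, mem_union, mem_filter, mem_filter] at hs ht
    simp only at hst
    by_cases h1 : mt σ (G.ε s) = q <;> by_cases h2 : mt σ (G.ε t) = q
    · simpa [h1, h2] using hst
    · rcases ht with h | h
      · exact absurd h.2 h2
      · obtain ⟨-, k2, r, k3⟩ := h
        have h4 : G.Y.symm t = some r := (PEquiv.eq_some_iff _).2 k3
        simp only [h1, h2, if_true, if_false, h4, Option.getD_some] at hst
        subst hst
        exact absurd (k2.trans h1.symm) (hR.y s t k3).2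
    · rcases hs with h | h
      · exact absurd h.2 h1
      · obtain ⟨-, k2, r, k3⟩ := h
        have h4 : G.Y.symm s = some r := (PEquiv.eq_some_iff _).2 k3
        simp only [h1, h2, if_true, if_false, h4, Option.getD_some] at hst
        subst hst
        exact absurd (k2.trans h2.symm) (hR.y r s k3).2
    · rcases hs with h | h
      · exact absurd h.2 h1
      · rcases ht with k | k
        · exact absurd k.2 h2
        · obtain ⟨-, -, r, h3⟩ := h
          obtain ⟨-, -, r', k3⟩ := k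
          have h4 : G.Y.symm s = some r := (PEquiv.eq_some_iff _).2 h3
          have k4 : G.Y.symm t = some r' := (PEquiv.eq_some_iff _).2 k3
          simp only [h1, h2, if_false, h4, k4, Option.getD_some] at hst
          subst hst
          rw [h3] at k3
          exact Option.some.inj k3

open Classical in
theorem OU.mulB_le {b : S.B} {u : Port S × Port S} (hu : G.OU b u) :
    G.mulB b ≤ G.mulP u.1 := by
  have hr := hu.reg
  unfold mulP mulB
  have h0 : (univ.filter fun s : G.Q => G.Y.symm s = none ∧ S.blk (G.ε s) = b).card = 0 := by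
    rw [card_eq_zero, filter_eq_empty_iff]
    rintro s - ⟨h1, h2⟩
    obtain ⟨r, h3⟩ := hr.ran s h2
    rw [(PEquiv.eq_some_iff _).2 h3] at h1
    exact absurd h1 (by simp)
  rw [h0, add_zero]
  have key : ∀ s, S.blk (mt σ (G.ε s)) = b → ∃ v, G.Y s = some v ∧
      (mt σ (G.ε s) = u.1 ∨ G.ε v = u.1) := by
    intro s hs
    obtain ⟨v, hv⟩ := hr.dom s hs
    refine ⟨v, hv, ?_⟩
    rcases hu.two ⟨hr, s, v, hv, hs, Or.inl rfl⟩ with h | h
    · exact Or.inl (congrArg Prod.fst h)
    · exact Or.inr (congrArg Prod.snd h)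
  refine Finset.card_le_card_of_injOn
    (fun s => if mt σ (G.ε s) = u.1 then s else (G.Y s).getD s) ?_ ?_
  · intro s hs
    rw [mem_coe, mem_filter] at hs
    rw [mem_coe, mem_filter]
    refine ⟨mem_univ _, ?_⟩
    obtain ⟨v, hv, h1⟩ := key s hs.2
    by_cases h2 : mt σ (G.ε s) = u.1
    · simp only [h2, if_true, or_true]
    · simp only [h2, if_false, hv, Option.getD_some]
      rcases h1 with h1 | h1
      · exact absurd h1 h2
      · exact Or.inl h1
  · intro s hs t ht hst
    rw [mem_coe, mem_filter] at hs ht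
    obtain ⟨v, hv, h1⟩ := key s hs.2
    obtain ⟨w, hw, k1⟩ := key t ht.2
    simp only at hst
    by_cases h2 : mt σ (G.ε s) = u.1 <;> by_cases k2 : mt σ (G.ε t) = u.1
    · simpa [h2, k2] using hst
    · simp only [h2, k2, if_true, if_false, hw, Option.getD_some] at hst
      subst hst
      rcases k1 with k1 | k1
      · exact absurd k1 k2
      · exact absurd (h2.trans k1.symm) (mt_ne σ _)
    · simp only [h2, k2, if_true, if_false, hv, Option.getD_some] at hst
      subst hst
      rcases h1 with h1 | h1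
      · exact absurd h1 h2
      · exact absurd (k2.trans h1.symm) (mt_ne σ _)
    · simp only [h2, k2, if_false, hv, hw, Option.getD_some] at hst
      subst hst
      exact G.Y.inj hv hw

theorem OU.mulP_eq (hR : G.Red) {b : S.B} {u : Port S × Port S} (hu : G.OU b u) :
    G.mulP u.1 = G.mulB b :=
  le_antisymm (by have := mulP_le hR u.1; rwa [hu.blk1 hR] at this) hu.mulB_le

/-- used ports at a regular block -/
theorem OU.used (hR : G.Red) {b : S.B} {u : Port S × Port S} (hu : G.OU b u)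
    {q : Port S} (hq : 1 ≤ G.mulP q) (hb : S.blk q = b) : q = u.1 ∨ q = u.2 := by
  have hr := hu.reg
  unfold mulP at hq
  obtain ⟨s, hs⟩ := card_pos.1 hq
  rw [mem_filter] at hs
  rcases hs.2 with h | h
  · obtain ⟨r, h3⟩ := hr.ran s (by rw [h]; exact hb)
    have h5 : S.blk (mt σ (G.ε r)) = b := by rw [(hR.y r s h3).1, h, hb]
    rcases hu.two ⟨hr, r, s, h3, h5, Or.inl rfl⟩ with h1 | h1
    · right; rw [← h]; exact congrArg Prod.snd h1
    · left; rw [← h]; exact congrArg Prod.snd h1
  · obtain ⟨v, hv⟩ := hr.dom s (by rw [h]; exact hb)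
    rcases hu.two ⟨hr, s, v, hv, by rw [h]; exact hb, Or.inl rfl⟩ with h1 | h1
    · left; rw [← h]; exact congrArg Prod.fst h1
    · right; rw [← h]; exact congrArg Prod.fst h1

theorem OU.ne (hR : G.Red) {b : S.B} {u : Port S × Port S} (hu : G.OU b u) :
    u.1 ≠ u.2 := (hu.isU hR).2

section ptn

variable (G)

/-- regular blocks of the level `t` -/
abbrev RT (t : ℕ) : Type := {b : S.B // G.Reg b ∧ t ≤ G.mulB b}

/-- irregular blocks of the level `t` -/
abbrev VT (t : ℕ) : Type := {b : S.B // ¬ G.Reg b ∧ t ≤ G.mulB b}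

/-- edges of the level `t` -/
abbrev ET (t : ℕ) : Type := {c : S.C // t ≤ G.mulP (c, true)}

open Classical in
/-- the place of a port -/
noncomputable def attQ (t : ℕ) (q : Port S) (hm : t ≤ G.mulB (S.blk q)) :
    G.VT t ⊕ (G.RT t × Bool) :=
  if hr : G.Reg (S.blk q) then Sum.inr (⟨_, hr, hm⟩, decide (q = (G.fu _ hr).1))
  else Sum.inl ⟨_, hr, hm⟩

variable {G} in
theorem attQ_congr {t : ℕ} {q q' : Port S} (h : q = q') {hm : t ≤ G.mulB (S.blk q)}
    {hm' : t ≤ G.mulB (S.blk q')} : G.attQ t q hm = G.attQ t q' hm' := by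
  subst h
  rfl

variable {G} in
theorem attQ_inl {t : ℕ} {q : Port S} {hm : t ≤ G.mulB (S.blk q)} {v : G.VT t}
    (h : G.attQ t q hm = Sum.inl v) : S.blk q = v.1 := by
  unfold attQ at h
  split_ifs at h with hr
  rw [Sum.inl.injEq] at h
  rw [← h]

variable {G} in
theorem attQ_inr {t : ℕ} {q : Port S} {hm : t ≤ G.mulB (S.blk q)} {x : G.RT t × Bool}
    (h : G.attQ t q hm = Sum.inr x) : S.blk q = x.1.1 ∧ (q = (G.fu x.1.1 x.1.2.1).1 ↔ x.2 = true) := by
  unfold attQ at h
  split_ifs at h with hr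
  rw [Sum.inr.injEq] at h
  subst h
  exact ⟨rfl, by simp⟩

/-- port of a place of a regular block -/
noncomputable def rport {t : ℕ} (x : G.RT t × Bool) : Port S :=
  if x.2 then (G.fu x.1.1 x.1.2.1).1 else (G.fu x.1.1 x.1.2.1).2

variable {G} in
theorem rport_mulP (hR : G.Red) {t : ℕ} (x : G.RT t × Bool) :
    G.mulP (G.rport x) = G.mulB x.1.1 := by
  unfold rport
  split_ifs
  · exact (G.fu_ou _ _).mulP_eq hR
  · exact (G.fu_ou _ _).swap.mulP_eq hR

variable {G} in
theorem rport_blk (hR : G.Red) {t : ℕ} (x : G.RT t × Bool) :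
    S.blk (G.rport x) = x.1.1 := by
  unfold rport
  split_ifs
  · exact (G.fu_ou _ _).blk1 hR
  · exact (G.fu_ou _ _).blk2 hR

variable {G} in
theorem attQ_rport (hR : G.Red) {t : ℕ} (x : G.RT t × Bool)
    (hm : t ≤ G.mulB (S.blk (G.rport x))) : G.attQ t (G.rport x) hm = Sum.inr x := by
  have h1 := rport_blk hR x
  have hr : G.Reg (S.blk (G.rport x)) := by rw [h1]; exact x.1.2.1
  unfold attQ
  rw [dif_pos hr]
  obtain ⟨⟨b, hb, hm'⟩, e⟩ := x
  simp only at h1
  rw [Sum.inr.injEq, Prod.mk.injEq]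
  refine ⟨Subtype.ext h1, ?_⟩
  have hne := (G.fu_ou b hb).ne hR
  have h2 : ∀ b' (hb' : G.Reg b'), b' = b → G.fu b' hb' = G.fu b hb := by
    rintro b' hb' rfl
    rfl
  rw [h2 _ hr h1]
  cases e
  · simp only [rport, Bool.false_eq_true, if_false, decide_eq_false_iff_not]
    exact hne.symm
  · simp [rport]

theorem mulP_qh (q : Port S) : G.mulP ((qh σ q).1, true) = G.mulP q := by
  obtain ⟨c, e⟩ := q
  cases e
  · have : ((qh σ (c, false)).1, true) = mt σ (c, false) := by simp [qh, mt]
    rw [this, mulP_mt]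
  · simp [qh]

theorem mulP_hc (h : S.C × Bool) : G.mulP (hc σ h) = G.mulP (h.1, true) := by
  have h1 := G.mulP_qh (hc σ h)
  rw [qh_hc] at h1
  exact h1.symm

variable {G} in
theorem att_le (hR : G.Red) {t : ℕ} (h : G.ET t × Bool) :
    t ≤ G.mulB (S.blk (hc σ (h.1.1, h.2))) :=
  (h.1.2.trans (G.mulP_hc (h.1.1, h.2)).ge).trans (mulP_le hR _)

/-- half-edge of a place of a regular block -/
noncomputable def hf (hR : G.Red) (t : ℕ) (x : G.RT t × Bool) : G.ET t × Bool :=
  (⟨(qh σ (G.rport x)).1, by rw [mulP_qh, rport_mulP hR x]; exact x.1.2.2⟩,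
    (qh σ (G.rport x)).2)

variable {G} in
theorem hc_hf (hR : G.Red) (t : ℕ) (x : G.RT t × Bool) :
    hc σ ((G.hf hR t x).1.1, (G.hf hR t x).2) = G.rport x := by
  unfold hf
  simp only
  exact hc_qh _

/-- classes of the level `t` -/
abbrev CT (t : ℕ) : Type := {k : S.B // ∃ b, G.Reg b ∧ t ≤ G.mulB b ∧ G.rep b = k}

variable {G} in
theorem CT.reg {t : ℕ} (k : G.CT t) : G.Reg k.1 := by
  obtain ⟨k, b, h1, h2, rfl⟩ := k
  exact h1.rep_reg

open Classical in
/-- the pattern of level `t` -/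
noncomputable def ptn (hR : G.Red) (t : ℕ) (ht : 1 ≤ t) : Ptn where
  E := G.ET t
  V := G.VT t
  R := G.RT t
  C := G.CT t
  att h := G.attQ t (hc σ (h.1.1, h.2)) (att_le hR h)
  hf := G.hf hR t
  att_hf x := by
    rw [attQ_congr (hc_hf hR t x)]
    exact attQ_rport hR x (by rw [rport_blk hR x]; exact x.1.2.2)
  hf_unique h x hx := by
    obtain ⟨h1, h2⟩ := attQ_inr hx
    have h3 := (G.fu_ou x.1.1 x.1.2.1).used hR (q := hc σ (h.1.1, h.2))
      (ht.trans (h.1.2.trans (G.mulP_hc (h.1.1, h.2)).ge)) h1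
    have h4 : hc σ (h.1.1, h.2) = G.rport x := by
      unfold rport
      by_cases h5 : x.2 = true
      · rw [if_pos h5]
        exact h2.2 h5
      · rw [if_neg h5]
        rcases h3 with h3 | h3
        · exact absurd (h2.1 h3) h5
        · exact h3
    have h6 : (h.1.1, h.2) = qh σ (G.rport x) := by rw [← h4, qh_hc]
    unfold Glue.hf
    refine Prod.ext (Subtype.ext ?_) ?_
    · have := congrArg Prod.fst h6
      exact this
    · have := congrArg Prod.snd h6
      exact this
  cl x := (⟨G.rep x.1, x.1, x.2.1, x.2.2, rfl⟩, true)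
  cl_surj := by
    rintro ⟨k, b, h1, h2, h3⟩
    exact ⟨⟨b, h1, h2⟩, Subtype.ext h3⟩

/-- the canonical realization -/
noncomputable def rlz (hR : G.Red) (t : ℕ) (ht : 1 ≤ t) : Rlz (G.ptn hR t ht) σ where
  prt h := hc σ (h.1.1, h.2)
  mate c := mt_hc c.1 true
  inj := by
    rintro ⟨⟨c, hc⟩, e⟩ ⟨⟨c', hc'⟩, e'⟩ h
    simp only at h
    have h1 := congrArg (qh σ) h
    rw [qh_hc, qh_hc, Prod.mk.injEq] at h1
    obtain ⟨rfl, rfl⟩ := h1
    rfl
  vb v := v.1
  hv h v hx := attQ_inl (hm := att_le hR h) hx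
  L k := lam (G.u0 k.1 k.reg)
  hblk x := by
    have h1 := hc_hf hR t (x, true)
    have h2 := hc_hf hR t (x, false)
    change S.blk (hc σ ((G.hf hR t (x, true)).1.1, (G.hf hR t (x, true)).2)) =
      S.blk (hc σ ((G.hf hR t (x, false)).1.1, (G.hf hR t (x, false)).2))
    rw [h1, h2, rport_blk hR, rport_blk hR]
  hlam x := by
    have h1 := hc_hf hR t (x, true)
    have h2 := hc_hf hR t (x, false)
    change lam (hc σ ((G.hf hR t (x, true)).1.1, (G.hf hR t (x, true)).2),
      hc σ ((G.hf hR t (x, false)).1.1, (G.hf hR t (x, false)).2)) = _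
    rw [h1, h2]
    change lam (G.fu x.1 x.2.1) = lam (G.u0 (G.rep x.1) _)
    exact G.fu_lam hR x.1 x.2.1

end ptn

end Glue

end Vale.Agent.P201.S
end

section

/-!
P201, part LA (helper556): transport of level patterns along similar gluings.
-/

namespace Vale.Agent.P201.S

open Finset

variable {S : Sys} {σ σ' σ'' : Equiv.Perm (S.C)}

theorem nlab_rev (l : Lbl S) : nlab S (rev l) = nlab S l := by
  classical
  unfold nlab
  refine Finset.card_equiv (Equiv.prodComm _ _) ?_
  rintro ⟨u1, u2⟩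
  simp only [mem_filter, mem_univ, true_and, Equiv.prodComm_apply, Prod.swap_prod_mk]
  constructor
  · rintro ⟨h1, h2⟩
    refine ⟨⟨h1.1.symm, Ne.symm h1.2⟩, ?_⟩
    rw [lam_swap, h2, rev_rev]
  · rintro ⟨h1, h2⟩
    refine ⟨⟨h1.1.symm, Ne.symm h1.2⟩, ?_⟩
    rw [lam_swap, h2]

theorem rho_rev (l : Lbl S) : rho S (rev l) = rho S l := by
  unfold rho
  rw [nlab_rev]

namespace Sim

variable {G : Glue σ} {G' : Glue σ'}

theorem used_of_mulP {q : Port S} (hq : 1 ≤ G.mulP q) : Used G q := by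
  unfold Glue.mulP at hq
  obtain ⟨s, hs⟩ := card_pos.1 hq
  rw [mem_filter] at hs
  rcases hs.2 with h | h
  · exact ⟨(s, false), h⟩
  · exact ⟨(s, true), h⟩

theorem usedB_of_mulB {b : S.B} (hb : 1 ≤ G.mulB b) : UsedB G b := by
  unfold Glue.mulB at hb
  rcases Nat.eq_zero_or_pos (univ.filter fun s : G.Q => S.blk (mt σ (G.ε s)) = b).card with h0 | h0
  · rw [h0, zero_add] at hb
    obtain ⟨s, hs⟩ := card_pos.1 hb
    rw [mem_filter] at hs
    exact ⟨(s, false), hs.2.2⟩
  · obtain ⟨s, hs⟩ := card_pos.1 h0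
    rw [mem_filter] at hs
    exact ⟨(s, true), hs.2⟩

theorem usedB_of_reg {b : S.B} (hb : G.Reg b) : UsedB G b := by
  obtain ⟨s, hs⟩ := hb.vis
  exact ⟨(s, true), hs⟩

theorem used_of_OU {b : S.B} {u : Port S × Port S} (hu : G.OU b u) :
    Used G u.1 ∧ Used G u.2 := by
  obtain ⟨-, s, v, h1, h2, h3⟩ := hu
  rcases h3 with rfl | rfl
  · exact ⟨⟨(s, true), rfl⟩, ⟨(v, false), rfl⟩⟩
  · exact ⟨⟨(v, false), rfl⟩, ⟨(s, true), rfl⟩⟩

variable (h : Sim G G')

include h

theorem mulP_pm {q : Port S} (hq : Used G q) : G'.mulP (h.pm q) = G.mulP q := by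
  classical
  unfold Glue.mulP
  symm
  refine Finset.card_equiv h.φ ?_
  intro s
  simp only [mem_filter, mem_univ, true_and]
  have e1 : G.ε s = q ↔ G'.ε (h.φ s) = h.pm q := by
    rw [← h.pm_ε]
    exact ⟨fun e => by rw [e], fun e => h.pm_inj ⟨(s, false), rfl⟩ hq e⟩
  have e2 : mt σ (G.ε s) = q ↔ mt σ' (G'.ε (h.φ s)) = h.pm q := by
    rw [← h.pm_mtε]
    exact ⟨fun e => by rw [e], fun e => h.pm_inj ⟨(s, true), rfl⟩ hq e⟩
  rw [e1, e2]

theorem end_iff (s : G.Q) {b : S.B} (hb : UsedB G b) :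
    S.blk (mt σ (G.ε s)) = b ↔ S.blk (mt σ' (G'.ε (h.φ s))) = h.bm b := by
  rw [← h.bm_mtε]
  exact ⟨fun e => by rw [e], fun e => h.bm_inj ⟨(s, true), rfl⟩ hb e⟩

theorem start_iff (s : G.Q) {b : S.B} (hb : UsedB G b) :
    S.blk (G.ε s) = b ↔ S.blk (G'.ε (h.φ s)) = h.bm b := by
  rw [← h.bm_ε]
  exact ⟨fun e => by rw [e], fun e => h.bm_inj ⟨(s, false), rfl⟩ hb e⟩

theorem mulB_bm {b : S.B} (hb : UsedB G b) : G'.mulB (h.bm b) = G.mulB b := by
  classical
  unfold Glue.mulB
  symm
  congr 1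
  · refine Finset.card_equiv h.φ ?_
    intro s
    simp only [mem_filter, mem_univ, true_and]
    exact h.end_iff s hb
  · refine Finset.card_equiv h.φ ?_
    intro s
    simp only [mem_filter, mem_univ, true_and]
    rw [h.start_iff s hb, h.ysymm_none s]

theorem reg_bm_of {b : S.B} (hr : G.Reg b) : G'.Reg (h.bm b) := by
  have hb : UsedB G b := usedB_of_reg hr
  obtain ⟨⟨s0, h1⟩, h2, h3, h4⟩ := hr
  refine ⟨⟨h.φ s0, (h.end_iff s0 hb).1 h1⟩, ?_, ?_, ?_⟩
  · intro s hs
    obtain ⟨t, rfl⟩ := h.φ.surjective s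
    obtain ⟨v, hv⟩ := h2 t ((h.end_iff t hb).2 hs)
    exact ⟨h.φ v, (h.y _ _).1 hv⟩
  · intro s hs
    obtain ⟨t, rfl⟩ := h.φ.surjective s
    obtain ⟨v, hv⟩ := h3 t ((h.start_iff t hb).2 hs)
    exact ⟨h.φ v, (h.y _ _).1 hv⟩
  · intro s v s' v' e1 e2 e3 e4
    obtain ⟨s, rfl⟩ := h.φ.surjective s
    obtain ⟨v, rfl⟩ := h.φ.surjective v
    obtain ⟨s', rfl⟩ := h.φ.surjective s'
    obtain ⟨v', rfl⟩ := h.φ.surjective v'
    have := h4 s v s' v' ((h.y _ _).2 e1) ((h.y _ _).2 e2) ((h.end_iff s hb).2 e3)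
      ((h.end_iff s' hb).2 e4)
    rw [← h.pm_mtε, ← h.pm_mtε, ← h.pm_ε, ← h.pm_ε]
    rcases this with ⟨k1, k2⟩ | ⟨k1, k2⟩
    · left
      rw [k1, k2]
      exact ⟨rfl, rfl⟩
    · right
      rw [k1, k2]
      exact ⟨rfl, rfl⟩

theorem reg_bm {b : S.B} (hb : UsedB G b) : G.Reg b ↔ G'.Reg (h.bm b) := by
  refine ⟨h.reg_bm_of, fun hr => ?_⟩
  have := h.symm.reg_bm_of hr
  rwa [h.bm_bm hb] at this

theorem or_pm {u w : Port S × Port S} (hu : G.OR u w) :
    G'.OR (h.pm u.1, h.pm u.2) (h.pm w.1, h.pm w.2) := by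
  obtain ⟨s, s', v, v', h1, h2, h3, h4, h5, rfl, rfl⟩ := hu
  refine ⟨h.φ s, h.φ s', h.φ v, h.φ v', (h.pair _ _).1 h1, (h.y _ _).1 h2, (h.y _ _).1 h3, ?_, ?_,
    ?_, ?_⟩
  · rw [← h.bm_mtε]
    exact (h.reg_bm ⟨(s, true), rfl⟩).1 h4
  · rw [← h.bm_mtε]
    exact (h.reg_bm ⟨(s', true), rfl⟩).1 h5
  · simp only [h.pm_mtε, h.pm_ε]
  · simp only [h.pm_mtε, h.pm_ε]

theorem oe_pm {u w : Port S × Port S} (hu : G.OE u w) :
    G'.OE (h.pm u.1, h.pm u.2) (h.pm w.1, h.pm w.2) := by
  induction hu with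
  | rel x y hxy => exact Relation.EqvGen.rel _ _ (h.or_pm hxy)
  | refl x => exact Relation.EqvGen.refl _
  | symm x y _ ih => exact Relation.EqvGen.symm _ _ ih
  | trans x y z _ _ ih1 ih2 => exact Relation.EqvGen.trans _ _ _ ih1 ih2

theorem ou_pm {b : S.B} {u : Port S × Port S} (hu : G.OU b u) :
    G'.OU (h.bm b) (h.pm u.1, h.pm u.2) := by
  obtain ⟨hr, s, v, h1, rfl, h3⟩ := hu
  refine ⟨h.reg_bm_of hr, h.φ s, h.φ v, (h.y _ _).1 h1, (h.bm_mtε s).symm, ?_⟩
  rcases h3 with rfl | rfl
  · left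
    simp only [h.pm_mtε, h.pm_ε]
  · right
    simp only [h.pm_ε, h.pm_mtε]

theorem rb_bm {b b' : S.B} (hb : G.RB b b') : G'.RB (h.bm b) (h.bm b') := by
  obtain ⟨u, u', h1, h2, h3⟩ := hb
  exact ⟨_, _, h.ou_pm h1, h.ou_pm h2, h.oe_pm h3⟩

omit h in
/-- the density of the label of a unit does not depend on the orientation -/
theorem rho_ou {b : S.B} {u w : Port S × Port S} (hu : G.OU b u) (hw : G.OU b w) :
    rho S (lam w) = rho S (lam u) := by
  rcases hu.two hw with rfl | rfl
  · rfl
  · obtain ⟨u1, u2⟩ := u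
    rw [Prod.swap_prod_mk, lam_swap, rho_rev]

/-- the transported realization -/
noncomputable def rlz (hR : G.Red) (hR' : G'.Red) (t : ℕ) (ht : 1 ≤ t) :
    Rlz (G.ptn hR t ht) σ' where
  prt k := h.pm ((G.rlz hR t ht).prt k)
  mate e := by
    have hu : Used G ((G.rlz hR t ht).prt (e, true)) := by
      refine used_of_mulP (ht.trans (e.2.trans ?_))
      exact (G.mulP_hc (e.1, true)).ge
    rw [← h.pm_mt hu, (G.rlz hR t ht).mate e]
  inj := by
    intro k l hkl
    have hu : ∀ k : (G.ptn hR t ht).E × Bool, Used G ((G.rlz hR t ht).prt k) := by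
      intro k
      refine used_of_mulP (ht.trans (k.1.2.trans ?_))
      exact (G.mulP_hc (k.1.1, k.2)).ge
    exact (G.rlz hR t ht).inj (h.pm_inj (hu k) (hu l) hkl)
  vb v := h.bm v.1
  hv k v hk := by
    have hu : Used G ((G.rlz hR t ht).prt k) := by
      refine used_of_mulP (ht.trans (k.1.2.trans ?_))
      exact (G.mulP_hc (k.1.1, k.2)).ge
    rw [h.blk_pm hu, (G.rlz hR t ht).hv k v hk]
    rfl
  L k := lam (h.pm (G.u0 k.1 k.reg).1, h.pm (G.u0 k.1 k.reg).2)
  hblk r := by
    have hu : ∀ k : (G.ptn hR t ht).E × Bool, Used G ((G.rlz hR t ht).prt k) := by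
      intro k
      refine used_of_mulP (ht.trans (k.1.2.trans ?_))
      exact (G.mulP_hc (k.1.1, k.2)).ge
    rw [h.blk_pm (hu _), h.blk_pm (hu _), (G.rlz hR t ht).hblk r]
  hlam x := by
    have h1 : (G.rlz hR t ht).prt ((G.ptn hR t ht).hf (x, true)) = (G.fu x.1 x.2.1).1 :=
      Glue.hc_hf hR t (x, true)
    have h2 : (G.rlz hR t ht).prt ((G.ptn hR t ht).hf (x, false)) = (G.fu x.1 x.2.1).2 :=
      Glue.hc_hf hR t (x, false)
    rw [h1, h2]
    change _ = lam _
    exact ((h.oe_pm (G.fu_oe x.1 x.2.1)).lam_eq hR').symm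

omit h in
theorem card_ET (hR : G.Red) (t : ℕ) (ht : 1 ≤ t) :
    2 * Fintype.card (G.ptn hR t ht).E = (univ.filter fun q : Port S => t ≤ G.mulP q).card := by
  classical
  have h1 : Fintype.card ((G.ptn hR t ht).E × Bool) =
      (univ.filter fun q : Port S => t ≤ G.mulP q).card := by
    rw [← Finset.card_univ]
    refine Finset.card_bij (fun k _ => (G.rlz hR t ht).prt k) ?_ ?_ ?_
    · intro k _
      rw [mem_filter]
      exact ⟨mem_univ _, k.1.2.trans (G.mulP_hc (k.1.1, k.2)).ge⟩
    · intro k _ l _ hkl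
      exact (G.rlz hR t ht).inj hkl
    · intro q hq
      rw [mem_filter] at hq
      refine ⟨(⟨(qh σ q).1, by rw [G.mulP_qh]; exact hq.2⟩, (qh σ q).2), mem_univ _, ?_⟩
      exact hc_qh q
  rw [← h1, Fintype.card_prod, Fintype.card_bool, mul_comm]

theorem card_E_eq (hR : G.Red) (hR' : G'.Red) (t : ℕ) (ht : 1 ≤ t) :
    Fintype.card (G'.ptn hR' t ht).E = Fintype.card (G.ptn hR t ht).E := by
  classical
  have h1 := card_ET hR t ht
  have h2 := card_ET hR' t ht
  have h3 : (univ.filter fun q : Port S => t ≤ G.mulP q).card =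
      (univ.filter fun q : Port S => t ≤ G'.mulP q).card := by
    refine Finset.card_bij' (fun q _ => h.pm q) (fun q _ => h.symm.pm q) ?_ ?_ ?_ ?_
    · intro q hq
      rw [mem_filter] at hq ⊢
      refine ⟨mem_univ _, ?_⟩
      rw [h.mulP_pm (used_of_mulP (ht.trans hq.2))]
      exact hq.2
    · intro q hq
      rw [mem_filter] at hq ⊢
      refine ⟨mem_univ _, ?_⟩
      rw [h.symm.mulP_pm (used_of_mulP (ht.trans hq.2))]
      exact hq.2
    · intro q hq
      rw [mem_filter] at hq
      exact h.pm_pm (used_of_mulP (ht.trans hq.2))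
    · intro q hq
      rw [mem_filter] at hq
      exact h.pm_pm' (used_of_mulP (ht.trans hq.2))
  omega

/-- blocks of a level -/
noncomputable def eB (P : Prop → Prop) (t : ℕ) (ht : 1 ≤ t) :
    {b : S.B // P (G.Reg b) ∧ t ≤ G.mulB b} ≃ {b : S.B // P (G'.Reg b) ∧ t ≤ G'.mulB b} where
  toFun b := ⟨h.bm b.1, by
    have hu := usedB_of_mulB (ht.trans b.2.2)
    rw [h.mulB_bm hu, ← propext (h.reg_bm hu)]
    exact b.2⟩
  invFun b := ⟨h.symm.bm b.1, by
    have hu := usedB_of_mulB (ht.trans b.2.2)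
    rw [h.symm.mulB_bm hu, ← propext (h.symm.reg_bm hu)]
    exact b.2⟩
  left_inv b := Subtype.ext (h.bm_bm (usedB_of_mulB (ht.trans b.2.2)))
  right_inv b := Subtype.ext (h.bm_bm' (usedB_of_mulB (ht.trans b.2.2)))

/-- regular blocks of a level -/
noncomputable def eR (t : ℕ) (ht : 1 ≤ t) : G.RT t ≃ G'.RT t := h.eB (fun P => P) t ht

/-- irregular blocks of a level -/
noncomputable def eV (t : ℕ) (ht : 1 ≤ t) : G.VT t ≃ G'.VT t := h.eB (fun P => ¬ P) t ht

theorem eR_val (t : ℕ) (ht : 1 ≤ t) (x : G.RT t) : (h.eR t ht x).1 = h.bm x.1 := rfl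

/-- classes of a level -/
noncomputable def eC (t : ℕ) : G.CT t ≃ G'.CT t where
  toFun k := ⟨G'.rep (h.bm k.1), by
    obtain ⟨k, b, h1, h2, rfl⟩ := k
    refine ⟨h.bm b, h.reg_bm_of h1, ?_, (h.rb_bm h1.rep).rep_eq⟩
    rw [h.mulB_bm (usedB_of_reg h1)]
    exact h2⟩
  invFun k := ⟨G.rep (h.symm.bm k.1), by
    obtain ⟨k, b, h1, h2, rfl⟩ := k
    refine ⟨h.symm.bm b, h.symm.reg_bm_of h1, ?_, (h.symm.rb_bm h1.rep).rep_eq⟩
    rw [h.symm.mulB_bm (usedB_of_reg h1)]
    exact h2⟩
  left_inv k := by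
    obtain ⟨k, b, h1, h2, rfl⟩ := k
    apply Subtype.ext
    change G.rep (h.symm.bm (G'.rep (h.bm (G.rep b)))) = G.rep b
    have h3 : G'.RB (h.bm (G.rep b)) (G'.rep (h.bm (G.rep b))) :=
      (h.reg_bm_of h1.rep_reg).rep
    have h4 := (h.symm.rb_bm h3).rep_eq
    rw [← h4, h.bm_bm (usedB_of_reg h1.rep_reg)]
    exact h1.rep_rep
  right_inv k := by
    obtain ⟨k, b, h1, h2, rfl⟩ := k
    apply Subtype.ext
    change G'.rep (h.bm (G.rep (h.symm.bm (G'.rep b)))) = G'.rep b
    have h3 : G.RB (h.symm.bm (G'.rep b)) (G.rep (h.symm.bm (G'.rep b))) :=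
      (h.symm.reg_bm_of h1.rep_reg).rep
    have h4 := (h.rb_bm h3).rep_eq
    rw [← h4, h.bm_bm' (usedB_of_reg h1.rep_reg)]
    exact h1.rep_rep

omit h in
open Classical in
theorem H_eq (hR : G.Red) (t : ℕ) (ht : 1 ≤ t) : (G.ptn hR t ht).H =
    (univ.filter fun q : Port S => t ≤ G.mulP q ∧ ¬ G.Reg (S.blk q)).card := by
  classical
  unfold Ptn.H
  refine Finset.card_bij (fun k _ => (G.rlz hR t ht).prt k) ?_ ?_ ?_
  · intro k hk
    rw [mem_filter] at hk
    rw [mem_filter]
    refine ⟨mem_univ _, k.1.2.trans (G.mulP_hc (k.1.1, k.2)).ge, ?_⟩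
    intro hr
    have h1 := hk.2
    have h2 : (G.ptn hR t ht).att k = G.attQ t ((G.rlz hR t ht).prt k) (Glue.att_le hR k) := rfl
    rw [h2] at h1
    unfold Glue.attQ at h1
    rw [dif_pos hr] at h1
    exact Bool.false_ne_true h1
  · intro k _ l _ hkl
    exact (G.rlz hR t ht).inj hkl
  · intro q hq
    rw [mem_filter] at hq
    let k : (G.ptn hR t ht).E × Bool := (⟨(qh σ q).1, by rw [G.mulP_qh]; exact hq.2.1⟩, (qh σ q).2)
    have hk : (G.rlz hR t ht).prt k = q := hc_qh q
    refine ⟨k, ?_, hk⟩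
    rw [mem_filter]
    refine ⟨mem_univ _, ?_⟩
    have h2 : (G.ptn hR t ht).att k = G.attQ t ((G.rlz hR t ht).prt k) (Glue.att_le hR k) := rfl
    rw [h2]
    unfold Glue.attQ
    have hr : ¬ G.Reg (S.blk ((G.rlz hR t ht).prt k)) := by rw [hk]; exact hq.2.2
    rw [dif_neg hr]
    rfl

theorem card_H_eq (hR : G.Red) (hR' : G'.Red) (t : ℕ) (ht : 1 ≤ t) :
    (G'.ptn hR' t ht).H = (G.ptn hR t ht).H := by
  classical
  rw [H_eq, H_eq]
  symm
  refine Finset.card_bij' (fun q _ => h.pm q) (fun q _ => h.symm.pm q) ?_ ?_ ?_ ?_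
  · intro q hq
    rw [mem_filter] at hq ⊢
    have hu := used_of_mulP (ht.trans hq.2.1)
    refine ⟨mem_univ _, ?_, ?_⟩
    · rw [h.mulP_pm hu]
      exact hq.2.1
    · rw [h.blk_pm hu, ← h.reg_bm (usedB_of_mulB ((ht.trans hq.2.1).trans (Glue.mulP_le hR q)))]
      exact hq.2.2
  · intro q hq
    rw [mem_filter] at hq ⊢
    have hu := used_of_mulP (ht.trans hq.2.1)
    refine ⟨mem_univ _, ?_, ?_⟩
    · rw [h.symm.mulP_pm hu]
      exact hq.2.1
    · rw [h.symm.blk_pm hu,
        ← h.symm.reg_bm (usedB_of_mulB ((ht.trans hq.2.1).trans (Glue.mulP_le hR' q)))]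
      exact hq.2.2
  · intro q hq
    rw [mem_filter] at hq
    exact h.pm_pm (used_of_mulP (ht.trans hq.2.1))
  · intro q hq
    rw [mem_filter] at hq
    exact h.pm_pm' (used_of_mulP (ht.trans hq.2.1))

/-- **Transport**: the inequality (U) for the canonical realization of `G'` follows from the
inequalities for the realizations of the pattern of a similar gluing `G`. -/
theorem uineq (hR : G.Red) (hR' : G'.Red) (t : ℕ) (ht : 1 ≤ t) {C1 K0 : ℝ}
    (hU : UIneq (h.rlz hR hR' t ht) C1 K0) : UIneq (G'.rlz hR' t ht) C1 K0 := by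
  unfold UIneq at hU ⊢
  have e1 := h.card_E_eq hR hR' t ht
  have e2 : Fintype.card (G.ptn hR t ht).V = Fintype.card (G'.ptn hR' t ht).V :=
    Fintype.card_congr (h.eV t ht)
  have e3 : Fintype.card (G.ptn hR t ht).R = Fintype.card (G'.ptn hR' t ht).R :=
    Fintype.card_congr (h.eR t ht)
  have e4 := h.card_H_eq hR hR' t ht
  have e5 : ∑ x : (G'.ptn hR' t ht).R,
      Real.log (rho S ((G'.rlz hR' t ht).L ((G'.ptn hR' t ht).cl x).1)) =
      ∑ x : (G.ptn hR t ht).R,
      Real.log (rho S ((h.rlz hR hR' t ht).L ((G.ptn hR t ht).cl x).1)) := by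
    symm
    refine Fintype.sum_equiv (show (G.ptn hR t ht).R ≃ (G'.ptn hR' t ht).R from h.eR t ht) _ _ ?_
    intro x
    congr 1
    change rho S (lam (h.pm (G.u0 (G.rep x.1) _).1, h.pm (G.u0 (G.rep x.1) _).2)) =
      rho S (lam (G'.u0 (G'.rep (h.bm x.1)) _))
    have hx : G.Reg x.1 := x.2.1
    have k1 := (h.oe_pm (G.fu_oe x.1 hx)).lam_eq hR'
    have k2 := G'.fu_lam hR' (h.bm x.1) (h.reg_bm_of hx)
    rw [k1]
    refine (rho_ou (h.ou_pm (G.fu_ou x.1 hx)) (G'.fu_ou (h.bm x.1) (h.reg_bm_of hx))).symm.trans ?_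
    rw [k2]
  have e6 : ∑ c : (G'.ptn hR' t ht).C,
      (Real.log 2 + 2 * Real.log (rho S ((G'.rlz hR' t ht).L c))) =
      ∑ c : (G.ptn hR t ht).C,
      (Real.log 2 + 2 * Real.log (rho S ((h.rlz hR hR' t ht).L c))) := by
    symm
    refine Fintype.sum_equiv (show (G.ptn hR t ht).C ≃ (G'.ptn hR' t ht).C from h.eC t) _ _ ?_
    intro k
    congr 3
    change rho S (lam (h.pm (G.u0 k.1 _).1, h.pm (G.u0 k.1 _).2)) =
      rho S (lam (G'.u0 (G'.rep (h.bm k.1)) _))
    have hk : G.Reg k.1 := k.reg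
    have k2 := G'.fu_lam hR' (h.bm k.1) (h.reg_bm_of hk)
    refine (rho_ou (h.ou_pm (G.u0_spec k.1 hk)) (G'.fu_ou (h.bm k.1)
      (h.reg_bm_of hk))).symm.trans ?_
    rw [k2]
  rw [e1, e4, e5, e6, ← e2, ← e3]
  exact hU

end Sim

namespace Rec

open Classical in
/-- number of edges of a level -/
theorem card_E_le {G : Glue σ} (hR : G.Red) (t : ℕ) (ht : 1 ≤ t) :
    Fintype.card (G.ptn hR t ht).E ≤ Fintype.card G.Q := by
  have hex : ∀ c : (G.ptn hR t ht).E, ∃ s : G.Q, G.ε s = (c.1, true) ∨ mt σ (G.ε s) = (c.1, true) := by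
    intro c
    have h1 : 1 ≤ G.mulP (c.1, true) := ht.trans c.2
    unfold Glue.mulP at h1
    obtain ⟨s, hs⟩ := card_pos.1 h1
    exact ⟨s, (mem_filter.1 hs).2⟩
  choose f hf using hex
  refine Fintype.card_le_of_injective f ?_
  intro c c' hcc
  have h1 := hf c
  have h2 := hf c'
  rw [← hcc] at h2
  apply Subtype.ext
  rcases h1 with h1 | h1 <;> rcases h2 with h2 | h2
  · exact congrArg Prod.fst (h1.symm.trans h2)
  · rw [h1] at h2
    have := congrArg Prod.snd h2
    simp only [mt, ↓reduceIte, Bool.false_eq_true] at this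
  · rw [h2] at h1
    have := congrArg Prod.snd h1
    simp only [mt, ↓reduceIte, Bool.false_eq_true] at this
  · exact congrArg Prod.fst (h1.symm.trans h2)

open Classical in
theorem dens_of_reg {G : Glue σ} {b : S.B} (h : G.Reg b) :
    G.dens b = rho S (lam (G.u0 b h)) := by
  unfold Glue.dens
  rw [dif_pos h]

/-- the inequality in terms of `G` -/
theorem levU_of {G : Glue σ} (hR : G.Red) (t : ℕ) (ht : 1 ≤ t) {C1 K0 : ℝ}
    (hU : UIneq (G.rlz hR t ht) C1 K0) : G.LevU C1 K0 t := by
  classical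
  unfold UIneq at hU
  unfold Glue.LevU
  have e1 : Fintype.card (G.ptn hR t ht).E =
      (univ.filter fun c : S.C => t ≤ G.mulP (c, true)).card :=
    Fintype.card_of_subtype _ (by simp only [mem_filter, mem_univ, true_and, implies_true])
  have e2 : Fintype.card (G.ptn hR t ht).V =
      (univ.filter fun b : S.B => ¬ G.Reg b ∧ t ≤ G.mulB b).card :=
    Fintype.card_of_subtype _ (by simp only [mem_filter, mem_univ, true_and, implies_true])
  have e3 : Fintype.card (G.ptn hR t ht).R =
      (univ.filter fun b : S.B => G.Reg b ∧ t ≤ G.mulB b).card :=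
    Fintype.card_of_subtype _ (by simp only [mem_filter, mem_univ, true_and, implies_true])
  have e4 : (univ.filter fun b : S.B => t ≤ G.mulB b).card =
      (univ.filter fun b : S.B => G.Reg b ∧ t ≤ G.mulB b).card +
      (univ.filter fun b : S.B => ¬ G.Reg b ∧ t ≤ G.mulB b).card := by
    rw [← Finset.card_filter_add_card_filter_not (s := univ.filter fun b : S.B => t ≤ G.mulB b)
      (fun b => G.Reg b), Finset.filter_filter, Finset.filter_filter]
    congr 2
    · ext b
      simp only [mem_filter, mem_univ, true_and, and_comm]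
    · ext b
      simp only [and_comm, mem_filter, mem_univ, true_and]
  have e5 : ∑ x : (G.ptn hR t ht).R,
      Real.log (rho S ((G.rlz hR t ht).L ((G.ptn hR t ht).cl x).1)) =
      ∑ b ∈ univ.filter (fun b : S.B => G.Reg b ∧ t ≤ G.mulB b),
        Real.log (G.dens (G.rep b)) := by
    symm
    refine (Finset.sum_subtype (p := fun b : S.B => G.Reg b ∧ t ≤ G.mulB b)
      (F := (G.ptn hR t ht).fR) _ (by simp only [mem_filter, mem_univ, true_and, implies_true]) _).trans ?_
    refine Finset.sum_congr rfl fun x _ => ?_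
    rw [dens_of_reg x.2.1.rep_reg]
    rfl
  have e6 : ∑ c : (G.ptn hR t ht).C,
      (Real.log 2 + 2 * Real.log (rho S ((G.rlz hR t ht).L c))) =
      ∑ k ∈ (univ.filter fun b : S.B => G.Reg b ∧ t ≤ G.mulB b).image G.rep,
        (Real.log 2 + 2 * Real.log (G.dens k)) := by
    symm
    refine (Finset.sum_subtype (p := fun k : S.B => ∃ b, G.Reg b ∧ t ≤ G.mulB b ∧ G.rep b = k)
      (F := (G.ptn hR t ht).fC) _ (by simp only [mem_image, mem_filter, mem_univ, true_and, and_assoc, implies_true]) _).trans ?_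
    refine Finset.sum_congr rfl fun x _ => ?_
    rw [dens_of_reg (Glue.CT.reg x)]
    rfl
  have e7 : (G.ptn hR t ht).H =
      (univ.filter fun q : Port S => ¬ G.Reg (S.blk q) ∧ t ≤ G.mulP q).card := by
    rw [Sim.H_eq]
    congr 1
    ext q
    simp only [mem_filter, mem_univ, true_and, and_comm]
  rw [e1, e2, e3, e5, e6, e7] at hU
  rw [e4]
  push_cast
  linarith only [hU]

/-- the empty pattern -/
def ptn0 : Ptn where
  E := Empty
  V := Empty
  R := Empty
  C := Empty
  att h := h.1.elim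
  hf x := x.1.elim
  att_hf x := x.1.elim
  hf_unique h := h.1.elim
  cl r := r.elim
  cl_surj c := c.elim

end Rec

/-- **Block (A2).** -/
theorem stmtRcd : StmtRcd := by
  intro S F c t ht
  by_cases hex : ∃ (σ : Equiv.Perm (S.C)) (G : Glue σ) (e : G.Q ≃ Fin F), G.Red ∧ IsCmb G e c
  · obtain ⟨σ0, G0, e0, hR0, hc0⟩ := hex
    refine ⟨G0.ptn hR0 t ht, ?_, ?_⟩
    · refine (Rec.card_E_le hR0 t ht).trans ?_
      rw [Fintype.card_congr e0, Fintype.card_fin]
    · intro σ G e hR hc C1 K0 hU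
      have h : Sim G0 G := Sim.of_cmb (hc0.trans hc.symm)
      exact Rec.levU_of hR t ht (h.uineq hR0 hR t ht (hU _))
  · refine ⟨Rec.ptn0, ?_, ?_⟩
    · have h0 : Fintype.card Rec.ptn0.E = 0 :=
        Fintype.card_eq_zero_iff.2 (inferInstanceAs (IsEmpty Empty))
      rw [h0]
      exact Nat.zero_le _
    intro σ G e hR hc
    exact absurd ⟨σ, G, e, hR, hc⟩ hex

end Vale.Agent.P201.S
end

section

/-!
P201, part LA: geometry of two chains of faces (helper621).
-/

namespace Vale.Agent.P201.S.CodeGeo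

open Finset

variable {S : Sys} {σ : Equiv.Perm (S.C)} {G : Glue σ}

theorem join_aux (f : ℕ → Port S) (m : ℕ) (c : Port S)
    (h : ∀ k, m = k + 1 → c ≠ mt σ (f k)) :
    ∀ a ∈ ((List.range m).map f).getLast?, ∀ b ∈ [c].head?, b ≠ mt σ a := by
  intro a ha b hb
  simp only [List.head?_cons, Option.mem_def, Option.some.injEq] at hb
  subst hb
  cases m with
  | zero => simp at ha
  | succ k =>
    rw [List.range_succ, List.map_append, List.getLast?_append] at ha
    simp only [List.map_cons, List.map_nil, List.getLast?_singleton, Option.some_or,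
      Option.mem_def, Option.some.injEq] at ha
    subst ha
    exact h k rfl

theorem rw_start (hR : G.Red) {a : ℕ → G.Q} {m : ℕ}
    (h : ∀ x < m, G.Y (a x) = some (a (x + 1))) :
    RW σ (S.blk (G.ε (a 0))) ((List.range m).map fun x => G.ε (a x)) (S.blk (G.ε (a m))) := by
  induction m with
  | zero => exact rfl
  | succ m ih =>
    rw [List.range_succ, List.map_append]
    refine (ih fun x hx => h x (by omega)).append (v := S.blk (G.ε (a m))) ?_ ?_
    · have h1 := RW.single (σ := σ) (G.ε (a m))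
      rw [(hR.y _ _ (h m (by omega))).1] at h1
      exact h1
    · refine join_aux _ m _ fun k hk => ?_
      subst hk
      exact (hR.y _ _ (h k (by omega))).2

theorem rw_end (hR : G.Red) {a : ℕ → G.Q} {m : ℕ}
    (h : ∀ x < m, G.Y (a x) = some (a (x + 1))) :
    RW σ (S.blk (mt σ (G.ε (a 0)))) ((List.range m).map fun x => G.ε (a (x + 1)))
      (S.blk (mt σ (G.ε (a m)))) := by
  induction m with
  | zero => exact rfl
  | succ m ih =>
    rw [List.range_succ, List.map_append]
    refine (ih fun x hx => h x (by omega)).append (v := S.blk (mt σ (G.ε (a m)))) ?_ ?_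
    · have h1 := RW.single (σ := σ) (G.ε (a (m + 1)))
      rw [← (hR.y _ _ (h m (by omega))).1] at h1
      exact h1
    · refine join_aux _ m _ fun k hk => ?_
      subst hk
      exact (hR.y _ _ (h (k + 1) (by omega))).2

theorem list_aux {A : Type} {f f' : ℕ → A} {m m' : ℕ}
    (h : (List.range m).map f = (List.range m').map f') : m = m' ∧ ∀ x < m, f x = f' x := by
  have h1 : m = m' := by
    have := congrArg List.length h
    simpa using this
  subst h1
  refine ⟨rfl, fun x hx => ?_⟩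
  have h2 := List.getElem_of_eq h (i := x) (by simpa using hx)
  simpa only [List.getElem_map, List.getElem_range] using h2

theorem rvw_aux (f : ℕ → Port S) (m : ℕ) :
    rvw σ ((List.range m).map f) = (List.range m).map fun x => mt σ (f (m - 1 - x)) := by
  unfold rvw
  apply List.ext_getElem
  · simp only [List.map_map, List.length_reverse, List.length_map, List.length_range]
  · intro i h1 h2
    simp only [List.map_map, List.getElem_reverse, List.length_map, List.length_range, List.getElem_map, List.getElem_range, Function.comp_apply]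

variable {g : ℕ}

theorem ssp (hR : G.Red) (hg : Girth σ g) {a b : ℕ → G.Q} {m m' : ℕ}
    (ha : ∀ x < m, G.Y (a x) = some (a (x + 1))) (hb : ∀ x < m', G.Y (b x) = some (b (x + 1)))
    (hlt : m + m' < g) (h0 : S.blk (G.ε (a 0)) = S.blk (G.ε (b 0)))
    (h1 : S.blk (G.ε (a m)) = S.blk (G.ε (b m'))) :
    m = m' ∧ ∀ x < m, G.ε (a x) = G.ε (b x) := by
  have e1 := rw_start hR ha
  have e2 := rw_start hR hb
  rw [← h0, ← h1] at e2
  exact list_aux (e1.unique hg e2 (by simpa only [List.length_map, List.length_range] using hlt))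

theorem ssm (hR : G.Red) (hg : Girth σ g) {a b : ℕ → G.Q} {m m' : ℕ}
    (ha : ∀ x < m, G.Y (a x) = some (a (x + 1))) (hb : ∀ x < m', G.Y (b x) = some (b (x + 1)))
    (hlt : m + m' < g) (h0 : S.blk (G.ε (a 0)) = S.blk (G.ε (b m')))
    (h1 : S.blk (G.ε (a m)) = S.blk (G.ε (b 0))) :
    m = m' ∧ ∀ x < m, G.ε (a x) = mt σ (G.ε (b (m' - 1 - x))) := by
  have e1 := rw_start hR ha
  have e2 := (rw_start hR hb).reverse
  rw [← h0, ← h1, rvw_aux] at e2
  exact list_aux (e1.unique hg e2 (by simpa only [List.length_map, List.length_range] using hlt))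

theorem sep (hR : G.Red) (hg : Girth σ g) {a b : ℕ → G.Q} {m m' : ℕ}
    (ha : ∀ x < m, G.Y (a x) = some (a (x + 1))) (hb : ∀ x < m', G.Y (b x) = some (b (x + 1)))
    (hlt : m + m' < g) (h0 : S.blk (G.ε (a 0)) = S.blk (mt σ (G.ε (b 0))))
    (h1 : S.blk (G.ε (a m)) = S.blk (mt σ (G.ε (b m')))) :
    m = m' ∧ ∀ x < m, G.ε (a x) = G.ε (b (x + 1)) := by
  have e1 := rw_start hR ha
  have e2 := rw_end hR hb
  rw [← h0, ← h1] at e2
  exact list_aux (e1.unique hg e2 (by simpa only [List.length_map, List.length_range] using hlt))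

theorem sem (hR : G.Red) (hg : Girth σ g) {a b : ℕ → G.Q} {m m' : ℕ}
    (ha : ∀ x < m, G.Y (a x) = some (a (x + 1))) (hb : ∀ x < m', G.Y (b x) = some (b (x + 1)))
    (hlt : m + m' < g) (h0 : S.blk (G.ε (a 0)) = S.blk (mt σ (G.ε (b m'))))
    (h1 : S.blk (G.ε (a m)) = S.blk (mt σ (G.ε (b 0)))) :
    m = m' ∧ ∀ x < m, G.ε (a x) = mt σ (G.ε (b (m' - 1 - x + 1))) := by
  have e1 := rw_start hR ha
  have e2 := (rw_end hR hb).reverse
  rw [← h0, ← h1, rvw_aux] at e2
  exact list_aux (e1.unique hg e2 (by simpa only [List.length_map, List.length_range] using hlt))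

theorem eep (hR : G.Red) (hg : Girth σ g) {a b : ℕ → G.Q} {m m' : ℕ}
    (ha : ∀ x < m, G.Y (a x) = some (a (x + 1))) (hb : ∀ x < m', G.Y (b x) = some (b (x + 1)))
    (hlt : m + m' < g) (h0 : S.blk (mt σ (G.ε (a 0))) = S.blk (mt σ (G.ε (b 0))))
    (h1 : S.blk (mt σ (G.ε (a m))) = S.blk (mt σ (G.ε (b m')))) :
    m = m' ∧ ∀ x < m, G.ε (a (x + 1)) = G.ε (b (x + 1)) := by
  have e1 := rw_end hR ha
  have e2 := rw_end hR hb
  rw [← h0, ← h1] at e2
  exact list_aux (e1.unique hg e2 (by simpa only [List.length_map, List.length_range] using hlt))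

theorem eem (hR : G.Red) (hg : Girth σ g) {a b : ℕ → G.Q} {m m' : ℕ}
    (ha : ∀ x < m, G.Y (a x) = some (a (x + 1))) (hb : ∀ x < m', G.Y (b x) = some (b (x + 1)))
    (hlt : m + m' < g) (h0 : S.blk (mt σ (G.ε (a 0))) = S.blk (mt σ (G.ε (b m'))))
    (h1 : S.blk (mt σ (G.ε (a m))) = S.blk (mt σ (G.ε (b 0)))) :
    m = m' ∧ ∀ x < m, G.ε (a (x + 1)) = mt σ (G.ε (b (m' - 1 - x + 1))) := by
  have e1 := rw_end hR ha
  have e2 := (rw_end hR hb).reverse
  rw [← h0, ← h1, rvw_aux] at e2
  exact list_aux (e1.unique hg e2 (by simpa only [List.length_map, List.length_range] using hlt))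

end Vale.Agent.P201.S.CodeGeo
end

section

/-!
P201, part LA (B3): the record of a gluing is given by few runs (helper621).
-/

namespace Vale.Agent.P201.S.Code

open Finset Vale.Agent.P201.S.Runs Vale.Agent.P201.S.CodeGeo

variable {S : Sys} {σ : Equiv.Perm (S.C)}

/-- the seven relations -/
def rl (G : Glue σ) : Fin 7 → G.Q → G.Q → Prop
  | 0, s, s' => G.ε s = G.ε s'
  | 1, s, s' => G.ε s = mt σ (G.ε s')
  | 2, s, s' => S.blk (G.ε s) = S.blk (G.ε s')
  | 3, s, s' => S.blk (G.ε s) = S.blk (mt σ (G.ε s'))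
  | 4, s, s' => S.blk (mt σ (G.ε s)) = S.blk (mt σ (G.ε s'))
  | 5, s, s' => G.Y s = some s'
  | 6, s, s' => G.Pair s s'

/-- the relations in a numbering -/
def rels (G : Glue σ) {F : ℕ} (e : G.Q ≃ Fin F) (k : Fin 7) (i j : ℕ) : Prop :=
  ∃ s s', (e s : ℕ) = i ∧ (e s' : ℕ) = j ∧ rl G k s s'

theorem rels_lt (G : Glue σ) {F : ℕ} (e : G.Q ≃ Fin F) (k : Fin 7) (i j : ℕ)
    (h : rels G e k i j) : i < F ∧ j < F := by
  obtain ⟨s, s', rfl, rfl, -⟩ := h
  exact ⟨(e s).2, (e s').2⟩

/-- face at a position -/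
noncomputable def at' {G : Glue σ} {F : ℕ} (e : G.Q ≃ Fin F) (s0 : G.Q) (x : ℕ) : G.Q :=
  if h : x < F then e.symm ⟨x, h⟩ else s0

theorem at_e {G : Glue σ} {F : ℕ} (e : G.Q ≃ Fin F) (s0 s : G.Q) : at' e s0 (e s : ℕ) = s := by
  unfold at'
  rw [dif_pos (e s).2]
  simp

theorem e_at {G : Glue σ} {F : ℕ} (e : G.Q ≃ Fin F) (s0 : G.Q) {x : ℕ} (hx : x < F) :
    (e (at' e s0 x) : ℕ) = x := by
  unfold at'
  rw [dif_pos hx]
  simp

theorem rels_iff {G : Glue σ} {F : ℕ} (e : G.Q ≃ Fin F) (s0 : G.Q) (k : Fin 7) {i j : ℕ}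
    (hi : i < F) (hj : j < F) : rels G e k i j ↔ rl G k (at' e s0 i) (at' e s0 j) := by
  constructor
  · rintro ⟨s, s', rfl, rfl, h⟩
    rw [at_e, at_e]
    exact h
  · intro h
    exact ⟨_, _, e_at e s0 hi, e_at e s0 hj, h⟩

/-- the two-window property of the relations `0, ..., 4` -/
theorem two_win {G : Glue σ} (hR : G.Red) {g : ℕ} (hg : Girth σ g) (k : Fin 7) (hk : k.val < 5)
    {a b : ℕ → G.Q} {m m' : ℕ}
    (ha : ∀ x < m, G.Y (a x) = some (a (x + 1))) (hb : ∀ x < m', G.Y (b x) = some (b (x + 1)))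
    (hlt : m + m' < g) :
    (rl G k (a 0) (b 0) → rl G k (a m) (b m') → m = m' ∧ ∀ x ≤ m, rl G k (a x) (b x)) ∧
    (rl G k (a 0) (b m') → rl G k (a m) (b 0) → m = m' ∧ ∀ x ≤ m, rl G k (a x) (b (m' - x))) := by
  fin_cases k
  · -- equality of the start ports
    refine ⟨fun h0 h1 => ?_, fun h0 h1 => ?_⟩
    · change G.ε (a 0) = G.ε (b 0) at h0
      change G.ε (a m) = G.ε (b m') at h1
      obtain ⟨hm, h⟩ := ssp hR hg ha hb hlt (by rw [h0]) (by rw [h1])
      refine ⟨hm, fun x hx => ?_⟩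
      rcases Nat.lt_or_ge x m with hxm | hxm
      · exact h x hxm
      · obtain rfl : x = m := by omega
        rw [← hm] at h1
        exact h1
    · change G.ε (a 0) = G.ε (b m') at h0
      change G.ε (a m) = G.ε (b 0) at h1
      obtain ⟨hm, h⟩ := ssm hR hg ha hb hlt (by rw [h0]) (by rw [h1])
      have hm0 : m = 0 := by
        by_contra hne
        have h2 := h 0 (by omega)
        rw [h0] at h2
        have h3 := hR.y _ _ (hb (m' - 1) (by omega))
        have e1 : m' - 1 + 1 = m' := by (clear * - hm hne; omega)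
        have e2 : m' - 1 - 0 = m' - 1 := by (clear * - e1; omega)
        rw [e1] at h3
        rw [e2] at h2
        exact h3.2 h2
      subst hm0
      subst hm
      refine ⟨rfl, fun x hx => ?_⟩
      obtain rfl : x = 0 := by omega
      exact h0
  · -- start port = end port
    refine ⟨fun h0 h1 => ?_, fun h0 h1 => ?_⟩
    · change G.ε (a 0) = mt σ (G.ε (b 0)) at h0
      change G.ε (a m) = mt σ (G.ε (b m')) at h1
      obtain ⟨hm, h⟩ := sep hR hg ha hb hlt (by rw [h0]) (by rw [h1])
      have hm0 : m = 0 := by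
        by_contra hne
        have h2 := h 0 (by omega)
        rw [h0] at h2
        have h3 := hR.y _ _ (hb 0 (by omega))
        exact h3.2 h2.symm
      subst hm0
      subst hm
      refine ⟨rfl, fun x hx => ?_⟩
      obtain rfl : x = 0 := by omega
      exact h0
    · change G.ε (a 0) = mt σ (G.ε (b m')) at h0
      change G.ε (a m) = mt σ (G.ε (b 0)) at h1
      obtain ⟨hm, h⟩ := sem hR hg ha hb hlt (by rw [h0]) (by rw [h1])
      refine ⟨hm, fun x hx => ?_⟩
      rcases Nat.lt_or_ge x m with hxm | hxm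
      · have h2 := h x hxm
        have e1 : m' - 1 - x + 1 = m' - x := by omega
        rw [e1] at h2
        exact h2
      · obtain rfl : x = m := by omega
        have e1 : m' - x = 0 := by (clear * - hm; omega)
        rw [e1]
        exact h1
  · -- start block = start block
    refine ⟨fun h0 h1 => ?_, fun h0 h1 => ?_⟩
    · change S.blk (G.ε (a 0)) = S.blk (G.ε (b 0)) at h0
      change S.blk (G.ε (a m)) = S.blk (G.ε (b m')) at h1
      obtain ⟨hm, h⟩ := ssp hR hg ha hb hlt h0 h1
      refine ⟨hm, fun x hx => ?_⟩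
      rcases Nat.lt_or_ge x m with hxm | hxm
      · change S.blk (G.ε (a x)) = S.blk (G.ε (b x))
        rw [h x hxm]
      · obtain rfl : x = m := by omega
        rw [← hm] at h1
        exact h1
    · change S.blk (G.ε (a 0)) = S.blk (G.ε (b m')) at h0
      change S.blk (G.ε (a m)) = S.blk (G.ε (b 0)) at h1
      obtain ⟨hm, h⟩ := ssm hR hg ha hb hlt h0 h1
      refine ⟨hm, fun x hx => ?_⟩
      rcases Nat.lt_or_ge x m with hxm | hxm
      · change S.blk (G.ε (a x)) = S.blk (G.ε (b (m' - x)))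
        have h3 := (hR.y _ _ (hb (m' - 1 - x) (by omega))).1
        have e1 : m' - 1 - x + 1 = m' - x := by omega
        rw [e1] at h3
        rw [h x hxm, h3]
      · obtain rfl : x = m := by omega
        have e1 : m' - x = 0 := by omega
        rw [e1]
        exact h1
  · -- start block = end block
    refine ⟨fun h0 h1 => ?_, fun h0 h1 => ?_⟩
    · change S.blk (G.ε (a 0)) = S.blk (mt σ (G.ε (b 0))) at h0
      change S.blk (G.ε (a m)) = S.blk (mt σ (G.ε (b m'))) at h1
      obtain ⟨hm, h⟩ := sep hR hg ha hb hlt h0 h1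
      refine ⟨hm, fun x hx => ?_⟩
      rcases Nat.lt_or_ge x m with hxm | hxm
      · change S.blk (G.ε (a x)) = S.blk (mt σ (G.ε (b x)))
        rw [h x hxm, (hR.y _ _ (hb x (by omega))).1]
      · obtain rfl : x = m := by omega
        rw [← hm] at h1
        exact h1
    · change S.blk (G.ε (a 0)) = S.blk (mt σ (G.ε (b m'))) at h0
      change S.blk (G.ε (a m)) = S.blk (mt σ (G.ε (b 0))) at h1
      obtain ⟨hm, h⟩ := sem hR hg ha hb hlt h0 h1
      refine ⟨hm, fun x hx => ?_⟩
      rcases Nat.lt_or_ge x m with hxm | hxm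
      · change S.blk (G.ε (a x)) = S.blk (mt σ (G.ε (b (m' - x))))
        have e1 : m' - 1 - x + 1 = m' - x := by (clear * - hm hxm; omega)
        have h2 := h x hxm
        rw [e1] at h2
        rw [h2]
      · obtain rfl : x = m := by omega
        have e1 : m' - x = 0 := by omega
        rw [e1]
        exact h1
  · -- end block = end block
    refine ⟨fun h0 h1 => ?_, fun h0 h1 => ?_⟩
    · change S.blk (mt σ (G.ε (a 0))) = S.blk (mt σ (G.ε (b 0))) at h0
      change S.blk (mt σ (G.ε (a m))) = S.blk (mt σ (G.ε (b m'))) at h1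
      obtain ⟨hm, h⟩ := eep hR hg ha hb hlt h0 h1
      refine ⟨hm, fun x hx => ?_⟩
      rcases Nat.lt_or_ge x m with hxm | hxm
      · change S.blk (mt σ (G.ε (a x))) = S.blk (mt σ (G.ε (b x)))
        rw [(hR.y _ _ (ha x (by omega))).1, h x hxm, (hR.y _ _ (hb x (by omega))).1]
      · obtain rfl : x = m := by omega
        rw [← hm] at h1
        exact h1
    · change S.blk (mt σ (G.ε (a 0))) = S.blk (mt σ (G.ε (b m'))) at h0
      change S.blk (mt σ (G.ε (a m))) = S.blk (mt σ (G.ε (b 0))) at h1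
      obtain ⟨hm, h⟩ := eem hR hg ha hb hlt h0 h1
      refine ⟨hm, fun x hx => ?_⟩
      rcases Nat.lt_or_ge x m with hxm | hxm
      · change S.blk (mt σ (G.ε (a x))) = S.blk (mt σ (G.ε (b (m' - x))))
        have e1 : m' - 1 - x + 1 = m' - x := by omega
        have h2 := h x hxm
        rw [e1] at h2
        rw [(hR.y _ _ (ha x (by omega))).1, h2]
      · obtain rfl : x = m := by omega
        have e1 : m' - x = 0 := by omega
        rw [e1]
        exact h1
  · simp at hk
  · simp at hk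

open Classical in
/-- cuts: exceptional positions and multiples of `L` -/
def cut {G : Glue σ} {F : ℕ} (e : G.Q ≃ Fin F) (B0 : Finset G.Q) (L : ℕ) (y : ℕ) : Prop :=
  (∃ s ∈ B0, (e s : ℕ) = y) ∨ L ∣ y + 1

open Classical in
theorem card_cut {G : Glue σ} {F : ℕ} (e : G.Q ≃ Fin F) (B0 : Finset G.Q) (L : ℕ) :
    ((range F).filter (cut e B0 L)).card ≤ B0.card + F / L := by
  have h1 : (range F).filter (cut e B0 L) ⊆
      B0.image (fun s => (e s : ℕ)) ∪ (range F).filter (fun y => L ∣ y + 1) := by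
    intro y hy
    rw [mem_filter] at hy
    rw [mem_union, mem_image, mem_filter]
    rcases hy.2 with ⟨s, hs, h⟩ | h
    · exact Or.inl ⟨s, hs, h⟩
    · exact Or.inr ⟨hy.1, h⟩
  refine (card_le_card h1).trans ((card_union_le _ _).trans ?_)
  rw [Nat.card_multiples]
  exact Nat.add_le_add_right card_image_le _

theorem no_cut_lt {G : Glue σ} {F : ℕ} {e : G.Q ≃ Fin F} {B0 : Finset G.Q} {L : ℕ} (hL : 0 < L)
    {i m : ℕ} (h : ∀ y, i ≤ y → y < i + m → ¬ cut e B0 L y) : m < L := by
  by_contra hm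
  push Not at hm
  have h1 := Nat.div_add_mod i L
  have h2 := Nat.mod_lt i hL
  refine h (L * (i / L) + (L - 1)) (by omega) (by omega) (Or.inr ⟨i / L + 1, ?_⟩)
  rw [Nat.mul_add]
  omega

theorem runs04 {G : Glue σ} (hR : G.Red) {g : ℕ} (hg : Girth σ g) {F : ℕ} (e : G.Q ≃ Fin F)
    (B0 : Finset G.Q) (hB0 : ∀ s, s ∉ B0 → ∃ t, G.Y s = some t ∧ (e t : ℕ) = (e s : ℕ) + 1)
    {L : ℕ} (hL : 0 < L) (hLg : 2 * L ≤ g) (k : Fin 7) (hk : k.val < 5) :
    IsRuns F ((B0.card + F / L + 1) * (B0.card + F / L + 1)) (rels G e k) := by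
  classical
  refine windows_runs (cut e B0 L) F _ (card_cut e B0 L) _ (rels_lt G e k) ?_
  intro i j m m' h1 h2 hi hj
  have hm := no_cut_lt hL h1
  have hm' := no_cut_lt hL h2
  let s0 : G.Q := e.symm ⟨i + m, hi⟩
  have key : ∀ (i m : ℕ), (∀ y, i ≤ y → y < i + m → ¬ cut e B0 L y) → i + m < F →
      ∀ x < m, G.Y (at' e s0 (i + x)) = some (at' e s0 (i + (x + 1))) := by
    intro i m h hi x hx
    have h3 : at' e s0 (i + x) ∉ B0 := fun hmem =>
      h (i + x) (by (clear * -; omega)) (by omega) (Or.inl ⟨_, hmem, e_at e s0 (by (clear * - hi hx; omega))⟩)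
    obtain ⟨t, ht, het⟩ := hB0 _ h3
    rw [ht, Option.some.injEq, ← at_e e s0 t, het, e_at e s0 (by omega)]
    congr 1
  have h5 := two_win hR hg k hk (a := fun x => at' e s0 (i + x)) (b := fun x => at' e s0 (j + x))
    (key i m h1 hi) (key j m' h2 hj) (by omega)
  simp only [Nat.add_zero] at h5
  constructor
  · intro k1 k2
    rw [rels_iff e s0 k (by omega) (by omega)] at k1 k2
    obtain ⟨e1, e2⟩ := h5.1 k1 k2
    refine ⟨e1, fun x hx => ?_⟩
    rw [rels_iff e s0 k (by (clear * - hi e1 hx; omega)) (by omega)]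
    exact e2 x hx
  · intro k1 k2
    rw [rels_iff e s0 k (by omega) (by omega)] at k1 k2
    obtain ⟨e1, e2⟩ := h5.2 k1 k2
    refine ⟨e1, fun x hx => ?_⟩
    rw [rels_iff e s0 k (by omega) (by omega)]
    have e3 : j + m' - x = j + (m' - x) := by omega
    rw [e3]
    exact e2 x hx

theorem runs5 {G : Glue σ} {F : ℕ} (e : G.Q ≃ Fin F)
    (B0 : Finset G.Q) (hB0 : ∀ s, s ∉ B0 → ∃ t, G.Y s = some t ∧ (e t : ℕ) = (e s : ℕ) + 1) :
    IsRuns F (B0.card + B0.card) (rels G e 5) := by
  classical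
  refine runs_of_ends_diag F _ _ (rels_lt G e 5) ?_
  have hsub : ((range F ×ˢ range F).filter
      (fun q => rels G e 5 q.1 q.2 ∧ ¬ rels G e 5 (q.1 + 1) (q.2 + 1))) ⊆
      (B0.image fun s => ((e s : ℕ), ((G.Y s).elim 0 fun t => (e t : ℕ)))) ∪
      (B0.image fun s => (((G.Y.symm s).elim 0 fun t => (e t : ℕ)), (e s : ℕ))) := by
    rintro ⟨i, j⟩ hq
    rw [mem_filter] at hq
    obtain ⟨-, ⟨s, s', hs, hs', hY⟩, hn⟩ := hq
    dsimp only at hs hs' hn
    subst hs hs'
    change G.Y s = some s' at hY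
    rw [mem_union, mem_image, mem_image]
    by_cases h1 : s ∈ B0
    · left
      exact ⟨s, h1, by rw [hY]; rfl⟩
    · by_cases h2 : s' ∈ B0
      · right
        refine ⟨s', h2, ?_⟩
        rw [(PEquiv.eq_some_iff G.Y).2 hY]
        rfl
      · exfalso
        obtain ⟨t, ht, het⟩ := hB0 s h1
        rw [hY, Option.some.injEq] at ht
        subst ht
        obtain ⟨t', ht', het'⟩ := hB0 s' h2
        exact hn ⟨s', t', het, het', ht'⟩
  exact (card_le_card hsub).trans ((card_union_le _ _).trans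
    (Nat.add_le_add card_image_le card_image_le))

open Classical in
theorem runs6 {G : Glue σ} {F : ℕ} (e : G.Q ≃ Fin F)
    (B0 : Finset G.Q) (hB0 : ∀ s, s ∉ B0 → ∃ t, G.Y s = some t ∧ (e t : ℕ) = (e s : ℕ) + 1) :
    IsRuns F ((univ.filter fun s => G.Paired s ∧
      ∀ v, G.Y s = some v → ¬ (G.GoodX v ∧ G.Paired v)).card + B0.card + B0.card)
      (rels G e 6) := by
  refine runs_of_ends_anti F _ _ (rels_lt G e 6) ?_
  -- partner
  let pt : G.Q → ℕ := fun s => if h : ∃ s', G.Pair s s' then (e h.choose : ℕ) else 0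
  have hpt : ∀ s s', G.Pair s s' → pt s = e s' := by
    intro s s' h
    have h1 : ∃ s', G.Pair s s' := ⟨s', h⟩
    change (if h : ∃ s', G.Pair s s' then (e h.choose : ℕ) else 0) = e s'
    rw [dif_pos h1, h1.choose_spec.unique h]
  have hsub : ((range F ×ˢ range F).filter
      (fun q => rels G e 6 q.1 q.2 ∧ ¬ (1 ≤ q.2 ∧ rels G e 6 (q.1 + 1) (q.2 - 1)))) ⊆
      ((univ.filter fun s => G.Paired s ∧
      ∀ v, G.Y s = some v → ¬ (G.GoodX v ∧ G.Paired v)).image fun s => ((e s : ℕ), pt s)) ∪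
      (B0.image fun s => ((e s : ℕ), pt s)) ∪
      (B0.image fun v' => ((G.Y v').elim (0, 0) fun s' => (pt s', (e s' : ℕ)))) := by
    rintro ⟨i, j⟩ hq
    rw [mem_filter] at hq
    obtain ⟨-, ⟨s, s', hs, hs', hP⟩, hn⟩ := hq
    dsimp only at hs hs' hn
    subst hs hs'
    change G.Pair s s' at hP
    rw [mem_union, mem_union, mem_image, mem_image, mem_image]
    by_cases h1 : s ∈ B0
    · left; right
      exact ⟨s, h1, by rw [hpt s s' hP]⟩
    · obtain ⟨v, hv, hev⟩ := hB0 s h1
      by_cases h2 : G.GoodX v ∧ G.Paired v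
      · obtain ⟨hX, v', hvv'⟩ := h2
        have h3 : G.Y v' = some s' := hP.slope hv hX hvv'
        by_cases h4 : v' ∈ B0
        · right
          refine ⟨v', h4, ?_⟩
          rw [h3]
          simp only [Option.elim_some]
          rw [hpt s' s hP.symm]
        · exfalso
          obtain ⟨t, ht, het⟩ := hB0 v' h4
          rw [h3, Option.some.injEq] at ht
          subst ht
          refine hn ⟨by omega, v, v', hev, by omega, hvv'⟩
      · left; left
        refine ⟨s, mem_filter.2 ⟨mem_univ _, ⟨s', hP⟩, ?_⟩, by rw [hpt s s' hP]⟩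
        intro w hw
        rw [hv, Option.some.injEq] at hw
        subst hw
        exact h2
  exact (card_le_card hsub).trans ((card_union_le _ _).trans
    (Nat.add_le_add ((card_union_le _ _).trans (Nat.add_le_add card_image_le card_image_le))
      card_image_le))

/-- the record of seven relations -/
def toCmb (F : ℕ) (R : Fin 7 → ℕ → ℕ → Prop) : Cmb F where
  sp h k := match h.2, k.2 with
    | false, false => R 0 h.1 k.1
    | false, true => R 1 h.1 k.1
    | true, false => R 1 k.1 h.1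
    | true, true => R 0 h.1 k.1
  sb h k := match h.2, k.2 with
    | false, false => R 2 h.1 k.1
    | false, true => R 3 h.1 k.1
    | true, false => R 3 k.1 h.1
    | true, true => R 4 h.1 k.1
  yr h k := R 5 h k
  pr h k := R 6 h k

theorem isCmb_toCmb {G : Glue σ} {F : ℕ} (e : G.Q ≃ Fin F) :
    IsCmb G e (toCmb F (rels G e)) := by
  have key : ∀ (k : Fin 7) (i j : Fin F), rels G e k i j ↔ rl G k (e.symm i) (e.symm j) := by
    intro k i j
    constructor
    · rintro ⟨s, s', h1, h2, h⟩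
      have e1 : e s = i := Fin.ext h1
      have e2 : e s' = j := Fin.ext h2
      rw [← e1, ← e2, Equiv.symm_apply_apply, Equiv.symm_apply_apply]
      exact h
    · intro h
      exact ⟨_, _, by simp, by simp, h⟩
  unfold IsCmb cmb toCmb
  simp only [Cmb.mk.injEq]
  refine ⟨?_, ?_, ?_, ?_⟩
  · funext ⟨i, a⟩ ⟨j, b⟩
    cases a <;> cases b <;> simp only [hp_false, hp_true, eq_iff_iff]
    · exact (key 0 i j).symm
    · exact (key 1 i j).symm
    · rw [key 1 j i]
      exact eq_comm
    · rw [key 0 i j]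
      constructor
      · intro h
        change G.ε _ = G.ε _
        rw [← mt_mt σ (G.ε (e.symm i)), h, mt_mt]
      · intro h
        change G.ε _ = G.ε _ at h
        rw [h]
  · funext ⟨i, a⟩ ⟨j, b⟩
    cases a <;> cases b <;> simp only [hp_false, hp_true, eq_iff_iff]
    · exact (key 2 i j).symm
    · exact (key 3 i j).symm
    · rw [key 3 j i]
      exact eq_comm
    · exact (key 4 i j).symm
  · funext i j
    exact propext (key 5 i j).symm
  · funext i j
    exact propext (key 6 i j).symm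

/-- **(B3)** -/
theorem stmtCode : StmtCode := by
  classical
  intro A
  set b := 2 * A with hb
  set W := b + 3 * A with hW
  set B' := (W + 1) * (W + 1) + ((6 * b + 6) + A + b + b) with hB'
  refine ⟨1 + 28 * B', fun S F g hg3 hFg => ?_⟩
  obtain ⟨𝒞, hcard, h𝒞⟩ := codes F B'
  refine ⟨↑((𝒞.filter fun x => x.1 = F).image fun x => toCmb F x.2), Finset.finite_toSet _, ?_, ?_⟩
  · rw [Set.ncard_coe_finset]
    refine card_image_le.trans ((card_filter_le _ _).trans (hcard.trans ?_))
    have h1 : 2 * (F + 1) ^ 3 ≤ (F + 2) ^ 4 := by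
      calc 2 * (F + 1) ^ 3 ≤ (F + 2) * (F + 2) ^ 3 :=
            Nat.mul_le_mul (by omega) (Nat.pow_le_pow_left (by omega) _)
        _ = (F + 2) ^ 4 := by ring
    calc (F + 1) * ((2 * (F + 1) ^ 3) ^ B') ^ 7
        ≤ (F + 2) * (((F + 2) ^ 4) ^ B') ^ 7 :=
          Nat.mul_le_mul (by omega) (Nat.pow_le_pow_left (Nat.pow_le_pow_left h1 _) _)
      _ = (F + 2) ^ (1 + 28 * B') := by
          rw [← pow_mul, ← pow_mul, pow_add, pow_one]
          congr 2
          ring
  · intro σ hg G hR hL hE hF hY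
    subst hF
    obtain ⟨e, B0, hB0, hsucc⟩ := Numb.exists_numbering G.Y
    have hcyc := Glue.girth_cyc hR hg
    have hcA : cyc G.Y ≤ A := by
      by_contra hcon
      push Not at hcon
      have : g * (A + 1) ≤ g * cyc G.Y := Nat.mul_le_mul_left _ hcon
      have h2 : A * g = g * A := Nat.mul_comm _ _
      rw [Nat.mul_add] at this
      (clear * - hg3 hFg hcyc this h2; omega)
    have hdom : domc G.Y ≤ Fintype.card G.Q := by
      unfold domc
      exact card_le_univ _
    have hB0b : B0.card ≤ b := by omega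
    have hLpos : 0 < g / 2 := by omega
    have hFL : Fintype.card G.Q / (g / 2) ≤ 3 * A := by
      rw [Nat.div_le_iff_le_mul_add_pred hLpos]
      have h1 : g ≤ 3 * (g / 2) := by omega
      have h2 : A * g ≤ A * (3 * (g / 2)) := Nat.mul_le_mul_left _ h1
      have h3 : A * (3 * (g / 2)) = g / 2 * (3 * A) := by ring
      (clear * - hFg h2 h3; omega)
    have hla := Glue.la1 hR hL hE
    have hbr := G.breaks_le
    refine ⟨e, toCmb _ (rels G e), ?_, isCmb_toCmb e⟩
    rw [Finset.mem_coe, mem_image]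
    refine ⟨(Fintype.card G.Q, rels G e), mem_filter.2 ⟨h𝒞 _ le_rfl _ ?_, rfl⟩, rfl⟩
    have r04 : ∀ k : Fin 7, k.val < 5 → IsRuns (Fintype.card G.Q) B' (rels G e k) := by
      intro k hk
      refine IsRuns.mono ?_ (runs04 hR hg e B0 hsucc hLpos (by omega) k hk)
      have h1 : B0.card + Fintype.card G.Q / (g / 2) + 1 ≤ W + 1 := by (clear * - hB0b hFL; omega)
      have := Nat.mul_le_mul h1 h1
      (clear * - hcA this; omega)
    intro k
    by_cases hk : k.val < 5
    · exact r04 k hk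
    · by_cases hk5 : k = 5
      · subst hk5
        exact IsRuns.mono (by omega) (runs5 e B0 hsucc)
      · have hk6 : k = 6 := by
          apply Fin.ext
          have h1 := k.2
          have h2 : k.val ≠ 5 := fun h => hk5 (Fin.ext h)
          show k.val = 6
          (clear * - hk h2; omega)
        subst hk6
        refine IsRuns.mono ?_ (runs6 e B0 hsucc)
        have hop : Fintype.card G.Q - domc G.Y ≤ A := by (clear * - hY hdom hk5; omega)
        (clear * - hB0 hcA hla hbr hop; omega)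

end Vale.Agent.P201.S.Code

namespace Vale.Agent.P201.S

theorem stmtCode : StmtCode := Code.stmtCode

end Vale.Agent.P201.S
end

section

/-!
P201, part LA (B2): two short chains of squares meet in one diagonal or antidiagonal run.
-/

namespace Vale.Agent.P201.S.Geo

open Finset

variable {S : Sys} {σ : Equiv.Perm S.C}

/-- a relation on positions which is one diagonal or antidiagonal segment -/
def Run (C : ℕ → ℕ → Prop) : Prop :=
  ∃ i0 j0 len, (∀ i j, C i j ↔ ∃ x < len, i = i0 + x ∧ j = j0 + x) ∨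
    (∀ i j, C i j ↔ ∃ x < len, i = i0 + x ∧ j + x = j0)

theorem run_of (C : ℕ → ℕ → Prop) (a : ℕ) (hC : ∀ i j, C i j → i ≤ a)
    (huniq : ∀ i j j', C i j → C i j' → j = j')
    (hCL : ∀ i j i2 j2, C i j → C i2 j2 → i < i2 →
      (j2 = j + (i2 - i) ∧ ∀ x ≤ i2 - i, C (i + x) (j + x)) ∨
      (j = j2 + (i2 - i) ∧ ∀ x ≤ i2 - i, C (i + x) (j - x))) : Run C := by
  classical
  by_cases hne : ∃ i j, C i j
  · -- least and greatest first coordinate
    have hle : ∃ i, ∃ j, C i j := hne
    set i0 := Nat.find hle with hi0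
    obtain ⟨j0, h0⟩ := Nat.find_spec hle
    have hmin : ∀ i j, C i j → i0 ≤ i := fun i j h => Nat.find_min' hle ⟨j, h⟩
    have hmax : ∃ i1, (∃ j, C i1 j) ∧ ∀ i j, C i j → i ≤ i1 := by
      obtain ⟨i1, h1, h2⟩ := Finset.exists_max_image ((range (a + 1)).filter fun i => ∃ j, C i j)
        id ⟨i0, mem_filter.2 ⟨mem_range.2 (by have := hC _ _ h0; omega), j0, h0⟩⟩
      refine ⟨i1, (mem_filter.1 h1).2, fun i j h => ?_⟩
      exact h2 i (mem_filter.2 ⟨mem_range.2 (by have := hC _ _ h; omega), j, h⟩)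
    obtain ⟨i1, ⟨j1, h1⟩, hmax⟩ := hmax
    have hle01 := hmin _ _ h1
    rcases hle01.eq_or_lt with heq | hlt
    · refine ⟨i0, j0, 1, Or.inl fun i j => ⟨fun h => ⟨0, by omega, ?_, ?_⟩, ?_⟩⟩
      · have := hmin _ _ h
        have := hmax _ _ h
        omega
      · have e1 := hmin _ _ h
        have e2 := hmax _ _ h
        have : i = i0 := by omega
        subst this
        exact huniq _ _ _ h h0
      · rintro ⟨x, hx, rfl, rfl⟩
        obtain rfl : x = 0 := by omega
        exact h0
    · rcases hCL _ _ _ _ h0 h1 hlt with ⟨e, h2⟩ | ⟨e, h2⟩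
      · refine ⟨i0, j0, i1 - i0 + 1, Or.inl fun i j => ⟨fun h => ?_, ?_⟩⟩
        · have e1 := hmin _ _ h
          have e2 := hmax _ _ h
          refine ⟨i - i0, by omega, by omega, ?_⟩
          have h3 := h2 (i - i0) (by omega)
          rw [show i0 + (i - i0) = i by omega] at h3
          exact huniq _ _ _ h h3
        · rintro ⟨x, hx, rfl, rfl⟩
          exact h2 x (by omega)
      · refine ⟨i0, j0, i1 - i0 + 1, Or.inr fun i j => ⟨fun h => ?_, ?_⟩⟩
        · have e1 := hmin _ _ h
          have e2 := hmax _ _ h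
          refine ⟨i - i0, by omega, by (clear * - hle e1; omega), ?_⟩
          have h3 := h2 (i - i0) (by omega)
          rw [show i0 + (i - i0) = i by omega] at h3
          have := huniq _ _ _ h h3
          omega
        · rintro ⟨x, hx, rfl, h⟩
          have h3 := h2 x (by omega)
          rwa [show j0 - x = j by (clear * - hle e h; omega)] at h3
  · push Not at hne
    exact ⟨0, 0, 0, Or.inl fun i j => ⟨fun h => absurd h (hne i j), by
      rintro ⟨x, hx, -⟩
      omega⟩⟩

/-- restriction of a run to a box -/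
theorem Run.box {C : ℕ → ℕ → Prop} (h : Run C) (a b : ℕ) :
    Run fun i j => C i j ∧ i < a ∧ j < b := by
  obtain ⟨i0, j0, len, h | h⟩ := h
  · refine run_of _ a (fun i j h => h.2.1.le) ?_ ?_
    · rintro i j j' ⟨h1, -, -⟩ ⟨h2, -, -⟩
      obtain ⟨x, -, e1, e2⟩ := (h i j).1 h1
      obtain ⟨y, -, e3, e4⟩ := (h i j').1 h2
      omega
    · rintro i j i2 j2 ⟨h1, h1a, h1b⟩ ⟨h2, h2a, h2b⟩ hlt
      obtain ⟨x, hx, e1, e2⟩ := (h i j).1 h1
      obtain ⟨y, hy, e3, e4⟩ := (h i2 j2).1 h2
      left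
      refine ⟨by omega, fun z hz => ⟨(h _ _).2 ⟨x + z, by (clear * - hlt e1 hy e3 hz; omega), by omega, by omega⟩, by omega,
        by (clear * - h2b hlt e1 e2 e3 e4 hz; omega)⟩⟩
  · refine run_of _ a (fun i j h => h.2.1.le) ?_ ?_
    · rintro i j j' ⟨h1, -, -⟩ ⟨h2, -, -⟩
      obtain ⟨x, -, e1, e2⟩ := (h i j).1 h1
      obtain ⟨y, -, e3, e4⟩ := (h i j').1 h2
      (clear * - e1 e2 e3 e4; omega)
    · rintro i j i2 j2 ⟨h1, h1a, h1b⟩ ⟨h2, h2a, h2b⟩ hlt
      obtain ⟨x, hx, e1, e2⟩ := (h i j).1 h1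
      obtain ⟨y, hy, e3, e4⟩ := (h i2 j2).1 h2
      right
      refine ⟨by omega, fun z hz => ⟨(h _ _).2 ⟨x + z, by omega, by omega, by omega⟩, by omega,
        by (clear * - h1b h2b e2 e4; omega)⟩⟩

/-- `ch 0, …, ch m` is a chain for `Y` -/
def Ych (G : Glue σ) (m : ℕ) (ch : ℕ → G.Q) : Prop := ∀ i < m, G.Y (ch i) = some (ch (i + 1))

/-- the blocks `0, …, m + 1` met by the chain -/
noncomputable def bs (G : Glue σ) (ch : ℕ → G.Q) : ℕ → S.B
  | 0 => S.blk (G.ε (ch 0))
  | i + 1 => S.blk (mt σ (G.ε (ch i)))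

/-- the ports `i, …, i + k - 1` of the chain -/
noncomputable def pts (G : Glue σ) (ch : ℕ → G.Q) : ℕ → ℕ → List (Port S)
  | _, 0 => []
  | i, k + 1 => G.ε (ch i) :: pts G ch (i + 1) k

variable {G : Glue σ}

theorem bs_succ (ch : ℕ → G.Q) (i : ℕ) : bs G ch (i + 1) = S.blk (mt σ (G.ε (ch i))) := rfl

theorem bs_start (hR : G.Red) {m : ℕ} {ch : ℕ → G.Q} (h : Ych G m ch) {i : ℕ} (hi : i ≤ m) :
    S.blk (G.ε (ch i)) = bs G ch i := by
  cases i with
  | zero => rfl
  | succ i => exact (hR.y _ _ (h i (by omega))).1.symm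

theorem pts_length (ch : ℕ → G.Q) (i k : ℕ) : (pts G ch i k).length = k := by
  induction k generalizing i with
  | zero => rfl
  | succ k ih => rw [pts, List.length_cons, ih]

theorem pts_get (ch : ℕ → G.Q) (i k x : ℕ) (hx : x < k) :
    (pts G ch i k)[x]? = some (G.ε (ch (i + x))) := by
  induction k generalizing i x with
  | zero => omega
  | succ k ih =>
    rw [pts]
    cases x with
    | zero => rfl
    | succ x =>
      rw [List.getElem?_cons_succ, ih (i + 1) x (by omega)]
      congr 3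
      omega

theorem rw_pts (hR : G.Red) {m : ℕ} {ch : ℕ → G.Q} (h : Ych G m ch) :
    ∀ k i, i + k ≤ m + 1 → RW σ (bs G ch i) (pts G ch i k) (bs G ch (i + k)) := by
  intro k
  induction k with
  | zero => intro i _; exact rfl
  | succ k ih =>
    intro i hi
    rw [pts, RW.cons_iff]
    refine ⟨bs_start hR h (by omega), ?_, ?_⟩
    · intro b hb
      cases k with
      | zero => simp [pts] at hb
      | succ k =>
        rw [pts, List.head?_cons, Option.mem_def, Option.some.injEq] at hb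
        subst hb
        exact (hR.y _ _ (h i (by omega))).2
    · have := ih (i + 1) (by omega)
      rw [show i + (k + 1) = i + 1 + k by omega]
      exact this

/-- a short chain meets a block only once -/
theorem bs_inj (hR : G.Red) {g : ℕ} (hg : Girth σ g) {m : ℕ} {ch : ℕ → G.Q} (h : Ych G m ch)
    (hm : m + 1 < g) {i j : ℕ} (hi : i ≤ m + 1) (hj : j ≤ m + 1) (e : bs G ch i = bs G ch j) :
    i = j := by
  have key : ∀ i j : ℕ, i < j → j ≤ m + 1 → bs G ch i = bs G ch j → False := by
    intro i j hij hj e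
    have h1 := rw_pts hR h (j - i) i (by omega)
    rw [show i + (j - i) = j by omega, ← e] at h1
    have h2 := h1.girth hg (by
      intro h0
      have := congrArg List.length h0
      rw [pts_length, List.length_nil] at this
      omega)
    rw [pts_length] at h2
    (clear * - hm hij hj h2; omega)
  rcases lt_trichotomy i j with hlt | heq | hlt
  · exact (key i j hlt hj e).elim
  · exact heq
  · exact (key j i hlt hi e.symm).elim

theorem rvw_get (l : List (Port S)) (x : ℕ) (hx : x < l.length) :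
    (rvw σ l)[x]? = (l[l.length - 1 - x]?).map (mt σ) := by
  unfold rvw
  rw [List.getElem?_reverse (by simpa using hx), List.getElem?_map, List.length_map]

/-- two coincidences of two chains -/
theorem coinc (hR : G.Red) {g : ℕ} (hg : Girth σ g) {m m' : ℕ} {ch ch' : ℕ → G.Q}
    (h : Ych G m ch) (h' : Ych G m' ch') (hm : (m + 1) + (m' + 1) < g) {i i2 j j2 : ℕ}
    (hi : i < i2) (hi2 : i2 ≤ m + 1) (hj : j ≤ m' + 1) (hj2 : j2 ≤ m' + 1)
    (e : bs G ch i = bs G ch' j) (e2 : bs G ch i2 = bs G ch' j2) :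
    (j2 = j + (i2 - i) ∧ ∀ x < i2 - i, G.ε (ch (i + x)) = G.ε (ch' (j + x))) ∨
    (j = j2 + (i2 - i) ∧ ∀ x < i2 - i, G.ε (ch (i + x)) = mt σ (G.ε (ch' (j - 1 - x)))) := by
  have h1 := rw_pts hR h (i2 - i) i (by omega)
  rw [show i + (i2 - i) = i2 by omega] at h1
  rcases le_or_gt j j2 with hjj | hjj
  · left
    have h2 := rw_pts hR h' (j2 - j) j (by omega)
    rw [show j + (j2 - j) = j2 by (clear * - hjj; omega), ← e, ← e2] at h2
    have h3 := h1.unique hg h2 (by rw [pts_length, pts_length]; omega)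
    have h4 := congrArg List.length h3
    rw [pts_length, pts_length] at h4
    refine ⟨by (clear * - hjj h4; omega), fun x hx => ?_⟩
    have h5 := pts_get ch i (i2 - i) x hx
    have h6 := pts_get ch' j (j2 - j) x (by omega)
    rw [h3, h6, Option.some.injEq] at h5
    exact h5.symm
  · right
    have h2 := (rw_pts hR h' (j - j2) j2 (by omega)).reverse
    rw [show j2 + (j - j2) = j by (clear * - hjj; omega), ← e, ← e2] at h2
    have h3 := h1.unique hg h2 (by rw [rvw_length, pts_length, pts_length]; omega)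
    have h4 := congrArg List.length h3
    rw [rvw_length, pts_length, pts_length] at h4
    refine ⟨by omega, fun x hx => ?_⟩
    have h5 := pts_get ch i (i2 - i) x hx
    have h6 := rvw_get (σ := σ) (pts G ch' j2 (j - j2)) x (by rw [pts_length]; omega)
    rw [pts_length, pts_get ch' j2 (j - j2) (j - j2 - 1 - x) (by (clear * - hjj h4 hx; omega))] at h6
    rw [h3, h6, Option.map_some, Option.some.injEq] at h5
    rw [← h5]
    congr 4
    omega

/-- **two short chains meet in one run** -/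
theorem run_coinc (hR : G.Red) {g : ℕ} (hg : Girth σ g) {m m' : ℕ} {ch ch' : ℕ → G.Q}
    (h : Ych G m ch) (h' : Ych G m' ch') (hm : (m + 1) + (m' + 1) < g) :
    Run fun i j => i ≤ m + 1 ∧ j ≤ m' + 1 ∧ bs G ch i = bs G ch' j := by
  refine run_of _ (m + 1) (fun i j h => h.1) ?_ ?_
  · rintro i j j' ⟨-, hj, e⟩ ⟨-, hj', e'⟩
    exact bs_inj hR hg h' (by omega) hj hj' (e.symm.trans e')
  · rintro i j i2 j2 ⟨hi, hj, e⟩ ⟨hi2, hj2, e2⟩ hlt
    rcases coinc hR hg h h' hm hlt hi2 hj hj2 e e2 with ⟨h1, h2⟩ | ⟨h1, h2⟩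
    · left
      refine ⟨h1, fun x hx => ⟨by (clear * - hi2 hlt hx; omega), by omega, ?_⟩⟩
      cases x with
      | zero => exact e
      | succ x =>
        rw [show i + (x + 1) = i + x + 1 by omega, show j + (x + 1) = j + x + 1 by (clear * -; omega),
          bs_succ, bs_succ, h2 x (by omega)]
    · right
      refine ⟨h1, fun x hx => ⟨by omega, by omega, ?_⟩⟩
      cases x with
      | zero => exact e
      | succ x =>
        rw [show i + (x + 1) = i + x + 1 by omega, bs_succ, h2 x (by omega), mt_mt,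
          show j - (x + 1) = j - 1 - x by (clear * - h1 hx; omega)]
        exact bs_start hR h' (by omega)

/-- equal ports of two squares -/
theorem port_eq_iff (hR : G.Red) {g : ℕ} (hg : Girth σ g) {m m' : ℕ} {ch ch' : ℕ → G.Q}
    (h : Ych G m ch) (h' : Ych G m' ch') (hm : (m + 1) + (m' + 1) < g) {i j : ℕ} (hi : i ≤ m)
    (hj : j ≤ m') : G.ε (ch i) = G.ε (ch' j) ↔
      bs G ch i = bs G ch' j ∧ bs G ch (i + 1) = bs G ch' (j + 1) := by
  constructor
  · intro e
    exact ⟨by rw [← bs_start hR h hi, ← bs_start hR h' hj, e], by rw [bs_succ, bs_succ, e]⟩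
  · rintro ⟨e, e2⟩
    rcases coinc hR hg h h' hm (Nat.lt_succ_self i) (by omega) (by omega) (by omega) e e2 with
      ⟨-, h2⟩ | ⟨h1, -⟩
    · exact h2 0 (by omega)
    · omega

/-- opposite ports of two squares -/
theorem port_mt_iff (hR : G.Red) {g : ℕ} (hg : Girth σ g) {m m' : ℕ} {ch ch' : ℕ → G.Q}
    (h : Ych G m ch) (h' : Ych G m' ch') (hm : (m + 1) + (m' + 1) < g) {i j : ℕ} (hi : i ≤ m)
    (hj : j ≤ m') : G.ε (ch i) = mt σ (G.ε (ch' j)) ↔
      bs G ch i = bs G ch' (j + 1) ∧ bs G ch (i + 1) = bs G ch' j := by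
  constructor
  · intro e
    refine ⟨by rw [← bs_start hR h hi, e, bs_succ], ?_⟩
    rw [bs_succ, e, mt_mt]
    exact bs_start hR h' hj
  · rintro ⟨e, e2⟩
    rcases coinc hR hg h h' hm (Nat.lt_succ_self i) (by omega) (by omega) (by omega) e e2 with
      ⟨h1, -⟩ | ⟨h1, h2⟩
    · omega
    · have := h2 0 (by omega)
      simpa only [add_zero, add_tsub_cancel_right, tsub_zero] using this

/-- at an inner point of the run the unordered units are equal -/
theorem unit_of_run (hR : G.Red) {g : ℕ} (hg : Girth σ g) {m m' : ℕ} {ch ch' : ℕ → G.Q}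
    (h : Ych G m ch) (h' : Ych G m' ch') (hm : (m + 1) + (m' + 1) < g) {i j : ℕ} (hi : i < m)
    (hj : j < m') (e : bs G ch (i + 1) = bs G ch' (j + 1))
    (hne : ¬ ((mt σ (G.ε (ch i)) = mt σ (G.ε (ch' j)) ∧ G.ε (ch (i + 1)) = G.ε (ch' (j + 1))) ∨
      (mt σ (G.ε (ch i)) = G.ε (ch' (j + 1)) ∧ G.ε (ch (i + 1)) = mt σ (G.ε (ch' j))))) :
    ¬ (bs G ch i = bs G ch' j ∧ bs G ch (i + 2) = bs G ch' (j + 2)) ∧
    ¬ (bs G ch i = bs G ch' (j + 2) ∧ bs G ch (i + 2) = bs G ch' j) := by
  constructor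
  · rintro ⟨e1, e2⟩
    apply hne
    left
    have h1 := (port_eq_iff hR hg h h' hm (i := i) (j := j) (by omega) (by omega)).2 ⟨e1, e⟩
    have h2 := (port_eq_iff hR hg h h' hm (i := i + 1) (j := j + 1) (by omega) (by omega)).2
      ⟨e, e2⟩
    exact ⟨by rw [h1], h2⟩
  · rintro ⟨e1, e2⟩
    apply hne
    right
    have h1 := (port_mt_iff hR hg h h' hm (i := i) (j := j + 1) (by omega) (by omega)).2 ⟨e1, e⟩
    have h2 := (port_mt_iff hR hg h h' hm (i := i + 1) (j := j) (by omega) (by omega)).2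
      ⟨e, e2⟩
    exact ⟨by rw [h1, mt_mt], h2⟩

end Vale.Agent.P201.S.Geo
end

section

/-!
P201, part LA (B2): counting irregular blocks, visits, used ports.
-/

namespace Vale.Agent.P201.S.Cnt

open Finset Vale.Agent.P201.S.Geo

variable {S : Sys} {σ : Equiv.Perm (S.C)} {G : Glue σ}

/-- the chain starting at `t` -/
noncomputable def cht (G : Glue σ) (t : G.Q) (i : ℕ) : G.Q := (pit G.Y i t).getD t

theorem cht_eq {t s : G.Q} {i : ℕ} (h : pit G.Y i t = some s) : cht G t i = s := by
  unfold cht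
  rw [h]
  rfl

theorem pit_le {t s : G.Q} {k : ℕ} (h : pit G.Y k t = some s) {i : ℕ} (hi : i ≤ k) :
    pit G.Y i t = some (cht G t i) := by
  have h1 := pit_isSome (f := G.Y) hi (by rw [h]; rfl)
  obtain ⟨u, hu⟩ := Option.isSome_iff_exists.1 h1
  rw [cht_eq hu]
  exact hu

theorem ych {t s : G.Q} {k : ℕ} (h : pit G.Y k t = some s) : Ych G k (cht G t) := by
  intro i hi
  have h1 := pit_le h hi.le
  have h2 := pit_le h (i := i + 1) (by omega)
  rw [pit_succ', h1, Option.bind_some] at h2
  exact h2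

/-- windows data -/
structure Wd (G : Glue σ) (T : Finset G.Q) (L g : ℕ) : Prop where
  red : G.Red
  gir : Girth σ g
  len : 4 * L + 2 < g
  sr : src G.Y ⊆ T
  cov : ∀ s, ∃ k t, k < 2 * L ∧ t ∈ T ∧ pit G.Y k t = some s

variable {T : Finset G.Q} {L g : ℕ}

open Classical in
theorem Wd.end_le (h : Wd G T L g) (b : S.B) :
    (univ.filter fun s : G.Q => S.blk (mt σ (G.ε s)) = b).card ≤ T.card := by
  choose k t hk ht hp using h.cov
  refine Finset.card_le_card_of_injOn t (fun s _ => ht s) ?_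
  intro s hs s' hs' hst
  have e1 : S.blk (mt σ (G.ε s)) = b := (mem_filter.1 (mem_coe.1 hs)).2
  have e2 : S.blk (mt σ (G.ε s')) = b := (mem_filter.1 (mem_coe.1 hs')).2
  have p1 := hp s
  have p2 := hp s'
  rw [← hst] at p2
  have key : ∀ (a c : ℕ) (u u' : G.Q), pit G.Y a (t s) = some u → pit G.Y c (t s) = some u' →
      S.blk (mt σ (G.ε u)) = b → S.blk (mt σ (G.ε u')) = b → a ≤ c → c < 2 * L → u = u' := by
    intro a c u u' ha hc eu eu' hac hcL
    have h1 := bs_inj h.red h.gir (ych hc) (by have := h.len; omega) (i := a + 1) (j := c + 1)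
      (by omega) (by omega) (by rw [bs_succ, bs_succ, cht_eq ha, cht_eq hc, eu, eu'])
    have h2 : a = c := by (clear * - h1; omega)
    subst h2
    rw [ha, Option.some.injEq] at hc
    exact hc
  rcases le_total (k s) (k s') with hle | hle
  · exact key _ _ _ _ p1 p2 e1 e2 hle (hk s')
  · exact (key _ _ _ _ p2 p1 e2 e1 hle (hk s)).symm

open Classical in
theorem Wd.start_le (h : Wd G T L g) (b : S.B) :
    (univ.filter fun s : G.Q => S.blk (G.ε s) = b).card ≤ T.card := by
  choose k t hk ht hp using h.cov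
  refine Finset.card_le_card_of_injOn t (fun s _ => ht s) ?_
  intro s hs s' hs' hst
  have e1 : S.blk (G.ε s) = b := (mem_filter.1 (mem_coe.1 hs)).2
  have e2 : S.blk (G.ε s') = b := (mem_filter.1 (mem_coe.1 hs')).2
  have p1 := hp s
  have p2 := hp s'
  rw [← hst] at p2
  have key : ∀ (a c : ℕ) (u u' : G.Q), pit G.Y a (t s) = some u → pit G.Y c (t s) = some u' →
      S.blk (G.ε u) = b → S.blk (G.ε u') = b → a ≤ c → c < 2 * L → u = u' := by
    intro a c u u' ha hc eu eu' hac hcL
    have h1 := bs_inj h.red h.gir (ych hc) (by have := h.len; omega) (i := a) (j := c)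
      (by omega) (by omega) (by
        rw [← bs_start h.red (ych hc) hac, ← bs_start h.red (ych hc) le_rfl, cht_eq ha, cht_eq hc,
          eu, eu'])
    subst h1
    rw [ha, Option.some.injEq] at hc
    exact hc
  rcases le_total (k s) (k s') with hle | hle
  · exact key _ _ _ _ p1 p2 e1 e2 hle (hk s')
  · exact (key _ _ _ _ p2 p1 e2 e1 hle (hk s)).symm

theorem Wd.mulB_le (h : Wd G T L g) (b : S.B) : G.mulB b ≤ 2 * T.card := by
  classical
  unfold Glue.mulB
  have h1 := h.end_le b
  have h2 : (univ.filter fun s : G.Q => G.Y.symm s = none ∧ S.blk (G.ε s) = b).card ≤ T.card :=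
    card_le_card fun s hs => h.sr (mem_src.2 (mem_filter.1 hs).2.1)
  omega

open Classical in
/-- used ports at a block -/
theorem Wd.ports_le (h : Wd G T L g) (b : S.B) :
    (univ.filter fun q : Port S => S.blk q = b ∧ 0 < G.mulP q).card ≤ 2 * T.card := by
  have hsub : (univ.filter fun q : Port S => S.blk q = b ∧ 0 < G.mulP q) ⊆
      ((univ.filter fun s : G.Q => S.blk (G.ε s) = b).image G.ε) ∪
      ((univ.filter fun s : G.Q => S.blk (mt σ (G.ε s)) = b).image fun s => mt σ (G.ε s)) := by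
    intro q hq
    obtain ⟨-, hb, hq⟩ := mem_filter.1 hq
    unfold Glue.mulP at hq
    obtain ⟨s, hs⟩ := card_pos.1 hq
    rw [mem_union, mem_image, mem_image]
    rcases (mem_filter.1 hs).2 with hs | hs
    · left
      exact ⟨s, mem_filter.2 ⟨mem_univ _, by rw [hs]; exact hb⟩, hs⟩
    · right
      exact ⟨s, mem_filter.2 ⟨mem_univ _, by rw [hs]; exact hb⟩, hs⟩
  have h1 := h.end_le b
  have h2 := h.start_le b
  have h3 := card_image_le (s := univ.filter fun s : G.Q => S.blk (G.ε s) = b) (f := G.ε)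
  have h4 := card_image_le (s := univ.filter fun s : G.Q => S.blk (mt σ (G.ε s)) = b)
    (f := fun s => mt σ (G.ε s))
  have h5 := card_le_card hsub
  have h6 := card_union_le ((univ.filter fun s : G.Q => S.blk (G.ε s) = b).image G.ε)
    ((univ.filter fun s : G.Q => S.blk (mt σ (G.ε s)) = b).image fun s => mt σ (G.ε s))
  (clear * - h1 h2 h3 h4 h5 h6; omega)

/-- greatest `k ≤ 2 L` such that the chain of `t` is defined up to `k` -/
noncomputable def mx (G : Glue σ) (L : ℕ) (t : G.Q) : ℕ := by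
  classical
  exact Nat.findGreatest (fun k => (pit G.Y k t).isSome) (2 * L)

theorem mx_le (t : G.Q) : mx G L t ≤ 2 * L := by
  classical
  unfold mx
  exact Nat.findGreatest_le _

theorem mx_some (t : G.Q) : pit G.Y (mx G L t) t = some (cht G t (mx G L t)) := by
  classical
  have h : (pit G.Y (mx G L t) t).isSome := by
    unfold mx
    exact Nat.findGreatest_spec (P := fun k => (pit G.Y k t).isSome) (Nat.zero_le _) rfl
  obtain ⟨u, hu⟩ := Option.isSome_iff_exists.1 h
  exact pit_le hu le_rfl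

theorem le_mx {t s : G.Q} {k : ℕ} (hk : k ≤ 2 * L) (h : pit G.Y k t = some s) : k ≤ mx G L t := by
  classical
  unfold mx
  exact Nat.le_findGreatest hk (by rw [h]; rfl)

/-- the two ends of the run of two windows -/
theorem Wd.ends (h : Wd G T L g) (t t' : G.Q) : ∃ b1 b2 : S.B, ∀ k k', k < mx G L t →
    k' < mx G L t' → S.blk (mt σ (G.ε (cht G t k))) = S.blk (mt σ (G.ε (cht G t' k'))) →
    ¬ ((mt σ (G.ε (cht G t k)) = mt σ (G.ε (cht G t' k')) ∧
        G.ε (cht G t (k + 1)) = G.ε (cht G t' (k' + 1))) ∨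
      (mt σ (G.ε (cht G t k)) = G.ε (cht G t' (k' + 1)) ∧
        G.ε (cht G t (k + 1)) = mt σ (G.ε (cht G t' k')))) →
    S.blk (mt σ (G.ε (cht G t k))) = b1 ∨ S.blk (mt σ (G.ε (cht G t k))) = b2 := by
  have hy := ych (mx_some (L := L) t)
  have hy' := ych (mx_some (L := L) t')
  have hm : (mx G L t + 1) + (mx G L t' + 1) < g := by
    have h1 := mx_le (G := G) (L := L) t
    have h2 := mx_le (G := G) (L := L) t'
    have := h.len
    omega
  obtain ⟨i0, j0, len, hr⟩ := run_coinc h.red h.gir hy hy' hm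
  refine ⟨bs G (cht G t) i0, bs G (cht G t) (i0 + (len - 1)), fun k k' hk hk' hb hne => ?_⟩
  obtain ⟨n1, n2⟩ := unit_of_run h.red h.gir hy hy' hm hk hk' hb hne
  rw [← bs_succ]
  rcases hr with hr | hr
  · obtain ⟨x, hx, e1, e2⟩ := (hr (k + 1) (k' + 1)).1 ⟨by omega, by omega, hb⟩
    by_cases hx0 : x = 0
    · left
      rw [e1, hx0, add_zero]
    · by_cases hx1 : x = len - 1
      · right
        rw [e1, hx1]
      · exfalso
        apply n1
        exact ⟨((hr k k').2 ⟨x - 1, by omega, by omega, by omega⟩).2.2,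
          ((hr (k + 2) (k' + 2)).2 ⟨x + 1, by (clear * - hx hx1; omega), by (clear * - e1; omega), by omega⟩).2.2⟩
  · obtain ⟨x, hx, e1, e2⟩ := (hr (k + 1) (k' + 1)).1 ⟨by omega, by omega, hb⟩
    by_cases hx0 : x = 0
    · left
      rw [e1, hx0, add_zero]
    · by_cases hx1 : x = len - 1
      · right
        rw [e1, hx1]
      · exfalso
        apply n2
        exact ⟨((hr k (k' + 2)).2 ⟨x - 1, by (clear * - hx; omega), by omega, by omega⟩).2.2,
          ((hr (k + 2) k').2 ⟨x + 1, by omega, by omega, by omega⟩).2.2⟩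

open Classical in
/-- number of visited irregular blocks -/
theorem Wd.irr_le (h : Wd G T L g) :
    (univ.filter fun b : S.B => ¬ G.Reg b ∧ 0 < G.mulB b).card ≤
      2 * (Fintype.card G.Q - domc G.Y) + 2 * T.card ^ 2 := by
  choose b1 b2 hb using h.ends
  have hsub : (univ.filter fun b : S.B => ¬ G.Reg b ∧ 0 < G.mulB b) ⊆
      ((univ.filter fun s : G.Q => ¬ (G.Y s).isSome).image fun s => S.blk (mt σ (G.ε s))) ∪
      ((src G.Y).image fun s => S.blk (G.ε s)) ∪
      (((T ×ˢ T).image fun x => b1 x.1 x.2) ∪ ((T ×ˢ T).image fun x => b2 x.1 x.2)) := by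
    intro b hbm
    obtain ⟨-, hreg, hpos⟩ := mem_filter.1 hbm
    rw [mem_union, mem_union, mem_union, mem_image, mem_image, mem_image, mem_image]
    by_contra hcon
    push Not at hcon
    obtain ⟨⟨c1, c2⟩, c3, c4⟩ := hcon
    apply hreg
    refine ⟨?_, ?_, ?_, ?_⟩
    · unfold Glue.mulB at hpos
      by_contra hno
      push Not at hno
      have h0 : (univ.filter fun s : G.Q => S.blk (mt σ (G.ε s)) = b).card = 0 := by
        rw [card_eq_zero, filter_eq_empty_iff]
        exact fun s _ => hno s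
      rw [h0, zero_add] at hpos
      obtain ⟨s, hs⟩ := card_pos.1 hpos
      exact c2 s (mem_src.2 (mem_filter.1 hs).2.1) (mem_filter.1 hs).2.2
    · intro s hs
      by_contra hno
      refine c1 s (mem_filter.2 ⟨mem_univ _, fun h1 => hno ?_⟩) hs
      exact Option.isSome_iff_exists.1 h1
    · intro s hs
      by_contra hno
      refine c2 s (mem_src.2 ?_) hs
      rw [Option.eq_none_iff_forall_ne_some]
      intro r hr
      exact hno ⟨r, (PEquiv.eq_some_iff G.Y).1 hr⟩
    · intro s v s' v' hs hs' e e'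
      by_contra hno
      obtain ⟨k, t, hk, ht, hp⟩ := h.cov s
      obtain ⟨k', t', hk', ht', hp'⟩ := h.cov s'
      have q1 : pit G.Y (k + 1) t = some v := by rw [pit_succ', hp]; exact hs
      have q2 : pit G.Y (k' + 1) t' = some v' := by rw [pit_succ', hp']; exact hs'
      have m1 := le_mx (L := L) (by omega) q1
      have m2 := le_mx (L := L) (by omega) q2
      have := hb t t' k k' (by omega) (by omega) (by
        rw [cht_eq hp, cht_eq hp', e, e']) (by
        rw [cht_eq hp, cht_eq hp', cht_eq q1, cht_eq q2]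
        rintro (⟨a1, a2⟩ | ⟨a1, a2⟩)
        · exact hno (Or.inl ⟨a1.symm, a2.symm⟩)
        · exact hno (Or.inr ⟨a2.symm, a1.symm⟩))
      rw [cht_eq hp, e] at this
      rcases this with h1 | h1
      · exact c3 (t, t') (mem_product.2 ⟨ht, ht'⟩) h1.symm
      · exact c4 (t, t') (mem_product.2 ⟨ht, ht'⟩) h1.symm
  have e1 : (univ.filter fun s : G.Q => ¬ (G.Y s).isSome).card = Fintype.card G.Q - domc G.Y := by
    have h2 := Finset.card_filter_add_card_filter_not (s := (univ : Finset G.Q))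
      (fun s => (G.Y s).isSome)
    rw [Finset.card_univ] at h2
    unfold domc
    omega
  have e2 := card_src G.Y
  have e3 := card_image_le (s := univ.filter fun s : G.Q => ¬ (G.Y s).isSome)
    (f := fun s => S.blk (mt σ (G.ε s)))
  have e4 := card_image_le (s := src G.Y) (f := fun s => S.blk (G.ε s))
  have e5 := card_image_le (s := T ×ˢ T) (f := fun x => b1 x.1 x.2)
  have e6 := card_image_le (s := T ×ˢ T) (f := fun x => b2 x.1 x.2)
  rw [card_product] at e5 e6
  have e7 := card_le_card hsub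
  have e8 := card_union_le (((univ.filter fun s : G.Q => ¬ (G.Y s).isSome).image
      fun s => S.blk (mt σ (G.ε s))) ∪ ((src G.Y).image fun s => S.blk (G.ε s)))
      (((T ×ˢ T).image fun x => b1 x.1 x.2) ∪ ((T ×ˢ T).image fun x => b2 x.1 x.2))
  have e9 := card_union_le ((univ.filter fun s : G.Q => ¬ (G.Y s).isSome).image
      fun s => S.blk (mt σ (G.ε s))) ((src G.Y).image fun s => S.blk (G.ε s))
  have e10 := card_union_le ((T ×ˢ T).image fun x => b1 x.1 x.2)
    ((T ×ˢ T).image fun x => b2 x.1 x.2)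
  rw [pow_two]
  omega

/-- existence of windows -/
theorem exists_wd (hR : G.Red) (hg : Girth σ g) (hL : 0 < L) (hlen : 4 * L + 2 < g) :
    ∃ T : Finset G.Q, Wd G T L g ∧
      (T.card - (Fintype.card G.Q - domc G.Y)) * L ≤ Fintype.card G.Q := by
  obtain ⟨T, h1, h2, h3⟩ := exists_win G.Y hL (fun s k hk hp => by
    have := Glue.girth_per hR hg hk hp
    (clear * - hlen hk this; omega))
  exact ⟨T, ⟨hR, hg, hlen, h1, h3⟩, h2⟩

end Vale.Agent.P201.S.Cnt
end

section

/-!
P201, part LA: StmtCnt.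
-/

namespace Vale.Agent.P201.S

open Finset

theorem stmtCnt : StmtCnt := by
  classical
  intro A
  refine ⟨242 * A ^ 2 + 40 * A + 6, ?_⟩
  intro S g hg3 σ hg G hR hL hE hF hop
  have hbad := Glue.la1 hR hL hE
  have hcyc : cyc G.Y ≤ A := by
    have h1 := Glue.girth_cyc hR hg
    by_contra hcon
    push Not at hcon
    have h2 : g * (A + 1) ≤ g * cyc G.Y := Nat.mul_le_mul_left _ hcon
    have h3 : g * (A + 1) = A * g + g := by ring
    omega
  have hunp := Glue.unpaired_le G
  have hu : (univ.filter fun s : G.Q => (G.Y s).isSome ∧ ¬ G.Paired s).card ≤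
      (Fintype.card G.Q - domc G.X) + (12 * A + 6) := by (clear * - hop hbad hcyc hunp; omega)
  have hsq : 0 ≤ A ^ 2 := Nat.zero_le _
  rcases Nat.lt_or_ge g 7 with h7 | h7
  · -- small girth: few squares
    have hF6 : Fintype.card G.Q ≤ 6 * A := by
      refine hF.trans ?_
      have : A * g ≤ A * 6 := Nat.mul_le_mul_left _ (by omega)
      (clear * - this; omega)
    refine ⟨?_, fun b => ?_, ?_⟩
    · have hsub : (univ.filter fun b : S.B => ¬ G.Reg b ∧ 0 < G.mulB b) ⊆
          (univ.image fun s : G.Q => S.blk (mt σ (G.ε s))) ∪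
          (univ.image fun s : G.Q => S.blk (G.ε s)) := by
        intro b hb
        obtain ⟨-, -, hpos⟩ := mem_filter.1 hb
        rw [mem_union, mem_image, mem_image]
        by_contra hcon
        push Not at hcon
        unfold Glue.mulB at hpos
        have h0 : (univ.filter fun s : G.Q => S.blk (mt σ (G.ε s)) = b).card = 0 := by
          rw [card_eq_zero, filter_eq_empty_iff]
          exact fun s hs => hcon.1 s hs
        have h1 : (univ.filter fun s : G.Q => G.Y.symm s = none ∧ S.blk (G.ε s) = b).card = 0 := by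
          rw [card_eq_zero, filter_eq_empty_iff]
          exact fun s hs h => hcon.2 s hs h.2
        omega
      have e1 := card_le_card hsub
      have e2 := card_union_le (univ.image fun s : G.Q => S.blk (mt σ (G.ε s)))
        (univ.image fun s : G.Q => S.blk (G.ε s))
      have e3 := card_image_le (s := (univ : Finset G.Q)) (f := fun s => S.blk (mt σ (G.ε s)))
      have e4 := card_image_le (s := (univ : Finset G.Q)) (f := fun s => S.blk (G.ε s))
      rw [card_univ] at e3 e4
      (clear * - hsq hF6 e1 e2 e3 e4; omega)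
    · unfold Glue.mulB
      have e1 := card_le_univ (univ.filter fun s : G.Q => S.blk (mt σ (G.ε s)) = b)
      have e2 := card_le_univ (univ.filter fun s : G.Q => G.Y.symm s = none ∧ S.blk (G.ε s) = b)
      omega
    · omega
  · -- windows
    obtain ⟨T, hT, hTc⟩ := Cnt.exists_wd (L := (g - 3) / 4) hR hg (by (clear * - h7; omega)) (by omega)
    have hT10 : T.card - (Fintype.card G.Q - domc G.Y) ≤ 10 * A := by
      by_contra hcon
      push Not at hcon
      have h1 : (10 * A + 1) * ((g - 3) / 4) ≤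
          (T.card - (Fintype.card G.Q - domc G.Y)) * ((g - 3) / 4) :=
        Nat.mul_le_mul_right _ hcon
      have h2 : g ≤ 10 * ((g - 3) / 4) := by omega
      have h3 : A * g ≤ A * (10 * ((g - 3) / 4)) := Nat.mul_le_mul_left _ h2
      have h4 : (10 * A + 1) * ((g - 3) / 4) = A * (10 * ((g - 3) / 4)) + (g - 3) / 4 := by ring
      omega
    have hT11 : T.card ≤ 11 * A := by (clear * - hop hcyc hT10; omega)
    refine ⟨?_, fun b => ?_, ?_⟩
    · have h1 := hT.irr_le
      have h2 : T.card ^ 2 ≤ (11 * A) ^ 2 := Nat.pow_le_pow_left hT11 2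
      have h3 : (11 * A) ^ 2 = 121 * A ^ 2 := by ring
      (clear * - hop hcyc hT11 h1 h2 h3; omega)
    · have h1 := hT.mulB_le b
      (clear * - hsq hT11 h1; omega)
    · omega

end Vale.Agent.P201.S
end

section

/-!
P201, part LA5: the class bound for the multiplicities of the regular blocks (helper540).
-/

namespace Vale.Agent.P201.S

open Finset Classical

variable {S : Sys} {σ : Equiv.Perm S.C}

namespace Glue

variable (G : Glue σ)

/-- links -/
noncomputable def lnk : Finset G.Q := univ.filter (fun s => (G.Y s).isSome)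

/-- the block of a link (end block of the square) -/
noncomputable def bl (s : G.Q) : S.B := S.blk (mt σ (G.ε s))

/-- number of links at the regular blocks of the class `k` which have no partner at a regular
block -/
noncomputable def badC (k : S.B) : ℕ :=
  Vale.Agent.P201.S.ClsA.bad G.lnk G.bl G.Reg G.rep G.Pair k

variable {G}

theorem mem_lnk {s : G.Q} : s ∈ G.lnk ↔ ∃ v, G.Y s = some v := by
  simp only [lnk, Option.isSome_iff_exists, mem_filter, mem_univ, true_and]

/-- the multiplicity of a regular block is the number of its links -/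
theorem Reg.mulB_eq {b : S.B} (h : G.Reg b) :
    G.mulB b = (G.lnk.filter (fun s => G.bl s = b)).card := by
  have e1 : (univ.filter fun s : G.Q => G.Y.symm s = none ∧ S.blk (G.ε s) = b) = ∅ := by
    rw [Finset.filter_eq_empty_iff]
    rintro s - ⟨h1, h2⟩
    obtain ⟨r, hr⟩ := h.ran s h2
    have := (PEquiv.eq_some_iff G.Y).2 hr
    rw [h1] at this
    exact absurd this (by simp)
  have e2 : (univ.filter fun s : G.Q => S.blk (mt σ (G.ε s)) = b) =
      G.lnk.filter (fun s => G.bl s = b) := by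
    ext s
    simp only [mem_filter, mem_univ, true_and]
    constructor
    · intro h1
      exact ⟨mem_lnk.2 (h.dom s h1), h1⟩
    · rintro ⟨-, h1⟩
      exact h1
  unfold mulB
  rw [e1, e2]
  simp

theorem Pair.cls (hR : G.Red) {s s' : G.Q} (h : G.Pair s s') (h1 : G.Reg (G.bl s))
    (h2 : G.Reg (G.bl s')) : G.rep (G.bl s) = G.rep (G.bl s') ∧ G.bl s ≠ G.bl s' := by
  have h0 := h
  obtain ⟨v, v', k1, k2, k3, k4, -, -⟩ := h0
  constructor
  · refine RB.rep_eq ⟨(mt σ (G.ε s), G.ε v), (G.ε v', mt σ (G.ε s')), ?_, ?_, ?_⟩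
    · exact ⟨h1, s, v, k1, rfl, Or.inl rfl⟩
    · exact ⟨h2, s', v', k3, rfl, Or.inr rfl⟩
    · exact Relation.EqvGen.rel _ _ ⟨s, s', v, v', h, k1, k3, h1, h2, rfl, rfl⟩
  · intro he
    have h3 := h.unit_ne hR k1 k3
    rcases h1.unit s v s' v' k1 k3 rfl he.symm with h4 | h4
    · exact h3.1 h4
    · exact h3.2 h4

/-- **Class bound.** -/
theorem cls_bound (hR : G.Red) {b : S.B} (hb : G.Reg b) :
    2 * G.mulB b ≤ ∑ b' ∈ (univ.filter G.Reg).filter (fun b' => G.rep b' = G.rep b), G.mulB b' +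
      G.badC (G.rep b) := by
  have h := Vale.Agent.P201.S.ClsA.class_bound G.lnk G.bl G.Reg G.rep G.Pair
    (fun s s' h => h.symm) (fun s s' t h h' => h.unique h')
    (fun s s' h => mem_lnk.2 (by obtain ⟨v, v', h1, -⟩ := h; exact ⟨v, h1⟩))
    (fun s s' h h1 h2 => h.cls hR h1 h2) b hb
  rw [hb.mulB_eq]
  refine le_trans h (Nat.add_le_add_right (le_of_eq (Finset.sum_congr rfl fun b' hb' => ?_)) _)
  simp only [mem_filter, mem_univ, true_and] at hb'
  rw [hb'.1.mulB_eq]

/-- **Total number of bad links.** -/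
theorem sum_badC_le (G : Glue σ) :
    ∑ k ∈ (univ.filter G.Reg).image G.rep, G.badC k ≤
      (univ.filter fun s => (G.Y s).isSome ∧ ¬ G.Paired s).card +
        (univ.filter fun s => (G.Y s).isSome ∧ ¬ G.Reg (G.bl s)).card := by
  have h := Vale.Agent.P201.S.ClsA.sum_bad_le G.lnk G.bl G.Reg G.rep G.Pair
    (fun s s' h => h.symm) (fun s s' t h h' => h.unique h')
    (fun s s' h => mem_lnk.2 (by obtain ⟨v, v', h1, -⟩ := h; exact ⟨v, h1⟩))
  refine le_trans h (le_of_eq ?_)
  unfold lnk
  rw [Finset.filter_filter, Finset.filter_filter]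
  rfl

end Glue

end Vale.Agent.P201.S
end

section

/-!
P201, part LA5: counting over the levels (helper540).
-/

namespace Vale.Agent.P201.S

open Finset Classical

variable {S : Sys} {σ : Equiv.Perm (S.C)}

namespace Lev

open Glue

variable (G : Glue σ)

/-- the multiplicities of the edges sum up to the number of squares -/
theorem sum_mulP : ∑ c : S.C, G.mulP (c, true) = Fintype.card G.Q := by
  have h : ∀ c : S.C, G.mulP (c, true) =
      (univ.filter fun s : G.Q => (qh σ (G.ε s)).1 = c).card := by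
    intro c
    unfold mulP
    congr 1
    ext s
    simp only [mem_filter, mem_univ, true_and]
    rcases hq : G.ε s with ⟨d, e⟩
    cases e
    · simp only [Prod.mk.injEq, Bool.false_eq_true, and_false, mt, if_false, and_true, false_or, qh]
    · simp [mt, qh]
  simp_rw [h]
  rw [← Finset.card_eq_sum_card_fiberwise (fun s _ => mem_coe.2 (mem_univ _))]
  rfl

/-- the number of squares without predecessor -/
theorem card_ysymm_none : (univ.filter fun s : G.Q => G.Y.symm s = none).card =
    Fintype.card G.Q - domc G.Y := by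
  have h1 : (univ.filter fun s : G.Q => (G.Y.symm s).isSome).card = domc G.Y := by
    unfold domc
    refine Finset.card_bij (fun s _ => (G.Y.symm s).getD s) ?_ ?_ ?_
    · intro s hs
      simp only [mem_filter, mem_univ, true_and] at hs ⊢
      obtain ⟨r, hr⟩ := Option.isSome_iff_exists.1 hs
      rw [hr, Option.getD_some, (PEquiv.eq_some_iff _).1 hr]
      rfl
    · intro s hs t ht hst
      simp only [mem_filter, mem_univ, true_and] at hs ht
      obtain ⟨r, hr⟩ := Option.isSome_iff_exists.1 hs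
      obtain ⟨r', hr'⟩ := Option.isSome_iff_exists.1 ht
      rw [hr, hr', Option.getD_some, Option.getD_some] at hst
      subst hst
      have e1 := (PEquiv.eq_some_iff _).1 hr
      have e2 := (PEquiv.eq_some_iff _).1 hr'
      rw [e1] at e2
      exact Option.some.inj e2
    · intro r hr
      simp only [mem_filter, mem_univ, true_and] at hr
      obtain ⟨s, hs⟩ := Option.isSome_iff_exists.1 hr
      have e1 : G.Y.symm s = some r := (PEquiv.eq_some_iff _).2 hs
      exact ⟨s, by simp only [mem_filter, mem_univ, e1, Option.isSome_some, and_self], by rw [e1, Option.getD_some]⟩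
  have h2 : (univ.filter fun s : G.Q => (G.Y.symm s).isSome).card +
      (univ.filter fun s : G.Q => G.Y.symm s = none).card = Fintype.card G.Q := by
    rw [← Finset.card_univ, ← Finset.card_filter_add_card_filter_not
      (s := (univ : Finset G.Q)) (p := fun s => (G.Y.symm s).isSome)]
    congr 2
    ext s
    simp only [mem_filter, mem_univ, true_and, Bool.not_eq_true, Option.isSome_eq_false_iff, Option.isNone_iff_eq_none]
  omega

/-- the multiplicities of the blocks sum up to `F + (F - domc Y)` -/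
theorem sum_mulB : ∑ b : S.B, G.mulB b =
    Fintype.card G.Q + (Fintype.card G.Q - domc G.Y) := by
  unfold mulB
  rw [Finset.sum_add_distrib]
  congr 1
  · rw [← Finset.card_eq_sum_card_fiberwise (fun s _ => mem_coe.2 (mem_univ _))]
    rfl
  · rw [← card_ysymm_none]
    rw [Finset.card_eq_sum_card_fiberwise (f := fun s => S.blk (G.ε s)) (t := univ)
      (fun s _ => mem_coe.2 (mem_univ _))]
    refine Finset.sum_congr rfl fun b _ => ?_
    rw [Finset.filter_filter]

variable {G}

/-- sum of the multiplicities of the irregular blocks -/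
noncomputable def irv (G : Glue σ) : ℕ := ∑ b ∈ univ.filter (fun b => ¬ G.Reg b), G.mulB b

/-- sum of the multiplicities of the regular blocks -/
noncomputable def rgv (G : Glue σ) : ℕ := ∑ b ∈ univ.filter (fun b => G.Reg b), G.mulB b

theorem rgv_add_irv (G : Glue σ) :
    (rgv G) + (irv G) = Fintype.card G.Q + (Fintype.card G.Q - domc G.Y) := by
  rw [← sum_mulB G]
  exact Finset.sum_filter_add_sum_filter_not _ _ _

theorem irv_le {B : ℕ} (h : G.Bnd B) : (irv G) ≤ B * B := by
  have e : (irv G) = ∑ b ∈ univ.filter (fun b => ¬ G.Reg b ∧ 0 < G.mulB b), G.mulB b := by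
    unfold irv
    refine (Finset.sum_subset ?_ ?_).symm
    · intro b hb
      simp only [mem_filter, mem_univ, true_and] at hb ⊢
      exact hb.1
    · intro b hb hb2
      simp only [mem_filter, mem_univ, true_and, not_and, not_lt] at hb hb2
      exact Nat.le_zero.1 (hb2 hb)
  rw [e]
  calc ∑ b ∈ univ.filter (fun b => ¬ G.Reg b ∧ 0 < G.mulB b), G.mulB b
      ≤ (univ.filter (fun b => ¬ G.Reg b ∧ 0 < G.mulB b)).card • B :=
        Finset.sum_le_card_nsmul _ _ _ (fun b _ => h.mul b)
    _ ≤ B * B := by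
        rw [smul_eq_mul]
        exact Nat.mul_le_mul_right _ h.irr

/-- starts at a block -/
theorem starts_le (hR : G.Red) (b : S.B) :
    (univ.filter fun s : G.Q => S.blk (G.ε s) = b).card ≤ G.mulB b := by
  unfold mulB
  rw [← Finset.card_filter_add_card_filter_not
    (s := univ.filter fun s : G.Q => S.blk (G.ε s) = b) (p := fun s => G.Y.symm s = none),
    add_comm]
  refine Nat.add_le_add ?_ (le_of_eq ?_)
  · refine Finset.card_le_card_of_injOn (fun s => (G.Y.symm s).getD s) ?_ ?_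
    · intro s hs
      rw [mem_coe, mem_filter, mem_filter] at hs
      obtain ⟨r, hr⟩ := Option.ne_none_iff_exists'.1 hs.2
      rw [mem_coe, mem_filter]
      refine ⟨mem_univ _, ?_⟩
      simp only [hr, Option.getD_some]
      rw [(hR.y r s ((PEquiv.eq_some_iff _).1 hr)).1, hs.1.2]
    · intro s hs t ht hst
      rw [mem_coe, mem_filter, mem_filter] at hs ht
      obtain ⟨r, hr⟩ := Option.ne_none_iff_exists'.1 hs.2
      obtain ⟨r', hr'⟩ := Option.ne_none_iff_exists'.1 ht.2
      simp only [hr, hr', Option.getD_some] at hst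
      subst hst
      have e1 := (PEquiv.eq_some_iff _).1 hr
      have e2 := (PEquiv.eq_some_iff _).1 hr'
      rw [e1] at e2
      exact Option.some.inj e2
  · congr 1
    ext s
    simp only [mem_filter, mem_univ, true_and]
    exact and_comm

/-- used ports at irregular blocks -/
theorem sum_mulP_irr (hR : G.Red) :
    ∑ q ∈ univ.filter (fun q : Port S => ¬ G.Reg (S.blk q)), G.mulP q ≤ 2 * (irv G) := by
  have h1 : ∀ q : Port S, G.mulP q ≤ (univ.filter fun s : G.Q => G.ε s = q).card +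
      (univ.filter fun s : G.Q => mt σ (G.ε s) = q).card := by
    intro q
    unfold mulP
    rw [Finset.filter_or]
    exact Finset.card_union_le _ _
  have h2 : ∀ f : G.Q → Port S,
      ∑ q ∈ univ.filter (fun q : Port S => ¬ G.Reg (S.blk q)),
        (univ.filter fun s : G.Q => f s = q).card =
      ∑ b ∈ univ.filter (fun b => ¬ G.Reg b),
        (univ.filter fun s : G.Q => S.blk (f s) = b).card := by
    intro f
    have e1 : ∑ q ∈ univ.filter (fun q : Port S => ¬ G.Reg (S.blk q)),
        (univ.filter fun s : G.Q => f s = q).card =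
        (univ.filter fun s : G.Q => ¬ G.Reg (S.blk (f s))).card := by
      rw [Finset.card_eq_sum_card_fiberwise (f := f)
        (t := univ.filter (fun q : Port S => ¬ G.Reg (S.blk q)))]
      · refine Finset.sum_congr rfl fun q hq => ?_
        congr 1
        ext s
        simp only [mem_filter, mem_univ, true_and] at hq ⊢
        constructor
        · rintro rfl
          exact ⟨hq, rfl⟩
        · exact fun h => h.2
      · intro s hs
        rw [mem_coe, mem_filter] at hs ⊢
        exact ⟨mem_univ _, hs.2⟩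
    have e2 : ∑ b ∈ univ.filter (fun b => ¬ G.Reg b),
        (univ.filter fun s : G.Q => S.blk (f s) = b).card =
        (univ.filter fun s : G.Q => ¬ G.Reg (S.blk (f s))).card := by
      rw [Finset.card_eq_sum_card_fiberwise (f := fun s => S.blk (f s))
        (t := univ.filter (fun b => ¬ G.Reg b))]
      · refine Finset.sum_congr rfl fun b hb => ?_
        congr 1
        ext s
        simp only [mem_filter, mem_univ, true_and] at hb ⊢
        constructor
        · rintro rfl
          exact ⟨hb, rfl⟩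
        · exact fun h => h.2
      · intro s hs
        rw [mem_coe, mem_filter] at hs ⊢
        exact ⟨mem_univ _, hs.2⟩
    rw [e1, e2]
  calc ∑ q ∈ univ.filter (fun q : Port S => ¬ G.Reg (S.blk q)), G.mulP q
      ≤ ∑ q ∈ univ.filter (fun q : Port S => ¬ G.Reg (S.blk q)),
        ((univ.filter fun s : G.Q => G.ε s = q).card +
          (univ.filter fun s : G.Q => mt σ (G.ε s) = q).card) :=
        Finset.sum_le_sum fun q _ => h1 q
    _ = ∑ b ∈ univ.filter (fun b => ¬ G.Reg b), (univ.filter fun s : G.Q =>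
          S.blk (G.ε s) = b).card + ∑ b ∈ univ.filter (fun b => ¬ G.Reg b),
          (univ.filter fun s : G.Q => S.blk (mt σ (G.ε s)) = b).card := by
        rw [Finset.sum_add_distrib, h2, h2 (fun s => mt σ (G.ε s))]
    _ ≤ (irv G) + (irv G) := by
        refine Nat.add_le_add (Finset.sum_le_sum fun b _ => starts_le hR b)
          (Finset.sum_le_sum fun b _ => ?_)
        unfold mulB
        exact Nat.le_add_right _ _
    _ = 2 * (irv G) := by ring

/-- links at irregular blocks -/
theorem links_irr_le (G : Glue σ) :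
    (univ.filter fun s : G.Q => (G.Y s).isSome ∧ ¬ G.Reg (G.bl s)).card ≤ (irv G) := by
  calc (univ.filter fun s : G.Q => (G.Y s).isSome ∧ ¬ G.Reg (G.bl s)).card
      ≤ (univ.filter fun s : G.Q => ¬ G.Reg (G.bl s)).card :=
        Finset.card_le_card (fun s hs => by
          rw [mem_filter] at hs ⊢
          exact ⟨mem_univ _, hs.2.2⟩)
    _ = ∑ b ∈ univ.filter (fun b => ¬ G.Reg b),
        (univ.filter fun s : G.Q => G.bl s = b).card := by
        rw [Finset.card_eq_sum_card_fiberwise (f := G.bl)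
          (t := univ.filter (fun b => ¬ G.Reg b))]
        · refine Finset.sum_congr rfl fun b hb => ?_
          congr 1
          ext s
          simp only [mem_filter, mem_univ, true_and] at hb ⊢
          constructor
          · exact fun h => h.2
          · rintro rfl
            exact ⟨hb, rfl⟩
        · intro s hs
          rw [mem_coe, mem_filter] at hs ⊢
          exact ⟨mem_univ _, hs.2⟩
    _ ≤ (irv G) := Finset.sum_le_sum fun b _ => Nat.le_add_right _ _

end Lev

open Glue Lev in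
/-- **The sum over the levels.** -/
theorem stmtLev : StmtLev := by
  intro S D σ G hR hrho hN B C1 K0 hC1 hK0 hB hU
  obtain ⟨hr1, hr2, -⟩ := hrho
  obtain ⟨T, hTd⟩ : ∃ T : ℝ, T = max (D : ℝ) 1 := ⟨_, rfl⟩
  have hT : (1 : ℝ) ≤ T := hTd ▸ le_max_right _ _
  have hlD : Real.log D = Real.log T := by
    rcases Nat.eq_zero_or_pos D with h | h
    · rw [hTd, h, Nat.cast_zero, max_eq_right zero_le_one, Real.log_zero, Real.log_one]
    · rw [hTd, max_eq_left (by exact_mod_cast h)]
  rw [hlD]
  have hlT : 0 ≤ Real.log T := Real.log_nonneg hT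
  have hl2 : 0 < Real.log 2 := Real.log_pos one_lt_two
  have hl2' : Real.log 2 ≤ 1 := by
    have := Real.log_two_lt_d9
    linarith only [this]
  have hU1 : ∀ b, G.Reg b → ∃ u : Port S × Port S, IsU u ∧ G.dens (G.rep b) = rho S (lam u) := by
    intro b hb
    exact ⟨G.u0 (G.rep b) hb.rep_reg, (G.u0_spec _ _).isU hR, by
      unfold Glue.dens
      rw [dif_pos hb.rep_reg]⟩
  have key := Vale.Agent.P201.S.LevA.lev_sum (univ.filter G.Reg) G.rep G.mulB G.dens G.badC B hT
    (fun b hb => by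
      obtain ⟨u, h1, h2⟩ := hU1 b (mem_filter.1 hb).2
      rw [h2]
      refine (hr2 u h1).trans (mul_le_mul_of_nonneg_right (hTd ▸ le_max_left _ _) ?_)
      unfold rho
      (clear * - hN; positivity))
    (fun b hb => by
      obtain ⟨u, h1, h2⟩ := hU1 b (mem_filter.1 hb).2
      rw [h2]
      have := hr1 {lam u}
      rwa [Finset.sum_singleton] at this)
    (fun b _ => hB.mul b) (fun b hb => cls_bound hR (mem_filter.1 hb).2)
  -- sum of the inequalities
  have hsum := Finset.sum_le_sum (s := Icc 1 B) (fun t ht => hU t (mem_Icc.1 ht).1 (mem_Icc.1 ht).2)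
  have eE : ∑ t ∈ Icc 1 B, ((univ.filter fun c : S.C => t ≤ G.mulP (c, true)).card : ℝ) =
      Fintype.card G.Q := by
    have := Vale.Agent.P201.S.LevA.layer_card univ (fun c : S.C => G.mulP (c, true)) B
      (fun c _ => (mulP_le hR _).trans (hB.mul _))
    rw [(sum_mulP G)] at this
    exact_mod_cast this
  have eB : ∑ t ∈ Icc 1 B, ((univ.filter fun b : S.B => t ≤ G.mulB b).card : ℝ) =
      (Fintype.card G.Q : ℝ) + ((Fintype.card G.Q : ℝ) - domc G.Y) := by
    have h := Vale.Agent.P201.S.LevA.layer_card univ (fun b : S.B => G.mulB b) B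
      (fun b _ => hB.mul _)
    rw [(sum_mulB G)] at h
    have hd : domc G.Y ≤ Fintype.card G.Q := by
      unfold domc
      exact Finset.card_le_univ _
    have h' : (∑ t ∈ Icc 1 B, ((univ.filter fun b : S.B => t ≤ G.mulB b).card : ℝ)) =
        ((Fintype.card G.Q + (Fintype.card G.Q - domc G.Y) : ℕ) : ℝ) := by
      rw [← h]
      push_cast
      rfl
    rw [h', Nat.cast_add, Nat.cast_sub hd]
  have eV : ∑ t ∈ Icc 1 B, ((univ.filter fun b : S.B => ¬ G.Reg b ∧ t ≤ G.mulB b).card : ℝ) =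
      (irv G) := by
    have h := Vale.Agent.P201.S.LevA.layer_card (univ.filter fun b : S.B => ¬ G.Reg b)
      (fun b : S.B => G.mulB b) B (fun b _ => hB.mul _)
    simp_rw [Finset.filter_filter] at h
    unfold irv
    exact_mod_cast h
  have eH : ∑ t ∈ Icc 1 B,
      ((univ.filter fun q : Port S => ¬ G.Reg (S.blk q) ∧ t ≤ G.mulP q).card : ℝ) ≤
      2 * (irv G) := by
    have h := Vale.Agent.P201.S.LevA.layer_card
      (univ.filter fun q : Port S => ¬ G.Reg (S.blk q)) (fun q => G.mulP q) B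
      (fun q _ => (mulP_le hR _).trans (hB.mul _))
    simp_rw [Finset.filter_filter] at h
    have h2 := sum_mulP_irr hR
    rw [← h] at h2
    exact_mod_cast h2
  have eS : ∑ t ∈ Icc 1 B,
      (∑ b ∈ univ.filter (fun b : S.B => G.Reg b ∧ t ≤ G.mulB b),
        Real.log (G.dens (G.rep b)) -
      ∑ k ∈ (univ.filter fun b : S.B => G.Reg b ∧ t ≤ G.mulB b).image G.rep,
        (Real.log 2 + 2 * Real.log (G.dens k))) ≤
      -(Real.log 2 / 2) * (rgv G) + Real.log T *
        ((Fintype.card G.Q - domc G.X : ℕ) + B + (irv G)) := by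
    simp_rw [Finset.filter_filter] at key
    refine key.trans ?_
    have h1 : (∑ b ∈ univ.filter G.Reg, (G.mulB b : ℝ)) = (rgv G) := by
      unfold rgv
      push_cast
      rfl
    have h2 : (∑ k ∈ (univ.filter G.Reg).image G.rep, (G.badC k : ℝ)) ≤
        (Fintype.card G.Q - domc G.X : ℕ) + B + (irv G) := by
      have h3 := (G.sum_badC_le).trans (Nat.add_le_add hB.unp (links_irr_le G))
      exact_mod_cast h3
    rw [h1]
    exact add_le_add le_rfl (mul_le_mul_of_nonneg_left h2 hlT)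
  have hX : ((Fintype.card G.Q - domc G.X : ℕ) : ℝ) = (Fintype.card G.Q : ℝ) - domc G.X := by
    rw [Nat.cast_sub]
    unfold domc
    exact Finset.card_le_univ _
  have hirv : (irv G : ℝ) ≤ B * B := by exact_mod_cast irv_le hB
  have hirv0 : (0 : ℝ) ≤ (irv G) := Nat.cast_nonneg _
  have hrgv : (rgv G : ℝ) = Fintype.card G.Q + ((Fintype.card G.Q : ℝ) - domc G.Y) - (irv G) := by
    have h := rgv_add_irv G
    have hd : domc G.Y ≤ Fintype.card G.Q := by
      unfold domc
      exact Finset.card_le_univ _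
    have h' : (rgv G : ℝ) + (irv G) =
        ((Fintype.card G.Q + (Fintype.card G.Q - domc G.Y) : ℕ) : ℝ) := by exact_mod_cast h
    rw [Nat.cast_add, Nat.cast_sub hd] at h'
    linarith only [h']
  have hop : (0 : ℝ) ≤ (Fintype.card G.Q : ℝ) - domc G.Y := by
    have hd : domc G.Y ≤ Fintype.card G.Q := by
      unfold domc
      exact Finset.card_le_univ _
    have : (domc G.Y : ℝ) ≤ Fintype.card G.Q := by exact_mod_cast hd
    linarith only [this]
  have hB0 : (0 : ℝ) ≤ B := Nat.cast_nonneg _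
  -- expand the sum
  have hL : ∑ t ∈ Icc 1 B, ((((univ.filter fun c : S.C => t ≤ G.mulP (c, true)).card : ℝ) -
      (univ.filter fun b : S.B => t ≤ G.mulB b).card) *
        Real.log (Fintype.card (S.C))) =
      -((Fintype.card G.Q : ℝ) - domc G.Y) * Real.log (Fintype.card (S.C)) := by
    rw [← Finset.sum_mul, Finset.sum_sub_distrib, eE, eB]
    ring
  rw [hL] at hsum
  have hRt : ∑ t ∈ Icc 1 B,
      (∑ b ∈ univ.filter (fun b : S.B => G.Reg b ∧ t ≤ G.mulB b),
        Real.log (G.dens (G.rep b)) -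
      ∑ k ∈ (univ.filter fun b : S.B => G.Reg b ∧ t ≤ G.mulB b).image G.rep,
        (Real.log 2 + 2 * Real.log (G.dens k)) +
      C1 * ((univ.filter fun b : S.B => ¬ G.Reg b ∧ t ≤ G.mulB b).card +
        (univ.filter fun q : Port S => ¬ G.Reg (S.blk q) ∧ t ≤ G.mulP q).card + 1) + K0) ≤
      -(Real.log 2 / 2) * (rgv G) + Real.log T *
        (((Fintype.card G.Q : ℝ) - domc G.X) + B + (irv G)) +
        C1 * ((irv G) + 2 * (irv G) + B) + B * K0 := by
    rw [Finset.sum_add_distrib, Finset.sum_add_distrib, ← Finset.mul_sum, Finset.sum_add_distrib,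
      Finset.sum_add_distrib, Finset.sum_const, Finset.sum_const, eV, Nat.card_Icc]
    rw [← hX]
    simp only [Nat.add_sub_cancel, nsmul_eq_mul, mul_one]
    have h4 := mul_le_mul_of_nonneg_left eH hC1
    linarith
  have hfin := hsum.trans hRt
  rw [hrgv] at hfin
  have q1 : Real.log 2 / 2 * (irv G) ≤ B * B := by
    calc Real.log 2 / 2 * (irv G) ≤ 1 * (irv G) := mul_le_mul_of_nonneg_right (by linarith only [hl2']) hirv0
      _ ≤ B * B := by linarith only [hirv]
  have q2 : Real.log T * (B + (irv G)) ≤ Real.log T * (B + B * B) :=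
    mul_le_mul_of_nonneg_left (by linarith only [hirv]) hlT
  have q3 : C1 * ((irv G) + 2 * (irv G) + B) ≤ C1 * (3 * (B * B) + B) :=
    mul_le_mul_of_nonneg_left (by linarith only [hirv]) hC1
  have q4 : 0 ≤ Real.log 2 / 2 * ((Fintype.card G.Q : ℝ) - domc G.Y) := by (clear * - hop; positivity)
  have q5 : 0 ≤ Real.log T * (B * B) := by (clear * - hlT; positivity)
  have q6 : 0 ≤ C1 * (B * B) := by (clear * - hC1; positivity)
  have q7 : 0 ≤ K0 * (B * B) := by (clear * - hK0; positivity)
  have q8 : 0 ≤ Real.log T * B := by (clear * - hlT; positivity)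
  have q9 : 0 ≤ C1 * B := by (clear * - hC1; positivity)
  have q10 : 0 ≤ K0 * B := by (clear * - hK0; positivity)
  have q11 : (0 : ℝ) ≤ B * B := by (clear * -; positivity)
  linarith

end Vale.Agent.P201.S
end

section

/-!
P201, part LA, leaf (N): the final numerics as abstract real lemmas (helper660).
-/

namespace Vale.Agent.P201.S

/-- `B (1 + log (Y + 2))` is at most `m Y` for large `Y`. -/
theorem num_ev (B m : ℝ) (hm : 0 < m) :
    ∃ y0 : ℝ, 0 < y0 ∧ ∀ Y : ℝ, y0 ≤ Y → B * (1 + Real.log (Y + 2)) ≤ m * Y := by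
  have hB : 0 ≤ |B| := abs_nonneg B
  obtain ⟨d, hd⟩ : ∃ d : ℝ, d = m / (2 * (|B| + 1)) := ⟨_, rfl⟩
  have hd0 : 0 < d := by rw [hd]; positivity
  have hdm : |B| * d ≤ m / 2 := by
    rw [hd, mul_div_assoc', div_le_div_iff₀ (by positivity) (by norm_num)]
    linarith
  refine ⟨max 1 (2 * (|B| * (2 * d - Real.log d)) / m), lt_of_lt_of_le one_pos (le_max_left _ _),
    fun Y hY => ?_⟩
  have hY1 : 1 ≤ Y := (le_max_left _ _).trans hY
  have hY2 : 2 * (|B| * (2 * d - Real.log d)) / m ≤ Y := (le_max_right _ _).trans hY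
  rw [div_le_iff₀ hm] at hY2
  have hlog0 : 0 ≤ Real.log (Y + 2) := Real.log_nonneg (by linarith only [hY1])
  have h1 : Real.log (Y + 2) ≤ d * (Y + 2) - 1 - Real.log d := by
    have h2 := Real.log_le_sub_one_of_pos (x := d * (Y + 2)) (by (clear * - hd0 hY1; positivity))
    rw [Real.log_mul hd0.ne' (by linarith only [hY1])] at h2
    linarith only [h2]
  have h3 : B * (1 + Real.log (Y + 2)) ≤ |B| * (1 + Real.log (Y + 2)) :=
    mul_le_mul_of_nonneg_right (le_abs_self B) (by linarith only [hlog0])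
  have h4 : |B| * (1 + Real.log (Y + 2)) ≤ |B| * (d * Y + (2 * d - Real.log d)) :=
    mul_le_mul_of_nonneg_left (by linarith only [h1]) hB
  have h5 : |B| * (d * Y) ≤ m / 2 * Y := by
    rw [← mul_assoc]
    exact mul_le_mul_of_nonneg_right hdm (by linarith only [hY1])
  rw [mul_add] at h4
  linarith only [hY2, h3, h4, h5]

/-- **(N)** final numerics: `e1` depends on `L0`, `c` only, the threshold `y0` also on `B`. -/
theorem la_num (L0 : ℝ) : ∃ e1 : ℝ, 0 < e1 ∧ e1 ≤ 1 ∧ ∀ c B : ℝ, 0 < c → ∃ y0 : ℝ, 0 < y0 ∧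
    ∀ Y F op x g lN E : ℝ, y0 ≤ Y → lN ≤ Y → c * Y ≤ g → 0 ≤ x → 0 ≤ op → 0 ≤ F →
      (F = 0 ∨ 1 ≤ op ∨ g ≤ F) → E ≤ B * (1 + Real.log (Y + 2)) →
      Real.log 2 / 2 * F ≤ L0 * x + op * lN + E → e1 * F ≤ x + Y * op := by
  have hl2 : 0 < Real.log 2 := Real.log_pos (by norm_num)
  obtain ⟨M, hM⟩ : ∃ M : ℝ, M = max L0 2 := ⟨_, rfl⟩
  have hM2 : 2 ≤ M := by rw [hM]; exact le_max_right _ _
  have hML : L0 ≤ M := by rw [hM]; exact le_max_left _ _
  have hM0 : 0 < M := by linarith
  obtain ⟨e, he⟩ : ∃ e : ℝ, e = min 1 (Real.log 2 / 4 / M) := ⟨_, rfl⟩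
  have he0 : 0 < e := by rw [he]; exact lt_min one_pos (by (clear * - hM2; positivity))
  have he1 : e ≤ 1 := by rw [he]; exact min_le_left _ _
  have he2 : e * M ≤ Real.log 2 / 4 := by
    rw [← le_div_iff₀ hM0, he]
    exact min_le_right _ _
  refine ⟨e, he0, he1, fun c B hc => ?_⟩
  have hm : 0 < min 1 (Real.log 2 / 4 * c) := lt_min one_pos (by positivity)
  obtain ⟨y0, hy0, hy⟩ := num_ev B (min 1 (Real.log 2 / 4 * c)) hm
  refine ⟨y0, hy0, ?_⟩
  intro Y F op x g lN E hY hlN hg hx hop hF hcase hE hmain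
  have hY0 : 0 < Y := lt_of_lt_of_le hy0 hY
  have h1 := hy Y hY
  have h2 : min 1 (Real.log 2 / 4 * c) * Y ≤ Y := by
    calc min 1 (Real.log 2 / 4 * c) * Y ≤ 1 * Y :=
          mul_le_mul_of_nonneg_right (min_le_left _ _) hY0.le
      _ = Y := one_mul Y
  have h3 : min 1 (Real.log 2 / 4 * c) * Y ≤ Real.log 2 / 4 * (c * Y) := by
    rw [← mul_assoc]
    exact mul_le_mul_of_nonneg_right (min_le_right _ _) hY0.le
  have h4 : op * lN ≤ op * Y := mul_le_mul_of_nonneg_left hlN hop
  have hxM : L0 * x ≤ M * x := mul_le_mul_of_nonneg_right hML hx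
  have hYop : 0 ≤ Y * op := mul_nonneg hY0.le hop
  -- it suffices to bound `log 2 / 4 * F`
  have key : Real.log 2 / 4 * F ≤ M * (x + Y * op) → e * F ≤ x + Y * op := by
    intro h
    have h5 : e * M * F ≤ M * (x + Y * op) :=
      (mul_le_mul_of_nonneg_right he2 hF).trans h
    have h6 : M * (e * F) ≤ M * (x + Y * op) := by linarith only [h5]
    exact le_of_mul_le_mul_left h6 hM0
  rcases hcase with h | h | h
  · rw [h, mul_zero]
    linarith only [hx, hYop]
  · apply key
    have h5 : Y ≤ Y * op := le_mul_of_one_le_right hY0.le h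
    have h6 : 2 * (Y * op) ≤ M * (Y * op) := mul_le_mul_of_nonneg_right hM2 hYop
    have h7 : 0 ≤ Real.log 2 / 4 * F := by (clear * - hF; positivity)
    linarith
  · apply key
    have h5 : Real.log 2 / 4 * (c * Y) ≤ Real.log 2 / 4 * F :=
      mul_le_mul_of_nonneg_left (hg.trans h) (by positivity)
    have h6 : 2 * (Y * op) ≤ M * (Y * op) := mul_le_mul_of_nonneg_right hM2 hYop
    linarith

/-- in the nontrivial case the number of open fans is at most `K` -/
theorem la_num_op {e1 F x Y op : ℝ} {K : ℕ} (he : e1 ≤ 1) (hF : 0 ≤ F) (hx : 0 ≤ x) (hY : 0 < Y)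
    (hK : F ≤ K * Y) (h : ¬ e1 * F ≤ x + Y * op) : op ≤ K := by
  by_contra hcon
  push Not at hcon
  apply h
  have h1 : e1 * F ≤ F := by
    calc e1 * F ≤ 1 * F := mul_le_mul_of_nonneg_right he hF
      _ = F := one_mul F
  have h2 : (K : ℝ) * Y ≤ op * Y := mul_le_mul_of_nonneg_right hcon.le hY.le
  linarith only [hx, hK, h1, h2]

/-- the area is at most a constant times the girth -/
theorem la_num_area {c : ℝ} (hc : 0 < c) (K : ℕ) : ∃ A : ℕ, K ≤ A ∧ ∀ F Y g : ℕ, F ≤ K * Y →
    c * Y ≤ g → F ≤ A * g := by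
  refine ⟨max K ⌈(K : ℝ) / c⌉₊, le_max_left _ _, fun F Y g hF hg => ?_⟩
  have h1 : (K : ℝ) / c ≤ ((max K ⌈(K : ℝ) / c⌉₊ : ℕ) : ℝ) :=
    (Nat.le_ceil _).trans (by exact_mod_cast le_max_right _ _)
  have h2 : (F : ℝ) ≤ ((max K ⌈(K : ℝ) / c⌉₊ : ℕ) : ℝ) * g := by
    calc (F : ℝ) ≤ K * Y := by exact_mod_cast hF
      _ = (K : ℝ) / c * (c * Y) := by (clear * - hc; field_simp)
      _ ≤ (K : ℝ) / c * g := mul_le_mul_of_nonneg_left hg (by positivity)
      _ ≤ _ := mul_le_mul_of_nonneg_right h1 (Nat.cast_nonneg g)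
  exact_mod_cast h2

/-- size of the family of patterns: if `#ι ≤ D (K Y + 2)^D` then `log #ι = O(log Y)` -/
theorem la_num_card (K D : ℕ) : ∃ B : ℝ, 0 ≤ B ∧ ∀ Y m : ℕ, 0 < m → m ≤ D * (K * Y + 2) ^ D →
    Real.log m ≤ B * (1 + Real.log (Y + 2)) := by
  have hK : 0 ≤ Real.log (K + 1 : ℝ) := Real.log_nonneg (by
    have : (0 : ℝ) ≤ K := Nat.cast_nonneg K
    linarith only [])
  have hD : 0 ≤ Real.log (D + 1 : ℝ) := Real.log_nonneg (by
    have : (0 : ℝ) ≤ D := Nat.cast_nonneg D
    linarith)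
  refine ⟨Real.log (D + 1) + D * (Real.log (K + 1) + 1), by positivity, fun Y m hm h => ?_⟩
  have hY0 : (0 : ℝ) ≤ Y := Nat.cast_nonneg Y
  have hK0 : (0 : ℝ) ≤ K := Nat.cast_nonneg K
  have hlY : 0 ≤ Real.log (Y + 2 : ℝ) := Real.log_nonneg (by linarith only [])
  have h0 : (m : ℝ) ≤ (D + 1) * ((K + 1) * (Y + 2)) ^ D := by
    have h1 : (m : ℝ) ≤ D * (K * Y + 2) ^ D := by exact_mod_cast h
    have h2 : ((K : ℝ) * Y + 2) ^ D ≤ ((K + 1) * (Y + 2)) ^ D := by
      apply pow_le_pow_left₀ (by (clear * -; positivity))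
      nlinarith only []
    have h3 : (0 : ℝ) ≤ ((K + 1) * (Y + 2)) ^ D := by (clear * -; positivity)
    have hD0 : (0 : ℝ) ≤ D := Nat.cast_nonneg D
    nlinarith only [h1, h3, h2]
  have hm' : (0 : ℝ) < m := by exact_mod_cast hm
  have h1 := Real.log_le_log hm' h0
  rw [Real.log_mul (by positivity) (by (clear * -; positivity)), Real.log_pow,
    Real.log_mul (by positivity) (by positivity)] at h1
  have hD0 : (0 : ℝ) ≤ D := Nat.cast_nonneg D
  nlinarith only [h1, hD, hlY, mul_nonneg (mul_nonneg hD0 hK) hlY]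

/-- threshold for `n` -/
theorem la_num_n0 (T : ℕ) (hT : 0 < T) (y0 : ℝ) : ∃ n0 : ℕ, 0 < n0 ∧ ∀ n : ℕ, n0 ≤ n → ∀ Y : ℝ,
    Real.log ((n * T : ℕ) : ℝ) ≤ Y → y0 ≤ Y := by
  refine ⟨⌈Real.exp y0⌉₊ + 1, Nat.succ_pos _, fun n hn Y hY => ?_⟩
  refine le_trans ?_ hY
  rw [Real.le_log_iff_exp_le (by
    have : 0 < n * T := Nat.mul_pos (by omega) hT
    exact_mod_cast this)]
  have h1 : Real.exp y0 ≤ (⌈Real.exp y0⌉₊ : ℝ) := Nat.le_ceil _
  have h2 : ⌈Real.exp y0⌉₊ ≤ n * T := by
    calc ⌈Real.exp y0⌉₊ ≤ n := by omega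
      _ = n * 1 := (mul_one n).symm
      _ ≤ n * T := Nat.mul_le_mul_left n hT
  exact h1.trans (by exact_mod_cast h2)

end Vale.Agent.P201.S
end

section

/-!
P201, part LA, leaf (N): `StmtNum` (helper660).
-/

namespace Vale.Agent.P201.S

theorem stmtNum : StmtNum := by
  intro L0 _
  obtain ⟨e1, h1, -, h2⟩ := la_num L0
  refine ⟨e1, h1, fun c D K hc hD => ?_⟩
  have hK0 : (0 : ℝ) ≤ K := Nat.cast_nonneg K
  have hlK : 0 ≤ Real.log (K + 1 : ℝ) := Real.log_nonneg (by linarith)
  obtain ⟨y0, hy0, hy⟩ := h2 c (D * (1 + Real.log (K + 1))) hc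
  refine ⟨⌈y0⌉₊, fun Y g F op dx hY hg hF hcase hmain => ?_⟩
  have hY' : y0 ≤ (Y : ℝ) := (Nat.le_ceil _).trans (by exact_mod_cast hY)
  have hY0 : (0 : ℝ) ≤ Y := Nat.cast_nonneg Y
  have hlY : 0 ≤ Real.log (Y + 2 : ℝ) := Real.log_nonneg (by linarith only [])
  refine hy Y F op dx g Y (D * (Real.log (K * Y + 2) + 1)) hY' le_rfl hg (Nat.cast_nonneg _)
    (Nat.cast_nonneg _) (Nat.cast_nonneg _) ?_ ?_ hmain
  · rcases Nat.eq_zero_or_pos op with h | h
    · rcases hcase h with h3 | h3
      · left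
        rw [h3]
        exact Nat.cast_zero
      · right; right
        exact_mod_cast h3
    · right; left
      exact_mod_cast h
  · have h3 : Real.log (K * Y + 2) ≤ Real.log (K + 1) + Real.log (Y + 2) := by
      rw [← Real.log_mul (by (clear * -; positivity)) (by positivity)]
      apply Real.log_le_log (by (clear * -; positivity))
      nlinarith only []
    have h4 : Real.log (K * Y + 2) + 1 ≤ (1 + Real.log (K + 1)) * (1 + Real.log (Y + 2)) := by
      nlinarith only [h3, hlK, hlY]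
    rw [mul_assoc]
    exact mul_le_mul_of_nonneg_left h4 hD

end Vale.Agent.P201.S
end

section

/-!
P201, part C for the general system: facts on densities (helper174).
-/

namespace Vale.Agent.P201.S

open Finset

variable {S : Sys}

namespace CRho

open Classical in
theorem nlab_rev (l : Lbl S) : nlab S (rev l) = nlab S l := by
  rw [nlab, nlab]
  apply card_bij (fun u _ => (u.2, u.1))
  · intro u hu
    rw [mem_filter] at hu ⊢
    obtain ⟨-, ⟨h1, h2⟩, h3⟩ := hu
    refine ⟨mem_univ _, ⟨h1.symm, fun h => h2 h.symm⟩, ?_⟩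
    have e1 : S.rc u.1 = l.2.1 := congrArg Prod.fst h3
    have e2 : S.rc u.2 = l.1 := congrArg (fun x => x.2.1) h3
    have e3 : S.ht u.2 - S.ht u.1 = - l.2.2 := congrArg (fun x => x.2.2) h3
    show (S.rc u.2, S.rc u.1, S.ht u.1 - S.ht u.2) = l
    rw [e1, e2, show S.ht u.1 - S.ht u.2 = l.2.2 by omega]
  · intro u _ v _ h
    exact Prod.ext (congrArg Prod.snd h) (congrArg Prod.fst h)
  · intro u hu
    rw [mem_filter] at hu
    obtain ⟨-, ⟨h1, h2⟩, h3⟩ := hu
    refine ⟨(u.2, u.1), ?_, rfl⟩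
    rw [mem_filter]
    refine ⟨mem_univ _, ⟨h1.symm, fun h => h2 h.symm⟩, ?_⟩
    rw [← h3]
    show (S.rc u.2, S.rc u.1, S.ht u.1 - S.ht u.2) = (S.rc u.2, S.rc u.1, -(S.ht u.2 - S.ht u.1))
    rw [neg_sub]

theorem nlab_eq_nu (l : Lbl S) : nlab S l = nu S l.1 l.2.1 l.2.2 := by
  classical
  rw [nlab, nu]
  congr 1
  ext u
  rw [mem_filter, mem_filter]
  constructor
  · rintro ⟨-, ⟨h1, h2⟩, h3⟩
    rw [← h3]
    exact ⟨mem_univ _, h1, h2, rfl, rfl, rfl⟩
  · rintro ⟨-, h1, h2, h3, h4, h5⟩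
    refine ⟨mem_univ _, ⟨h1, h2⟩, ?_⟩
    unfold lam
    rw [h3, h4, h5]

theorem sum_sq_le (L : Finset (Lbl S)) : ∑ l ∈ L, nlab S l ^ 2 ≤ nu2 S := by
  classical
  let U : Lbl S → Finset (Port S × Port S) := fun l => univ.filter fun u => IsU u ∧ lam u = l
  have h0 : ∀ l, nlab S l ^ 2 = (U l ×ˢ U l).card := by
    intro l
    rw [card_product, sq]
    rfl
  simp only [h0]
  rw [← card_biUnion]
  · apply card_le_card
    intro x hx
    rw [mem_biUnion] at hx
    obtain ⟨l, -, hx⟩ := hx
    rw [mem_product] at hx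
    obtain ⟨hx1, hx2⟩ := hx
    obtain ⟨-, ⟨h1, h2⟩, h3⟩ := mem_filter.1 hx1
    obtain ⟨-, ⟨h4, h5⟩, h6⟩ := mem_filter.1 hx2
    have h7 := h3.trans h6.symm
    unfold lam at h7
    rw [Prod.mk.injEq, Prod.mk.injEq] at h7
    rw [mem_filter]
    exact ⟨mem_univ _, h1, h2, h4, h5, h7.1, h7.2.1, h7.2.2⟩
  · intro l _ l' _ hll
    rw [Function.onFun, disjoint_left]
    intro x hx hx'
    rw [mem_product] at hx hx'
    exact hll ((mem_filter.1 hx.1).2.2.symm.trans (mem_filter.1 hx'.1).2.2)

end CRho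

open CRho in
theorem stmtRho : StmtRho := by
  intro S D hS hN
  have hN' : (0 : ℝ) < (Fintype.card S.C : ℝ) := by exact_mod_cast hN
  refine ⟨fun L => ?_, fun u hu => ?_, fun l => ?_⟩
  · have h1 : ∑ l ∈ L, rho S l ^ 2 = ((∑ l ∈ L, nlab S l ^ 2 : ℕ) : ℝ) / (Fintype.card S.C : ℝ) ^ 2 := by
      push_cast
      rw [sum_div]
      refine sum_congr rfl fun l _ => ?_
      rw [rho, div_pow]
    rw [h1, div_le_iff₀ (by positivity)]
    have h2 : ((∑ l ∈ L, nlab S l ^ 2 : ℕ) : ℝ) ≤ (nu2 S : ℝ) := by exact_mod_cast sum_sq_le L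
    have h3 : (2 : ℝ) * (nu2 S : ℝ) ≤ (Fintype.card S.C : ℝ) ^ 2 := by exact_mod_cast hS.w
    linarith only [h2, h3]
  · rw [rho, ← mul_div_assoc, le_div_iff₀ hN', one_mul, nlab_eq_nu]
    have := hS.labels u.1 u.2 hu.1 hu.2
    exact_mod_cast this
  · rw [rho, rho, nlab_rev]

end Vale.Agent.P201.S
end

section

/-!
P201, part C: product kernels and the weight of descriptions of a pattern (helper786).
-/

namespace Vale.Agent.P201.S

open Finset

variable {S : Sys}

lemma kn_prod_le {A B : Type} [Fintype A] [Fintype B] (f : A → ℝ) (g : A → B → ℝ)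
    (hf : ∀ a, 0 ≤ f a) (hs : ∑ a, f a ≤ 1) (hg : ∀ a, ∑ b, g a b ≤ 1) :
    ∑ x : A × B, f x.1 * g x.1 x.2 ≤ 1 := by
  rw [Fintype.sum_prod_type]
  calc ∑ a, ∑ b, f a * g a b = ∑ a, f a * ∑ b, g a b := by
        simp only [Finset.mul_sum]
    _ ≤ ∑ a, f a * 1 := Finset.sum_le_sum fun a _ => mul_le_mul_of_nonneg_left (hg a) (hf a)
    _ ≤ 1 := by simpa only [mul_one] using hs

lemma kn_pi_le {ι B : Type} [Fintype ι] [DecidableEq ι] [Fintype B] (g : ι → B → ℝ)
    (h0 : ∀ i b, 0 ≤ g i b) (hs : ∀ i, ∑ b, g i b ≤ 1) :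
    ∑ f : ι → B, ∏ i, g i (f i) ≤ 1 := by
  have h := Finset.prod_univ_sum (fun _ : ι => (univ : Finset B)) g
  rw [Fintype.piFinset_univ] at h
  rw [← h]
  exact Finset.prod_le_one (fun i _ => Finset.sum_nonneg fun b _ => h0 i b) fun i _ => hs i

/-- the matched pair (copy-1 cell, copy-2 cell) of two ports of different copies -/
def prt (x y : Port S) : S.C × S.C := if x.2 then (x.1, y.1) else (y.1, x.1)

/-! ## Descriptions -/

open Classical in
/-- all labels of pairs of ports -/
noncomputable def labs (S : Sys) : Finset (Lbl S) :=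
  univ.image (fun u : Port S × Port S => lam u)

lemma lam_mem_labs (u : Port S × Port S) : lam u ∈ labs S := by
  classical
  exact Finset.mem_image.2 ⟨u, Finset.mem_univ _, rfl⟩

/-- label with sign -/
def sgl (l : Lbl S) (b : Bool) : Lbl S := if b then l else rev l

/-- irregular half-edges -/
abbrev Ptn.IH (P : Ptn) : Type := {h : P.E × Bool // (P.att h).isLeft = true}

/-- vertex of an irregular half-edge -/
def Ptn.iv (P : Ptn) (h : P.IH) : P.V := (P.att h.1).getLeft h.2

/-- descriptions of a pattern -/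
abbrev Dsc (P : Ptn) (S : Sys) : Type :=
  ((P.V → S.B) × (P.IH → Port S)) × ((P.C → labs S) × (P.R → Port S × Port S))

open Classical in
noncomputable def wV (P : Ptn) (S : Sys) (_β : P.V → S.B) : ℝ :=
  ∏ _v : P.V, (1 / (Fintype.card (S.B) : ℝ)) 

open Classical in
noncomputable def wH (D : ℕ) (P : Ptn) (β : P.V → S.B) (π : P.IH → Port S) : ℝ :=
  ∏ h : P.IH, if S.blk (π h) = β (P.iv h) then 1 / (D : ℝ) else 0

open Classical in
noncomputable def wC (P : Ptn) (S : Sys) (L : P.C → labs S) : ℝ :=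
  ∏ c : P.C, 2 * rho S (L c).1 ^ 2

open Classical in
noncomputable def wR (P : Ptn) (L : P.C → labs S) (u : P.R → Port S × Port S) : ℝ :=
  ∏ r : P.R, if IsU (u r) ∧ lam (u r) = sgl (L (P.cl r).1).1 (P.cl r).2 then
    1 / (nlab S (sgl (L (P.cl r).1).1 (P.cl r).2) : ℝ) else 0

noncomputable def wt (D : ℕ) (P : Ptn) (x : Dsc P S) : ℝ :=
  (wV P S x.1.1 * wH D P x.1.1 x.1.2) * (wC P S x.2.1 * wR P x.2.1 x.2.2)

lemma wV_nonneg (P : Ptn) (β : P.V → S.B) : 0 ≤ wV P S β :=
  Finset.prod_nonneg fun _ _ => by positivity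

lemma wH_nonneg (D : ℕ) (P : Ptn) (β : P.V → S.B) (π : P.IH → Port S) : 0 ≤ wH D P β π :=
  Finset.prod_nonneg fun _ _ => by split_ifs <;> positivity

lemma wC_nonneg (P : Ptn) (L : P.C → labs S) : 0 ≤ wC P S L :=
  Finset.prod_nonneg fun _ _ => by positivity

lemma wR_nonneg (P : Ptn) (L : P.C → labs S) (u : P.R → Port S × Port S) : 0 ≤ wR P L u :=
  Finset.prod_nonneg fun _ _ => by split_ifs <;> positivity

lemma wt_nonneg (D : ℕ) (P : Ptn) (x : Dsc P S) : 0 ≤ wt D P x :=
  mul_nonneg (mul_nonneg (wV_nonneg _ _) (wH_nonneg _ _ _ _))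
    (mul_nonneg (wC_nonneg _ _) (wR_nonneg _ _ _))

lemma sum_wV_le (P : Ptn) : ∑ β : P.V → S.B, wV P S β ≤ 1 := by
  classical
  unfold wV
  refine kn_pi_le (fun _ _ => 1 / (Fintype.card (S.B) : ℝ)) (fun _ _ => by positivity) ?_
  intro _
  rw [Finset.sum_const, Finset.card_univ, nsmul_eq_mul]
  rcases Nat.eq_zero_or_pos (Fintype.card (S.B)) with h | h
  · rw [h]; simp only [CharP.cast_eq_zero, div_zero, mul_zero, zero_le_one]
  · have h' : (Fintype.card (S.B) : ℝ) ≠ 0 := by positivity
    rw [mul_one_div_cancel h']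

lemma sum_wH_le {D : ℕ} (P : Ptn) (hD : 0 < D)
    (hp : ∀ b : S.B, (univ.filter (fun q : Port S => S.blk q = b)).card ≤ D) (β : P.V → S.B) :
    ∑ π : P.IH → Port S, wH D P β π ≤ 1 := by
  classical
  unfold wH
  refine kn_pi_le (fun (h : P.IH) (q : Port S) =>
    if S.blk q = β (P.iv h) then 1 / (D : ℝ) else 0)
    (fun _ _ => by split_ifs <;> positivity) ?_
  intro h
  rw [← Finset.sum_filter, Finset.sum_const, nsmul_eq_mul]
  have h1 := hp (β (P.iv h))
  have h2 : (0 : ℝ) < (D : ℝ) := by exact_mod_cast hD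
  rw [mul_one_div, div_le_one h2]
  have h3 : (univ.filter (fun q : Port S => S.blk q = β (P.iv h))).card ≤ D := by
    convert h1
  exact_mod_cast h3

lemma sum_wR_le (P : Ptn) (L : P.C → labs S) :
    ∑ u : P.R → Port S × Port S, wR P L u ≤ 1 := by
  classical
  unfold wR
  refine kn_pi_le (fun (r : P.R) (u : Port S × Port S) =>
    if IsU u ∧ lam u = sgl (L (P.cl r).1).1 (P.cl r).2 then
    1 / (nlab S (sgl (L (P.cl r).1).1 (P.cl r).2) : ℝ) else 0)
    (fun _ _ => by split_ifs <;> positivity) ?_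
  intro r
  rw [← Finset.sum_filter, Finset.sum_const, nsmul_eq_mul]
  have h1 : (univ.filter (fun u : Port S × Port S =>
      IsU u ∧ lam u = sgl (L (P.cl r).1).1 (P.cl r).2)).card =
      nlab S (sgl (L (P.cl r).1).1 (P.cl r).2) := by
    unfold nlab
    congr
  rw [h1]
  rcases Nat.eq_zero_or_pos (nlab S (sgl (L (P.cl r).1).1 (P.cl r).2)) with h | h
  · rw [h]; simp only [CharP.cast_eq_zero, div_zero, mul_zero, zero_le_one]
  · have h' : (nlab S (sgl (L (P.cl r).1).1 (P.cl r).2) : ℝ) ≠ 0 := by (clear * - h; positivity)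
    rw [mul_one_div_cancel h']

lemma sum_wC_le (P : Ptn) (hrho : ∀ L : Finset (Lbl S), ∑ l ∈ L, rho S l ^ 2 ≤ 1 / 2) :
    ∑ L : P.C → labs S, wC P S L ≤ 1 := by
  classical
  unfold wC
  refine kn_pi_le (fun _ (l : labs S) => 2 * rho S l.1 ^ 2) (fun _ _ => by positivity) ?_
  intro _
  rw [← Finset.mul_sum, Finset.sum_coe_sort (labs S) (fun l => rho S l ^ 2)]
  have := hrho (labs S)
  linarith

lemma sum_wt_le {D : ℕ} (P : Ptn) (hD : 0 < D)
    (hp : ∀ b : S.B, (univ.filter (fun q : Port S => S.blk q = b)).card ≤ D)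
    (hrho : ∀ L : Finset (Lbl S), ∑ l ∈ L, rho S l ^ 2 ≤ 1 / 2) :
    ∑ x : Dsc P S, wt D P x ≤ 1 := by
  classical
  unfold wt
  have h1 : ∑ y : (P.V → S.B) × (P.IH → Port S), wV P S y.1 * wH D P y.1 y.2 ≤ 1 :=
    kn_prod_le (wV P S) (wH D P) (wV_nonneg P) (sum_wV_le P) (sum_wH_le P hD hp)
  have h2 : ∑ y : (P.C → labs S) × (P.R → Port S × Port S),
      wC P S y.1 * wR P y.1 y.2 ≤ 1 :=
    kn_prod_le (wC P S) (wR P) (wC_nonneg P) (sum_wC_le P hrho) (sum_wR_le P)
  exact kn_prod_le (fun y : (P.V → S.B) × (P.IH → Port S) => wV P S y.1 * wH D P y.1 y.2)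
    (fun _ (y : (P.C → labs S) × (P.R → Port S × Port S)) => wC P S y.1 * wR P y.1 y.2)
    (fun y => mul_nonneg (wV_nonneg _ _) (wH_nonneg _ _ _ _)) h1 (fun _ => h2)

end Vale.Agent.P201.S
end

section

/-!
P201, part C: StmtB + StmtRho imply StmtU (helper786).
-/

namespace Vale.Agent.P201.S

open Finset

variable {S : Sys}

/-- port of a half-edge in a description -/
noncomputable def dport (P : Ptn) (x : Dsc P S) (h : P.E × Bool) : Port S :=
  match hh : P.att h with
  | Sum.inl _ => x.1.2 ⟨h, by rw [hh]; rfl⟩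
  | Sum.inr (r, true) => (x.2.2 r).1
  | Sum.inr (r, false) => (x.2.2 r).2

open Classical in
/-- set of matched pairs of a description -/
noncomputable def ddec (P : Ptn) (x : Dsc P S) : Finset (S.C × S.C) :=
  univ.image (fun e : P.E => prt (dport P x (e, true)) (dport P x (e, false)))

lemma ddec_card_le (P : Ptn) (x : Dsc P S) : (ddec P x).card ≤ Fintype.card P.E := by
  classical
  unfold ddec
  exact Finset.card_image_le

open Classical in
/-- the weight function on sets of pairs -/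
noncomputable def QQ (D : ℕ) {ι : Type} [Fintype ι] (PP : ι → Ptn) (S : Sys)
    (T : Finset (S.C × S.C)) : ℝ :=
  ∑ i, (1 / (Fintype.card ι : ℝ)) *
    ∑ x : Dsc (PP i) S, if ddec (PP i) x = T then wt D (PP i) x else 0

lemma QQ_nonneg (D : ℕ) {ι : Type} [Fintype ι] (PP : ι → Ptn) (T : Finset (S.C × S.C)) :
    0 ≤ QQ D PP S T := by
  classical
  unfold QQ
  refine Finset.sum_nonneg fun i _ => mul_nonneg (by positivity) (Finset.sum_nonneg fun x _ => ?_)
  split_ifs
  · exact wt_nonneg _ _ _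
  · exact le_rfl

lemma QQ_sum {D : ℕ} {ι : Type} [Fintype ι] [Nonempty ι] (PP : ι → Ptn) (hD : 0 < D)
    (hp : ∀ b : S.B, (univ.filter (fun q : Port S => S.blk q = b)).card ≤ D)
    (hrho : ∀ L : Finset (Lbl S), ∑ l ∈ L, rho S l ^ 2 ≤ 1 / 2) :
    ∑ T, QQ D PP S T ≤ 1 := by
  classical
  unfold QQ
  rw [Finset.sum_comm]
  have h1 : ∀ i : ι, ∑ T : Finset (S.C × S.C), (1 / (Fintype.card ι : ℝ)) *
      (∑ x : Dsc (PP i) S, if ddec (PP i) x = T then wt D (PP i) x else 0) ≤
      1 / (Fintype.card ι : ℝ) := by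
    intro i
    rw [← Finset.mul_sum, Finset.sum_comm]
    have h2 : ∀ x : Dsc (PP i) S, (∑ T : Finset (S.C × S.C),
        if ddec (PP i) x = T then wt D (PP i) x else 0) = wt D (PP i) x := by
      intro x
      rw [Finset.sum_eq_single (ddec (PP i) x)]
      · rw [if_pos rfl]
      · intro T _ hS
        rw [if_neg (Ne.symm hS)]
      · intro h
        exact absurd (Finset.mem_univ _) h
    rw [Finset.sum_congr rfl (fun x _ => h2 x)]
    have h3 := sum_wt_le (S := S) (PP i) hD hp hrho
    calc 1 / (Fintype.card ι : ℝ) * ∑ x : Dsc (PP i) S, wt D (PP i) x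
        ≤ 1 / (Fintype.card ι : ℝ) * 1 := mul_le_mul_of_nonneg_left h3 (by positivity)
      _ = 1 / (Fintype.card ι : ℝ) := mul_one _
  refine (Finset.sum_le_sum fun i _ => h1 i).trans ?_
  rw [Finset.sum_const, Finset.card_univ, nsmul_eq_mul]
  have h' : (Fintype.card ι : ℝ) ≠ 0 := by
    have := Fintype.card_pos (α := ι)
    positivity
  rw [mul_one_div_cancel h']

lemma QQ_card {D : ℕ} {ι : Type} [Fintype ι] (PP : ι → Ptn) {M : ℕ}
    (hM : ∀ i, Fintype.card (PP i).E ≤ M) (T : Finset (S.C × S.C))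
    (h : QQ D PP S T ≠ 0) : T.card ≤ M := by
  classical
  by_contra hc
  apply h
  unfold QQ
  refine Finset.sum_eq_zero fun i _ => ?_
  rw [Finset.sum_eq_zero, mul_zero]
  intro x _
  rw [if_neg]
  rintro rfl
  exact hc ((ddec_card_le _ _).trans (hM i))

lemma QQ_lower (D : ℕ) {ι : Type} [Fintype ι] (PP : ι → Ptn) (i : ι) (x : Dsc (PP i) S) :
    (1 / (Fintype.card ι : ℝ)) * wt D (PP i) x ≤ QQ D PP S (ddec (PP i) x) := by
  classical
  unfold QQ
  have h1 : ∀ j ∈ (univ : Finset ι), 0 ≤ (1 / (Fintype.card ι : ℝ)) *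
      ∑ y : Dsc (PP j) S, if ddec (PP j) y = ddec (PP i) x then wt D (PP j) y else 0 := by
    intro j _
    refine mul_nonneg (by positivity) (Finset.sum_nonneg fun y _ => ?_)
    split_ifs
    · exact wt_nonneg _ _ _
    · exact le_rfl
  refine le_trans ?_ (Finset.single_le_sum h1 (Finset.mem_univ i))
  refine mul_le_mul_of_nonneg_left ?_ (by positivity)
  have h2 : ∀ y ∈ (univ : Finset (Dsc (PP i) S)),
      0 ≤ (if ddec (PP i) y = ddec (PP i) x then wt D (PP i) y else 0) := by
    intro y _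
    split_ifs
    · exact wt_nonneg _ _ _
    · exact le_rfl
  have h3 := Finset.single_le_sum h2 (Finset.mem_univ x)
  simpa only [ge_iff_le, ↓reduceIte] using h3

/-! ## The description of a realization -/

lemma rev_rev' (l : Lbl S) : rev (rev l) = l := by
  obtain ⟨a, b, d⟩ := l
  simp [rev]

lemma rev_lam (u : Port S × Port S) : rev (lam u) = lam (u.2, u.1) := by
  simp [rev, lam]

lemma sgl_true (l : Lbl S) : sgl l true = l := rfl

lemma sgl_false (l : Lbl S) : sgl l false = rev l := rfl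

section
variable {P : Ptn} {σ : Equiv.Perm (S.C)} (r : Rlz P σ)

lemma Rlz.hlam' (x : P.R) : lam (r.prt (P.hf (x, true)), r.prt (P.hf (x, false))) =
    sgl (r.L (P.cl x).1) (P.cl x).2 := r.hlam x

lemma Rlz.L_mem (c : P.C) : r.L c ∈ labs S := by
  obtain ⟨x, hx⟩ := P.cl_surj c
  have h := r.hlam' x
  rw [hx] at h
  rcases hb : (P.cl x).2 with _ | _
  · rw [hb, sgl_false] at h
    rw [← rev_rev' (r.L c), ← h, rev_lam]
    exact lam_mem_labs _
  · rw [hb, sgl_true] at h
    rw [← h]
    exact lam_mem_labs _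

/-- description of a realization -/
noncomputable def rdsc : Dsc P S :=
  ((r.vb, fun h => r.prt h.1), (fun c => ⟨r.L c, r.L_mem c⟩,
    fun x => (r.prt (P.hf (x, true)), r.prt (P.hf (x, false)))))

lemma dport_rdsc (h : P.E × Bool) : dport P (rdsc r) h = r.prt h := by
  unfold dport
  split
  · rfl
  · rename_i s hh
    rw [P.hf_unique h _ hh]
    rfl
  · rename_i s hh
    rw [P.hf_unique h _ hh]
    rfl

lemma mt_snd' (q : Port S) : (mt σ q).2 = !q.2 := by
  unfold mt
  rcases hq : q.2 with _ | _ <;> simp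

/-- the pair of a matched port -/
lemma prt_mem_gr (q q' : Port S) (h : mt σ q = q') : prt q q' ∈ gr σ := by
  classical
  subst h
  unfold prt mt gr
  rcases hq : q.2 with _ | _
  · simp only [Bool.false_eq_true, ↓reduceIte, mem_image, mem_univ, Prod.mk.injEq, true_and, exists_eq_left, Equiv.apply_symm_apply]
  · simp only [↓reduceIte, mem_image, mem_univ, Prod.mk.injEq, EmbeddingLike.apply_eq_iff_eq, and_self, true_and, exists_eq]

lemma prt_fst (q q' : Port S) (h : mt σ q = q') :
    ((prt q q').1, true) = q ∨ ((prt q q').1, true) = q' := by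
  subst h
  obtain ⟨c, b⟩ := q
  rcases b with _ | _
  · right
    simp [prt, mt]
  · left
    simp [prt]

lemma ddec_rdsc_sub : ddec P (rdsc r) ⊆ gr σ := by
  classical
  intro y hy
  unfold ddec at hy
  rw [Finset.mem_image] at hy
  obtain ⟨e, _, rfl⟩ := hy
  rw [dport_rdsc, dport_rdsc]
  exact prt_mem_gr _ _ (r.mate e)

lemma ddec_rdsc_card : (ddec P (rdsc r)).card = Fintype.card P.E := by
  classical
  unfold ddec
  rw [Finset.card_image_of_injective, Finset.card_univ]
  intro e e' h
  simp only [dport_rdsc] at h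
  have h1 := prt_fst _ _ (r.mate e)
  have h2 := prt_fst _ _ (r.mate e')
  rw [h] at h1
  rcases h1 with h1 | h1 <;> rcases h2 with h2 | h2 <;>
  · have h3 := r.inj (h1.symm.trans h2)
    exact congrArg Prod.fst h3

lemma isU_rdsc (x : P.R) : IsU (r.prt (P.hf (x, true)), r.prt (P.hf (x, false))) := by
  refine ⟨r.hblk x, fun h => ?_⟩
  have h1 := r.inj h
  have h2 := congrArg P.att h1
  rw [P.att_hf, P.att_hf] at h2
  simp at h2

lemma nlab_pos_of (u : Port S × Port S) (h : IsU u) : 0 < nlab S (lam u) := by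
  classical
  unfold nlab
  rw [Finset.card_pos]
  exact ⟨u, by simp only [mem_filter, mem_univ, h, and_self]⟩

/-- logarithm of the weight of the description of a realization -/
lemma log_wt_rdsc {D : ℕ} (hT : 0 < D) (hN : 0 < Fintype.card (S.C))
    (hnb : 0 < Fintype.card (S.B)) (hrev : ∀ l : Lbl S, rho S (rev l) = rho S l) :
    0 < wt D P (rdsc r) ∧ Real.log (wt D P (rdsc r)) =
      -(Fintype.card P.V * Real.log (Fintype.card (S.B))) -
      P.H * Real.log (D : ℝ) +
      (∑ c : P.C, (Real.log 2 + 2 * Real.log (rho S (r.L c)))) -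
      ∑ x : P.R, (Real.log (rho S (r.L (P.cl x).1)) + Real.log (Fintype.card (S.C))) := by
  classical
  have hN' : (0 : ℝ) < Fintype.card (S.C) := by exact_mod_cast hN
  have hnb' : (0 : ℝ) < Fintype.card (S.B) := by exact_mod_cast hnb
  have h2T : (0 : ℝ) < (D : ℝ) := by exact_mod_cast hT
  -- labels have positive density
  have hsg : ∀ x : P.R, 0 < nlab S (sgl (r.L (P.cl x).1) (P.cl x).2) := by
    intro x
    rw [← r.hlam' x]
    exact nlab_pos_of _ (isU_rdsc r x)
  have hrs : ∀ (l : Lbl S) (b : Bool), rho S (sgl l b) = rho S l := by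
    intro l b
    cases b
    · exact hrev l
    · rfl
  have hnr : ∀ l : Lbl S, (nlab S l : ℝ) = rho S l * Fintype.card (S.C) := by
    intro l
    unfold rho
    rw [div_mul_cancel₀ _ hN'.ne']
  have hpos : ∀ x : P.R, 0 < rho S (r.L (P.cl x).1) := by
    intro x
    rw [← hrs _ (P.cl x).2]
    unfold rho
    have := hsg x
    positivity
  have hposC : ∀ c : P.C, 0 < rho S (r.L c) := by
    intro c
    obtain ⟨x, hx⟩ := P.cl_surj c
    have := hpos x
    rwa [hx] at this
  have eV : wV P S (rdsc r).1.1 = (1 / (Fintype.card (S.B) : ℝ)) ^ Fintype.card P.V := by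
    unfold wV
    rw [Finset.prod_const, Finset.card_univ]
  have eH : wH D P (rdsc r).1.1 (rdsc r).1.2 = (1 / (D : ℝ)) ^ P.H := by
    unfold wH
    rw [Finset.prod_congr rfl (g := fun _ => 1 / (D : ℝ)), Finset.prod_const,
      Finset.card_univ, Fintype.card_subtype]
    · rfl
    · intro h _
      rw [if_pos]
      refine r.hv h.1 _ ?_
      unfold Ptn.iv
      simp
  have eC : wC P S (rdsc r).2.1 = ∏ c : P.C, 2 * rho S (r.L c) ^ 2 := rfl
  have eR : wR P (rdsc r).2.1 (rdsc r).2.2 =
      ∏ x : P.R, 1 / (rho S (r.L (P.cl x).1) * Fintype.card (S.C)) := by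
    unfold wR
    refine Finset.prod_congr rfl fun x _ => ?_
    rw [if_pos]
    · change 1 / (nlab S (sgl (r.L (P.cl x).1) (P.cl x).2) : ℝ) = _
      rw [hnr, hrs]
    · exact ⟨isU_rdsc r x, r.hlam' x⟩
  have pV : 0 < wV P S (rdsc r).1.1 := by rw [eV]; positivity
  have pH : 0 < wH D P (rdsc r).1.1 (rdsc r).1.2 := by rw [eH]; positivity
  have pC : 0 < wC P S (rdsc r).2.1 := by
    rw [eC]
    exact Finset.prod_pos fun c _ => by have := hposC c; (clear * - this; positivity)
  have pR : 0 < wR P (rdsc r).2.1 (rdsc r).2.2 := by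
    rw [eR]
    exact Finset.prod_pos fun x _ => by have := hpos x; (clear * - this hN; positivity)
  have lV : Real.log (wV P S (rdsc r).1.1) =
      -(Fintype.card P.V * Real.log (Fintype.card (S.B))) := by
    rw [eV, Real.log_pow, one_div, Real.log_inv]
    ring
  have lH : Real.log (wH D P (rdsc r).1.1 (rdsc r).1.2) =
      -(P.H * Real.log (D : ℝ)) := by
    rw [eH, Real.log_pow, one_div, Real.log_inv]
    ring
  have lC : Real.log (wC P S (rdsc r).2.1) =
      ∑ c : P.C, (Real.log 2 + 2 * Real.log (rho S (r.L c))) := by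
    rw [eC, Real.log_prod]
    · refine Finset.sum_congr rfl fun c _ => ?_
      have := hposC c
      rw [Real.log_mul (by norm_num) (by (clear * - this; positivity)), Real.log_pow]
      norm_num
    · intro c _
      have := hposC c
      (clear * - this; positivity)
  have lR : Real.log (wR P (rdsc r).2.1 (rdsc r).2.2) =
      - ∑ x : P.R, (Real.log (rho S (r.L (P.cl x).1)) + Real.log (Fintype.card (S.C))) := by
    rw [eR, Real.log_prod]
    · rw [← Finset.sum_neg_distrib]
      refine Finset.sum_congr rfl fun x _ => ?_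
      have := hpos x
      rw [one_div, Real.log_inv, Real.log_mul this.ne' hN'.ne']
    · intro x _
      have := hpos x
      (clear * - this hN; positivity)
  refine ⟨mul_pos (mul_pos pV pH) (mul_pos pC pR), ?_⟩
  unfold wt
  rw [Real.log_mul (mul_pos pV pH).ne' (mul_pos pC pR).ne', Real.log_mul pV.ne' pH.ne',
    Real.log_mul pC.ne' pR.ne', lV, lH, lC, lR]
  ring

end

/-- the elementary estimate of the error of the change of measure -/
lemma log_sub_est {N X : ℝ} {E M : ℕ} (hX : 1 ≤ X) (hEM : E ≤ M) (h : (2 * M + 2) * X ≤ N) :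
    0 < N - X ∧ (E : ℝ) * Real.log N - 1 ≤ E * Real.log (N - X) := by
  have hM0 : (0 : ℝ) ≤ M := Nat.cast_nonneg M
  have hE0 : (0 : ℝ) ≤ E := Nat.cast_nonneg E
  have hEM' : (E : ℝ) ≤ M := by exact_mod_cast hEM
  have h1 : (2 * (M : ℝ) + 1) * X ≤ N - X := by linarith
  have h2 : 0 < N - X := by nlinarith only [hX, h]
  have hN : 0 < N := by linarith only [hX, h2]
  refine ⟨h2, ?_⟩
  have h3 : Real.log N - Real.log (N - X) ≤ X / (N - X) := by
    rw [← Real.log_div hN.ne' h2.ne']
    have h4 := Real.log_le_sub_one_of_pos (x := N / (N - X)) (by (clear * - hN h2; positivity))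
    have h5 : N / (N - X) - 1 = X / (N - X) := by
      field_simp
      ring
    linarith only [h4, h5]
  have h6 : X / (N - X) ≤ 1 / (2 * (M : ℝ) + 1) := by
    rw [div_le_div_iff₀ h2 (by positivity)]
    nlinarith only [h]
  have h7 : (E : ℝ) * (Real.log N - Real.log (N - X)) ≤ 1 := by
    calc (E : ℝ) * (Real.log N - Real.log (N - X)) ≤ E * (1 / (2 * (M : ℝ) + 1)) :=
          mul_le_mul_of_nonneg_left (h3.trans h6) hE0
      _ ≤ 1 := by
          rw [mul_one_div, div_le_one (by (clear * -; positivity))]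
          linarith only [hEM']
  linarith only [h7]

theorem stmtU (hB : StmtB) (hR : StmtRho) : StmtU := by
  classical
  intro D
  refine ⟨2 * Real.log (D : ℝ) + 1, ?_, ?_⟩
  · have h1 : 0 ≤ Real.log (D : ℝ) := Real.log_natCast_nonneg _
    linarith
  intro S hS g M hN hsize ι _ _ PP hE
  obtain ⟨hr1, hr2, hr3⟩ := hR S D hS hN
  -- a port exists, hence `0 < D` and a block exists
  obtain ⟨c0⟩ : Nonempty S.C := Fintype.card_pos_iff.1 hN
  have hT : 0 < D := by
    have h1 := hS.ports (S.blk (c0, true))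
    have h2 : 0 < (univ.filter (fun q : Port S => S.blk q = S.blk (c0, true))).card :=
      Finset.card_pos.2 ⟨(c0, true), by simp only [mem_filter, mem_univ, and_self]⟩
    omega
  have hX1 : 1 ≤ (2 * D + 2) ^ (g + 3) := Nat.one_le_pow _ _ (by (clear * - hT; omega))
  have hBs := hB S g D M hS.ports (by
    nlinarith only [hsize, hX1]) (QQ D PP S) (QQ_nonneg D PP) (QQ_sum PP hT hS.ports hr1) (QQ_card PP hE)
  obtain ⟨σ, hg, hσ⟩ := hBs
  refine ⟨σ, hg, fun i r => ?_⟩
  have hnb : 0 < Fintype.card S.B := Fintype.card_pos_iff.2 ⟨S.blk (c0, true)⟩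
  obtain ⟨hw0, hlw⟩ := log_wt_rdsc r hT hN hnb hr3
  have h1 := hσ (ddec (PP i) (rdsc r)) (ddec_rdsc_sub r)
  rw [ddec_rdsc_card] at h1
  set X : ℝ := ((2 * D + 2) ^ (g + 3) : ℕ) + (M : ℝ) with hXdef
  have hcast : ((Fintype.card S.C : ℝ) - (2 * (D : ℝ) + 2) ^ (g + 3) - M) =
      (Fintype.card S.C : ℝ) - X := by
    rw [hXdef]
    push_cast
    ring
  rw [hcast] at h1
  have hsz : (2 * (M : ℝ) + 2) * X ≤ (Fintype.card S.C : ℝ) := by
    rw [hXdef]
    exact_mod_cast hsize
  have hX1' : 1 ≤ X := by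
    rw [hXdef]
    have : (1 : ℝ) ≤ ((2 * D + 2) ^ (g + 3) : ℕ) := by exact_mod_cast hX1
    have hM0 : (0 : ℝ) ≤ M := Nat.cast_nonneg M
    linarith only [this]
  obtain ⟨hNX, hest⟩ := log_sub_est (E := Fintype.card (PP i).E) hX1' (hE i) hsz
  have hι : (0 : ℝ) < Fintype.card ι := by exact_mod_cast Fintype.card_pos
  have h2 : (1 / (Fintype.card ι : ℝ)) * wt D (PP i) (rdsc r) *
      ((Fintype.card S.C : ℝ) - X) ^ Fintype.card (PP i).E ≤ 1 :=
    (mul_le_mul_of_nonneg_right (QQ_lower D PP i (rdsc r)) (by (clear * - hNX; positivity))).trans h1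
  have h3 := Real.log_le_log (by (clear hB hR hS hN hsize hE hr1 hr2 hr3 c0 hT hX1 hg hσ hnb hlw h1 hXdef hcast hsz hX1' hest hι h2; positivity)) h2
  rw [Real.log_one, Real.log_mul (by (clear hB hR hS g M hN hsize hE hr1 hr2 hr3 c0 hT hX1 hg hσ hnb hlw X h1 hXdef hcast hsz hX1' hNX hest hι h2 h3; positivity)) (by (clear * - hNX; positivity)), Real.log_mul (by (clear hB hR D S hS g M hN hsize PP hE hr1 hr2 hr3 c0 hT hX1 σ hg hσ i r hnb hw0 hlw X h1 hXdef hcast hsz hX1' hNX hest hι h2 h3; positivity))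
    hw0.ne', Real.log_pow, one_div, Real.log_inv, hlw] at h3
  -- blocks
  have hD' : (0 : ℝ) < D := by exact_mod_cast hT
  have hN' : (0 : ℝ) < Fintype.card S.C := by exact_mod_cast hN
  have hlnb : Real.log (Fintype.card S.B) ≤
      Real.log (D : ℝ) + Real.log (Fintype.card S.C) := by
    rw [← Real.log_mul hD'.ne' hN'.ne']
    have e1 : (Fintype.card S.B : ℝ) ≤ D * Fintype.card S.C := by exact_mod_cast hS.blocks
    have e2 : (0 : ℝ) < Fintype.card S.B := by exact_mod_cast hnb
    exact Real.log_le_log e2 e1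
  have hV0 : (0 : ℝ) ≤ Fintype.card (PP i).V := Nat.cast_nonneg _
  have hH0 : (0 : ℝ) ≤ (PP i).H := Nat.cast_nonneg _
  have hlT : 0 ≤ Real.log (D : ℝ) := Real.log_natCast_nonneg _
  have hVb := mul_le_mul_of_nonneg_left hlnb hV0
  have hsum : ∑ x : (PP i).R, (Real.log (rho S (r.L ((PP i).cl x).1)) +
      Real.log (Fintype.card S.C)) = ∑ x : (PP i).R, Real.log (rho S (r.L ((PP i).cl x).1)) +
      Fintype.card (PP i).R * Real.log (Fintype.card S.C) := by
    rw [Finset.sum_add_distrib, Finset.sum_const, Finset.card_univ, nsmul_eq_mul]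
  rw [hsum] at h3
  unfold UIneq
  have hc1 : 0 ≤ Real.log (D : ℝ) * (PP i).H := mul_nonneg hlT hH0
  have hc2 : 0 ≤ Real.log (D : ℝ) * Fintype.card (PP i).V := mul_nonneg hlT hV0
  have hexp : (2 * Real.log (D : ℝ) + 1) *
      (Fintype.card (PP i).V + (PP i).H + 1) =
      Fintype.card (PP i).V * Real.log (D : ℝ) + Real.log (D : ℝ) * Fintype.card (PP i).V +
      (PP i).H * Real.log (D : ℝ) + Real.log (D : ℝ) * (PP i).H + 2 * Real.log (D : ℝ) +
      Fintype.card (PP i).V + (PP i).H + 1 := by ring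
  rw [hexp]
  have hexp2 : ((Fintype.card (PP i).E : ℝ) - Fintype.card (PP i).V - Fintype.card (PP i).R) *
      Real.log (Fintype.card S.C) =
      Fintype.card (PP i).E * Real.log (Fintype.card S.C) -
      Fintype.card (PP i).V * Real.log (Fintype.card S.C) -
      Fintype.card (PP i).R * Real.log (Fintype.card S.C) := by ring
  rw [hexp2]
  rw [mul_add] at hVb
  linarith only [hest, h3, hlT, hVb, hc1, hc2]

end Vale.Agent.P201.S
end

section

/-! P201 / P194, block B in abstract form: assembly `aStmtB : AStmtB`.  helper333. -/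

namespace Vale.Agent.P201.G.B

open Finset

theorem aStmtB : AStmtB := by
  classical
  intro C V K _ _ bl cl g D N s hD hcl hN Q hQ0 hQ1 hQs
  have hD' : ∀ [DecidableEq V], ∀ b : V,
      (univ.filter (fun q : C × Bool => bl q = b)).card ≤ D := by
    intro _ b
    have h := hD b
    convert h
  obtain ⟨σ0, hσ0, hσ0'⟩ := aB3 C V K bl cl g D N hD hcl (by omega)
  set R : ℕ := (2 * D + 2) ^ (g + 3) with hR
  let GG : Finset (Equiv.Perm C) :=
    univ.filter (fun σ => (∀ c, cl (σ c) = cl c) ∧ AG bl (amt σ) g)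
  have hGG : ∀ σ, σ ∈ GG ↔ (∀ c, cl (σ c) = cl c) ∧ AG bl (amt σ) g := fun σ => by simp only [mem_filter, mem_univ, true_and, GG]
  obtain ⟨σ, hσ, hS⟩ := exists_good_perm GG ⟨σ0, (hGG σ0).2 ⟨hσ0, hσ0'⟩⟩ N R s hN (by
    intro σ hσ a
    obtain ⟨hcol, hG⟩ := (hGG σ).1 hσ
    have h1 := aB2' bl g D hD' σ a
    have h2 : (2 * D + 2) ^ (g + 1) ≤ R :=
      Nat.pow_le_pow_right (by omega) (by omega)
    have h3 : (univ.filter (fun c : C => cl c = cl a)) ⊆
        (univ.filter (fun c => σ * Equiv.swap a c ∈ GG)) ∪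
        (univ.filter (fun c : C => ¬ AFar bl σ g a c)) := by
      intro c hc
      rw [mem_filter] at hc
      by_cases hf : AFar bl σ g a c
      · refine mem_union_left _ (mem_filter.2 ⟨mem_univ _, (hGG _).2 ⟨?_, ag_switch hG hf⟩⟩)
        intro d
        rw [Equiv.Perm.coe_mul, Function.comp_apply, hcol]
        rcases eq_or_ne d a with rfl | h3
        · rw [Equiv.swap_apply_left]; exact hc.2
        · rcases eq_or_ne d c with rfl | h4
          · rw [Equiv.swap_apply_right]; exact hc.2.symm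
          · rw [Equiv.swap_apply_of_ne_of_ne h3 h4]
      · exact mem_union_right _ (mem_filter.2 ⟨mem_univ _, hf⟩)
    have h4 := (card_le_card h3).trans (card_union_le _ _)
    have h5 : N ≤ (univ.filter (fun c : C => cl c = cl a)).card := by
      have h := hcl a
      convert h
    calc N ≤ _ := h5
      _ ≤ _ := h4
      _ ≤ _ := Nat.add_le_add_left (h1.trans h2) _) Q hQ0 hQ1 hQs
  refine ⟨σ, ((hGG σ).1 hσ).1, ((hGG σ).1 hσ).2, fun S hSg => ?_⟩
  have := hS S hSg
  rw [hR] at this
  push_cast at this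
  exact this

end Vale.Agent.P201.G.B
end

section

/-! P201, part B for a general system: `stmtB : StmtB`.  helper333 (with helper585). -/

namespace Vale.Agent.P201.S

open Finset

variable {S : Sys}

theorem girth_of_ag {σ : Equiv.Perm S.C} {g : ℕ} (h : G.B.AG S.blk (G.B.amt σ) g) : Girth σ g := by
  intro l hne hl
  obtain ⟨x, l', rfl⟩ := List.exists_cons_of_ne_nil hne
  have h1 := h x l' (by
    rw [← List.cons_append, List.isChain_append]
    refine ⟨hl.1, List.isChain_singleton _, ?_⟩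
    intro a ha b hb
    simp only [List.head?_cons, Option.mem_def, Option.some.injEq] at hb
    subst hb
    exact hl.2 a ha _ (by simp))
  simpa only [List.length_cons, ge_iff_le] using h1

theorem ag_of_girth {σ : Equiv.Perm S.C} {g : ℕ} (h : Girth σ g) : G.B.AG S.blk (G.B.amt σ) g := by
  intro x l hl
  have hl' := hl
  rw [← List.cons_append, List.isChain_append] at hl'
  have h1 := h (x :: l) (by simp) ⟨hl'.1, by
    intro a ha b hb
    simp only [List.head?_cons, Option.mem_def, Option.some.injEq] at hb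
    subst hb
    exact hl'.2.2 a ha _ (by simp)⟩
  simpa only [ge_iff_le, List.length_cons] using h1

/-- PART B -/
theorem stmtB : StmtB := by
  intro S g D s hD hN Q hQ0 hQ1 hQs
  obtain ⟨σ, -, hG, hS⟩ := G.B.aStmtB S.C S.B Unit S.blk (fun _ => ()) g D (Fintype.card S.C) s
    (by
      intro b
      have h := hD b
      convert h)
    (by
      intro a
      rw [← card_univ]
      apply le_of_eq
      congr 1
      ext c
      simp only [mem_univ, filter_true]) hN Q hQ0 hQ1 hQs
  refine ⟨σ, girth_of_ag hG, fun E hE => hS E (fun x hx => ?_)⟩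
  have := hE hx
  unfold gr at this
  rw [mem_image] at this
  obtain ⟨c, _, hc⟩ := this
  rw [← hc]

end Vale.Agent.P201.S
end

section

/-!
P201: parts B + C + LA, `StmtLoc` without hypotheses.
-/

namespace Vale.Agent.P201.S

theorem stmtLA : StmtLA := stmtLA_of stmtRho stmtRcd stmtCode stmtCnt stmtLev stmtNum

theorem stmtLoc : StmtLoc := stmtLoc_of (stmtU stmtB stmtRho) stmtLA

end Vale.Agent.P201.S
end
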