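import Vale.Agent.P201.Bd3.MathlibUsed
import Vale.Agent.P201.Bd3.B1
import Vale.Agent.P201.Bd3.B2

set_option linter.all false

section

/-! # P186: from the linear isoperimetric inequality of the machine (P201/S) to hyperbolicity (helper6) -/

namespace Vale.Agent.P186.Hyp

open Vale.Agent.P201.S

instance instFintypeLet (S : Sys) : Fintype (Let S) := by
  classical
  exact Fintype.ofEquiv (Unit ⊕ (S.R ⊕ S.B))
    { toFun := fun a => Sum.elim (fun _ => Let.t) (Sum.elim Let.x Let.y) a
      invFun := fun a => match a with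
        | Let.t => Sum.inl ()
        | Let.x r => Sum.inr (Sum.inl r)
        | Let.y b => Sum.inr (Sum.inr b)
      left_inv := by
        rintro (a | a | a) <;> rfl
      right_inv := by
        rintro (a | a | a) <;> rfl }

lemma rels_finite {S : Sys} (σ : Equiv.Perm S.C) : (rels σ).Finite := Set.finite_range _

lemma ar_of_expr {S : Sys} {σ : Equiv.Perm S.C} {k : ℕ} {u : FreeGroup (Let S)} {z : Chn σ}
    (h : Expr σ k u z) : Ar (rels σ) k u := by
  induction h with
  | nil => exact Ar.nil
  | cons k u z v q _ ih => exact Ar.cons k u v (val (relw σ q)) ⟨q, rfl⟩ ih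

lemma wtw_le {S : Sys} (Y : ℕ) (l : List (Let S × Bool)) : wtw Y l ≤ (Y + 1) * l.length := by
  unfold wtw
  induction l with
  | nil => simp
  | cons a l ih =>
    simp only [List.map_cons, List.sum_cons, List.length_cons]
    have h : wtl Y a.1 ≤ Y + 1 := by
      cases a.1 <;> simp [wtl]
    linarith

/-- hyperbolicity of the group of the machine -/
theorem hyperbolic_machine (h1 : LinStmt) (h2 : GraphStmt) (h3 : ConnStmt) {S : Sys} (σ : Equiv.Perm S.C)
    (e1 : ℝ) (he1 : 0 < e1) (Y : ℕ)
    (hlin : ∀ l : List (Let S × Bool), PresentedGroup.mk (rels σ) (val l) = 1 →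
        ∃ k z, Expr σ k (val l) z ∧ e1 / 2 * k ≤ wtw Y l) :
    Vale.Agent.P186.IsHyperbolicGroup (Gp σ) := by
  refine hyperbolic_of h1 h2 h3 (rels σ) (rels_finite σ) ⌈2 * ((Y : ℝ) + 1) / e1⌉₊ fun u hu => ?_
  obtain ⟨k, z, hk, hle⟩ := hlin u hu
  refine ⟨k, ?_, ar_of_expr hk⟩
  have h4 : (wtw Y u : ℝ) ≤ ((Y : ℝ) + 1) * (u.length + 1) := by
    have := wtw_le Y u
    have h5 : (wtw Y u : ℝ) ≤ ((Y + 1) * u.length : ℕ) := by exact_mod_cast this
    push_cast at h5
    have h6 : (0 : ℝ) ≤ (Y : ℝ) + 1 := by (clear * -; positivity)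
    linarith
  have h5 : (k : ℝ) ≤ 2 * ((Y : ℝ) + 1) / e1 * (u.length + 1) := by
    rw [div_mul_eq_mul_div, le_div_iff₀ he1]
    linarith
  have h6 : (k : ℝ) ≤ (⌈2 * ((Y : ℝ) + 1) / e1⌉₊ : ℝ) * (u.length + 1) :=
    h5.trans (mul_le_mul_of_nonneg_right (Nat.le_ceil _) (by (clear * -; positivity)))
  exact_mod_cast h6

end Vale.Agent.P186.Hyp
end

section

/-! # P186: assembly (helper6). A torsion-free word-hyperbolic group which is not residually finite. -/

namespace Vale.Agent.P186.Final

open Vale.Agent.P201.S Vale.Agent.P186.Hyp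

/-- OUTPUT wanted from P194 (captain helper872): a matching group of the machine whose group algebra over `F_2` is not directly finite,
with the linear isoperimetric inequality -/
def Data : Prop := ∃ (S : Sys) (σ : Equiv.Perm S.C) (e1 : ℝ) (_ : 0 < e1) (Y : ℕ),
  (∀ g : Gp σ, ∀ m : ℕ, 0 < m → g ^ m = 1 → g = 1) ∧
  (∀ l : List (Let S × Bool), PresentedGroup.mk (rels σ) (val l) = 1 →
    ∃ k z, Expr σ k (val l) z ∧ e1 / 2 * k ≤ wtw Y l) ∧
  ∃ a b : MonoidAlgebra (ZMod 2) (Gp σ), a * b = 1 ∧ b * a ≠ 1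

/-- residually finite groups have directly finite group algebras over `F_2` (helper188) -/
def RFStmt : Prop := ∀ (G : Type) [Group G], Group.ResiduallyFinite G → ∀ a b : MonoidAlgebra (ZMod 2) G,
  a * b = 1 → b * a = 1

theorem assemble (hD : Data) (h1 : LinStmt) (h2 : GraphStmt) (h3 : ConnStmt) (h4 : RFStmt) :
    ∃ (G : Type) (_ : Group G), (∀ g : G, ∀ m : ℕ, 0 < m → g ^ m = 1 → g = 1) ∧
      Vale.Agent.P186.IsHyperbolicGroup G ∧ ¬ Group.ResiduallyFinite G := by
  obtain ⟨S, σ, e1, he1, Y, htf, hlin, a, b, hab, hba⟩ := hD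
  exact ⟨Gp σ, inferInstance, htf, hyperbolic_machine h1 h2 h3 σ e1 he1 Y hlin,
    fun hrf => hba (h4 (Gp σ) hrf a b hab)⟩

end Vale.Agent.P186.Final
end

section

/-! # P186, block HYP: graph part (helper909) -/

namespace Vale.Agent.P186.Hyp

theorem graph : GraphStmt := fun _ _ _ hc hS =>
  HypG.thin_of_stokes hc (fun f g hf hg x c => hS f g hf hg x c)

end Vale.Agent.P186.Hyp
end

section

/-! # P186, block HYP: the Cayley graph of a generating set is connected (helper615) -/

namespace Vale.Agent.P186.Hyp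

/-- every vertex is joined to its right translates by elements of the closure -/
theorem reach_mul {G : Type*} [Group G] (S : Set G) (g : G) (hg : g ∈ Subgroup.closure S) :
    ∀ u : G, (SimpleGraph.mulCayley S).Reachable u (u * g) := by
  induction hg using Subgroup.closure_induction with
  | mem x hx =>
    intro u
    by_cases h : u = u * x
    · rw [← h]
    · exact SimpleGraph.Adj.reachable ((SimpleGraph.mulCayley_adj' S u (u * x)).2
        ⟨h, x, hx, Or.inl rfl⟩)
  | one => intro u; rw [mul_one]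
  | mul x y _ _ hx hy =>
    intro u
    rw [← mul_assoc]
    exact (hx u).trans (hy (u * x))
  | inv x _ hx =>
    intro u
    have h := hx (u * x⁻¹)
    rw [inv_mul_cancel_right] at h
    exact h.symm

theorem conn : ConnStmt := by
  intro G _ S hS
  refine (SimpleGraph.connected_iff _).2 ⟨fun u v => ?_, ⟨1⟩⟩
  have h := reach_mul S (u⁻¹ * v) (by rw [hS]; trivial) u
  rwa [mul_inv_cancel_left] at h

end Vale.Agent.P186.Hyp
end

section

/-! # P186: everything except the data (helper6) -/

namespace Vale.Agent.P186.Final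

/-- the final theorem of P186 from the data of P194 -/
theorem main (hD : Data) : ∃ (G : Type) (_ : Group G),
    (∀ g : G, ∀ m : ℕ, 0 < m → g ^ m = 1 → g = 1) ∧
      Vale.Agent.P186.IsHyperbolicGroup G ∧ ¬ Group.ResiduallyFinite G :=
  assemble hD Hyp.lin Hyp.graph Hyp.conn Hyp.rf

end Vale.Agent.P186.Final
end

section

/-!
P194, final algebra, version without colours (helper22).  All ports but one are matched:
`alpha * beta = g0` is a group element, `alpha = alpha' * D(t)` with `D` not a unit of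
`F_2[t,t⁻¹]` and `t` of infinite order: `a = g0⁻¹ alpha`, `b = beta` satisfy `a * b = 1`,
`b * a ≠ 1`.
-/

namespace Vale.Agent.P194.M

open Finset

section

variable {G : Type} [Group G]

/-- restriction of an element of the group ring to the powers of `t` -/
noncomputable def resT (t : G) (ht : Function.Injective (fun n : ℤ => t ^ n))
    (f : MonoidAlgebra (ZMod 2) G) : AddMonoidAlgebra (ZMod 2) ℤ :=
  AddMonoidAlgebra.ofCoeff (Finsupp.comapDomain (fun n : ℤ => t ^ n) f.coeff ht.injOn)

theorem resT_coeff (t : G) (ht : Function.Injective (fun n : ℤ => t ^ n))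
    (f : MonoidAlgebra (ZMod 2) G) (n : ℤ) : (resT t ht f).coeff n = f.coeff (t ^ n) := by
  simp only [resT, Finsupp.comapDomain_apply]

theorem resT_add (t : G) (ht : Function.Injective (fun n : ℤ => t ^ n))
    (f f' : MonoidAlgebra (ZMod 2) G) : resT t ht (f + f') = resT t ht f + resT t ht f' := by
  apply AddMonoidAlgebra.coeff_injective
  ext n
  rw [resT_coeff]
  simp only [MonoidAlgebra.coeff_add, Finsupp.coe_add, Pi.add_apply, AddMonoidAlgebra.coeff_add, resT_coeff]

theorem resT_single (t : G) (ht : Function.Injective (fun n : ℤ => t ^ n)) (m : ℤ) (r : ZMod 2) :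
    resT t ht (MonoidAlgebra.single (t ^ m) r) = AddMonoidAlgebra.single m r := by
  classical
  apply AddMonoidAlgebra.coeff_injective
  ext n
  rw [resT_coeff]
  simp only [MonoidAlgebra.coeff_single, AddMonoidAlgebra.coeff_single, Finsupp.single_apply]
  by_cases h : m = n
  · rw [if_pos h, if_pos (by rw [h])]
  · rw [if_neg h, if_neg]
    intro h2
    exact h (ht h2)

theorem resT_single_of_not (t : G) (ht : Function.Injective (fun n : ℤ => t ^ n)) (g : G)
    (hg : ∀ n : ℤ, t ^ n ≠ g) (r : ZMod 2) : resT t ht (MonoidAlgebra.single g r) = 0 := by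
  classical
  apply AddMonoidAlgebra.coeff_injective
  ext n
  rw [resT_coeff]
  simp only [MonoidAlgebra.coeff_single, Finsupp.single_apply]
  rw [if_neg]
  · simp
  · intro h
    exact hg n h.symm

theorem resT_mul (t : G) (ht : Function.Injective (fun n : ℤ => t ^ n))
    (f : MonoidAlgebra (ZMod 2) G) (D : AddMonoidAlgebra (ZMod 2) ℤ) :
    resT t ht (f * ph t D) = resT t ht f * D := by
  induction D using AddMonoidAlgebra.induction_linear with
  | zero =>
    rw [map_zero, mul_zero, mul_zero]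
    apply AddMonoidAlgebra.coeff_injective
    ext n
    rw [resT_coeff]
    simp only [MonoidAlgebra.coeff_zero, Finsupp.coe_zero, Pi.zero_apply, AddMonoidAlgebra.coeff_zero]
  | add D D' h h' => rw [map_add, mul_add, resT_add, h, h', mul_add]
  | single k r =>
    rw [ph_single]
    induction f using MonoidAlgebra.induction_linear with
    | zero =>
      rw [zero_mul]
      have h0 : resT t ht (0 : MonoidAlgebra (ZMod 2) G) = 0 := by
        apply AddMonoidAlgebra.coeff_injective
        ext n
        rw [resT_coeff]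
        simp only [MonoidAlgebra.coeff_zero, Finsupp.coe_zero, Pi.zero_apply, AddMonoidAlgebra.coeff_zero]
      rw [h0, zero_mul]
    | add f f' h h' => rw [add_mul, resT_add, h, h', resT_add, add_mul]
    | single g s =>
      have h1 : (MonoidAlgebra.single g s * r • em (t ^ k) : MonoidAlgebra (ZMod 2) G) =
          MonoidAlgebra.single (g * t ^ k) (s * r) := by
        simp [em, MonoidAlgebra.single_mul_single]
      rw [h1]
      by_cases hg : ∃ n : ℤ, t ^ n = g
      · obtain ⟨n, rfl⟩ := hg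
        rw [← zpow_add, resT_single, resT_single, AddMonoidAlgebra.single_mul_single]
      · have hg1 : ∀ n : ℤ, t ^ n ≠ g := fun n h => hg ⟨n, h⟩
        have hg2 : ∀ n : ℤ, t ^ n ≠ g * t ^ k := by
          intro n h
          apply hg1 (n - k)
          rw [zpow_sub, h, mul_inv_cancel_right]
        rw [resT_single_of_not t ht g hg1, resT_single_of_not t ht _ hg2, zero_mul]

theorem resT_one (t : G) (ht : Function.Injective (fun n : ℤ => t ^ n)) :
    resT t ht (1 : MonoidAlgebra (ZMod 2) G) = 1 := by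
  have h1 : (1 : MonoidAlgebra (ZMod 2) G) = MonoidAlgebra.single (t ^ (0 : ℤ)) 1 := by
    rw [zpow_zero]; rfl
  rw [h1, resT_single]
  rfl

/-- no left inverse of `c * D(t)` if `D` has no inverse -/
theorem not_left_inv (t : G) (ht : Function.Injective (fun n : ℤ => t ^ n))
    (D : AddMonoidAlgebra (ZMod 2) ℤ) (hD : ∀ c : AddMonoidAlgebra (ZMod 2) ℤ, c * D ≠ 1)
    (c : MonoidAlgebra (ZMod 2) G) : c * ph t D ≠ 1 := by
  intro h
  apply hD (resT t ht c)
  rw [← resT_mul, h, resT_one]

end

/-- a Laurent polynomial over `F_2` with least exponent `0` and largest exponent `M > 0` has no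
inverse -/
theorem laurent_not_unit (D : AddMonoidAlgebra (ZMod 2) ℤ) (M : ℤ) (hM : 0 < M)
    (h0 : D.coeff 0 ≠ 0) (h1 : D.coeff M ≠ 0) (hs : ∀ k, D.coeff k ≠ 0 → 0 ≤ k ∧ k ≤ M)
    (c : AddMonoidAlgebra (ZMod 2) ℤ) : c * D ≠ 1 := by
  classical
  intro h
  have hc0 : c ≠ 0 := by
    rintro rfl
    rw [zero_mul] at h
    exact zero_ne_one h
  have hne : c.coeff.support.Nonempty := by
    apply Finsupp.support_nonempty_iff.2
    intro h
    exact hc0 (AddMonoidAlgebra.coeff_eq_zero.1 h)
  -- coefficient of a product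
  have hmul : ∀ n : ℤ, (c * D).coeff n = ∑ a ∈ c.coeff.support, c.coeff a * D.coeff (n - a) := by
    intro n
    rw [AddMonoidAlgebra.coeff_mul, Finsupp.sum]
    refine Finset.sum_congr rfl fun a _ => ?_
    rw [Finsupp.sum, Finset.sum_eq_single (n - a)]
    · rw [if_pos (by omega)]
    · intro b _ hb
      rw [if_neg]
      intro h
      apply hb
      omega
    · intro hb
      rw [Finsupp.notMem_support_iff] at hb
      rw [hb, mul_zero]
      simp
  have hone : ∀ n : ℤ, (1 : AddMonoidAlgebra (ZMod 2) ℤ).coeff n ≠ 0 → n = 0 := by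
    intro n hn
    by_contra hne
    apply hn
    rw [AddMonoidAlgebra.one_def, AddMonoidAlgebra.coeff_single]
    exact Finsupp.single_eq_of_ne hne
  have hmax := Finset.max'_mem _ hne
  have hmin := Finset.min'_mem _ hne
  set n0 := c.coeff.support.max' hne with hn0
  set n1 := c.coeff.support.min' hne with hn1
  have hA : n0 + M = 0 := by
    apply hone
    rw [← h, hmul, Finset.sum_eq_single n0]
    · rw [add_sub_cancel_left]
      exact mul_ne_zero (Finsupp.mem_support_iff.1 hmax) h1
    · intro a ha hne'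
      have hle : a ≤ n0 := Finset.le_max' _ _ ha
      have hz : D.coeff (n0 + M - a) = 0 := by
        by_contra hz
        have := (hs _ hz).2
        apply hne'
        omega
      rw [hz, mul_zero]
    · intro h2; exact absurd hmax h2
  have hB : n1 = 0 := by
    apply hone
    rw [← h, hmul, Finset.sum_eq_single n1]
    · rw [sub_self]
      exact mul_ne_zero (Finsupp.mem_support_iff.1 hmin) h0
    · intro a ha hne'
      have hle : n1 ≤ a := Finset.min'_le _ _ ha
      have hz : D.coeff (n1 - a) = 0 := by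
        by_contra hz
        have := (hs _ hz).1
        apply hne'
        omega
      rw [hz, mul_zero]
    · intro h2; exact absurd hmin h2
  have hC : n1 ≤ n0 := Finset.min'_le _ _ hmax
  omega

section

variable {G : Type} [Group G]

/-- Main algebraic statement, version without colours. -/
theorem fin_alg2 {R B C : Type} [Fintype R] [DecidableEq R] [Fintype B] [DecidableEq B] [Fintype C]
    (t : G) (x : R → G) (y : B → G)
    (P : R → AddMonoidAlgebra (ZMod 2) ℤ) (Q : B → AddMonoidAlgebra (ZMod 2) ℤ)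
    (P' : R → AddMonoidAlgebra (ZMod 2) ℤ) (D : AddMonoidAlgebra (ZMod 2) ℤ)
    (hP : ∀ r, P r = P' r * D) (hD : ∀ c : AddMonoidAlgebra (ZMod 2) ℤ, c * D ≠ 1)
    (htinj : Function.Injective (fun n : ℤ => t ^ n))
    (rc : C × Bool → R) (blk : C × Bool → B) (ht : C × Bool → ℤ)
    (σ : Equiv.Perm C)
    (hinj : ∀ q q' : C × Bool, rc q = rc q' → blk q = blk q' → ht q = ht q' → q = q')
    (r0 : R) (j0 : B) (h0 : ℤ)
    (hmem0 : h0 ∈ (P r0 * Q j0).coeff.support)
    (hmem : ∀ q : C × Bool, ht q ∈ (P (rc q) * Q (blk q)).coeff.support)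
    (himg : ∀ r j h, h ∈ (P r * Q j).coeff.support →
      (r = r0 ∧ j = j0 ∧ h = h0) ∨ ∃ q : C × Bool, rc q = r ∧ blk q = j ∧ ht q = h)
    (hnot : ∀ q : C × Bool, ¬ (rc q = r0 ∧ blk q = j0 ∧ ht q = h0))
    (hrel : ∀ c, x (rc (c, true)) * t ^ ht (c, true) * y (blk (c, true)) =
      x (rc (σ c, false)) * t ^ ht (σ c, false) * y (blk (σ c, false))) :
    ∃ a b : MonoidAlgebra (ZMod 2) G, a * b = 1 ∧ b * a ≠ 1 := by
  classical
  set te : C × Bool → G := fun q => x (rc q) * t ^ ht q * y (blk q) with hte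
  set tr : C × Bool → R × B × ℤ := fun q => (rc q, blk q, ht q) with htr
  have htrinj : Function.Injective tr := by
    intro q q' h
    simp only [htr, Prod.mk.injEq] at h
    exact hinj q q' h.1 h.2.1 h.2.2
  have hzero : ∑ q : C × Bool, em (te q) = 0 := by
    rw [Fintype.sum_prod_type]
    simp only [Fintype.sum_bool, Finset.sum_add_distrib]
    have h2 : ∑ c : C, em (te (c, true)) = ∑ c : C, em (te (c, false)) := by
      have h3 : ∀ c : C, te (c, true) = te (σ c, false) := hrel
      simp_rw [h3]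
      exact Equiv.sum_comp σ (fun c => em (te (c, false)))
    rw [h2]
    exact add_self _
  have halp : rowSum t x P univ * colSum t y Q = em (x r0 * t ^ h0 * y j0) := by
    rw [prod_eq_ports]
    have h1 : ports P Q univ = insert (r0, j0, h0) ((univ : Finset (C × Bool)).image tr) := by
      ext z
      rw [mem_ports, Finset.mem_insert, Finset.mem_image]
      simp only [Finset.mem_univ, true_and]
      constructor
      · intro hz2
        rcases himg z.1 z.2.1 z.2.2 hz2 with ⟨h3, h4, h5⟩ | ⟨q, h3, h4, h5⟩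
        · left
          rw [← h3, ← h4, ← h5]
        · right
          refine ⟨q, ?_⟩
          simp only [htr, h3, h4, h5]
      · rintro (rfl | ⟨q, rfl⟩)
        · exact hmem0
        · exact hmem q
    have h2 : (r0, j0, h0) ∉ (univ : Finset (C × Bool)).image tr := by
      intro h
      rw [Finset.mem_image] at h
      obtain ⟨q, _, hq⟩ := h
      simp only [htr, Prod.mk.injEq] at hq
      exact hnot q hq
    rw [h1, Finset.sum_insert h2, Finset.sum_image (fun a _ b _ h => htrinj h)]
    have h3 := hzero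
    simp only [hte] at h3
    simp only [htr]
    rw [h3, add_zero]
  refine ⟨em (x r0 * t ^ h0 * y j0)⁻¹ * rowSum t x P univ, colSum t y Q, ?_, ?_⟩
  · rw [mul_assoc, halp, em_mul, inv_mul_cancel, em_one]
  · have h4 : rowSum t x P univ = rowSum t x P' univ * ph t D := by
      unfold rowSum
      rw [Finset.sum_mul]
      refine Finset.sum_congr rfl fun r _ => ?_
      rw [hP, map_mul, mul_assoc]
    rw [h4, ← mul_assoc, ← mul_assoc]
    exact not_left_inv t htinj D hD _

end

end Vale.Agent.P194.M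
end

section

/-!
P194: the end of the argument for the instance `PS.toSys` (helper22).
-/

namespace Vale.Agent.P194.M

open Vale.Agent.P201.S

section

variable {Ω : Sys} (σ : Equiv.Perm Ω.C)

/-- image of a letter in the group -/
noncomputable def glt (l : Let Ω) : Gp σ := PresentedGroup.of (rels := rels σ) l

/-- the element of a port -/
noncomputable def tep (q : Port Ω) : Gp σ :=
  glt σ (Let.x (Ω.rc q)) * glt σ Let.t ^ (Ω.ht q) * glt σ (Let.y (Ω.blk q))

theorem val_tw_eq (h : ℤ) : val (tw Ω h) = FreeGroup.of (Let.t : Let Ω) ^ h := by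
  unfold val tw
  have h2 : ∀ (m : ℕ) (b : Bool), (FreeGroup.mk (List.replicate m ((Let.t : Let Ω), b))) =
      (FreeGroup.mk [((Let.t : Let Ω), b)]) ^ m := by
    intro m b
    induction m with
    | zero => rfl
    | succ m ih => rw [List.replicate_succ, pow_succ', ← ih, FreeGroup.mul_mk]; rfl
  rw [h2]
  rcases le_or_gt 0 h with hh | hh
  · rw [decide_eq_true hh]
    obtain ⟨m, rfl⟩ := Int.eq_ofNat_of_zero_le hh
    simp [FreeGroup.of]
  · rw [decide_eq_false (not_le.2 hh)]
    obtain ⟨m, rfl⟩ := Int.exists_eq_neg_ofNat hh.le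
    have h3 : (FreeGroup.mk [((Let.t : Let Ω), false)]) = (FreeGroup.of Let.t)⁻¹ := by
      simp [FreeGroup.of, FreeGroup.invRev]
    rw [h3]
    simp only [Int.natAbs_neg, Int.natAbs_natCast, inv_pow, zpow_neg, zpow_natCast]

theorem mk_tw (h : ℤ) : PresentedGroup.mk (rels σ) (val (tw Ω h)) = glt σ Let.t ^ h := by
  rw [val_tw_eq, map_zpow]
  rfl

theorem val_append {A : Type} (l l' : List (A × Bool)) : val (l ++ l') = val l * val l' := by
  simp [val]

theorem val_winv {A : Type} (l : List (A × Bool)) : val (winv l) = (val l)⁻¹ := by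
  simp [val, winv, FreeGroup.invRev]

theorem mk_half (q : Port Ω) : PresentedGroup.mk (rels σ) (val (half q)) = tep σ q := by
  unfold half tep
  have h1 : val ((Let.x (Ω.rc q), true) :: (tw Ω (Ω.ht q) ++ [(Let.y (Ω.blk q), true)])) =
      FreeGroup.of (Let.x (Ω.rc q)) * val (tw Ω (Ω.ht q)) * FreeGroup.of (Let.y (Ω.blk q)) := by
    rw [← List.singleton_append, val_append, val_append, ← mul_assoc]
    rfl
  rw [h1, map_mul, map_mul, mk_tw]
  rfl

theorem tep_mt (q : Port Ω) : tep σ (mt σ q) = tep σ q := by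
  have h1 : PresentedGroup.mk (rels σ) (val (relw σ q)) = 1 := by
    apply (PresentedGroup.mk_eq_one_iff).2
    exact Subgroup.subset_normalClosure ⟨q, rfl⟩
  unfold relw at h1
  rw [val_append, val_winv, map_mul, map_inv, mk_half, mk_half, mul_inv_eq_one] at h1
  exact h1.symm

/-- `t` has infinite order as soon as the words of weight zero are injective -/
theorem t_inj (hs : ∀ m : ℤ, PresentedGroup.mk (rels σ) (val (tw Ω m)) = 1 → val (tw Ω m) = 1) :
    Function.Injective (fun n : ℤ => glt σ Let.t ^ n) := by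
  intro a b h
  simp only at h
  have h1 : glt σ Let.t ^ (a - b) = 1 := by rw [zpow_sub, h, mul_inv_cancel]
  rw [← mk_tw] at h1
  have h2 := hs _ h1
  rw [val_tw_eq] at h2
  have h3 := congrArg (FreeGroup.lift (fun _ : Let Ω => Multiplicative.ofAdd (1 : ℤ))) h2
  rw [map_zpow, FreeGroup.lift_apply_of, MonoidHom.map_one] at h3
  have h4 : a - b = 0 := by
    rw [← ofAdd_zsmul, ofAdd_eq_one, smul_eq_mul, mul_one] at h3
    exact h3
  omega

/-- the short words of the machine are enough -/
theorem t_inj_of_short (Y : ℕ)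
    (hs : ∀ l : List (Let Ω × Bool), (∀ a ∈ l, ∀ j, a.1 ≠ Let.y j) → wtw Y l ≤ 2 →
      PresentedGroup.mk (rels σ) (val l) = 1 → val l = 1) :
    Function.Injective (fun n : ℤ => glt σ Let.t ^ n) := by
  apply t_inj
  intro m hm
  have hmem : ∀ b ∈ tw Ω m, b.1 = Let.t := by
    intro b hb
    unfold tw at hb
    rw [List.mem_replicate] at hb
    rw [hb.2]
  apply hs
  · intro b hb j hj
    rw [hmem b hb] at hj
    cases hj
  · unfold wtw
    rw [List.sum_eq_zero]
    · omega
    · intro x hx
      obtain ⟨b, hb, rfl⟩ := List.mem_map.1 hx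
      rw [hmem b hb]
      rfl
  · exact hm

end

namespace PS

variable {p : PS} (q0 : p.Pt)

/-- The end: if all `P r` are divisible by a non-invertible `D` and `t` has infinite order, then the
group algebra over `F_2` is not directly finite. -/
theorem not_df (hb : Bal q0) (P' : p.R → AddMonoidAlgebra (ZMod 2) ℤ)
    (D : AddMonoidAlgebra (ZMod 2) ℤ) (hP : ∀ r, p.P r = P' r * D)
    (hD : ∀ c : AddMonoidAlgebra (ZMod 2) ℤ, c * D ≠ 1)
    (σ : Equiv.Perm (toSys q0 hb).C)
    (ht : Function.Injective (fun n : ℤ => glt σ Let.t ^ n)) :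
    ∃ a b : MonoidAlgebra (ZMod 2) (Gp σ), a * b = 1 ∧ b * a ≠ 1 := by
  refine fin_alg2 (glt σ Let.t) (fun r : p.R => glt σ (Let.x r)) (fun b : p.B => glt σ (Let.y b))
    p.P p.Q P' D hP hD ht (toSys q0 hb).rc (toSys q0 hb).blk (toSys q0 hb).ht σ
    (toSys q0 hb).inj q0.1.1 q0.1.2 q0.2.1 q0.2.2 ?_ ?_ ?_ ?_
  · intro q
    exact (pm q0 hb q).2.2
  · intro r j h hh
    by_cases h1 : (⟨(r, j), ⟨h, hh⟩⟩ : p.Pt) = q0
    · left
      rw [← h1]
      exact ⟨rfl, rfl, rfl⟩
    · right
      obtain ⟨x, hx⟩ := exists_pm q0 hb h1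
      exact ⟨x, congrArg (fun z : p.Pt => z.1.1) hx, congrArg (fun z : p.Pt => z.1.2) hx,
        congrArg (fun z : p.Pt => (z.2 : ℤ)) hx⟩
  · rintro q ⟨h1, h2, h3⟩
    exact pm_ne q0 hb q (pt_ext h1 h2 h3)
  · intro c
    have h1 := tep_mt σ (c, true)
    exact h1.symm

end PS

end Vale.Agent.P194.M
end

section

/-! P194, variant M': the conditions `ports`, `blocks`, `labels` of `Sys.Ok`, with a constant that
does not depend on `n`. -/

namespace Vale.Agent.P194.M.Ok

open Finset Vale.Agent.P201.Z Vale.Agent.P194.M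

/-- types of blocks -/
abbrev Ty (p : Pat) : Type := p.K ⊕ Bool

/-- type of a block -/
def ty {p : Pat} {n : ℕ} : Bk p n → Ty p
  | Sum.inl y => Sum.inl y.1
  | Sum.inr (Sum.inl _) => Sum.inr true
  | Sum.inr (Sum.inr _) => Sum.inr false

/-- polynomial of a type -/
noncomputable def Qt (p : Pat) (M : ℤ) : Ty p → F2Z
  | Sum.inl k => up M {0, 1} * p.Q k
  | Sum.inr true => up M {0, 1, 4}
  | Sum.inr false => up M {0, 2, 5}

/-- ports of a row in a block of given type -/
noncomputable def Tt (p : Pat) (M : ℤ) (r : Rw p) (a : Ty p) : Finset ℤ :=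
  (Pr p M r * Qt p M a).coeff.support

theorem Sf_ty (p : Pat) (n : ℕ) (M : ℤ) (r : Rw p) (b : Bk p n) :
    Sf p n M r b = Tt p M r (ty b) := by
  rcases b with y | (y | y) <;> rfl

/-- total number of ports of one block of each type -/
noncomputable def S0 (p : Pat) (M : ℤ) : ℕ := ∑ a : Ty p, ∑ r : Rw p, (Tt p M r a).card

/-- the constant -/
noncomputable def DD (p : Pat) (M : ℤ) : ℕ := 2 * ((Fintype.card p.K + 3) * (S0 p M + 1))

theorem sum_le_S0 (p : Pat) (n : ℕ) (M : ℤ) (b : Bk p n) :
    ∑ r : Rw p, (Sf p n M r b).card ≤ S0 p M := by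
  simp only [Sf_ty]
  exact Finset.single_le_sum (f := fun a : Ty p => ∑ r : Rw p, (Tt p M r a).card)
    (fun _ _ => Nat.zero_le _) (Finset.mem_univ (ty b))

theorem ports (p : Pat) (n : ℕ) (M : ℤ) (b : Bk p n) :
    ∑ r : Rw p, (Sf p n M r b).card ≤ DD p M := by
  refine (sum_le_S0 p n M b).trans ?_
  unfold DD
  have : 1 ≤ Fintype.card p.K + 3 := by omega
  nlinarith only []

theorem card_Bk (p : Pat) (n : ℕ) : Fintype.card (Bk p n) = Fintype.card p.K * n + (n + 1 + n) := by
  simp only [Fintype.card_sum, Fintype.card_prod, Fintype.card_fin, Nat.add_left_cancel_iff]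

theorem card_Bk_le (p : Pat) {n : ℕ} (hn : 1 ≤ n) :
    Fintype.card (Bk p n) ≤ (Fintype.card p.K + 3) * n := by
  rw [card_Bk]
  linarith

theorem num_le (p : Pat) {n : ℕ} (hn : 1 ≤ n) (M : ℤ) (a : Bool) :
    num p n M a ≤ (Fintype.card p.K + 3) * n * S0 p M := by
  classical
  calc num p n M a ≤ ∑ r : Rw p, ∑ b : Bk p n, (Sf p n M r b).card := by
        unfold num
        exact Finset.sum_le_sum_of_subset (Finset.filter_subset _ _)
    _ = ∑ b : Bk p n, ∑ r : Rw p, (Sf p n M r b).card := Finset.sum_comm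
    _ ≤ ∑ _b : Bk p n, S0 p M := Finset.sum_le_sum fun b _ => sum_le_S0 p n M b
    _ = Fintype.card (Bk p n) * S0 p M := by
        rw [Finset.sum_const, Finset.card_univ, smul_eq_mul]
    _ ≤ _ := Nat.mul_le_mul_right _ (card_Bk_le p hn)

/-- at least `n` ports of copy `false` -/
theorem le_num {p : Pat} {n : ℕ} {M L : ℤ} (hB : Big p M L) : n ≤ num p n M false := by
  rw [num_eq]
  refine le_trans ?_ (Nat.le_add_left _ _)
  rw [Fintype.sum_sum_type, Fintype.sum_sum_type]
  refine le_trans ?_ (Nat.le_add_left _ _)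
  refine le_trans ?_ (Nat.le_add_left _ _)
  simp only [card_Sf hB, Au, fu, one_supp, Finset.card_singleton, mul_one]
  have d6 : ({0, 1, 3, 4, 5, 6, 7} : Finset ℕ).card = 7 := by decide
  rw [d6]
  simp only [Finset.sum_const, Finset.card_univ, Fintype.card_fin, smul_eq_mul]
  omega

theorem blocks {p : Pat} {n : ℕ} {M L : ℤ} (hB : Big p M L) (hn : 1 ≤ n) :
    Fintype.card (Bk p n) ≤ DD p M * num p n M false := by
  have h1 := card_Bk_le p hn
  have h2 : n ≤ num p n M false := le_num hB
  calc Fintype.card (Bk p n) ≤ (Fintype.card p.K + 3) * n := h1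
    _ ≤ (Fintype.card p.K + 3) * num p n M false := Nat.mul_le_mul_left _ h2
    _ ≤ DD p M * num p n M false := by
        apply Nat.mul_le_mul_right
        unfold DD
        nlinarith only []

/-- every type has at least `n` blocks -/
theorem fibre {p : Pat} {n : ℕ} (a : Ty p) :
    n ≤ (univ.filter (fun b : Bk p n => ty b = a)).card := by
  classical
  have key : ∀ f : Fin n → Bk p n, Function.Injective f → (∀ j, ty (f j) = a) →
      n ≤ (univ.filter (fun b : Bk p n => ty b = a)).card := by
    intro f hf ha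
    calc n = (univ : Finset (Fin n)).card := by simp only [card_univ, Fintype.card_fin]
      _ = ((univ : Finset (Fin n)).image f).card := (Finset.card_image_of_injective _ hf).symm
      _ ≤ _ := by
        apply Finset.card_le_card
        intro b hb
        rw [Finset.mem_image] at hb
        obtain ⟨j, _, rfl⟩ := hb
        rw [Finset.mem_filter]
        exact ⟨Finset.mem_univ _, ha j⟩
  rcases a with k | (_ | _)
  · exact key (fun j => Sum.inl (k, j)) (fun i j h => by simpa using h) (fun j => rfl)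
  · exact key (fun j => Sum.inr (Sum.inr j)) (fun i j h => by simpa using h) (fun j => rfl)
  · exact key (fun j => Sum.inr (Sum.inl j.castSucc)) (fun i j h => by simpa using h)
      (fun j => rfl)

/-- `labels`: for two ports `(r, b, h)`, `(r', b, h')` the number of blocks `≠ b0` that contain ports
of the rows `r`, `r'` at distance `h' - h` is at least `num / DD`. -/
theorem labels (p : Pat) {n : ℕ} (hn : 2 ≤ n) (M : ℤ) (b0 b : Bk p n) (r r' : Rw p) (h h' : ℤ)
    (hh : h ∈ Sf p n M r b) (hh' : h' ∈ Sf p n M r' b) :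
    num p n M false ≤ DD p M * (univ.filter (fun b1 : Bk p n => b1 ≠ b0 ∧
      ∃ h1 ∈ Sf p n M r b1, h1 + (h' - h) ∈ Sf p n M r' b1)).card := by
  classical
  set A := univ.filter (fun b1 : Bk p n => b1 ≠ b0 ∧
      ∃ h1 ∈ Sf p n M r b1, h1 + (h' - h) ∈ Sf p n M r' b1) with hA
  have h1 : (univ.filter (fun b1 : Bk p n => ty b1 = ty b)).erase b0 ⊆ A := by
    intro b1 hb1
    rw [Finset.mem_erase, Finset.mem_filter] at hb1
    rw [hA, Finset.mem_filter]
    refine ⟨Finset.mem_univ _, hb1.1, h, ?_, ?_⟩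
    · rw [Sf_ty, hb1.2.2, ← Sf_ty]; exact hh
    · rw [Sf_ty, hb1.2.2, ← Sf_ty]
      have : h + (h' - h) = h' := by ring
      rw [this]; exact hh'
  have h2 : n ≤ A.card + 1 := by
    have h3 := Finset.card_le_card h1
    have h4 := fibre (n := n) (ty b)
    have h5 := Finset.pred_card_le_card_erase (s := univ.filter (fun b1 : Bk p n => ty b1 = ty b))
      (a := b0)
    omega
  have h6 : n ≤ 2 * A.card := by omega
  calc num p n M false ≤ (Fintype.card p.K + 3) * n * S0 p M := num_le p (by omega) M false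
    _ ≤ (Fintype.card p.K + 3) * (2 * A.card) * (S0 p M + 1) := by
        apply Nat.mul_le_mul
        · exact Nat.mul_le_mul_left _ h6
        · omega
    _ = DD p M * A.card := by unfold DD; ring

end Vale.Agent.P194.M.Ok
end

section

/-! P194, variant M': the system of ports and its conditions `ports`, `blocks`, `labels`. -/

namespace Vale.Agent.P194.M

open Finset Vale.Agent.P201.Z

/-- rows and blocks of variant M' -/
noncomputable def ps (p : Pat) (n : ℕ) (M : ℤ) : PS where
  R := Rw p
  B := Bk p n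
  cpy := cpy
  P := Pr p M
  Q := Qb p n M

theorem ps_S (p : Pat) (n : ℕ) (M : ℤ) (r : Rw p) (b : Bk p n) :
    (ps p n M).S r b = Sf p n M r b := rfl

theorem ps_num (p : Pat) (n : ℕ) (M : ℤ) (a : Bool) : (ps p n M).num a = num p n M a := rfl

/-- the unmatched port -/
noncomputable def q0 {p : Pat} {M L : ℤ} (n : ℕ) (hB : Big p M L) : (ps p n M).Pt :=
  ⟨((Sum.inr true : Rw p), (Sum.inr (Sum.inl 0) : Bk p n)), ⟨0, zero_mem (n := n) hB⟩⟩

theorem bal {p : Pat} {M L : ℤ} (n : ℕ) (hB : Big p M L) : PS.Bal (q0 n hB) :=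
  ⟨num_bal hB, rfl⟩

/-- the system of ports -/
noncomputable def sys {p : Pat} {M L : ℤ} (n : ℕ) (hB : Big p M L) : Vale.Agent.P201.S.Sys :=
  PS.toSys (q0 n hB) (bal n hB)

theorem sys_card {p : Pat} {M L : ℤ} (n : ℕ) (hB : Big p M L) :
    Fintype.card (sys n hB).C = num p n M false := PS.toSys_card (q0 n hB) (bal n hB)

theorem le_card {p : Pat} {M L : ℤ} (n : ℕ) (hB : Big p M L) : n ≤ Fintype.card (sys n hB).C := by
  rw [sys_card]
  exact Ok.le_num hB

theorem ok_of {p : Pat} {M L : ℤ} {n : ℕ} (hB : Big p M L) (hn : 2 ≤ n)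
    (hw : 2 * Vale.Agent.P201.S.nu2 (sys n hB) ≤ (num p n M false) ^ 2) :
    (sys n hB).Ok (Ok.DD p M) where
  ports b := PS.ports_le (q0 n hB) (bal n hB) (D := Ok.DD p M) (fun b => Ok.ports p n M b) b
  blocks := by
    rw [sys_card]
    exact Ok.blocks hB (by omega)
  labels := by
    intro q q' hb hne
    rw [sys_card]
    have h1 := Ok.labels p hn M (q0 n hB).1.2 ((sys n hB).blk q) ((sys n hB).rc q)
      ((sys n hB).rc q') ((sys n hB).ht q) ((sys n hB).ht q')
      (PS.pm (q0 n hB) (bal n hB) q).2.2 (by rw [hb]; exact (PS.pm (q0 n hB) (bal n hB) q').2.2)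
    refine h1.trans (Nat.mul_le_mul_left _ ?_)
    refine PS.le_nu (q0 n hB) (bal n hB) _ _ _ ?_
    by_contra hcon
    rw [not_or, not_not, not_not] at hcon
    apply hne
    refine (sys n hB).inj q q' hcon.1 hb ?_
    have := hcon.2
    omega
  w := by
    rw [sys_card]
    exact hw

end Vale.Agent.P194.M
end

section

/-! P194, variant M': `D = 1 + t^M + t^(2M)` is not invertible; bound for the heights. -/

namespace Vale.Agent.P194.M

open Finset Vale.Agent.P201.Z

theorem coeff_up (M : ℤ) (hM : 0 < M) (s : Finset ℕ) (z : ℤ) :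
    (up M s).coeff z ≠ 0 ↔ ∃ a ∈ s, M * a = z := by
  have h := supp_up (M := M) (L := 0) (by linarith) s (1 : F2Z) (by
    intro h hh
    rw [one_supp, Finset.mem_singleton] at hh
    rw [hh, abs_zero])
  rw [mul_one, one_supp] at h
  rw [← Finsupp.mem_support_iff, h, dil, Finset.mem_image]
  constructor
  · rintro ⟨⟨a, k⟩, hx, rfl⟩
    rw [Finset.mem_product, Finset.mem_singleton] at hx
    refine ⟨a, hx.1, ?_⟩
    have : k = 0 := hx.2
    simp [this]
  · rintro ⟨a, ha, rfl⟩
    exact ⟨(a, 0), by simp [ha], by simp⟩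

theorem D_not_unit (M : ℤ) (hM : 0 < M) (c : F2Z) : c * up M {0, 1, 2} ≠ 1 := by
  apply laurent_not_unit (up M {0, 1, 2}) (2 * M) (by linarith)
  · rw [coeff_up M hM]
    exact ⟨0, by simp only [mem_insert, zero_ne_one, mem_singleton, OfNat.zero_ne_ofNat, or_self, or_false], by simp⟩
  · rw [coeff_up M hM]
    exact ⟨2, by simp only [mem_insert, OfNat.ofNat_ne_zero, OfNat.ofNat_ne_one, mem_singleton, or_true], by push_cast; ring⟩
  · intro k hk
    rw [coeff_up M hM] at hk
    obtain ⟨a, ha, rfl⟩ := hk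
    simp only [Finset.mem_insert, Finset.mem_singleton] at ha
    rcases ha with rfl | rfl | rfl <;> push_cast <;> constructor <;> linarith

theorem Au_le {p : Pat} {n : ℕ} (r : Rw p) (b : Bk p n) : ∀ a ∈ Au r b, a ≤ 10 := by
  intro a ha
  rcases r with x | (_ | _) <;> rcases b with y | (y | y) <;>
    simp only [Au, Finset.mem_insert, Finset.mem_singleton] at ha <;> omega

/-- heights are bounded -/
theorem Sf_le {p : Pat} {n : ℕ} {M L : ℤ} (hB : Big p M L) (r : Rw p) (b : Bk p n) :
    ∀ h ∈ Sf p n M r b, |h| ≤ 10 * M + L := by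
  intro h hh
  rw [Sf_eq hB, dil, Finset.mem_image] at hh
  obtain ⟨⟨a, k⟩, hx, rfl⟩ := hh
  rw [Finset.mem_product] at hx
  have h1 := Au_le r b a hx.1
  have h2 := fu_le hB r b k hx.2
  have h3 := hB.lt
  have h4 := hB.L0
  have h5 : |M * (a : ℤ)| ≤ 10 * M := by
    rw [abs_of_nonneg (mul_nonneg (by linarith only [h3, h4]) (by positivity))]
    have : (a : ℤ) ≤ 10 := by exact_mod_cast h1
    nlinarith only [h1, h3, h4]
  calc |M * (a : ℤ) + k| ≤ |M * (a : ℤ)| + |k| := abs_add_le _ _
    _ ≤ 10 * M + L := by linarith only [h2, h5]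

end Vale.Agent.P194.M
end

section

/-! P194: additive quadruples (helper477). -/

namespace Vale.Agent.P194.M

open Finset Vale.Agent.P201.S

/-- additive quadruples `b - a = b' - a'` -/
def E4 (A B A' B' : Finset ℤ) : ℕ :=
  (((A ×ˢ B) ×ˢ (A' ×ˢ B')).filter (fun x => x.1.2 - x.1.1 = x.2.2 - x.2.1)).card

/-- the set `M a + h` -/
def dz (M : ℤ) (A F : Finset ℤ) : Finset ℤ := (A ×ˢ F).image (fun x => M * x.1 + x.2)

theorem mem_dz {M : ℤ} {A F : Finset ℤ} {z : ℤ} :
    z ∈ dz M A F ↔ ∃ a ∈ A, ∃ h ∈ F, M * a + h = z := by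
  unfold dz
  simp only [mem_image, mem_product, Prod.exists]
  constructor
  · rintro ⟨a, b, ⟨h1, h2⟩, h3⟩
    exact ⟨a, h1, b, h2, h3⟩
  · rintro ⟨a, h1, b, h2, h3⟩
    exact ⟨a, b, ⟨h1, h2⟩, h3⟩

theorem card_dz_le (M : ℤ) (A F : Finset ℤ) : (dz M A F).card ≤ A.card * F.card := by
  unfold dz
  exact card_image_le.trans (card_product _ _).le

theorem card_dz {M H : ℤ} {A F : Finset ℤ} (hM : 2 * H < M) (hF : ∀ h ∈ F, |h| ≤ H) :
    (dz M A F).card = A.card * F.card := by
  unfold dz
  rw [card_image_of_injOn, card_product]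
  rintro ⟨a, h⟩ hx ⟨b, k⟩ hy hxy
  have h1 := abs_le.1 (hF h (mem_product.1 (Finset.mem_coe.1 hx)).2)
  have h2 := abs_le.1 (hF k (mem_product.1 (Finset.mem_coe.1 hy)).2)
  simp only at hxy
  have h3 : a = b := by
    by_contra hne
    have h4 : M * (a - b) = k - h := by linarith only [hxy]
    rcases lt_or_gt_of_ne hne with h5 | h5
    · nlinarith only [hM, hxy, h1, h2, h5]
    · nlinarith
  subst h3
  rw [Prod.mk.injEq]
  exact ⟨rfl, by linarith only [hxy]⟩

theorem E4_dz {M H : ℤ} {A1 A2 A3 A4 F1 F2 F3 F4 : Finset ℤ} (hM : 4 * H < M)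
    (h1 : ∀ h ∈ F1, |h| ≤ H) (h2 : ∀ h ∈ F2, |h| ≤ H) (h3 : ∀ h ∈ F3, |h| ≤ H)
    (h4 : ∀ h ∈ F4, |h| ≤ H) :
    E4 (dz M A1 F1) (dz M A2 F2) (dz M A3 F3) (dz M A4 F4) ≤
      E4 A1 A2 A3 A4 * E4 F1 F2 F3 F4 := by
  unfold E4
  rw [← card_product]
  refine le_trans (card_le_card (t := Finset.image
    (fun y : ((ℤ × ℤ) × (ℤ × ℤ)) × ((ℤ × ℤ) × (ℤ × ℤ)) =>
      ((M * y.1.1.1 + y.2.1.1, M * y.1.1.2 + y.2.1.2),
        (M * y.1.2.1 + y.2.2.1, M * y.1.2.2 + y.2.2.2))) _) ?_) card_image_le
  rintro ⟨⟨x1, x2⟩, ⟨x3, x4⟩⟩ hx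
  simp only [mem_filter, mem_product] at hx
  obtain ⟨⟨⟨m1, m2⟩, m3, m4⟩, he⟩ := hx
  obtain ⟨a1, ha1, b1, hb1, rfl⟩ := mem_dz.1 m1
  obtain ⟨a2, ha2, b2, hb2, rfl⟩ := mem_dz.1 m2
  obtain ⟨a3, ha3, b3, hb3, rfl⟩ := mem_dz.1 m3
  obtain ⟨a4, ha4, b4, hb4, rfl⟩ := mem_dz.1 m4
  have e1 := abs_le.1 (h1 b1 hb1)
  have e2 := abs_le.1 (h2 b2 hb2)
  have e3 := abs_le.1 (h3 b3 hb3)
  have e4 := abs_le.1 (h4 b4 hb4)
  have h5 : a2 - a1 = a4 - a3 := by
    by_contra hne
    have h6 : M * ((a2 - a1) - (a4 - a3)) = (b4 - b3) - (b2 - b1) := by linarith only [he]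
    rcases lt_or_gt_of_ne hne with h7 | h7
    · nlinarith only [hM, he, e1, e2, e3, e4, h7]
    · nlinarith only [hM, he, e1, e2, e3, e4, h7]
  have h6 : b2 - b1 = b4 - b3 := by
    have h7 : M * ((a2 - a1) - (a4 - a3)) = (b4 - b3) - (b2 - b1) := by linarith only [he]
    rw [h5, sub_self, mul_zero] at h7
    linarith only [h7]
  refine mem_image.2 ⟨(((a1, a2), (a3, a4)), ((b1, b2), (b3, b4))), ?_, rfl⟩
  simp only [mem_product, mem_filter]
  exact ⟨⟨⟨⟨ha1, ha2⟩, ha3, ha4⟩, h5⟩, ⟨⟨hb1, hb2⟩, hb3, hb4⟩, h6⟩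

theorem E4_two : E4 {0, 3} {0, 3} {0, 3} {0, 3} = 6 := by decide

/-- pairs of units with the same label, in terms of additive quadruples -/
theorem E2_le_E4 (S : Sys) (N : S.R → S.B → Finset ℤ)
    (hN : ∀ q : Port S, S.ht q ∈ N (S.rc q) (S.blk q)) (mr : S.R → Bool) (mb : S.B → Bool) :
    E2 (lb S) ((Un S).filter (fun u =>
      mr (S.rc u.1) = true ∧ mr (S.rc u.2) = true ∧ mb (S.blk u.1) = true)) ≤
    ∑ b ∈ univ.filter (fun b => mb b = true), ∑ b' ∈ univ.filter (fun b => mb b = true),
      ∑ r ∈ univ.filter (fun r => mr r = true), ∑ r' ∈ univ.filter (fun r => mr r = true),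
        E4 (N r b) (N r' b) (N r b') (N r' b') := by
  classical
  unfold E2
  rw [Finset.card_eq_sum_card_fiberwise
    (f := fun x => (S.blk x.1.1, (S.blk x.2.1, (S.rc x.1.1, S.rc x.1.2))))
    (t := (univ.filter (fun b => mb b = true)) ×ˢ ((univ.filter (fun b => mb b = true)) ×ˢ
      ((univ.filter (fun r => mr r = true)) ×ˢ (univ.filter (fun r => mr r = true)))))]
  · rw [sum_product]
    refine sum_le_sum fun b _ => ?_
    rw [sum_product]
    refine sum_le_sum fun b' _ => ?_
    rw [sum_product]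
    refine sum_le_sum fun r _ => sum_le_sum fun r' _ => ?_
    unfold E4
    refine card_le_card_of_injOn (fun x => ((S.ht x.1.1, S.ht x.1.2), (S.ht x.2.1, S.ht x.2.2)))
      ?_ ?_
    · rintro ⟨⟨q1, q2⟩, ⟨q3, q4⟩⟩ hx
      have hx' := mem_filter.1 (Finset.mem_coe.1 hx)
      have h1 := mem_filter.1 hx'.1
      have h2 := mem_product.1 h1.1
      have h3 := (mem_filter.1 (mem_filter.1 h2.1).1).2
      have h4 := (mem_filter.1 (mem_filter.1 h2.2).1).2
      have h5 := h1.2
      have h6 := hx'.2
      simp only [lb, Prod.mk.injEq] at h5 h6 h3 h4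
      obtain ⟨e1, e2, e3, e4⟩ := h6
      refine Finset.mem_coe.2 (mem_filter.2 ⟨mem_product.2 ⟨mem_product.2 ⟨?_, ?_⟩,
        mem_product.2 ⟨?_, ?_⟩⟩, h5.2.2⟩)
      · have := hN q1; rwa [e3, e1] at this
      · have := hN q2; rwa [e4, ← h3.1, e1] at this
      · have := hN q3; rwa [← h5.1, e3, e2] at this
      · have := hN q4; rwa [← h5.2.1, e4, ← h4.1, e2] at this
    · rintro ⟨⟨q1, q2⟩, ⟨q3, q4⟩⟩ hx ⟨⟨p1, p2⟩, ⟨p3, p4⟩⟩ hy hxy
      have hx' := mem_filter.1 (Finset.mem_coe.1 hx)
      have h1 := mem_filter.1 hx'.1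
      have h2 := mem_product.1 h1.1
      have h3 := (mem_filter.1 (mem_filter.1 h2.1).1).2
      have h4 := (mem_filter.1 (mem_filter.1 h2.2).1).2
      have h5 := h1.2
      have h6 := hx'.2
      have hy' := mem_filter.1 (Finset.mem_coe.1 hy)
      have g1 := mem_filter.1 hy'.1
      have g2 := mem_product.1 g1.1
      have g3 := (mem_filter.1 (mem_filter.1 g2.1).1).2
      have g4 := (mem_filter.1 (mem_filter.1 g2.2).1).2
      have g5 := g1.2
      have g6 := hy'.2
      simp only [lb, Prod.mk.injEq] at h5 h6 h3 h4 g5 g6 g3 g4 hxy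
      obtain ⟨e1, e2, e3, e4⟩ := h6
      obtain ⟨f1, f2, f3, f4⟩ := g6
      have k1 : q1 = p1 := S.inj _ _ (e3.trans f3.symm) (e1.trans f1.symm) hxy.1.1
      have k2 : q2 = p2 := S.inj _ _ (e4.trans f4.symm)
        (by rw [← h3.1, ← g3.1, e1, f1]) hxy.1.2
      have k3 : q3 = p3 := S.inj _ _ (by rw [← h5.1, ← g5.1, e3, f3]) (e2.trans f2.symm) hxy.2.1
      have k4 : q4 = p4 := S.inj _ _ (by rw [← h5.2.1, ← g5.2.1, e4, f4])
        (by rw [← h4.1, ← g4.1, e2, f2]) hxy.2.2
      rw [k1, k2, k3, k4]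
  · rintro ⟨⟨q1, q2⟩, ⟨q3, q4⟩⟩ hx
    have h1 := mem_filter.1 (Finset.mem_coe.1 hx)
    have h2 := mem_product.1 h1.1
    have h3 := (mem_filter.1 h2.1).2
    have h4 := (mem_filter.1 h2.2).2
    simp only at h3 h4
    refine Finset.mem_coe.2 (mem_product.2 ⟨mem_filter.2 ⟨mem_univ _, h3.2.2⟩,
      mem_product.2 ⟨mem_filter.2 ⟨mem_univ _, h4.2.2⟩, mem_product.2
        ⟨mem_filter.2 ⟨mem_univ _, h3.1⟩, mem_filter.2 ⟨mem_univ _, h3.2.1⟩⟩⟩⟩)

/-- ports of a row in a block -/
theorem card_port_le (S : Sys) (N : S.R → S.B → Finset ℤ)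
    (hN : ∀ q : Port S, S.ht q ∈ N (S.rc q) (S.blk q)) (r : S.R) (b : S.B) :
    (univ.filter (fun q : Port S => S.rc q = r ∧ S.blk q = b)).card ≤ (N r b).card := by
  refine card_le_card_of_injOn (fun q => S.ht q) ?_ ?_
  · intro q hq
    have h := (mem_filter.1 (Finset.mem_coe.1 hq)).2
    have := hN q
    rw [h.1, h.2] at this
    exact Finset.mem_coe.2 this
  · intro q hq q' hq' h
    have h1 := (mem_filter.1 (Finset.mem_coe.1 hq)).2
    have h2 := (mem_filter.1 (Finset.mem_coe.1 hq')).2
    exact S.inj _ _ (h1.1.trans h2.1.symm) (h1.2.trans h2.2.symm) h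

/-- the complete bound in terms of the sets of heights -/
theorem nu2_le_N (S : Sys) (N : S.R → S.B → Finset ℤ)
    (hN : ∀ q : Port S, S.ht q ∈ N (S.rc q) (S.blk q)) (mr : S.R → Bool) (mb : S.B → Bool)
    (A e x s t m : ℕ)
    (hA : ∑ b ∈ univ.filter (fun b => mb b = true), ∑ b' ∈ univ.filter (fun b => mb b = true),
      ∑ r ∈ univ.filter (fun r => mr r = true), ∑ r' ∈ univ.filter (fun r => mr r = true),
        E4 (N r b) (N r' b) (N r b') (N r' b') ≤ A)
    (he : ∀ b, ∑ r ∈ univ.filter (fun r => mr r = false), (N r b).card ≤ e)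
    (hx : ∀ r, mr r = false → ∑ b, (N r b).card ≤ x)
    (hs : (univ.filter (fun b : S.B => mb b = false)).card ≤ s)
    (ht : ∀ r b, mr r = true → mb b = false → (N r b).card ≤ t)
    (hm : (univ.filter (fun r : S.R => mr r = true)).card ≤ m) :
    49 * nu2 S ≤ 50 * A + 2450 * (s * (m * t) ^ 2 * (s * t) + 4 * e * Fintype.card S.C * x) := by
  classical
  refine nu2_le S mr mb A e x s t m ((E2_le_E4 S N hN mr mb).trans hA) ?_ ?_ hs ?_ hm
  · intro b
    refine le_trans ?_ (he b)
    rw [Finset.card_eq_sum_card_fiberwise (f := fun q => S.rc q)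
      (t := univ.filter (fun r : S.R => mr r = false))]
    · refine sum_le_sum fun r _ => le_trans (card_le_card ?_) (card_port_le S N hN r b)
      intro q hq
      simp only [mem_filter, mem_univ, true_and] at hq ⊢
      exact ⟨hq.2, hq.1.1⟩
    · intro q hq
      have := mem_filter.1 (Finset.mem_coe.1 hq)
      exact Finset.mem_coe.2 (mem_filter.2 ⟨mem_univ _, this.2.2⟩)
  · intro r hr
    refine le_trans ?_ (hx r hr)
    rw [Finset.card_eq_sum_card_fiberwise (f := fun q => S.blk q) (t := univ)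
      (fun _ _ => by simp only [coe_univ, Set.mem_univ])]
    refine sum_le_sum fun b _ => le_trans (card_le_card ?_) (card_port_le S N hN r b)
    intro q hq
    simp only [mem_filter, mem_univ, true_and] at hq ⊢
    exact hq
  · intro r b hr hb
    exact (card_port_le S N hN r b).trans (ht r b hr hb)

end Vale.Agent.P194.M
end

section

/-! P194, variant M': the clause `w` of `Sys.Ok` (helper477). -/

namespace Vale.Agent.P194.M

open Finset Vale.Agent.P201.S

section

variable {p : Vale.Agent.P201.Z.Pat} {n : ℕ} {M L : ℤ}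

/-- main row -/
def mr (r : Rw p) : Bool := r.isLeft

/-- main block -/
def mb (b : Bk p n) : Bool := b.isLeft

theorem dil_eq_dz (M : ℤ) (s : Finset ℕ) (F : Finset ℤ) :
    dil M s F = dz M (s.image (fun a : ℕ => (a : ℤ))) F := by
  ext z
  rw [mem_dz]
  unfold dil
  simp only [mem_image, mem_product, Prod.exists]
  constructor
  · rintro ⟨a, h, ⟨h1, h2⟩, rfl⟩
    exact ⟨a, ⟨a, h1, rfl⟩, h, h2, rfl⟩
  · rintro ⟨_, ⟨a, h1, rfl⟩, h, h2, rfl⟩
    exact ⟨a, h, ⟨h1, h2⟩, rfl⟩

theorem E4_main (hB : Big p M L) (x x' : p.I × Bool) (y y' : p.K × Fin n) :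
    E4 (Sf p n M (Sum.inl x) (Sum.inl y)) (Sf p n M (Sum.inl x') (Sum.inl y))
      (Sf p n M (Sum.inl x) (Sum.inl y')) (Sf p n M (Sum.inl x') (Sum.inl y')) ≤
      6 * E4 (p.N x.1 y.1) (p.N x'.1 y.1) (p.N x.1 y'.1) (p.N x'.1 y'.1) := by
  have hM : 4 * L < M := by have := hB.lt; have := hB.L0; linarith
  rw [Sf_eq hB, Sf_eq hB, Sf_eq hB, Sf_eq hB, dil_eq_dz, dil_eq_dz, dil_eq_dz, dil_eq_dz]
  have h3 : ({0, 3} : Finset ℕ).image (fun a : ℕ => (a : ℤ)) = {0, 3} := by decide
  simp only [Au, fu, h3]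
  refine (E4_dz hM (hB.hN _ _) (hB.hN _ _) (hB.hN _ _) (hB.hN _ _)).trans ?_
  rw [E4_two]

theorem sum_isLeft {A B : Type} [Fintype A] [Fintype B] (f : A ⊕ B → ℕ) :
    ∑ r ∈ univ.filter (fun r : A ⊕ B => r.isLeft = true), f r = ∑ a, f (Sum.inl a) := by
  rw [Finset.sum_filter, Fintype.sum_sum_type]
  simp only [Sum.isLeft_inl, ↓reduceIte, Sum.isLeft_inr, Bool.false_eq_true, sum_const_zero, add_zero]

theorem sum_isRight {A B : Type} [Fintype A] [Fintype B] (f : A ⊕ B → ℕ) :
    ∑ r ∈ univ.filter (fun r : A ⊕ B => r.isLeft = false), f r = ∑ a, f (Sum.inr a) := by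
  rw [Finset.sum_filter, Fintype.sum_sum_type]
  simp only [Sum.isLeft_inl, Bool.true_eq_false, ↓reduceIte, sum_const_zero, Sum.isLeft_inr, zero_add]

/-- the main sum -/
theorem main_sum (hB : Big p M L) :
    ∑ b ∈ univ.filter (fun b : Bk p n => mb b = true),
      ∑ b' ∈ univ.filter (fun b : Bk p n => mb b = true),
      ∑ r ∈ univ.filter (fun r : Rw p => mr r = true),
      ∑ r' ∈ univ.filter (fun r : Rw p => mr r = true),
        E4 (Sf p n M r b) (Sf p n M r' b) (Sf p n M r b') (Sf p n M r' b') ≤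
      24 * n ^ 2 * p.W4 := by
  unfold mb mr
  rw [sum_isLeft]
  simp_rw [sum_isLeft]
  have h1 : ∑ y : p.K × Fin n, ∑ y' : p.K × Fin n, ∑ x : p.I × Bool, ∑ x' : p.I × Bool,
      E4 (Sf p n M (Sum.inl x) (Sum.inl y)) (Sf p n M (Sum.inl x') (Sum.inl y))
        (Sf p n M (Sum.inl x) (Sum.inl y')) (Sf p n M (Sum.inl x') (Sum.inl y')) ≤
      ∑ y : p.K × Fin n, ∑ y' : p.K × Fin n, ∑ x : p.I × Bool, ∑ x' : p.I × Bool,
      6 * E4 (p.N x.1 y.1) (p.N x'.1 y.1) (p.N x.1 y'.1) (p.N x'.1 y'.1) :=
    sum_le_sum fun y _ => sum_le_sum fun y' _ => sum_le_sum fun x _ => sum_le_sum fun x' _ =>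
      E4_main hB x x' y y'
  refine h1.trans (le_of_eq ?_)
  have h2 : p.W4 = ∑ k, ∑ k', ∑ i, ∑ i', E4 (p.N i k) (p.N i' k) (p.N i k') (p.N i' k') := rfl
  rw [h2]
  simp only [Fintype.sum_prod_type, Finset.sum_const, Finset.card_univ, Fintype.card_fin,
    Fintype.card_bool, smul_eq_mul]
  simp only [← Finset.mul_sum]
  ring

theorem extra_block (hB : Big p M L) {q : ℕ} (hq : ∀ k, (p.Q k).coeff.support.card ≤ q)
    (b : Bk p n) :
    ∑ r ∈ univ.filter (fun r : Rw p => mr r = false), (Sf p n M r b).card ≤ 4 * q + 13 := by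
  unfold mr
  rw [sum_isRight, Fintype.sum_bool, card_Sf hB, card_Sf hB]
  rcases b with y | (y | y)
  · simp only [Au, fu]
    have d1 : ({0, 6} : Finset ℕ).card = 2 := by decide
    have d2 : ({0, 3} : Finset ℕ).card = 2 := by decide
    rw [d1, d2]
    have := hq y.1
    omega
  · simp only [Au, fu, one_supp, Finset.card_singleton]
    have d1 : ({0, 4, 5, 7, 8, 9} : Finset ℕ).card = 6 := by decide
    have d2 : ({0, 3, 4, 5, 6} : Finset ℕ).card = 5 := by decide
    rw [d1, d2]
    omega
  · simp only [Au, fu, one_supp, Finset.card_singleton]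
    have d1 : ({0, 1, 5, 8, 9, 10} : Finset ℕ).card = 6 := by decide
    have d2 : ({0, 1, 3, 4, 5, 6, 7} : Finset ℕ).card = 7 := by decide
    rw [d1, d2]
    omega

theorem extra_row (hB : Big p M L) {q : ℕ} (hq : ∀ k, (p.Q k).coeff.support.card ≤ q)
    (r : Rw p) (hr : mr r = false) :
    ∑ b : Bk p n, (Sf p n M r b).card ≤ 2 * n * Fintype.card p.K * q + 7 * (2 * n + 1) := by
  rcases r with x | a
  · simp [mr] at hr
  have h1 : ∀ b : Bk p n, (Sf p n M (Sum.inr a) b).card ≤ match b with
      | Sum.inl _ => 2 * q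
      | Sum.inr _ => 7 := by
    intro b
    rw [card_Sf hB]
    rcases b with y | (y | y)
    · have d1 : ({0, 6} : Finset ℕ).card = 2 := by decide
      have d2 : ({0, 3} : Finset ℕ).card = 2 := by decide
      cases a <;> simp only [Au, fu]
      · rw [d2]; exact Nat.mul_le_mul_left _ (hq y.1)
      · rw [d1]; exact Nat.mul_le_mul_left _ (hq y.1)
    · have d1 : ({0, 4, 5, 7, 8, 9} : Finset ℕ).card = 6 := by decide
      have d2 : ({0, 3, 4, 5, 6} : Finset ℕ).card = 5 := by decide
      cases a <;> simp only [Au, fu, one_supp, Finset.card_singleton]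
      · rw [d2]; omega
      · rw [d1]; omega
    · have d1 : ({0, 1, 5, 8, 9, 10} : Finset ℕ).card = 6 := by decide
      have d2 : ({0, 1, 3, 4, 5, 6, 7} : Finset ℕ).card = 7 := by decide
      cases a <;> simp only [Au, fu, one_supp, Finset.card_singleton]
      · rw [d2]
      · rw [d1]; omega
  refine (Finset.sum_le_sum fun b _ => h1 b).trans ?_
  rw [Fintype.sum_sum_type]
  simp only [Finset.sum_const, Finset.card_univ, Fintype.card_prod, Fintype.card_fin,
    Fintype.card_sum, smul_eq_mul]
  apply le_of_eq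
  ring

theorem main_special (hB : Big p M L) {pp : ℕ} (hp : ∀ i, (p.P i).coeff.support.card ≤ pp)
    (r : Rw p) (b : Bk p n) (hr : mr r = true) (hb : mb b = false) :
    (Sf p n M r b).card ≤ 7 * pp := by
  rcases r with x | a
  · rcases b with y | (y | y)
    · simp [mb] at hb
    · rw [card_Sf hB]
      simp only [Au, fu]
      have d2 : ({0, 3, 4, 5, 6} : Finset ℕ).card = 5 := by decide
      rw [d2]
      have := hp x.1
      omega
    · rw [card_Sf hB]
      simp only [Au, fu]
      have d2 : ({0, 1, 3, 4, 5, 6, 7} : Finset ℕ).card = 7 := by decide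
      rw [d2]
      exact Nat.mul_le_mul_left _ (hp x.1)
  · simp [mr] at hr

theorem card_main_rows : (univ.filter (fun r : Rw p => mr r = true)).card =
    2 * Fintype.card p.I := by
  have := sum_isLeft (A := p.I × Bool) (B := Bool) (fun _ => 1)
  simp only [Finset.sum_const, smul_eq_mul, mul_one, Finset.card_univ, Fintype.card_prod,
    Fintype.card_bool] at this
  unfold mr
  rw [this, mul_comm]

theorem card_special : (univ.filter (fun b : Bk p n => mb b = false)).card = 2 * n + 1 := by
  have := sum_isRight (A := p.K × Fin n) (B := Fin (n + 1) ⊕ Fin n) (fun _ => 1)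
  simp only [Finset.sum_const, smul_eq_mul, mul_one, Finset.card_univ, Fintype.card_sum,
    Fintype.card_fin] at this
  unfold mb
  rw [this]
  ring

/-- arithmetic of the final inequality -/
theorem w_arith (W4 T n I K q pp C nu Lam : ℕ) (hn : 1 ≤ n) (hK : 1 ≤ K) (hq1 : 1 ≤ q)
    (hW : 25 * W4 ≤ 2 * T ^ 2) (hq : Lam * q ^ 2 ≤ T) (hp : Lam * pp ^ 3 ≤ T ^ 2)
    (hLam : 4900 * (3087 * I ^ 2 + 782 * K) ≤ Lam) (hC : 2 * n * T ≤ C)
    (h : 49 * nu ≤ 50 * (24 * n ^ 2 * W4) + 2450 * ((2 * n + 1) * (2 * I * (7 * pp)) ^ 2 *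
      ((2 * n + 1) * (7 * pp)) + 4 * (4 * q + 13) * C * (2 * n * K * q + 7 * (2 * n + 1)))) :
    2 * nu ≤ C ^ 2 := by
  set X1 := (2 * n + 1) * (2 * I * (7 * pp)) ^ 2 * ((2 * n + 1) * (7 * pp)) with hX1
  set X2 := 4 * (4 * q + 13) * C * (2 * n * K * q + 7 * (2 * n + 1)) with hX2
  have a1 : X1 ≤ 12348 * I ^ 2 * n ^ 2 * pp ^ 3 := by
    calc X1 = (2 * n + 1) ^ 2 * (1372 * I ^ 2 * pp ^ 3) := by rw [hX1]; ring
      _ ≤ (3 * n) ^ 2 * (1372 * I ^ 2 * pp ^ 3) :=
        Nat.mul_le_mul_right _ (Nat.pow_le_pow_left (by omega) 2)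
      _ = 12348 * I ^ 2 * n ^ 2 * pp ^ 3 := by ring
  have hKq : 1 ≤ K * q := Nat.mul_le_mul hK hq1
  have a2 : X2 ≤ 1564 * K * n * q ^ 2 * C := by
    have b1 : 4 * q + 13 ≤ 17 * q := by omega
    have b2 : 2 * n * K * q + 7 * (2 * n + 1) ≤ 23 * n * K * q := by
      have : n * 1 ≤ n * (K * q) := Nat.mul_le_mul_left _ hKq
      nlinarith only [hn, this]
    calc X2 = (4 * C) * ((4 * q + 13) * (2 * n * K * q + 7 * (2 * n + 1))) := by rw [hX2]; ring
      _ ≤ (4 * C) * ((17 * q) * (23 * n * K * q)) :=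
        Nat.mul_le_mul_left _ (Nat.mul_le_mul b1 b2)
      _ = 1564 * K * n * q ^ 2 * C := by ring
  have a3 : Lam * X1 ≤ 3087 * I ^ 2 * C ^ 2 := by
    calc Lam * X1 ≤ Lam * (12348 * I ^ 2 * n ^ 2 * pp ^ 3) := Nat.mul_le_mul_left _ a1
      _ = 12348 * I ^ 2 * n ^ 2 * (Lam * pp ^ 3) := by ring
      _ ≤ 12348 * I ^ 2 * n ^ 2 * T ^ 2 := Nat.mul_le_mul_left _ hp
      _ = 3087 * I ^ 2 * (2 * n * T) ^ 2 := by ring
      _ ≤ 3087 * I ^ 2 * C ^ 2 := Nat.mul_le_mul_left _ (Nat.pow_le_pow_left hC 2)
  have a4 : Lam * X2 ≤ 782 * K * C ^ 2 := by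
    calc Lam * X2 ≤ Lam * (1564 * K * n * q ^ 2 * C) := Nat.mul_le_mul_left _ a2
      _ = 1564 * K * n * C * (Lam * q ^ 2) := by ring
      _ ≤ 1564 * K * n * C * T := Nat.mul_le_mul_left _ hq
      _ = 782 * K * C * (2 * n * T) := by ring
      _ ≤ 782 * K * C * C := Nat.mul_le_mul_left _ hC
      _ = 782 * K * C ^ 2 := by ring
  have a5 : 50 * (24 * n ^ 2 * W4) ≤ 24 * C ^ 2 := by
    calc 50 * (24 * n ^ 2 * W4) = 48 * n ^ 2 * (25 * W4) := by ring
      _ ≤ 48 * n ^ 2 * (2 * T ^ 2) := Nat.mul_le_mul_left _ hW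
      _ = 24 * (2 * n * T) ^ 2 := by ring
      _ ≤ 24 * C ^ 2 := Nat.mul_le_mul_left _ (Nat.pow_le_pow_left hC 2)
  have a6 : (3087 * I ^ 2 + 782 * K) * (4900 * (X1 + X2)) ≤ (3087 * I ^ 2 + 782 * K) * C ^ 2 := by
    calc (3087 * I ^ 2 + 782 * K) * (4900 * (X1 + X2))
        = (4900 * (3087 * I ^ 2 + 782 * K)) * (X1 + X2) := by ring
      _ ≤ Lam * (X1 + X2) := Nat.mul_le_mul_right _ hLam
      _ = Lam * X1 + Lam * X2 := by ring
      _ ≤ 3087 * I ^ 2 * C ^ 2 + 782 * K * C ^ 2 := Nat.add_le_add a3 a4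
      _ = (3087 * I ^ 2 + 782 * K) * C ^ 2 := by ring
  have a7 : 4900 * (X1 + X2) ≤ C ^ 2 :=
    Nat.le_of_mul_le_mul_left a6 (by (clear * - hK; positivity))
  (clear * - h a5 a7; omega)

theorem injective_sum_le {A B : Type} [Fintype A] [Fintype B] (φ : A → B)
    (hφ : Function.Injective φ) (P : B → Bool) (v : Bool) (f : B → ℕ) :
    ∑ a ∈ univ.filter (fun a => P (φ a) = v), f (φ a) ≤ ∑ b ∈ univ.filter (fun b => P b = v), f b := by
  classical
  rw [← Finset.sum_image (f := f) (g := φ) (s := univ.filter (fun a => P (φ a) = v))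
    (fun a _ b _ h => hφ h)]
  refine Finset.sum_le_sum_of_subset ?_
  intro b hb
  obtain ⟨a, ha, rfl⟩ := mem_image.1 hb
  exact mem_filter.2 ⟨mem_univ _, (mem_filter.1 ha).2⟩

/-- **The clause `w`.** -/
theorem w_of (S : Sys) (φ : S.R → Rw p) (ψ : S.B → Bk p n) (hφ : Function.Injective φ)
    (hψ : Function.Injective ψ) (hB : Big p M L) (hn : 1 ≤ n)
    (hN : ∀ q : Port S, S.ht q ∈ Sf p n M (φ (S.rc q)) (ψ (S.blk q)))
    (hC : 2 * n * p.Ttot ≤ Fintype.card S.C) (hT : 0 < p.Ttot) (Lam : ℕ)
    (hLam : 4900 * (3087 * Fintype.card p.I ^ 2 + 782 * Fintype.card p.K) ≤ Lam)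
    (hW : 25 * p.W4 ≤ 2 * p.Ttot ^ 2)
    (hQ : ∀ k, Lam * (p.Q k).coeff.support.card ^ 2 ≤ p.Ttot)
    (hP : ∀ i, Lam * (p.P i).coeff.support.card ^ 3 ≤ p.Ttot ^ 2) :
    2 * nu2 S ≤ Fintype.card S.C ^ 2 := by
  classical
  -- the pattern is not empty
  obtain ⟨k0, i0, hki⟩ : ∃ k i, 0 < (p.N i k).card := by
    by_contra hcon
    push Not at hcon
    have : p.Ttot = 0 := by
      unfold Vale.Agent.P201.Z.Pat.Ttot
      exact Finset.sum_eq_zero fun k _ => Finset.sum_eq_zero fun i _ => by
        have := hcon k i; omega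
    omega
  have hQ0 : 1 ≤ (p.Q k0).coeff.support.card := by
    rw [Nat.one_le_iff_ne_zero]
    intro h0
    have h1 : p.Q k0 = 0 := by
      apply AddMonoidAlgebra.coeff_injective
      rw [Finset.card_eq_zero, Finsupp.support_eq_empty] at h0
      rw [h0]; rfl
    unfold Vale.Agent.P201.Z.Pat.N at hki
    rw [h1, mul_zero] at hki
    simp at hki
  -- maxima
  obtain ⟨q, hq1, hq2⟩ : ∃ q, (∀ k, (p.Q k).coeff.support.card ≤ q) ∧ Lam * q ^ 2 ≤ p.Ttot := by
    obtain ⟨k, -, hk⟩ := Finset.exists_max_image (univ : Finset p.K)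
      (fun k => (p.Q k).coeff.support.card) ⟨k0, mem_univ _⟩
    exact ⟨_, fun k' => hk k' (mem_univ _), hQ k⟩
  obtain ⟨pp, hp1, hp2⟩ : ∃ pp, (∀ i, (p.P i).coeff.support.card ≤ pp) ∧
      Lam * pp ^ 3 ≤ p.Ttot ^ 2 := by
    obtain ⟨i, -, hi⟩ := Finset.exists_max_image (univ : Finset p.I)
      (fun i => (p.P i).coeff.support.card) ⟨i0, mem_univ _⟩
    exact ⟨_, fun i' => hi i' (mem_univ _), hP i⟩
  have hK : 1 ≤ Fintype.card p.K := Fintype.card_pos_iff.2 ⟨k0⟩
  refine w_arith p.W4 p.Ttot n (Fintype.card p.I) (Fintype.card p.K) q pp (Fintype.card S.C)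
    (nu2 S) Lam hn hK (hQ0.trans (hq1 k0)) hW hq2 hp2 hLam hC ?_
  refine nu2_le_N S (fun r b => Sf p n M (φ r) (ψ b)) hN (fun r => mr (φ r)) (fun b => mb (ψ b))
    (24 * n ^ 2 * p.W4) (4 * q + 13) (2 * n * Fintype.card p.K * q + 7 * (2 * n + 1))
    (2 * n + 1) (7 * pp) (2 * Fintype.card p.I) ?_ ?_ ?_ ?_ ?_ ?_
  · refine le_trans ?_ (main_sum hB)
    refine (injective_sum_le ψ hψ mb true (fun b =>
      ∑ b' ∈ univ.filter (fun b => mb (ψ b) = true),
      ∑ r ∈ univ.filter (fun r => mr (φ r) = true), ∑ r' ∈ univ.filter (fun r => mr (φ r) = true),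
        E4 (Sf p n M (φ r) b) (Sf p n M (φ r') b) (Sf p n M (φ r) (ψ b'))
          (Sf p n M (φ r') (ψ b')))).trans ?_
    refine sum_le_sum fun b _ => ?_
    refine (injective_sum_le ψ hψ mb true (fun b' =>
      ∑ r ∈ univ.filter (fun r => mr (φ r) = true), ∑ r' ∈ univ.filter (fun r => mr (φ r) = true),
        E4 (Sf p n M (φ r) b) (Sf p n M (φ r') b) (Sf p n M (φ r) b')
          (Sf p n M (φ r') b'))).trans ?_
    refine sum_le_sum fun b' _ => ?_
    refine (injective_sum_le φ hφ mr true (fun r =>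
      ∑ r' ∈ univ.filter (fun r => mr (φ r) = true),
        E4 (Sf p n M r b) (Sf p n M (φ r') b) (Sf p n M r b')
          (Sf p n M (φ r') b'))).trans ?_
    refine sum_le_sum fun r _ => ?_
    exact injective_sum_le φ hφ mr true (fun r' =>
        E4 (Sf p n M r b) (Sf p n M r' b) (Sf p n M r b') (Sf p n M r' b'))
  · intro b
    exact (injective_sum_le φ hφ mr false (fun r => (Sf p n M r (ψ b)).card)).trans
      (extra_block hB hq1 (ψ b))
  · intro r hr
    refine le_trans ?_ (extra_row (n := n) hB hq1 (φ r) hr)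
    have := injective_sum_le ψ hψ (fun _ => true) true (fun b => (Sf p n M (φ r) b).card)
    simpa only [Fintype.sum_sum_type, ge_iff_le, filter_true] using this
  · have := injective_sum_le ψ hψ mb false (fun _ => 1)
    simp only [Finset.sum_const, smul_eq_mul, mul_one] at this
    rw [card_special] at this
    exact this
  · intro r b hr hb
    exact main_special hB hp1 (φ r) (ψ b) hr hb
  · have := injective_sum_le φ hφ mr true (fun _ => 1)
    simp only [Finset.sum_const, smul_eq_mul, mul_one] at this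
    rw [card_main_rows] at this
    exact this

end

end Vale.Agent.P194.M
end

section

/-!
P194: change of the field, from `ZMod 2` to all fields of characteristic 2 (helper872).
-/

namespace Vale.Agent.P194.M

universe u

/-- a pair over `F_2` gives a pair over every field of characteristic 2 -/
theorem base_change {G : Type} [Group G] {a b : MonoidAlgebra (ZMod 2) G} (hab : a * b = 1)
    (hba : b * a ≠ 1) (K : Type u) [Field K] [CharP K 2] :
    ∃ a b : MonoidAlgebra K G, a * b = 1 ∧ b * a ≠ 1 := by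
  let f : MonoidAlgebra (ZMod 2) G →+* MonoidAlgebra K G :=
    MonoidAlgebra.mapRingHom G (ZMod.castHom (dvd_refl 2) K)
  have hf : Function.Injective f := by
    intro x y hxy
    apply MonoidAlgebra.coeff_injective
    ext g
    have h := congrArg (fun z => MonoidAlgebra.coeff z g) hxy
    simp only [f, MonoidAlgebra.coeff_mapRingHom] at h
    exact (ZMod.castHom (dvd_refl 2) K).injective (by simpa using h)
  refine ⟨f a, f b, by rw [← map_mul, hab, map_one], fun h => hba (hf ?_)⟩
  rw [map_mul, h, map_one]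

end Vale.Agent.P194.M
end

section

/-!
P194 (direct finiteness of group algebras), main theorem from the machine of P201 (helper872).
Variant M' of note 10194 (helper270); parts: helper22 (Inst, InstAlg, FinAlg2), helper270 (Def, Dnu),
helper154 (Ok, OkSys), helper477 and helper694 (Nu2, E4, W), helper998 (Lam).
-/

namespace Vale.Agent.P194.M

open Finset Vale.Agent.P201.Z

universe u

/-- heights are bounded independently of `n` -/
theorem sys_ht {p : Pat} {M L : ℤ} (n : ℕ) (hB : Big p M L)
    (q : Vale.Agent.P201.S.Port (sys n hB)) :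
    ((sys n hB).ht q).natAbs ≤ (10 * M + L).natAbs := by
  have h1 := Sf_le hB _ _ _ (PS.pm (q0 n hB) (bal n hB) q).2.2
  have h2 : (((sys n hB).ht q).natAbs : ℤ) ≤ ((10 * M + L).natAbs : ℤ) := by
    rw [Int.natCast_natAbs, Int.natCast_natAbs]
    exact h1.trans (le_abs_self _)
  exact_mod_cast h2

/-- OUTPUT: a matching group of the machine whose group algebra over `F_2` is not directly finite,
torsion-free and with a linear isoperimetric inequality -/
theorem data (hL : Vale.Agent.P201.S.StmtLoc) (hG : Vale.Agent.P201.S.StmtGlob)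
    (hT : Vale.Agent.P201.S.StmtTor) :
    ∃ (S : Vale.Agent.P201.S.Sys) (σ : Equiv.Perm S.C) (e1 : ℝ) (_ : 0 < e1) (Y : ℕ),
      (∀ g : Vale.Agent.P201.S.Gp σ, ∀ m : ℕ, 0 < m → g ^ m = 1 → g = 1) ∧
      (∀ l : List (Vale.Agent.P201.S.Let S × Bool),
        PresentedGroup.mk (Vale.Agent.P201.S.rels σ) (Vale.Agent.P201.S.val l) = 1 →
        ∃ k z, Vale.Agent.P201.S.Expr σ k (Vale.Agent.P201.S.val l) z ∧
          e1 / 2 * k ≤ Vale.Agent.P201.S.wtw Y l) ∧
      ∃ a b : MonoidAlgebra (ZMod 2) (Vale.Agent.P201.S.Gp σ), a * b = 1 ∧ b * a ≠ 1 := by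
  obtain ⟨p, hI, hK, hT0, hW, hQ, hP⟩ := Vale.Agent.P201.Z.PA.Lam.stmtLam20
    (4900 * (3087 * (4 ^ 20) ^ 2 + 782 * 4 ^ 20))
  obtain ⟨M, L, hB, hM⟩ := exists_big p
  obtain ⟨N0, hN0⟩ := Vale.Agent.P201.S.machine hL hG hT (Ok.DD p M) (10 * M + L).natAbs
  have hn : 2 ≤ N0 + 2 := by omega
  have hok : (sys (N0 + 2) hB).Ok (Ok.DD p M) := by
    refine ok_of hB hn ?_
    have h1 := w_of (sys (N0 + 2) hB) (fun r => r) (fun b => b) (fun _ _ h => h) (fun _ _ h => h)
      hB (by omega) (fun q => (PS.pm (q0 (N0 + 2) hB) (bal (N0 + 2) hB) q).2.2)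
      (by rw [sys_card]; exact num_ge hB) hT0
      (4900 * (3087 * (4 ^ 20) ^ 2 + 782 * 4 ^ 20)) (by rw [hI, hK]) hW hQ hP
    rwa [sys_card] at h1
  obtain ⟨e1, he1, Y, σ, htor, hshort, hlin⟩ := hN0 (sys (N0 + 2) hB) hok
    (fun q => sys_ht (N0 + 2) hB q) (by have := le_card (N0 + 2) hB; omega)
  refine ⟨sys (N0 + 2) hB, σ, e1, he1, Y, htor, hlin, ?_⟩
  exact PS.not_df (q0 (N0 + 2) hB) (bal (N0 + 2) hB) (Pq p M) (up M {0, 1, 2}) (fun _ => rfl)
    (fun c => D_not_unit M hM c) σ (t_inj_of_short σ Y hshort)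

/-- P194: a torsion-free group `G` such that `K[G]` is not directly finite, for every field `K` of
characteristic 2 -/
theorem main (hL : Vale.Agent.P201.S.StmtLoc) (hG : Vale.Agent.P201.S.StmtGlob)
    (hT : Vale.Agent.P201.S.StmtTor) :
    ∃ (G : Type) (_ : Group G), (∀ g : G, ∀ m : ℕ, 0 < m → g ^ m = 1 → g = 1) ∧
      ∀ (K : Type u) [Field K] [CharP K 2],
        ∃ a b : MonoidAlgebra K G, a * b = 1 ∧ b * a ≠ 1 := by
  obtain ⟨S, σ, e1, he1, Y, htor, hlin, a, b, hab, hba⟩ := data hL hG hT
  exact ⟨Vale.Agent.P201.S.Gp σ, inferInstance, htor, fun K _ _ => base_change hab hba K⟩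

end Vale.Agent.P194.M
end

section

/-! # P186 from the two statements of the machine (helper6) -/

namespace Vale.Agent.P186.Final

/-- the final theorem of P186 from the two main statements of the machine -/
theorem of_machine (hL : Vale.Agent.P201.S.StmtLoc) (hG : Vale.Agent.P201.S.StmtGlob) :
    ∃ (G : Type) (_ : Group G), (∀ g : G, ∀ m : ℕ, 0 < m → g ^ m = 1 → g = 1) ∧
      Vale.Agent.P186.IsHyperbolicGroup G ∧ ¬ Group.ResiduallyFinite G :=
  main (Vale.Agent.P194.M.data hL hG Vale.Agent.P201.S.stmtTor)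

end Vale.Agent.P186.Final
end

section

/-!
P201, D1: elementary operations on planar complexes, part 1 (helper848): paths, the spur.
-/

namespace Vale.Agent.P201.S

open Finset

/-! ### Paths of darts -/

/-- `l` is a path of darts from `a` to `b` -/
inductive VPth {V E : Type} (o : E × Bool → V) : V → List (E × Bool) → V → Prop
  | nil (a : V) : VPth o a [] a
  | cons (d : E × Bool) (l : List (E × Bool)) (b : V) : VPth o (o (rv d)) l b → VPth o (o d) (d :: l) b

theorem vrv_rv {E : Type} (d : E × Bool) : rv (rv d) = d := by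
  unfold rv
  rw [Bool.not_not]

theorem vrv_inj {E : Type} {d d' : E × Bool} (h : rv d = rv d') : d = d' := by
  rw [← vrv_rv d, h, vrv_rv]

theorem vrv_ne {E : Type} (d : E × Bool) : rv d ≠ d := by
  intro h
  have h1 : (!d.2) = d.2 := congrArg Prod.snd h
  exact Bool.not_ne_self d.2 h1

namespace VPth

variable {V E : Type} {o : E × Bool → V}

theorem nil_iff {a b : V} : VPth o a [] b ↔ a = b := by
  constructor
  · intro h
    cases h
    rfl
  · rintro rfl
    exact nil a

theorem cons_iff {a b : V} {d : E × Bool} {l : List (E × Bool)} :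
    VPth o a (d :: l) b ↔ o d = a ∧ VPth o (o (rv d)) l b := by
  constructor
  · intro h
    cases h with
    | cons _ _ _ h => exact ⟨rfl, h⟩
  · rintro ⟨rfl, h⟩
    exact cons d l b h

theorem append_iff {a b : V} {l1 l2 : List (E × Bool)} :
    VPth o a (l1 ++ l2) b ↔ ∃ c, VPth o a l1 c ∧ VPth o c l2 b := by
  induction l1 generalizing a with
  | nil =>
    rw [List.nil_append]
    constructor
    · intro h
      exact ⟨a, nil a, h⟩
    · rintro ⟨c, h1, h2⟩
      rw [nil_iff] at h1
      rwa [h1]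
  | cons d l ih =>
    rw [List.cons_append, cons_iff, ih]
    constructor
    · rintro ⟨h1, c, h2, h3⟩
      exact ⟨c, cons_iff.2 ⟨h1, h2⟩, h3⟩
    · rintro ⟨c, h1, h3⟩
      obtain ⟨h1, h2⟩ := cons_iff.1 h1
      exact ⟨h1, c, h2, h3⟩

theorem append {a b c : V} {l1 l2 : List (E × Bool)} (h1 : VPth o a l1 b) (h2 : VPth o b l2 c) :
    VPth o a (l1 ++ l2) c := append_iff.2 ⟨b, h1, h2⟩

theorem single (d : E × Bool) : VPth o (o d) [d] (o (rv d)) := cons d [] _ (nil _)

/-- the ends are determined (nonempty lists) -/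
theorem head {a b : V} {l : List (E × Bool)} (h : VPth o a l b) : ∀ d ∈ l.head?, o d = a := by
  cases h with
  | nil => intro d hd; exact absurd hd (by simp)
  | cons d l b h =>
    intro d' hd'
    rw [List.head?_cons, Option.mem_some_iff] at hd'
    rw [← hd']

theorem last {a b : V} {l : List (E × Bool)} (h : VPth o a l b) :
    ∀ d ∈ l.getLast?, o (rv d) = b := by
  induction h with
  | nil => intro d hd; exact absurd hd (by simp)
  | cons d l b h ih =>
    intro d' hd'
    cases l with
    | nil =>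
      rw [List.getLast?_singleton, Option.mem_some_iff] at hd'
      rw [nil_iff] at h
      rw [← hd', h]
    | cons e l =>
      rw [List.getLast?_cons_cons] at hd'
      exact ih d' hd'

theorem chain {a b : V} {l : List (E × Bool)} (h : VPth o a l b) :
    l.IsChain (fun a b => o b = o (rv a)) := by
  induction h with
  | nil => exact List.isChain_nil
  | cons d l b h ih =>
    cases l with
    | nil => exact List.isChain_singleton _
    | cons e l =>
      rw [List.isChain_cons_cons]
      exact ⟨(cons_iff.1 h).1, ih⟩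

/-- from the chain condition -/
theorem of_chain {d : E × Bool} {l : List (E × Bool)}
    (h : (d :: l).IsChain (fun a b => o b = o (rv a))) {b : V}
    (hb : ∀ a ∈ (d :: l).getLast?, o (rv a) = b) : VPth o (o d) (d :: l) b := by
  induction l generalizing d with
  | nil =>
    have h1 := hb d (by simp)
    rw [← h1]
    exact single d
  | cons e l ih =>
    rw [List.isChain_cons_cons] at h
    rw [cons_iff]
    refine ⟨rfl, ?_⟩
    rw [← h.1]
    apply ih h.2
    rwa [List.getLast?_cons_cons] at hb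

theorem map {V' E' : Type} {o' : E' × Bool → V'} {j : V → V'} {i : E × Bool → E' × Bool}
    (hi : ∀ d, i (rv d) = rv (i d)) (ho : ∀ d, o' (i d) = j (o d)) {a b : V}
    {l : List (E × Bool)} (h : VPth o a l b) : VPth o' (j a) (l.map i) (j b) := by
  induction h with
  | nil a => exact nil _
  | cons d l b h ih =>
    rw [List.map_cons, cons_iff]
    refine ⟨ho d, ?_⟩
    rw [← hi, ho]
    exact ih

/-- closed paths satisfy the conditions of `PC` -/
theorem closed {a : V} {l : List (E × Bool)} (h : VPth o a l a) :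
    ∀ x ∈ l.getLast?, ∀ y ∈ l.head?, o y = o (rv x) := by
  intro x hx y hy
  rw [h.head y hy, h.last x hx]

end VPth

namespace PC

variable {A : Type} (K : PC A)

/-- every nonempty face boundary is a closed path -/
theorem exists_vpth' (f : Option K.F) (hf : K.bd f ≠ []) : ∃ a, VPth K.org a (K.bd f) a := by
  obtain ⟨d, l, h⟩ := List.exists_cons_of_ne_nil hf
  refine ⟨K.org d, ?_⟩
  have h1 := K.chain f
  have h2 := K.closed f
  rw [h] at h1 h2 ⊢
  apply VPth.of_chain h1
  intro a ha
  exact (h2 a ha d (by simp)).symm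

/-- the word of a list of darts -/
def vwl (l : List (K.E × Bool)) : List (A × Bool) := l.map (fun d => (K.lab d.1, d.2))

/-- old darts in the complex with one more edge -/
def vdsome {E : Type} (d : E × Bool) : Option E × Bool := (some d.1, d.2)

theorem vdsome_rv {E : Type} (d : E × Bool) : vdsome (rv d) = rv (vdsome d) := rfl

theorem vdsome_inj {E : Type} : Function.Injective (vdsome (E := E)) := by
  intro a b h
  have h1 := congrArg Prod.fst h
  have h2 := congrArg Prod.snd h
  exact Prod.ext (Option.some_inj.1 h1) h2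

theorem vdsome_ne {E : Type} (d : E × Bool) (b : Bool) : vdsome d ≠ (none, b) := by
  intro h
  have h1 := congrArg Prod.fst h
  exact Option.some_ne_none _ h1

theorem count_vdsome {E : Type} [DecidableEq E] (l : List (E × Bool)) (d : E × Bool) :
    (l.map vdsome).count (vdsome d) = l.count d :=
  List.count_map_of_injective l vdsome vdsome_inj d

theorem count_vdnone {E : Type} [DecidableEq E] (l : List (E × Bool)) (b : Bool) :
    (l.map vdsome).count ((none, b) : Option E × Bool) = 0 := by
  rw [List.count_eq_zero]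
  intro h
  obtain ⟨d, _, hd⟩ := List.mem_map.1 h
  exact vdsome_ne d b hd

end PC

end Vale.Agent.P201.S
end

section

/-!
P201, D1: elementary operations on planar complexes, part 2 (helper848): the spur and the face.
-/

namespace Vale.Agent.P201.S

open Finset

/-- the number of occurrences does not depend on the decision procedure -/
theorem vcount_congr {B : Type} (b1 b2 : BEq B) [@LawfulBEq B b1] [@LawfulBEq B b2] (a : B)
    (l : List B) : @List.count B b1 a l = @List.count B b2 a l := by
  have h : b1 = b2 := lawful_beq_subsingleton b1 b2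
  rw [h]

namespace PC

variable {A : Type} (K : PC A)

/-! ### Adding a spur at the vertex `v0` of the outer boundary -/

section spur
variable {K} {r0 v0 : K.V} {l1 l2 : List (K.E × Bool)}

/-- origins in the complex with a spur: dart `(none, s)` from `v0` to the new vertex -/
def spurOrg (K : PC A) (v0 : K.V) (s : Bool) (d : Option K.E × Bool) : Option K.V :=
  d.1.elim (if d.2 = s then some v0 else none) fun e => some (K.org (e, d.2))

theorem spurOrg_some (v0 : K.V) (s : Bool) (d : K.E × Bool) :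
    spurOrg K v0 s (vdsome d) = some (K.org d) := rfl

theorem spurOrg_none (v0 : K.V) (s : Bool) : spurOrg K v0 s (none, s) = some v0 := by
  change (if s = s then some v0 else none) = some v0
  rw [if_pos rfl]

theorem spurOrg_none' (v0 : K.V) (s : Bool) : spurOrg K v0 s (none, !s) = none := by
  change (if (!s) = s then some v0 else none) = none
  rw [if_neg (Bool.not_ne_self s)]

/-- the face boundaries -/
def spurBd (K : PC A) (l1 l2 : List (K.E × Bool)) (s : Bool) (f : Option K.F) :
    List (Option K.E × Bool) :=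
  f.elim (l1.map vdsome ++ (none, s) :: (none, !s) :: l2.map vdsome)
    fun f => (K.bd (some f)).map vdsome

theorem spurBd_none (l1 l2 : List (K.E × Bool)) (s : Bool) :
    spurBd K l1 l2 s none = l1.map vdsome ++ (none, s) :: (none, !s) :: l2.map vdsome := rfl

theorem spurBd_some (l1 l2 : List (K.E × Bool)) (s : Bool) (f : K.F) :
    spurBd K l1 l2 s (some f) = (K.bd (some f)).map vdsome := rfl

/-- the outer boundary of the new complex -/
theorem spur_pth (s : Bool) (h1 : VPth K.org r0 l1 v0) (h2 : VPth K.org v0 l2 r0) :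
    VPth (spurOrg K v0 s) (some r0)
      (l1.map vdsome ++ (none, s) :: (none, !s) :: l2.map vdsome) (some r0) := by
  refine (h1.map (j := some) (o' := spurOrg K v0 s) vdsome_rv (spurOrg_some v0 s)).append ?_
  rw [VPth.cons_iff]
  refine ⟨spurOrg_none v0 s, ?_⟩
  change VPth _ (spurOrg K v0 s (none, !s)) _ _
  rw [VPth.cons_iff]
  refine ⟨rfl, ?_⟩
  have h3 : rv ((none, !s) : Option K.E × Bool) = (none, s) := by
    unfold rv
    rw [Bool.not_not]
  rw [h3, spurOrg_none]
  exact h2.map (j := some) vdsome_rv (spurOrg_some v0 s)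

theorem spur_face (s : Bool) (f : K.F) :
    ∃ a, VPth (spurOrg K v0 s) a (spurBd K l1 l2 s (some f)) a := by
  obtain ⟨a, ha⟩ := K.exists_vpth' (some f) (K.ne f)
  exact ⟨some a, ha.map (j := some) vdsome_rv (spurOrg_some v0 s)⟩

theorem spur_count (s : Bool) (h : K.bd none = l1 ++ l2) (d : Option K.E × Bool) :
    ∑ f, (spurBd K l1 l2 s f).count d = 1 := by
  rw [Fintype.sum_option]
  rcases d with ⟨_ | e, b⟩
  · have h1 : ∀ f : K.F, (spurBd K l1 l2 s (some f)).count ((none, b) : Option K.E × Bool) = 0 :=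
      fun f => count_vdnone _ b
    rw [Finset.sum_congr rfl fun f _ => h1 f, Finset.sum_const_zero, add_zero, spurBd_none,
      List.count_append, count_vdnone, List.count_cons, List.count_cons, count_vdnone]
    cases s <;> cases b <;> simp
  · have h1 : ∀ f : K.F, (spurBd K l1 l2 s (some f)).count (vdsome (e, b)) =
        (K.bd (some f)).count (e, b) := fun f => count_vdsome _ _
    have h2 : (spurBd K l1 l2 s none).count (vdsome (e, b)) = (K.bd none).count (e, b) := by
      rw [spurBd_none, List.count_append, List.count_cons, List.count_cons, count_vdsome,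
        count_vdsome, h, List.count_append]
      simp only [vdsome, beq_iff_eq, Prod.mk.injEq, reduceCtorEq, Bool.not_eq_eq_eq_not, false_and, ↓reduceIte, add_zero, Nat.add_left_cancel_iff]
    have h3 := K.once (e, b)
    rw [Fintype.sum_option] at h3
    change (spurBd K l1 l2 s none).count (vdsome (e, b)) +
      ∑ f : K.F, (spurBd K l1 l2 s (some f)).count (vdsome (e, b)) = 1
    rw [Finset.sum_congr rfl fun f _ => h1 f, h2]
    exact h3

theorem spur_mem (s : Bool) (h : K.bd none = l1 ++ l2) {f : Option K.F} {d : K.E × Bool}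
    (hd : d ∈ K.bd f) : vdsome d ∈ spurBd K l1 l2 s f := by
  cases f with
  | none =>
    rw [spurBd_none]
    rw [h, List.mem_append] at hd
    rw [List.mem_append, List.mem_cons, List.mem_cons]
    rcases hd with hd | hd
    · exact Or.inl (List.mem_map_of_mem hd)
    · exact Or.inr (Or.inr (Or.inr (List.mem_map_of_mem hd)))
  | some f => exact List.mem_map_of_mem hd

/-- the complex with a spur -/
noncomputable def spur (K : PC A) {r0 v0 : K.V} {l1 l2 : List (K.E × Bool)}
    (h : K.bd none = l1 ++ l2) (h1 : VPth K.org r0 l1 v0) (h2 : VPth K.org v0 l2 r0)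
    (a : A) (s : Bool) : PC A where
  V := Option K.V
  E := Option K.E
  F := K.F
  org := spurOrg K v0 s
  lab := fun e => e.elim a K.lab
  bd := spurBd K l1 l2 s
  chain := by
    intro f
    cases f with
    | none => exact (spur_pth s h1 h2).chain
    | some f =>
      obtain ⟨a, ha⟩ := spur_face (K := K) (v0 := v0) (l1 := l1) (l2 := l2) s f
      exact ha.chain
  closed := by
    intro f
    cases f with
    | none => exact (spur_pth s h1 h2).closed
    | some f =>
      obtain ⟨a, ha⟩ := spur_face (K := K) (v0 := v0) (l1 := l1) (l2 := l2) s f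
      exact ha.closed
  once := by
    intro d
    rw [← spur_count s h d]
    exact Finset.sum_congr rfl fun _ _ => vcount_congr _ _ _ _
  ne := fun f hf => K.ne f (List.map_eq_nil_iff.1 hf)
  conn := by
    have h0 : ∀ u v : K.V, Relation.ReflTransGen
        (fun a b => ∃ d, spurOrg K v0 s d = a ∧ spurOrg K v0 s (rv d) = b) (some u) (some v) := by
      intro u v
      refine Relation.ReflTransGen.lift some ?_ _ _ (K.conn u v)
      rintro x y ⟨d, hd, hd'⟩
      exact ⟨vdsome d, by rw [spurOrg_some, hd], by rw [← vdsome_rv, spurOrg_some, hd']⟩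
    have h3 : rv ((none, !s) : Option K.E × Bool) = (none, s) := by
      unfold rv
      rw [Bool.not_not]
    have e1 : Relation.ReflTransGen
        (fun a b => ∃ d, spurOrg K v0 s d = a ∧ spurOrg K v0 s (rv d) = b) none (some v0) :=
      Relation.ReflTransGen.single ⟨(none, !s), spurOrg_none' v0 s, by rw [h3, spurOrg_none]⟩
    have e2 : Relation.ReflTransGen
        (fun a b => ∃ d, spurOrg K v0 s d = a ∧ spurOrg K v0 s (rv d) = b) (some v0) none :=
      Relation.ReflTransGen.single ⟨(none, s), spurOrg_none v0 s, spurOrg_none' v0 s⟩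
    intro u v
    cases u with
    | none =>
      cases v with
      | none => exact Relation.ReflTransGen.refl
      | some v => exact e1.trans (h0 v0 v)
    | some u =>
      cases v with
      | none => exact (h0 u v0).trans e2
      | some v => exact h0 u v
  dconn := by
    intro f g
    refine Relation.ReflTransGen.mono ?_ _ _ (K.dconn f g)
    rintro x y ⟨d, hd, hd'⟩
    exact ⟨vdsome d, spur_mem s h hd, by rw [← vdsome_rv]; exact spur_mem s h hd'⟩
  euler := by
    rw [Fintype.card_option, Fintype.card_option]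
    have := K.euler
    omega

end spur

/-! ### Closing a face: the part `l2` of the outer boundary is cut off by a new edge -/

section face
variable {K} {r0 a0 b0 : K.V} {l1 l2 l3 : List (K.E × Bool)}

/-- origins: the new dart `(none, s)` goes from `a0` to `b0` -/
def faceOrg (K : PC A) (a0 b0 : K.V) (s : Bool) (d : Option K.E × Bool) : K.V :=
  d.1.elim (if d.2 = s then a0 else b0) fun e => K.org (e, d.2)

theorem faceOrg_some (s : Bool) (d : K.E × Bool) : faceOrg K a0 b0 s (vdsome d) = K.org d := rfl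

theorem faceOrg_none (s : Bool) : faceOrg K a0 b0 s (none, s) = a0 := by
  change (if s = s then a0 else b0) = a0
  rw [if_pos rfl]

theorem faceOrg_none' (s : Bool) : faceOrg K a0 b0 s (none, !s) = b0 := by
  change (if (!s) = s then a0 else b0) = b0
  rw [if_neg (Bool.not_ne_self s)]

/-- the face boundaries: `none` the outer face, `some none` the new face -/
def faceBd (K : PC A) (l1 l2 l3 : List (K.E × Bool)) (s : Bool) (f : Option (Option K.F)) :
    List (Option K.E × Bool) :=
  f.elim (l1.map vdsome ++ (none, s) :: l3.map vdsome)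
    fun f => f.elim (l2.map vdsome ++ [(none, !s)]) fun f => (K.bd (some f)).map vdsome

theorem face_pth (s : Bool) (h1 : VPth K.org r0 l1 a0) (h3 : VPth K.org b0 l3 r0) :
    VPth (faceOrg K a0 b0 s) r0 (l1.map vdsome ++ (none, s) :: l3.map vdsome) r0 := by
  refine (h1.map (j := id) (o' := faceOrg K a0 b0 s) vdsome_rv (faceOrg_some s)).append ?_
  rw [VPth.cons_iff]
  refine ⟨faceOrg_none s, ?_⟩
  change VPth _ (faceOrg K a0 b0 s (none, !s)) _ _
  rw [faceOrg_none']
  exact h3.map (j := id) vdsome_rv (faceOrg_some s)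

theorem face_pth' (s : Bool) (h2 : VPth K.org a0 l2 b0) :
    VPth (faceOrg K a0 b0 s) a0 (l2.map vdsome ++ [(none, !s)]) a0 := by
  refine (h2.map (j := id) (o' := faceOrg K a0 b0 s) vdsome_rv (faceOrg_some s)).append ?_
  rw [VPth.cons_iff]
  refine ⟨faceOrg_none' s, ?_⟩
  have h3 : rv ((none, !s) : Option K.E × Bool) = (none, s) := by
    unfold rv
    rw [Bool.not_not]
  rw [h3, faceOrg_none]
  exact VPth.nil _

theorem face_face (s : Bool) (f : K.F) :
    ∃ a, VPth (faceOrg K a0 b0 s) a (faceBd K l1 l2 l3 s (some (some f))) a := by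
  obtain ⟨a, ha⟩ := K.exists_vpth' (some f) (K.ne f)
  exact ⟨a, ha.map (j := id) vdsome_rv (faceOrg_some s)⟩

theorem face_count (s : Bool) (h : K.bd none = l1 ++ l2 ++ l3) (d : Option K.E × Bool) :
    ∑ f, (faceBd K l1 l2 l3 s f).count d = 1 := by
  rw [Fintype.sum_option, Fintype.sum_option]
  rcases d with ⟨_ | e, b⟩
  · have h1 : ∀ f : K.F,
        (faceBd K l1 l2 l3 s (some (some f))).count ((none, b) : Option K.E × Bool) = 0 :=
      fun f => count_vdnone _ b
    have h2 : (faceBd K l1 l2 l3 s none).count ((none, b) : Option K.E × Bool) =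
        if s = b then 1 else 0 := by
      change (l1.map vdsome ++ (none, s) :: l3.map vdsome).count _ = _
      rw [List.count_append, List.count_cons, count_vdnone, count_vdnone]
      cases s <;> cases b <;> simp
    have h3 : (faceBd K l1 l2 l3 s (some none)).count ((none, b) : Option K.E × Bool) =
        if s = b then 0 else 1 := by
      change (l2.map vdsome ++ [(none, !s)]).count _ = _
      rw [List.count_append, List.count_singleton, count_vdnone]
      cases s <;> cases b <;> simp
    rw [Finset.sum_congr rfl fun f _ => h1 f, Finset.sum_const_zero, add_zero, h2, h3]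
    split_ifs <;> rfl
  · have h1 : ∀ f : K.F, (faceBd K l1 l2 l3 s (some (some f))).count (vdsome (e, b)) =
        (K.bd (some f)).count (e, b) := fun f => count_vdsome _ _
    have h2 : (faceBd K l1 l2 l3 s none).count (vdsome (e, b)) +
        (faceBd K l1 l2 l3 s (some none)).count (vdsome (e, b)) = (K.bd none).count (e, b) := by
      change (l1.map vdsome ++ (none, s) :: l3.map vdsome).count _ +
        (l2.map vdsome ++ [(none, !s)]).count _ = _
      rw [List.count_append, List.count_cons, List.count_append, List.count_singleton,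
        count_vdsome, count_vdsome, count_vdsome, h, List.count_append, List.count_append]
      simp only [vdsome, beq_iff_eq, Prod.mk.injEq, reduceCtorEq, false_and, ↓reduceIte, add_zero, Bool.not_eq_eq_eq_not]
      ring
    have h3 := K.once (e, b)
    rw [Fintype.sum_option] at h3
    change (faceBd K l1 l2 l3 s none).count (vdsome (e, b)) +
      ((faceBd K l1 l2 l3 s (some none)).count (vdsome (e, b)) +
      ∑ f : K.F, (faceBd K l1 l2 l3 s (some (some f))).count (vdsome (e, b))) = 1
    rw [Finset.sum_congr rfl fun f _ => h1 f, ← add_assoc, h2]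
    exact h3

/-- the old face of an old dart, or the new face -/
theorem face_mem (s : Bool) (h : K.bd none = l1 ++ l2 ++ l3) {f : Option K.F} {d : K.E × Bool}
    (hd : d ∈ K.bd f) : vdsome d ∈ faceBd K l1 l2 l3 s (f.map some) ∨
      (f = none ∧ vdsome d ∈ faceBd K l1 l2 l3 s (some none)) := by
  cases f with
  | none =>
    rw [h, List.mem_append, List.mem_append] at hd
    rcases hd with (hd | hd) | hd
    · exact Or.inl (List.mem_append_left _ (List.mem_map_of_mem hd))
    · exact Or.inr ⟨rfl, List.mem_append_left _ (List.mem_map_of_mem hd)⟩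
    · exact Or.inl (List.mem_append_right _ (List.mem_cons_of_mem _ (List.mem_map_of_mem hd)))
  | some f => exact Or.inl (List.mem_map_of_mem hd)

/-- the dual adjacency of the new complex -/
def FAdj (K : PC A) (l1 l2 l3 : List (K.E × Bool)) (s : Bool) (a b : Option (Option K.F)) : Prop :=
  ∃ d, d ∈ faceBd K l1 l2 l3 s a ∧ rv d ∈ faceBd K l1 l2 l3 s b

theorem fadj_symm {s : Bool} {a b : Option (Option K.F)} (h : FAdj K l1 l2 l3 s a b) :
    FAdj K l1 l2 l3 s b a := by
  obtain ⟨d, hd, hd'⟩ := h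
  exact ⟨rv d, hd', by rwa [vrv_rv]⟩

theorem fadj_new (s : Bool) : FAdj K l1 l2 l3 s none (some none) :=
  ⟨(none, s), List.mem_append_right _ List.mem_cons_self,
    List.mem_append_right _ List.mem_cons_self⟩

/-- `none` and the new face are joined: every old face stays where it is -/
theorem fadj_old (s : Bool) (h : K.bd none = l1 ++ l2 ++ l3) {x y : Option K.F}
    (hxy : ∃ d, d ∈ K.bd x ∧ rv d ∈ K.bd y) :
    Relation.ReflTransGen (FAdj K l1 l2 l3 s) (x.map some) (y.map some) := by
  obtain ⟨d, hd, hd'⟩ := hxy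
  have key : ∀ {f : Option K.F} {d : K.E × Bool}, d ∈ K.bd f →
      ∃ g, vdsome d ∈ faceBd K l1 l2 l3 s g ∧
        Relation.ReflTransGen (FAdj K l1 l2 l3 s) (f.map some) g ∧
        Relation.ReflTransGen (FAdj K l1 l2 l3 s) g (f.map some) := by
    intro f d hd
    rcases face_mem s h hd with h1 | ⟨rfl, h1⟩
    · exact ⟨_, h1, Relation.ReflTransGen.refl, Relation.ReflTransGen.refl⟩
    · exact ⟨_, h1, Relation.ReflTransGen.single (fadj_new s),
        Relation.ReflTransGen.single (fadj_symm (fadj_new s))⟩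
  obtain ⟨g, g1, g2, _⟩ := key hd
  obtain ⟨g', g1', _, g3'⟩ := key hd'
  exact (g2.tail ⟨vdsome d, g1, by rw [← vdsome_rv]; exact g1'⟩).trans g3'

/-- the complex with a new face -/
noncomputable def addFace (K : PC A) {r0 a0 b0 : K.V} {l1 l2 l3 : List (K.E × Bool)}
    (h : K.bd none = l1 ++ l2 ++ l3) (h1 : VPth K.org r0 l1 a0) (h2 : VPth K.org a0 l2 b0)
    (h3 : VPth K.org b0 l3 r0) (a : A) (s : Bool) : PC A where
  V := K.V
  E := Option K.E
  F := Option K.F
  org := faceOrg K a0 b0 s
  lab := fun e => e.elim a K.lab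
  bd := faceBd K l1 l2 l3 s
  chain := by
    intro f
    rcases f with _ | _ | f
    · exact (face_pth s h1 h3).chain
    · exact (face_pth' s h2).chain
    · obtain ⟨a, ha⟩ := face_face (K := K) (a0 := a0) (b0 := b0) (l1 := l1) (l2 := l2)
        (l3 := l3) s f
      exact ha.chain
  closed := by
    intro f
    rcases f with _ | _ | f
    · exact (face_pth s h1 h3).closed
    · exact (face_pth' s h2).closed
    · obtain ⟨a, ha⟩ := face_face (K := K) (a0 := a0) (b0 := b0) (l1 := l1) (l2 := l2)
        (l3 := l3) s f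
      exact ha.closed
  once := by
    intro d
    rw [← face_count s h d]
    exact Finset.sum_congr rfl fun _ _ => vcount_congr _ _ _ _
  ne := by
    intro f
    cases f with
    | none =>
      intro hf
      have h4 := congrArg List.length hf
      change (l2.map vdsome ++ [((none, !s) : Option K.E × Bool)]).length = 0 at h4
      rw [List.length_append] at h4
      simp at h4
    | some f => exact fun hf => K.ne f (List.map_eq_nil_iff.1 hf)
  conn := by
    intro u v
    refine Relation.ReflTransGen.mono ?_ _ _ (K.conn u v)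
    rintro x y ⟨d, hd, hd'⟩
    exact ⟨vdsome d, hd, hd'⟩
  dconn := by
    have h0 : ∀ f g : Option K.F,
        Relation.ReflTransGen (FAdj K l1 l2 l3 s) (f.map some) (g.map some) := by
      intro f g
      induction K.dconn f g with
      | refl => exact Relation.ReflTransGen.refl
      | tail _ h2 ih => exact ih.trans (fadj_old s h h2)
    have hn : ∀ f : Option (Option K.F), Relation.ReflTransGen (FAdj K l1 l2 l3 s) none f := by
      intro f
      rcases f with _ | _ | f
      · exact Relation.ReflTransGen.refl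
      · exact Relation.ReflTransGen.single (fadj_new s)
      · exact h0 none (some f)
    have hn' : ∀ f : Option (Option K.F), Relation.ReflTransGen (FAdj K l1 l2 l3 s) f none := by
      intro f
      rcases f with _ | _ | f
      · exact Relation.ReflTransGen.refl
      · exact Relation.ReflTransGen.single (fadj_symm (fadj_new s))
      · exact h0 (some f) none
    intro f g
    exact (hn' f).trans (hn g)
  euler := by
    rw [Fintype.card_option, Fintype.card_option]
    have := K.euler
    omega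

end face

end PC

end Vale.Agent.P201.S
end

section

/-!
P201, D1 (O1)-(O3) (helper848): VK1 (spur), VK2 (new face), and VK0: every expression is realised by
a planar complex with a (not reduced) outer word.
-/

namespace Vale.Agent.P201.S

open Finset

section words
variable {A : Type}

theorem vval_append (l l' : List (A × Bool)) : val (l ++ l') = val l * val l' :=
  (FreeGroup.mul_mk (L₁ := l) (L₂ := l')).symm

theorem vval_winv (l : List (A × Bool)) : val (winv l) = (val l)⁻¹ :=
  (FreeGroup.inv_mk (L := l)).symm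

theorem vwinv_winv (l : List (A × Bool)) : winv (winv l) = l := FreeGroup.invRev_invRev

theorem vwinv_append (l l' : List (A × Bool)) : winv (l ++ l') = winv l' ++ winv l := by
  unfold winv
  rw [List.map_append, List.reverse_append]

theorem vwinv_cons (a : A × Bool) (l : List (A × Bool)) :
    winv (a :: l) = winv l ++ [(a.1, !a.2)] := by
  unfold winv
  rw [List.map_cons, List.reverse_cons]

theorem vwinv_nil : winv ([] : List (A × Bool)) = [] := rfl

theorem vmap_spur {E : Type} (lab : E → A) (a : A) (s : Bool) (l1 l2 : List (E × Bool)) :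
    (l1.map PC.vdsome ++ (none, s) :: (none, !s) :: l2.map PC.vdsome).map
      (fun d : Option E × Bool => ((d.1.elim a lab, d.2) : A × Bool)) =
    l1.map (fun d => (lab d.1, d.2)) ++ (a, s) :: (a, !s) :: l2.map (fun d => (lab d.1, d.2)) := by
  rw [List.map_append, List.map_cons, List.map_cons, List.map_map, List.map_map]
  rfl

theorem vmap_face {E : Type} (lab : E → A) (a : A) (s : Bool) (l1 l2 : List (E × Bool)) :
    (l1.map PC.vdsome ++ (none, s) :: l2.map PC.vdsome).map
      (fun d : Option E × Bool => ((d.1.elim a lab, d.2) : A × Bool)) =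
    l1.map (fun d => (lab d.1, d.2)) ++ (a, s) :: l2.map (fun d => (lab d.1, d.2)) := by
  rw [List.map_append, List.map_cons, List.map_map, List.map_map]
  rfl

end words

variable {S : Sys} {σ : Equiv.Perm S.C}

/-- value in the group -/
noncomputable def vgv (σ : Equiv.Perm S.C) (l : List (Let S × Bool)) : Gp σ :=
  PresentedGroup.mk (rels σ) (val l)

theorem vgv_append (l l' : List (Let S × Bool)) : vgv σ (l ++ l') = vgv σ l * vgv σ l' := by
  unfold vgv
  rw [vval_append, map_mul]

theorem vgv_winv (l : List (Let S × Bool)) : vgv σ (winv l) = (vgv σ l)⁻¹ := by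
  unfold vgv
  rw [vval_winv, map_inv]

theorem vgv_nil : vgv σ [] = 1 := map_one _

theorem vgv_relw (q : Port S) : vgv σ (relw σ q) = 1 := by
  unfold vgv
  exact PresentedGroup.one_of_mem ⟨q, rfl⟩

/-- potentials along a path -/
theorem vpot_path {K : SqK σ} (P : K.GPot) {a b : K.V} {l : List (K.E × Bool)}
    (h : VPth K.org a l b) : P.π a * vgv σ (l.map (fun d => (K.lab d.1, d.2))) = P.π b := by
  induction h with
  | nil a => rw [List.map_nil, vgv_nil, mul_one]
  | cons d l b h ih =>
    have h1 : ((d :: l).map (fun d => (K.lab d.1, d.2))) =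
        [(K.lab d.1, d.2)] ++ l.map (fun d => (K.lab d.1, d.2)) := rfl
    rw [h1, vgv_append, ← mul_assoc]
    have h2 : P.π (K.org d) * vgv σ [(K.lab d.1, d.2)] = P.π (K.org (rv d)) := P.st d
    rw [h2, ih]

/-- the contribution of a face to the chain -/
theorem vface_chn {V E : Type} {o : E × Bool → V} {a b : V} {l : List (E × Bool)} (h : VPth o a l b)
    (hl : l ≠ []) {M : Type} [AddCommMonoid M] (F : V → M) :
    ∑ d ∈ (l.head?).toFinset, F (o d) = F a := by
  obtain ⟨d, l', rfl⟩ := List.exists_cons_of_ne_nil hl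
  rw [List.head?_cons, Option.toFinset_some, Finset.sum_singleton, h.head d (by simp)]

/-- the point -/
def vpoint (σ : Equiv.Perm S.C) : SqK σ where
  V := Unit
  E := Empty
  F := Empty
  org := fun _ => ()
  lab := fun e => e.elim
  bd := fun _ => []
  chain := fun _ => List.isChain_nil
  closed := fun _ a ha => absurd ha (by simp)
  once := fun d => d.1.elim
  ne := fun f => f.elim
  conn := fun _ _ => Relation.ReflTransGen.refl
  dconn := by
    rintro (_ | f) (_ | g)
    · exact Relation.ReflTransGen.refl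
    · exact g.elim
    · exact f.elim
    · exact f.elim
  euler := by simp
  q := fun f => f.elim
  sq := fun f => f.elim

/-- VK0: the empty word -/
theorem real_nil (σ : Equiv.Perm S.C) : Real σ [] 0 0 := by
  let P : (vpoint σ).GPot :=
    { π := fun _ => 1
      st := fun d => d.1.elim
      base := fun d => d.1.elim }
  refine ⟨vpoint σ, P, Fintype.card_empty, rfl, ?_⟩
  unfold SqK.chn
  exact Finset.sum_empty

theorem vnonempty {A : Type} (K : PC A) : Nonempty K.V := by
  by_contra hV
  rw [not_nonempty_iff] at hV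
  have hE : IsEmpty K.E := ⟨fun e => hV.false (K.org (e, true))⟩
  have h1 := K.euler
  rw [Fintype.card_eq_zero_iff.2 hV, Fintype.card_eq_zero_iff.2 hE] at h1
  have h2 : 0 < Fintype.card K.F := by omega
  obtain ⟨f⟩ := Fintype.card_pos_iff.1 h2
  obtain ⟨d, l, hd⟩ := List.exists_cons_of_ne_nil (K.ne f)
  exact hE.false d.1

theorem vempty_faces {A : Type} (K : PC A) (h : K.bd none = []) : IsEmpty K.F := by
  constructor
  intro f
  have h1 := K.dconn none (some f)
  rcases Relation.ReflTransGen.cases_head h1 with h2 | ⟨c, ⟨d, hd, _⟩, _⟩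
  · cases h2
  · rw [h] at hd
    cases hd

/-- normal form of a realisation: closed outer path at a root `r0` of potential `1` -/
theorem Real.vdata {w : List (Let S × Bool)} {k : ℕ} {z : Chn σ} (h : Real σ (winv w) k z) :
    ∃ (K : SqK σ) (P : K.GPot) (r0 : K.V), VPth K.org r0 (K.bd none) r0 ∧ K.toPC.wd none = w ∧
      P.π r0 = 1 ∧ Fintype.card K.F = k ∧ K.chn P univ = z := by
  obtain ⟨K, P, hk, hw, hz⟩ := h
  have hw' : K.toPC.wd none = w := by
    have h1 := congrArg winv hw
    rw [SqK.outw, vwinv_winv, vwinv_winv] at h1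
    exact h1
  by_cases h0 : K.bd none = []
  · obtain ⟨r0⟩ := vnonempty K.toPC
    have hF : IsEmpty K.F := vempty_faces K.toPC h0
    let P' : K.GPot :=
      { π := fun v => (P.π r0)⁻¹ * P.π v
        st := fun d => by rw [mul_assoc, P.st d]
        base := fun d hd => by
          rw [h0] at hd
          simp at hd }
    refine ⟨K, P', r0, ?_, hw', inv_mul_cancel _, hk, ?_⟩
    · rw [h0]
      exact VPth.nil _
    · rw [← hz]
      unfold SqK.chn
      rw [Finset.univ_eq_empty, Finset.sum_empty, Finset.sum_empty]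
  · obtain ⟨r0, hr⟩ := K.toPC.exists_vpth' none h0
    refine ⟨K, P, r0, hr, hw', ?_, hk, hz⟩
    obtain ⟨d, l, hd⟩ := List.exists_cons_of_ne_nil h0
    have h1 : d ∈ (K.bd none).head? := by rw [hd]; simp
    rw [← hr.head d h1]
    exact P.base d h1

/-- adding a spur -/
theorem vk_spur {K : SqK σ} (P : K.GPot) {r0 v0 : K.V} {l1 l2 : List (K.E × Bool)}
    (hb : K.bd none = l1 ++ l2) (h1 : VPth K.org r0 l1 v0) (h2 : VPth K.org v0 l2 r0)
    (hr : P.π r0 = 1) (a : Let S × Bool) :
    ∃ (K' : SqK σ) (P' : K'.GPot), Fintype.card K'.F = Fintype.card K.F ∧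
      K'.toPC.wd none = l1.map (fun d => (K.lab d.1, d.2)) ++ a :: (a.1, !a.2) ::
        l2.map (fun d => (K.lab d.1, d.2)) ∧
      K'.chn P' univ = K.chn P univ := by
  let K' : SqK σ :=
    { toPC := K.toPC.spur hb h1 h2 a.1 a.2
      q := K.q
      sq := fun f => by
        rw [← K.sq f]
        exact List.map_map }
  let π' : Option K.V → Gp σ := fun v => v.elim (P.π v0 * vgv σ [a]) P.π
  have hn1 : π' (K'.org ((none : Option K.E), a.2)) = P.π v0 := by
    change π' (PC.spurOrg K.toPC v0 a.2 (none, a.2)) = _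
    rw [PC.spurOrg_none]
    rfl
  have hn2 : π' (K'.org ((none : Option K.E), !a.2)) = P.π v0 * vgv σ [a] := by
    change π' (PC.spurOrg K.toPC v0 a.2 (none, !a.2)) = _
    rw [PC.spurOrg_none']
    rfl
  have hst : ∀ d : K'.E × Bool, π' (K'.org d) * PresentedGroup.mk (rels σ) (K'.toPC.lt d) =
      π' (K'.org (rv d)) := by
    rintro ⟨_ | e, b⟩
    · by_cases hba : b = a.2
      · subst hba
        have h3 : π' (K'.org (rv ((none : Option K.E), a.2))) = P.π v0 * vgv σ [a] := hn2
        rw [hn1, h3]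
        rfl
      · have hba' : b = !a.2 := by
          cases b <;> cases h : a.2 <;> simp_all
        subst hba'
        have h3 : π' (K'.org (rv ((none : Option K.E), !a.2))) = P.π v0 := by
          rw [← hn1]
          unfold rv
          simp only [Bool.not_not]
        rw [hn2, h3, mul_assoc]
        have h4 : PresentedGroup.mk (rels σ) (K'.toPC.lt ((none : Option K.E), !a.2)) =
            (vgv σ [a])⁻¹ := by
          rw [← vgv_winv]
          rfl
        rw [h4, mul_inv_cancel, mul_one]
    · exact P.st (e, b)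
  have hp : VPth K'.org (some r0) (K'.bd none) (some r0) := PC.spur_pth a.2 h1 h2
  let P' : K'.GPot :=
    { π := π'
      st := hst
      base := fun d hd => by
        rw [hp.head d hd]
        exact hr }
  refine ⟨K', P', rfl, ?_, ?_⟩
  · exact vmap_spur K.lab a.1 a.2 l1 l2
  · unfold SqK.chn
    refine Finset.sum_congr rfl fun f _ => ?_
    obtain ⟨b, hb'⟩ := K.toPC.exists_vpth' (some f) (K.ne f)
    rw [vface_chn hb' (K.ne f) (fun v => pch σ (P.π v) (K.q f))]
    have h5 : VPth K'.org (some b) (K'.bd (some f)) (some b) :=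
      hb'.map (j := some) PC.vdsome_rv (PC.spurOrg_some v0 a.2)
    exact vface_chn h5 (K'.ne f) (fun v => pch σ (P'.π v) (K'.q f))

/-- adding a face -/
theorem vk_face {K : SqK σ} (P : K.GPot) {r0 a0 b0 : K.V} {l1 l2 l3 : List (K.E × Bool)}
    (hb : K.bd none = l1 ++ l2 ++ l3) (h1 : VPth K.org r0 l1 a0) (h2 : VPth K.org a0 l2 b0)
    (h3 : VPth K.org b0 l3 r0) (hr : P.π r0 = 1) (a : Let S × Bool) (q : Port S)
    (hq : relw σ q = l2.map (fun d => (K.lab d.1, d.2)) ++ [(a.1, !a.2)]) :
    ∃ (K' : SqK σ) (P' : K'.GPot), Fintype.card K'.F = Fintype.card K.F + 1 ∧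
      K'.toPC.wd none = l1.map (fun d => (K.lab d.1, d.2)) ++ a ::
        l3.map (fun d => (K.lab d.1, d.2)) ∧
      K'.chn P' univ = pch σ (P.π a0) q + K.chn P univ := by
  let K' : SqK σ :=
    { toPC := K.toPC.addFace hb h1 h2 h3 a.1 a.2
      q := fun f => f.elim q K.q
      sq := fun f => by
        cases f with
        | none =>
          exact (vmap_face K.lab a.1 (!a.2) l2 []).trans hq.symm
        | some f =>
          change _ = relw σ (K.q f)
          rw [← K.sq f]
          exact List.map_map }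
  have hab : P.π a0 * vgv σ [a] = P.π b0 := by
    have h4 := vgv_relw (σ := σ) q
    have h5 : vgv σ [(a.1, !a.2)] = (vgv σ [a])⁻¹ := by
      rw [← vgv_winv]
      rfl
    rw [hq, vgv_append, h5, mul_inv_eq_one] at h4
    rw [← h4]
    exact vpot_path P h2
  have hn1 : P.π (K'.org ((none : Option K.E), a.2)) = P.π a0 := by
    change P.π (PC.faceOrg K.toPC a0 b0 a.2 (none, a.2)) = _
    rw [PC.faceOrg_none]
  have hn2 : P.π (K'.org ((none : Option K.E), !a.2)) = P.π b0 := by
    change P.π (PC.faceOrg K.toPC a0 b0 a.2 (none, !a.2)) = _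
    rw [PC.faceOrg_none']
  have hst : ∀ d : K'.E × Bool, P.π (K'.org d) * PresentedGroup.mk (rels σ) (K'.toPC.lt d) =
      P.π (K'.org (rv d)) := by
    rintro ⟨_ | e, b⟩
    · by_cases hba : b = a.2
      · subst hba
        have h3 : P.π (K'.org (rv ((none : Option K.E), a.2))) = P.π b0 := hn2
        rw [hn1, h3]
        exact hab
      · have hba' : b = !a.2 := by
          cases b <;> cases h : a.2 <;> simp_all
        subst hba'
        have h3 : P.π (K'.org (rv ((none : Option K.E), !a.2))) = P.π a0 := by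
          rw [← hn1]
          unfold rv
          simp only [Bool.not_not]
        rw [hn2, h3, ← hab, mul_assoc]
        have h4 : PresentedGroup.mk (rels σ) (K'.toPC.lt ((none : Option K.E), !a.2)) =
            (vgv σ [a])⁻¹ := by
          rw [← vgv_winv]
          rfl
        rw [h4, mul_inv_cancel, mul_one]
    · exact P.st (e, b)
  have hp : VPth K'.org r0 (K'.bd none) r0 := PC.face_pth a.2 h1 h3
  let P' : K'.GPot :=
    { π := P.π
      st := hst
      base := fun d hd => by
        rw [hp.head d hd]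
        exact hr }
  refine ⟨K', P', Fintype.card_option, ?_, ?_⟩
  · exact vmap_face K.lab a.1 a.2 l1 l3
  · unfold SqK.chn
    change ∑ f : Option K.F, _ = _
    rw [Fintype.sum_option]
    congr 1
    · have h5 : VPth K'.org a0 (K'.bd (some none)) a0 := PC.face_pth' a.2 h2
      exact vface_chn h5 (K'.ne none) (fun v => pch σ (P'.π v) q)
    · refine Finset.sum_congr rfl fun f _ => ?_
      obtain ⟨b, hb'⟩ := K.toPC.exists_vpth' (some f) (K.ne f)
      rw [vface_chn hb' (K.ne f) (fun v => pch σ (P.π v) (K.q f))]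
      have h5 : VPth K'.org b (K'.bd (some (some f))) b :=
        hb'.map (j := id) PC.vdsome_rv (PC.faceOrg_some a.2)
      exact vface_chn h5 (K'.ne (some f)) (fun v => pch σ (P'.π v) (K.q f))

theorem stmtVK1 : StmtVK1 := by
  intro S σ l1 l2 a k z h
  have h0 : l1 ++ l2 = winv (winv l2 ++ winv l1) := by
    rw [vwinv_append, vwinv_winv, vwinv_winv]
  rw [h0] at h
  obtain ⟨K, P, r0, hp, hw, hr, hk, hz⟩ := h.vdata
  obtain ⟨m1, m2, hm, hm1, hm2⟩ := List.map_eq_append_iff.1 hw
  have hp' := hp
  rw [hm, VPth.append_iff] at hp'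
  obtain ⟨v0, hp1, hp2⟩ := hp'
  obtain ⟨K', P', hF, hw', hz'⟩ := vk_spur P hm hp1 hp2 hr a
  refine ⟨K', P', hF.trans hk, ?_, hz'.trans hz⟩
  rw [SqK.outw, hw', hm1, hm2, vwinv_append, vwinv_cons, vwinv_cons, vwinv_winv, vwinv_winv]
  simp [List.append_assoc]

theorem vreal_pairs {l1 l2 : List (Let S × Bool)} {k : ℕ} {z : Chn σ} (c : List (Let S × Bool))
    (h : Real σ (l1 ++ l2) k z) : Real σ (l1 ++ c ++ (winv c ++ l2)) k z := by
  induction c generalizing l1 l2 with
  | nil => simpa [winv] using h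
  | cons x c ih =>
    have h1 := stmtVK1 S σ l1 l2 x k z h
    have h2 : l1 ++ x :: (x.1, !x.2) :: l2 = (l1 ++ [x]) ++ ((x.1, !x.2) :: l2) := by simp
    rw [h2] at h1
    have h3 := ih h1
    rw [vwinv_cons]
    have h4 : l1 ++ x :: c ++ (winv c ++ [(x.1, !x.2)] ++ l2) =
        l1 ++ [x] ++ c ++ (winv c ++ (x.1, !x.2) :: l2) := by simp
    rw [h4]
    exact h3

theorem stmtVK2 : StmtVK2 := by
  intro S σ l1 l2 q k z h
  have hne : relw σ q ≠ [] := by
    unfold relw half
    simp
  obtain ⟨c, b, hc⟩ : ∃ c b, relw σ q = c ++ [b] :=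
    ⟨_, _, (List.dropLast_append_getLast hne).symm⟩
  have h1 := vreal_pairs c h
  have h0 : l1 ++ c ++ (winv c ++ l2) = winv (winv l2 ++ c ++ (winv c ++ winv l1)) := by
    simp only [vwinv_append, vwinv_winv, List.append_assoc]
  rw [h0] at h1
  obtain ⟨K, P, r0, hp, hw, hr, hk, hz⟩ := h1.vdata
  obtain ⟨m12, m3, hm, hm12, hm3⟩ := List.map_eq_append_iff.1 hw
  obtain ⟨m1, m2, hm', hm1, hm2⟩ := List.map_eq_append_iff.1 hm12
  subst hm'
  have hp' := hp
  rw [hm, VPth.append_iff] at hp'
  obtain ⟨b0, hp12, hp3⟩ := hp'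
  rw [VPth.append_iff] at hp12
  obtain ⟨a0, hp1, hp2⟩ := hp12
  have hq : relw σ q = m2.map (fun d => (K.lab d.1, d.2)) ++ [((b.1, !b.2).1, !(b.1, !b.2).2)] := by
    rw [hc, hm2]
    simp
  obtain ⟨K', P', hF, hw', hz'⟩ := vk_face P hm hp1 hp2 hp3 hr (b.1, !b.2) q hq
  refine ⟨K', P', by rw [hF, hk], ?_, ?_⟩
  · rw [SqK.outw, hw', hm1, hm3, hc, vwinv_append, vwinv_cons, vwinv_append, vwinv_winv, vwinv_winv,
      vwinv_winv]
    simp [List.append_assoc]
  · rw [hz', hz]
    congr 2
    have h5 := vpot_path P hp1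
    rw [hr, one_mul, hm1, vgv_winv] at h5
    have h6 := vpot_path P hp
    rw [hr, one_mul] at h6
    have h7 : vgv σ (winv l2 ++ c ++ (winv c ++ winv l1)) = 1 := by
      rw [← hw]
      exact h6
    rw [vgv_append, vgv_append, vgv_append, vgv_winv, vgv_winv, vgv_winv] at h7
    rw [← h5]
    have h8 : (vgv σ l2)⁻¹ * (vgv σ l1)⁻¹ = 1 := by
      rw [← h7]
      group
    have h9 : (vgv σ l2)⁻¹ = vgv σ l1 := by
      rw [mul_eq_one_iff_eq_inv, inv_inv] at h8
      exact h8
    rw [h9]
    rfl

/-- VK0: every expression is realised by a complex (the outer word need not be reduced) -/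
theorem stmtVK0 : StmtVK0 := stmtVK0_of (fun _ σ => real_nil σ) stmtVK1 stmtVK2

end Vale.Agent.P201.S
end

section

/-!
P201, part D1 (VK3): removal of a spur `d, rv d` from the outer face.
-/

namespace Vale.Agent.P201.S.Fold

open Finset

section top

variable {A : Type} (K : PC A)

theorem vk3_rv_rv {E : Type} (x : E × Bool) : rv (rv x) = x := by
  obtain ⟨e, b⟩ := x
  simp [rv]

theorem vk3_rv_ne {E : Type} (x : E × Bool) : rv x ≠ x := by
  obtain ⟨e, b⟩ := x
  cases b <;> simp [rv]

theorem vk3_eq_or {E : Type} (x d : E × Bool) (h : x.1 = d.1) : x = d ∨ x = rv d := by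
  obtain ⟨e, b⟩ := x
  obtain ⟨e', b'⟩ := d
  simp only at h
  subst h
  cases b <;> cases b' <;> simp [rv]

/-- a dart lies in exactly one list, once -/
theorem vk3_uniq (x : K.E × Bool) (f g : Option K.F) (hf : x ∈ K.bd f) (hg : x ∈ K.bd g) :
    f = g := by
  by_contra hfg
  have h4 := K.once x
  have h5 : 1 ≤ (K.bd f).count x := List.one_le_count_iff.2 hf
  have h6 : 1 ≤ (K.bd g).count x := List.one_le_count_iff.2 hg
  rw [← Finset.add_sum_erase _ _ (Finset.mem_univ f)] at h4
  have h7 : (K.bd g).count x ≤ ∑ f' ∈ univ.erase f, (K.bd f').count x :=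
    Finset.single_le_sum (f := fun f' => (K.bd f').count x) (fun _ _ => Nat.zero_le _)
      (Finset.mem_erase.2 ⟨fun h => hfg h.symm, Finset.mem_univ _⟩)
  omega

theorem vk3_count_le (x : K.E × Bool) (f : Option K.F) : (K.bd f).count x ≤ 1 := by
  rw [← K.once x]
  exact Finset.single_le_sum (f := fun f' => (K.bd f').count x) (fun _ _ => Nat.zero_le _)
    (Finset.mem_univ f)

theorem vk3_face (x : K.E × Bool) : ∃ f, x ∈ K.bd f := by
  by_contra h
  push Not at h
  have h4 := K.once x
  rw [Finset.sum_eq_zero (fun f _ => List.count_eq_zero_of_not_mem (h f))] at h4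
  omega

variable {K}

/-- at the end of a spur there is no other dart -/
theorem vk3_only (d : K.E × Bool) (l1 l2 : List (K.E × Bool))
    (h : K.bd none = l1 ++ d :: rv d :: l2) (x : K.E × Bool) (hx : K.org x = K.org (rv d)) :
    x = rv d := by
  classical
  by_contra hxd
  -- `d`, `rv d` are not in `l1`, `l2`
  have hc1 : (K.bd none).count d ≤ 1 := vk3_count_le K d none
  have hc2 : (K.bd none).count (rv d) ≤ 1 := vk3_count_le K (rv d) none
  rw [h, List.count_append, List.count_cons_self, List.count_cons_of_ne (vk3_rv_ne d)] at hc1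
  rw [h, List.count_append, List.count_cons_of_ne (vk3_rv_ne d).symm, List.count_cons_self] at hc2
  have hd1 : d ∉ l1 := fun hh => by have := List.one_le_count_iff.2 hh; omega
  have hd2 : d ∉ l2 := fun hh => by have := List.one_le_count_iff.2 hh; omega
  have hr1 : rv d ∉ l1 := fun hh => by have := List.one_le_count_iff.2 hh; omega
  have hr2 : rv d ∉ l2 := fun hh => by have := List.one_le_count_iff.2 hh; omega
  have hdn : d ∈ K.bd none := by rw [h]; simp
  have hrn : rv d ∈ K.bd none := by rw [h]; simp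
  -- the split complex
  let o : K.E × Bool → Option K.V := fun y => if y = rv d then none else some (K.org y)
  have ho1 : ∀ y, y ≠ rv d → o y = some (K.org y) := fun y hy => if_neg hy
  have ho2 : o (rv d) = none := if_pos rfl
  have hod : o d = some (K.org d) := ho1 d (vk3_rv_ne d).symm
  have hstep : ∀ a b : K.E × Bool, a ≠ d → b ≠ rv d → K.org b = K.org (rv a) → o b = o (rv a) := by
    intro a b ha hb hab
    rw [ho1 b hb, ho1 (rv a) (fun h => ha (by rw [← vk3_rv_rv a, h, vk3_rv_rv])), hab]
  have hchl : ∀ l : List (K.E × Bool), d ∉ l → rv d ∉ l →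
      l.IsChain (fun a b => K.org b = K.org (rv a)) → l.IsChain (fun a b => o b = o (rv a)) := by
    intro l
    induction l with
    | nil => intro _ _ _; exact List.isChain_nil
    | cons a t ih =>
      intro h1 h2 h3
      cases t with
      | nil => exact List.isChain_singleton _
      | cons b s =>
        rw [List.isChain_cons_cons] at h3 ⊢
        refine ⟨hstep a b ?_ ?_ h3.1, ih ?_ ?_ h3.2⟩
        · rintro rfl; exact h1 (List.mem_cons_self ..)
        · rintro rfl; exact h2 (List.mem_cons_of_mem _ (List.mem_cons_self ..))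
        · exact fun hh => h1 (List.mem_cons_of_mem _ hh)
        · exact fun hh => h2 (List.mem_cons_of_mem _ hh)
  have hch : ∀ f, (K.bd f).IsChain (fun a b => o b = o (rv a)) := by
    intro f
    cases f with
    | some f =>
      refine hchl _ (fun hh => ?_) (fun hh => ?_) (K.chain _)
      · exact absurd (vk3_uniq K d (some f) none hh hdn) (by simp)
      · exact absurd (vk3_uniq K (rv d) (some f) none hh hrn) (by simp)
    | none =>
      have hc := K.chain none
      rw [h] at hc ⊢
      rw [List.isChain_append] at hc ⊢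
      obtain ⟨hc1', hc2', hc3'⟩ := hc
      refine ⟨hchl l1 hd1 hr1 hc1', ?_, ?_⟩
      · rw [List.isChain_cons_cons] at hc2' ⊢
        refine ⟨rfl, ?_⟩
        cases l2 with
        | nil => exact List.isChain_singleton _
        | cons b s =>
          rw [List.isChain_cons_cons] at hc2' ⊢
          refine ⟨hstep (rv d) b (vk3_rv_ne d) (fun hb => hr2 ?_) hc2'.2.1,
            hchl _ hd2 hr2 hc2'.2.2⟩
          rw [← hb]; exact List.mem_cons_self ..
      · intro x' hx' y hy
        have hy' : y = d := by simpa using hy.symm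
        subst hy'
        refine hstep x' y (fun hx'd => hd1 ?_) (vk3_rv_ne y).symm (hc3' x' hx' y rfl)
        rw [← hx'd]
        exact List.mem_of_getLast? hx'
  have hcl : ∀ f, ∀ a ∈ (K.bd f).getLast?, ∀ b ∈ (K.bd f).head?, o b = o (rv a) := by
    intro f a ha b hb
    refine hstep a b ?_ ?_ (K.closed f a ha b hb)
    · rintro rfl
      have h1 := List.mem_of_getLast? ha
      have h2 := vk3_uniq K a f none h1 hdn
      subst h2
      rw [h] at ha
      have h3 : l1 ++ a :: rv a :: l2 = (l1 ++ [a]) ++ (rv a :: l2) := by simp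
      rw [h3, List.getLast?_append_of_ne_nil _ (List.cons_ne_nil _ _)] at ha
      have h4 := List.mem_of_getLast? ha
      rcases List.mem_cons.1 h4 with h5 | h5
      · exact vk3_rv_ne a h5.symm
      · exact hd2 h5
    · rintro rfl
      have h1 := List.mem_of_mem_head? hb
      have h2 := vk3_uniq K (rv d) f none h1 hrn
      subst h2
      rw [h] at hb
      cases l1 with
      | nil =>
        have : rv d = d := by simpa using hb.symm
        exact vk3_rv_ne d this
      | cons b s =>
        have : b = rv d := by simpa using hb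
        exact hr1 (by rw [← this]; exact List.mem_cons_self ..)
  let R : Option K.V → Option K.V → Prop := fun a b => ∃ y, o y = a ∧ o (rv y) = b
  have hsym : ∀ a b, R a b → R b a := by
    rintro a b ⟨y, h1, h2⟩
    exact ⟨rv y, h2, by rw [vk3_rv_rv]; exact h1⟩
  have hT : ∀ a b, Relation.ReflTransGen R a b → Relation.ReflTransGen R b a := by
    intro a b hab
    induction hab with
    | refl => exact Relation.ReflTransGen.refl
    | tail _ h1 ih => exact (Relation.ReflTransGen.single (hsym _ _ h1)).trans ih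
  have hnc : ¬ ∀ u v : Option K.V, Relation.ReflTransGen R u v := by
    intro hcon
    have h1 := fold_euler_le o K.bd hch hcl K.once none hcon K.dconn
    rw [Fintype.card_option] at h1
    have h2 := K.euler
    omega
  have hq : ¬ Relation.ReflTransGen R (some (K.org (rv d))) (some (K.org d)) := by
    intro hqp
    apply hnc
    have hall : ∀ v : K.V, Relation.ReflTransGen R (some (K.org d)) (some v) := by
      intro v
      induction K.conn (K.org d) v with
      | refl => exact Relation.ReflTransGen.refl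
      | tail _ hst ih =>
        obtain ⟨y, hya, hyb⟩ := hst
        by_cases hy1 : y = rv d
        · subst hy1
          rw [vk3_rv_rv] at hyb
          rw [← hyb]
        · by_cases hy2 : y = d
          · subst hy2
            rw [← hyb]
            exact hT _ _ hqp
          · refine ih.tail ⟨y, ?_, ?_⟩
            · rw [ho1 y hy1, hya]
            · rw [ho1 (rv y) (fun hh => hy2 (by rw [← vk3_rv_rv y, hh, vk3_rv_rv])), hyb]
    have hall2 : ∀ v : Option K.V, Relation.ReflTransGen R (some (K.org d)) v := by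
      intro v
      cases v with
      | some v => exact hall v
      | none =>
        exact Relation.ReflTransGen.single ⟨d, hod, ho2⟩
    intro u v
    exact (hT _ _ (hall2 u)).trans (hall2 v)
  have hface0 : ∀ (l : List (K.E × Bool)) (a : K.E × Bool),
      (a :: l).IsChain (fun a b => o b = o (rv a)) → ∀ y ∈ a :: l,
      Relation.ReflTransGen R (o a) (o y) := by
    intro l
    induction l with
    | nil =>
      intro a _ y hy
      have : y = a := by simpa using hy
      subst this
      exact Relation.ReflTransGen.refl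
    | cons b s ih =>
      intro a hc y hy
      rw [List.isChain_cons_cons] at hc
      rcases List.mem_cons.1 hy with h1 | h1
      · subst h1; exact Relation.ReflTransGen.refl
      · refine Relation.ReflTransGen.head (b := o b) ⟨a, rfl, hc.1.symm⟩ (ih b hc.2 y h1)
  have hface : ∀ f, ∀ y ∈ K.bd f, ∀ y' ∈ K.bd f, Relation.ReflTransGen R (o y) (o y') := by
    intro f y hy y' hy'
    have hc := hch f
    cases hl : K.bd f with
    | nil => rw [hl] at hy; simp at hy
    | cons a l =>
      rw [hl] at hc hy hy'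
      exact (hT _ _ (hface0 l a hc y hy)).trans (hface0 l a hc y' hy')
  obtain ⟨f0, hf0⟩ := vk3_face K x
  have hcc : ∀ f, Relation.ReflTransGen (fun a b => ∃ d, d ∈ K.bd a ∧ rv d ∈ K.bd b) f0 f →
      ∀ y ∈ K.bd f, Relation.ReflTransGen R (some (K.org (rv d))) (o y) := by
    intro f hf
    induction hf with
    | refl =>
      intro y hy
      have h1 := hface f0 x hf0 y hy
      rwa [ho1 x hxd, hx] at h1
    | tail _ hst ih =>
      obtain ⟨y, hya, hyb⟩ := hst
      intro y' hy'
      exact ((ih y hya).tail ⟨y, rfl, rfl⟩).trans (hface _ (rv y) hyb y' hy')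
  apply hq
  have h1 := hcc none (K.dconn f0 none) d hdn
  rwa [hod] at h1

/-- face lists with the two darts removed from the outer face -/
def vk3B (K : PC A) (l1 l2 : List (K.E × Bool)) : Option K.F → List (K.E × Bool)
  | none => l1 ++ l2
  | some f => K.bd (some f)

theorem vk3_data (d : K.E × Bool) (l1 l2 : List (K.E × Bool))
    (h : K.bd none = l1 ++ d :: rv d :: l2) :
    SubData K (K.org (rv d)) d.1 K.org (vk3B K l1 l2) := by
  classical
  have honly := vk3_only d l1 l2 h
  have hpq : K.org d ≠ K.org (rv d) := fun hh => vk3_rv_ne d (honly d hh).symm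
  have hc1 : (K.bd none).count d ≤ 1 := vk3_count_le K d none
  have hc2 : (K.bd none).count (rv d) ≤ 1 := vk3_count_le K (rv d) none
  rw [h, List.count_append, List.count_cons_self, List.count_cons_of_ne (vk3_rv_ne d)] at hc1
  rw [h, List.count_append, List.count_cons_of_ne (vk3_rv_ne d).symm, List.count_cons_self] at hc2
  have hd1 : d ∉ l1 := fun hh => by have := List.one_le_count_iff.2 hh; omega
  have hd2 : d ∉ l2 := fun hh => by have := List.one_le_count_iff.2 hh; omega
  have hr1 : rv d ∉ l1 := fun hh => by have := List.one_le_count_iff.2 hh; omega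
  have hr2 : rv d ∉ l2 := fun hh => by have := List.one_le_count_iff.2 hh; omega
  have hdn : d ∈ K.bd none := by rw [h]; simp
  have hrn : rv d ∈ K.bd none := by rw [h]; simp
  have hB : ∀ f, ∀ x ∈ vk3B K l1 l2 f, x.1 ≠ d.1 := by
    intro f x hx hxd
    rcases vk3_eq_or x d hxd with rfl | rfl
    · cases f with
      | none =>
        rcases List.mem_append.1 hx with h1 | h1
        · exact hd1 h1
        · exact hd2 h1
      | some f => exact absurd (vk3_uniq K _ _ _ hx hdn) (by simp)
    · cases f with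
      | none =>
        rcases List.mem_append.1 hx with h1 | h1
        · exact hr1 h1
        · exact hr2 h1
      | some f => exact absurd (vk3_uniq K _ _ _ hx hrn) (by simp)
  have hmem : ∀ f, ∀ x ∈ K.bd f, x.1 ≠ d.1 → x ∈ vk3B K l1 l2 f := by
    intro f x hx hxd
    cases f with
    | none =>
      rw [h] at hx
      show x ∈ l1 ++ l2
      rcases List.mem_append.1 hx with h1 | h1
      · exact List.mem_append.2 (Or.inl h1)
      · rcases List.mem_cons.1 h1 with h2 | h2
        · exact absurd (by rw [h2]) hxd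
        · rcases List.mem_cons.1 h2 with h3 | h3
          · exact absurd (by rw [h3]; rfl) hxd
          · exact List.mem_append.2 (Or.inr h3)
    | some f => exact hx
  have hch := K.chain none
  rw [h, List.isChain_append, List.isChain_cons_cons] at hch
  obtain ⟨hch1, ⟨hch2, hch3⟩, hch4⟩ := hch
  have hl2c : l2.IsChain (fun a b => K.org b = K.org (rv a)) := by
    cases l2 with
    | nil => exact List.isChain_nil
    | cons b s => exact (List.isChain_cons_cons.1 hch3).2
  have hl2h : ∀ b ∈ l2.head?, K.org b = K.org d := by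
    intro b hb
    cases l2 with
    | nil => simp at hb
    | cons c s =>
      have hbc : c = b := by simpa using hb
      subst hbc
      have h1 := (List.isChain_cons_cons.1 hch3).1
      rwa [vk3_rv_rv] at h1
  have hl1l : ∀ a ∈ l1.getLast?, K.org d = K.org (rv a) := fun a ha => hch4 a ha d rfl
  refine ⟨?_, hB, ?_, ?_, ?_, ?_, ?_, ?_⟩
  · intro x hx hxd
    rw [honly x hxd] at hx
    exact hx rfl
  · intro f
    cases f with
    | some f => exact K.chain _
    | none =>
      show (l1 ++ l2).IsChain _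
      rw [List.isChain_append]
      exact ⟨hch1, hl2c, fun a ha b hb => (hl2h b hb).trans (hl1l a ha)⟩
  · intro f
    cases f with
    | some f => exact K.closed _
    | none =>
      intro a ha b hb
      change a ∈ (l1 ++ l2).getLast? at ha
      change b ∈ (l1 ++ l2).head? at hb
      have hcl := K.closed none
      rw [h] at hcl
      cases l2 with
      | nil =>
        rw [List.append_nil] at ha hb
        have h1 : ((l1 ++ [d, rv d]).getLast?) = some (rv d) := by
          rw [List.getLast?_append_of_ne_nil _ (List.cons_ne_nil _ _)]; rfl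
        have h2 : b ∈ (l1 ++ [d, rv d]).head? := by
          cases l1 with
          | nil => simp at hb
          | cons c s => simpa using hb
        have h3 := hcl (rv d) h1 b h2
        rw [vk3_rv_rv] at h3
        exact h3.trans (hl1l a ha)
      | cons c s =>
        have h1 : (l1 ++ c :: s).getLast? = (c :: s).getLast? :=
          List.getLast?_append_of_ne_nil _ (List.cons_ne_nil _ _)
        rw [h1] at ha
        have h2 : a ∈ (l1 ++ d :: rv d :: c :: s).getLast? := by
          rw [List.getLast?_append_of_ne_nil _ (List.cons_ne_nil _ _)]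
          simpa using ha
        cases l1 with
        | nil =>
          have h3 := hcl a h2 d rfl
          exact (hl2h b (by simpa using hb)).trans h3
        | cons c' s' =>
          have h4 : b ∈ ((c' :: s') ++ d :: rv d :: c :: s).head? := by simpa using hb
          exact hcl a h2 b h4
  · intro x hx
    rw [← K.once x]
    refine Finset.sum_congr rfl fun f _ => ?_
    cases f with
    | some f => rfl
    | none =>
      have h1 : x ≠ d := fun hh => hx (by rw [hh])
      have h2 : x ≠ rv d := fun hh => hx (by rw [hh]; rfl)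
      rw [h]
      show (l1 ++ l2).count x = _
      rw [List.count_append, List.count_append, List.count_cons_of_ne h1.symm,
        List.count_cons_of_ne h2.symm]
  · exact fun f => K.ne f
  · intro u v hu hv
    let r : K.V → K.V := fun w => if w = K.org (rv d) then K.org d else w
    have hr1' : ∀ w, w ≠ K.org (rv d) → r w = w := fun w hw => if_neg hw
    have hr2' : r (K.org (rv d)) = K.org d := if_pos rfl
    have key : ∀ w, Relation.ReflTransGen (fun a b => ∃ d, K.org d = a ∧ K.org (rv d) = b) u w →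
        Relation.ReflTransGen (fun a b => ∃ x : K.E × Bool, x.1 ≠ d.1 ∧ K.org x = a ∧
          K.org (rv x) = b) (r u) (r w) := by
      intro w hw
      induction hw with
      | refl => exact Relation.ReflTransGen.refl
      | tail _ hst ih =>
        obtain ⟨y, hya, hyb⟩ := hst
        by_cases hy : y.1 = d.1
        · rcases vk3_eq_or y d hy with rfl | rfl
          · rw [← hya, hr1' _ hpq] at ih
            rw [← hyb, hr2']
            exact ih
          · rw [vk3_rv_rv] at hyb
            rw [← hya, hr2'] at ih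
            rw [← hyb, hr1' _ hpq]
            exact ih
        · refine ih.tail ⟨y, hy, ?_, ?_⟩
          · rw [← hya, hr1' _ (fun hh => hy (by rw [honly y hh]; rfl))]
          · rw [← hyb, hr1' _ (fun hh => hy (by
              have := honly (rv y) hh
              have h2 : (rv y).1 = (rv d).1 := by rw [this]
              exact h2))]
    have := key v (K.conn u v)
    rwa [hr1' u hu, hr1' v hv] at this
  · intro f g
    have hdc := K.dconn f g
    induction hdc with
    | refl => exact Relation.ReflTransGen.refl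
    | tail _ hst ih =>
      obtain ⟨y, hya, hyb⟩ := hst
      by_cases hy : y.1 = d.1
      · rcases vk3_eq_or y d hy with rfl | rfl
        · have h1 := vk3_uniq K _ _ _ hya hdn
          have h2 := vk3_uniq K _ _ _ hyb hrn
          rw [h1] at ih
          rw [h2]
          exact ih
        · rw [vk3_rv_rv] at hyb
          have h1 := vk3_uniq K _ _ _ hya hrn
          have h2 := vk3_uniq K _ _ _ hyb hdn
          rw [h1] at ih
          rw [h2]
          exact ih
      · exact ih.tail ⟨y, hmem _ y hya hy, hmem _ (rv y) hyb hy⟩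

end top

section sq

variable {S : Sys} {σ : Equiv.Perm S.C}

/-- VK3 in terms of complexes of squares -/
theorem vk3_main (K : SqK σ) (P : K.GPot) (l1 l2 : List (K.E × Bool)) (d : K.E × Bool)
    (h : K.bd none = l1 ++ d :: rv d :: l2) :
    ∃ (K' : SqK σ) (P' : K'.GPot), Fintype.card K'.F = Fintype.card K.F ∧
      K'.toPC.wd none = (l1 ++ l2).map (fun x => (K.lab x.1, x.2)) ∧
      K'.chn P' univ = K.chn P univ := by
  refine subSq K P (vk3_data (K := K.toPC) d l1 l2 h) (fun f => rfl) (fun x _ => P.st x) ?_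
    (fun f => rfl)
  intro x hx
  change x ∈ (l1 ++ l2).head? at hx
  cases l1 with
  | cons c s =>
    refine P.base x ?_
    rw [h]
    simpa using hx
  | nil =>
    have h1 : P.π (K.org d) = 1 := P.base d (by rw [h]; rfl)
    cases l2 with
    | nil => simp at hx
    | cons b s =>
      have hb : b = x := by simpa using hx
      subst hb
      have hch := K.chain none
      rw [h, List.nil_append, List.isChain_cons_cons, List.isChain_cons_cons, vk3_rv_rv] at hch
      rw [hch.2.1]
      exact h1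

end sq

end Vale.Agent.P201.S.Fold

namespace Vale.Agent.P201.S

/-- VK3: removal of a spur from the outer face -/
theorem stmtVK3 : StmtVK3 := fun _ _ K P l1 l2 d h => Fold.vk3_main K P l1 l2 d h

end Vale.Agent.P201.S
end

section

/-!
P201, part D0 (c) and D2 (`StmtT1`): a spanning tree gives a cotree; the boundary of a subtree of the
cotree is contained in the fundamental cycle.
-/

namespace Vale.Agent.P201.S

open Finset

namespace PC

namespace STree

variable {A : Type} {K : PC A} (T : K.STree)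

/-- dual adjacency across edges outside the tree -/
def t1Adj (a b : Option K.F) : Prop := ∃ d, d ∈ K.bd a ∧ rv d ∈ K.bd b ∧ ¬ T.Ed d.1

/-- faces at distance at most `k` from the outer face -/
def t1R : ℕ → Option K.F → Prop
  | 0, f => f = none
  | k + 1, f => t1R k f ∨ ∃ a, t1R k a ∧ T.t1Adj a f

theorem t1R_mono {k l : ℕ} (h : k ≤ l) {f : Option K.F} (hf : T.t1R k f) : T.t1R l f := by
  induction h with
  | refl => exact hf
  | step _ ih => exact Or.inl ih

/-- (D0 c): the dual graph with the edges outside the tree is connected -/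
theorem t1_reach (f : Option K.F) : ∃ k, T.t1R k f := by
  classical
  by_contra hf
  let C : Finset (Option K.F) := univ.filter fun g => ¬ ∃ k, T.t1R k g
  have hC : ∀ g, g ∈ C ↔ ¬ ∃ k, T.t1R k g := fun g => by simp only [not_exists, mem_filter, mem_univ, true_and, C]
  have hzero : K.t0cr C = 0 := by
    apply T.t0_eq_zero_of_tree (K.t0_dg_cr C)
    intro e he
    by_contra hne
    apply he
    unfold t0cr
    rw [if_pos]
    have key : ∀ d : K.E × Bool, d.1 = e → (∃ f ∈ C, d ∈ K.bd f) → ∃ f ∈ C, rv d ∈ K.bd f := by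
      rintro d rfl ⟨g, hg, hd⟩
      obtain ⟨g', hg'⟩ := K.t0_exists_face (rv d)
      refine ⟨g', ?_, hg'⟩
      rw [hC] at hg ⊢
      rintro ⟨k, hk⟩
      exact hg ⟨k + 1, Or.inr ⟨g', hk, rv d, hg', by rwa [t0_rv_rv], hne⟩⟩
    exact ⟨key (e, true) rfl, key (e, false) rfl⟩
  have hstep : ∀ a b : Option K.F, (∃ d, d ∈ K.bd a ∧ rv d ∈ K.bd b) → a ∉ C → b ∉ C := by
    rintro a b ⟨d, hda, hdb⟩ ha hb
    have h1 := congrFun hzero d.1
    rw [K.t0_cr_eq C d] at h1
    have h2 : K.t0inn C (rv d) = 1 := (K.t0_inn_eq_one C _).2 ⟨b, hb, hdb⟩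
    have h3 : K.t0inn C d = 0 := by
      have h4 := K.t0_inn_le C d
      have h5 : K.t0inn C d ≠ 1 := by
        intro h6
        obtain ⟨g, hg, hdg⟩ := (K.t0_inn_eq_one C _).1 h6
        rw [K.t0_face_unique hda hdg] at ha
        exact ha hg
      omega
    rw [h2, h3] at h1
    simp only [Nat.cast_zero, Nat.cast_one, zero_add, Pi.zero_apply, one_ne_zero] at h1
  have hall : ∀ g, Relation.ReflTransGen (fun a b => ∃ d, d ∈ K.bd a ∧ rv d ∈ K.bd b) none g →
      g ∉ C := by
    intro g hg
    induction hg with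
    | refl =>
      rw [hC]
      exact fun h => h ⟨0, rfl⟩
    | tail _ h ih => exact hstep _ _ h ih
  exact hall f (K.dconn none f) ((hC f).2 hf)

open Classical in
/-- distance from the outer face -/
noncomputable def t1rk (f : Option K.F) : ℕ := Nat.find (T.t1_reach f)

theorem t1_rk_spec (f : Option K.F) : T.t1R (T.t1rk f) f := by
  classical
  exact Nat.find_spec (T.t1_reach f)

theorem t1_rk_le {f : Option K.F} {k : ℕ} (h : T.t1R k f) : T.t1rk f ≤ k := by
  classical
  exact Nat.find_min' (T.t1_reach f) h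

theorem t1_par (f : K.F) : ∃ (a : Option K.F) (d : K.E × Bool), d ∈ K.bd (some f) ∧
    rv d ∈ K.bd a ∧ ¬ T.Ed d.1 ∧ T.t1rk a < T.t1rk (some f) := by
  have h := T.t1_rk_spec (some f)
  rcases hk : T.t1rk (some f) with _ | k
  · rw [hk] at h
    exact absurd h (Option.some_ne_none f)
  · rw [hk] at h
    rcases h with h | ⟨a, ha, d, h1, h2, h3⟩
    · have := T.t1_rk_le h
      omega
    · exact ⟨a, rv d, h2, by rwa [t0_rv_rv], h3, Nat.lt_succ_of_le (T.t1_rk_le ha)⟩

/-- potentials along the tree -/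
noncomputable def t1pot (v : K.V) : FreeGroup A :=
  match h : T.pd v with
  | none => 1
  | some d => t1pot (K.org (rv d)) * (K.lt d)⁻¹
termination_by T.hgt v
decreasing_by exact T.dec v d h

theorem t1pot_none {v : K.V} (h : T.pd v = none) : T.t1pot v = 1 := by
  rw [t1pot]
  split
  · exact rfl
  · rename_i d h'
    rw [h] at h'
    exact absurd h' (Option.some_ne_none d).symm

theorem t1pot_some {v : K.V} {d : K.E × Bool} (h : T.pd v = some d) :
    T.t1pot v = T.t1pot (K.org (rv d)) * (K.lt d)⁻¹ := by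
  rw [t1pot]
  split
  · rename_i h'
    rw [h] at h'
    exact absurd h' (Option.some_ne_none d)
  · rename_i d' h'
    rw [h] at h'
    rw [Option.some.inj h']

theorem t1_lt_rv (d : K.E × Bool) : K.lt (rv d) = (K.lt d)⁻¹ := by
  unfold lt rv
  rw [FreeGroup.inv_mk]
  rfl

theorem t1pot_ed {d : K.E × Bool} (h : T.Ed d.1) :
    T.t1pot (K.org d) * K.lt d = T.t1pot (K.org (rv d)) := by
  obtain ⟨v, d', h1, h2⟩ := h
  rcases t0_eq_or_rv h2 with h3 | h3
  · subst h3
    rw [T.or v d' h1, T.t1pot_some h1, inv_mul_cancel_right]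
  · subst h3
    rw [t0_rv_rv, T.or v d' h1, t1_lt_rv, T.t1pot_some h1]

theorem t1_step_hgt {v w : K.V} (h : Relation.ReflTransGen T.Step v w) : T.hgt w ≤ T.hgt v := by
  induction h with
  | refl => exact le_rfl
  | tail _ h ih =>
    obtain ⟨d, h1, h2⟩ := h
    have h3 := T.dec _ d h1
    rw [h2] at h3
    omega

theorem t1_anc_ed {v : K.V} {e : K.E} (h : T.Anc v e) : T.Ed e := by
  obtain ⟨w, d, -, h1, h2⟩ := h
  exact ⟨w, d, h1, h2⟩

open Classical in
/-- indicator of the path to the root -/
noncomputable def t1A (v : K.V) : K.E → ZMod 2 := fun e => if T.Anc v e then 1 else 0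

theorem t1A_none {v : K.V} (h : T.pd v = none) : T.t1A v = 0 := by
  funext e
  unfold t1A
  rw [if_neg]
  · rfl
  rintro ⟨w, d, h1, h2, -⟩
  rcases Relation.ReflTransGen.cases_head h1 with h3 | ⟨x, ⟨d', h4, -⟩, -⟩
  · rw [← h3, h] at h2
    exact absurd h2 (Option.some_ne_none d).symm
  · rw [h] at h4
    exact absurd h4 (Option.some_ne_none d').symm

theorem t1A_some {v : K.V} {d : K.E × Bool} (h : T.pd v = some d) :
    T.t1A v = T.t1A (K.org (rv d)) + K.t0ei d.1 := by
  have hanc : ∀ e, T.Anc v e ↔ e = d.1 ∨ T.Anc (K.org (rv d)) e := by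
    intro e
    constructor
    · rintro ⟨w, d', h1, h2, h3⟩
      rcases Relation.ReflTransGen.cases_head h1 with h4 | ⟨x, ⟨d0, h5, h6⟩, h7⟩
      · rw [← h4, h] at h2
        left
        rw [← h3, Option.some.inj h2]
      · right
        rw [h] at h5
        rw [← Option.some.inj h5] at h6
        rw [h6]
        exact ⟨w, d', h7, h2, h3⟩
    · rintro (h1 | ⟨w, d', h1, h2, h3⟩)
      · exact ⟨v, d, Relation.ReflTransGen.refl, h, h1.symm⟩
      · exact ⟨w, d', Relation.ReflTransGen.head ⟨d, h, rfl⟩ h1, h2, h3⟩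
  have hdis : ¬ T.Anc (K.org (rv d)) d.1 := by
    rintro ⟨w, d', h1, h2, h3⟩
    have h4 := T.t1_step_hgt h1
    have h5 := T.dec v d h
    have h6 := T.t0_pd_inj h2 h h3
    rw [h6] at h4
    omega
  funext e
  rw [Pi.add_apply]
  unfold t1A t0ei
  by_cases h1 : e = d.1
  · subst h1
    rw [if_pos ((hanc _).2 (Or.inl rfl)), if_neg hdis, if_pos rfl, zero_add]
  · rw [if_neg h1, add_zero]
    by_cases h2 : T.Anc (K.org (rv d)) e
    · rw [if_pos h2, if_pos ((hanc _).2 (Or.inr h2))]
    · rw [if_neg h2, if_neg]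
      intro h3
      rcases (hanc e).1 h3 with h4 | h4
      · exact h1 h4
      · exact h2 h4

theorem t1_dg_A (v w : K.V) : K.t0dg (T.t1A v) w =
    (if v = w then 1 else 0) + if T.root = w then 1 else 0 := by
  induction hn : T.hgt v using Nat.strong_induction_on generalizing v with
  | _ m ih =>
    rcases hp : T.pd v with _ | d
    · rw [T.t1A_none hp, (T.rt v).1 hp, CharTwo.add_self_eq_zero]
      unfold t0dg
      apply Finset.sum_eq_zero
      intro d _
      split_ifs <;> rfl
    · have h1 := T.dec v d hp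
      rw [T.t1A_some hp, K.t0_dg_add, ih _ (by omega) _ rfl, K.t0_dg_ei, T.or v d hp]
      have h2 : (2 : ZMod 2) = 0 := by decide
      linear_combination (if K.org (rv d) = w then (1 : ZMod 2) else 0) * h2

/-- number of edges of the tree -/
theorem t1_card_ed [DecidablePred T.Ed] :
    (univ.filter T.Ed).card + 1 = Fintype.card K.V := by
  classical
  have h1 : (univ.filter T.Ed).card = (univ.erase T.root).card := by
    symm
    have hne : ∀ v ∈ (univ.erase T.root : Finset K.V), ∃ d, T.pd v = some d := by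
      intro v hv
      rcases hp : T.pd v with _ | d
      · exact absurd ((T.rt v).1 hp) (Finset.ne_of_mem_erase hv)
      · exact ⟨d, rfl⟩
    refine Finset.card_bij (fun v hv => (Classical.choose (hne v hv)).1) ?_ ?_ ?_
    · intro v hv
      rw [Finset.mem_filter]
      exact ⟨Finset.mem_univ _, v, _, Classical.choose_spec (hne v hv), rfl⟩
    · intro v hv w hw h
      exact T.t0_pd_inj (Classical.choose_spec (hne v hv)) (Classical.choose_spec (hne w hw)) h
    · intro e he
      obtain ⟨v, d, h1, h2⟩ := (Finset.mem_filter.1 he).2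
      have hv : v ∈ (univ.erase T.root : Finset K.V) := by
        rw [Finset.mem_erase]
        refine ⟨?_, Finset.mem_univ _⟩
        intro h3
        rw [(T.rt v).2 h3] at h1
        exact absurd h1 (Option.some_ne_none d).symm
      refine ⟨v, hv, ?_⟩
      have h4 := Classical.choose_spec (hne v hv)
      exact (congrArg Prod.fst (Option.some.inj (h4.symm.trans h1))).trans h2
  rw [h1, Finset.card_erase_of_mem (Finset.mem_univ _), Finset.card_univ]
  have := Fintype.card_pos_iff.2 ⟨T.root⟩
  omega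

end STree

theorem t1_inn {A : Type} (K : PC A) (C : Finset (Option K.F)) {d : K.E × Bool} {a : Option K.F}
    (h : d ∈ K.bd a) (h' : a ∈ C) : K.t0inn C d = 1 := (K.t0_inn_eq_one C d).2 ⟨a, h', h⟩

theorem t1_inn_zero {A : Type} (K : PC A) (C : Finset (Option K.F)) {d : K.E × Bool}
    {a : Option K.F} (h : d ∈ K.bd a) (h' : a ∉ C) : K.t0inn C d = 0 := by
  have h1 := K.t0_inn_le C d
  have h2 : K.t0inn C d ≠ 1 := by
    intro h3
    obtain ⟨g, hg, hd⟩ := (K.t0_inn_eq_one C d).1 h3
    rw [K.t0_face_unique h hd] at h'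
    exact h' hg
  omega

end PC

open PC in
/-- (D2) -/
theorem stmtT1 : StmtT1 := by
  classical
  intro A K T
  choose par dd h1 h2 h3 h4 using T.t1_par
  have hinj : ∀ f g, (dd f).1 = (dd g).1 → f = g := by
    intro f g h
    rcases t0_eq_or_rv h with h5 | h5
    · have h6 := h1 g
      rw [← h5] at h6
      exact Option.some.inj (K.t0_face_unique (h1 f) h6)
    · exfalso
      have a1 : par f = some g := K.t0_face_unique (h2 f) (h5 ▸ h1 g)
      have a2 : par g = some f := by
        have := h2 g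
        rw [h5, t0_rv_rv] at this
        exact K.t0_face_unique this (h1 f)
      have b1 := h4 f
      have b2 := h4 g
      rw [a1] at b1
      rw [a2] at b2
      omega
  have hEd : ∀ e, T.Ed e ↔ ∀ f, (dd f).1 ≠ e := by
    intro e
    constructor
    · rintro h f rfl
      exact h3 f h
    · intro h
      by_contra hne
      have hsub : (univ.image fun f => (dd f).1) ⊆ (univ.filter fun e => ¬ T.Ed e).erase e := by
        intro x hx
        obtain ⟨f, -, rfl⟩ := Finset.mem_image.1 hx
        rw [Finset.mem_erase, Finset.mem_filter]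
        exact ⟨h f, Finset.mem_univ _, h3 f⟩
      have hc1 := Finset.card_le_card hsub
      have hmem : e ∈ (univ.filter fun e => ¬ T.Ed e) :=
        Finset.mem_filter.2 ⟨Finset.mem_univ _, hne⟩
      rw [Finset.card_image_of_injective _ (fun f g h => hinj f g h), Finset.card_univ,
        Finset.card_erase_of_mem hmem] at hc1
      have hc2 := T.t1_card_ed
      have hc3 := Finset.card_filter_add_card_filter_not (s := (univ : Finset K.E)) T.Ed
      have hc4 : 0 < (univ.filter fun e => ¬ T.Ed e).card :=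
        Finset.card_pos.2 ⟨e, Finset.mem_filter.2 ⟨Finset.mem_univ _, hne⟩⟩
      have hc5 := K.euler
      rw [Finset.card_univ] at hc3
      omega
  let C : K.Cotree :=
    { par := par
      dd := dd
      rank := fun f => T.t1rk (some f)
      mem := h1
      memr := h2
      dec := fun f g h => by
        have := h4 f
        rwa [h] at this
      root := T.root
      pot := T.t1pot
      pot_root := T.t1pot_none ((T.rt _).2 rfl)
      triv := fun d hd => T.t1pot_ed ((hEd _).2 hd) }
  refine ⟨C, rfl, hEd, fun f => ?_⟩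
  have hdesc : ∀ g, g ≠ f → (g ∈ C.sub f ↔ ∃ b ∈ C.sub f, par g = some b) := by
    intro g hg
    constructor
    · intro h
      have h5 := (Finset.mem_filter.1 h).2
      rcases Relation.ReflTransGen.cases_head h5 with h6 | ⟨b, h6, h7⟩
      · exact absurd h6 hg
      · exact ⟨b, Finset.mem_filter.2 ⟨Finset.mem_univ _, h7⟩, h6⟩
    · rintro ⟨b, h5, h6⟩
      exact Finset.mem_filter.2 ⟨Finset.mem_univ _,
        Relation.ReflTransGen.head h6 (Finset.mem_filter.1 h5).2⟩
  have hrank : ∀ g ∈ C.sub f, T.t1rk (some f) ≤ T.t1rk (some g) := by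
    intro g hg
    have h5 : Relation.ReflTransGen (fun a b => C.par a = some b) g f := (Finset.mem_filter.1 hg).2
    induction h5 using Relation.ReflTransGen.head_induction_on with
    | refl => exact le_rfl
    | head h6 h7 ih =>
      have h8 := C.dec _ _ h6
      have h9 := ih (Finset.mem_filter.2 ⟨Finset.mem_univ _, h7⟩)
      exact h9.trans h8.le
  let D : Finset (Option K.F) := (C.sub f).map Function.Embedding.some
  have hD : ∀ g, some g ∈ D ↔ g ∈ C.sub f := by
    intro g
    simp only [mem_map, Function.Embedding.some_apply, Option.some.injEq, exists_eq_right, D]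
  have hDn : none ∉ D := by
    simp only [mem_map, Function.Embedding.some_apply, reduceCtorEq, and_false, exists_false, not_false_eq_true, D]
  have hbd : ∀ e, e ∈ K.bdry (C.sub f) ↔ K.t0cr D e ≠ 0 := by
    intro e
    have h5 : ∀ d, (∃ g ∈ D, d ∈ K.bd g) ↔ ∃ g ∈ C.sub f, d ∈ K.bd (some g) := by
      intro d
      constructor
      · rintro ⟨g, hg, hd⟩
        rcases g with _ | g
        · exact absurd hg hDn
        · exact ⟨g, (hD g).1 hg, hd⟩
      · rintro ⟨g, hg, hd⟩
        exact ⟨some g, (hD g).2 hg, hd⟩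
    unfold PC.bdry PC.t0cr
    rw [Finset.mem_filter, ← h5, ← h5]
    simp only [mem_univ, true_and, ne_eq, ite_eq_left_iff, one_ne_zero, imp_false, Decidable.not_not]
  have hcr : ∀ g, g ≠ f → K.t0cr D (dd g).1 = 0 := by
    intro g hg
    rw [K.t0_cr_eq D (dd g)]
    by_cases h5 : g ∈ C.sub f
    · obtain ⟨b, h6, h7⟩ := (hdesc g hg).1 h5
      rw [K.t1_inn D (h1 g) ((hD g).2 h5), K.t1_inn D (h2 g) (h7 ▸ (hD b).2 h6)]
      decide
    · have h6 : par g ∉ D := by
        rcases h7 : par g with _ | b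
        · exact hDn
        · intro h8
          exact h5 ((hdesc g hg).2 ⟨b, (hD b).1 h8, h7⟩)
      rw [K.t1_inn_zero D (h1 g) (fun h => h5 ((hD g).1 h)), K.t1_inn_zero D (h2 g) h6]
      decide
  have hcrf : K.t0cr D (dd f).1 = 1 := by
    rw [K.t0_cr_eq D (dd f)]
    have h5 : f ∈ C.sub f := Finset.mem_filter.2 ⟨Finset.mem_univ _, Relation.ReflTransGen.refl⟩
    have h6 : par f ∉ D := by
      rcases h7 : par f with _ | b
      · exact hDn
      · intro h8
        have h9 := hrank b ((hD b).1 h8)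
        have h10 := h4 f
        rw [h7] at h10
        omega
    rw [K.t1_inn D (h1 f) ((hD f).2 h5), K.t1_inn_zero D (h2 f) h6]
    decide
  have hη : K.t0cr D + K.t0ei (dd f).1 + T.t1A (K.org (dd f)) + T.t1A (K.org (rv (dd f))) = 0 := by
    apply T.t0_eq_zero_of_tree
    · intro v
      rw [K.t0_dg_add, K.t0_dg_add, K.t0_dg_add, K.t0_dg_cr, K.t0_dg_ei, T.t1_dg_A, T.t1_dg_A]
      have h5 : (2 : ZMod 2) = 0 := by decide
      linear_combination ((if K.org (dd f) = v then (1 : ZMod 2) else 0) +
        (if K.org (rv (dd f)) = v then (1 : ZMod 2) else 0) +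
        (if T.root = v then (1 : ZMod 2) else 0)) * h5
    · intro e he
      by_contra hne
      have hA : ∀ v, T.t1A v e = 0 := fun v => if_neg fun h => hne (T.t1_anc_ed h)
      apply he
      rw [Pi.add_apply, Pi.add_apply, Pi.add_apply, hA, hA, add_zero, add_zero]
      obtain ⟨g, hg⟩ : ∃ g, (dd g).1 = e := by
        by_contra hcon
        push Not at hcon
        exact hne ((hEd e).2 hcon)
      by_cases hgf : g = f
      · subst hgf
        rw [← hg, hcrf]
        unfold PC.t0ei
        rw [if_pos rfl]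
        decide
      · rw [← hg, hcr g hgf]
        unfold PC.t0ei
        rw [if_neg (fun h => hgf (hinj _ _ h))]
        decide
  intro e he
  have h5 := (hbd e).1 he
  by_cases h6 : e = (dd f).1
  · exact Or.inl h6
  · right
    have h7 := congrFun hη e
    rw [Pi.add_apply, Pi.add_apply, Pi.add_apply] at h7
    by_contra hcon
    push Not at hcon
    have a1 : T.t1A (K.org (dd f)) e = 0 := if_neg hcon.1
    have a2 : T.t1A (K.org (rv (dd f))) e = 0 := if_neg hcon.2
    have a3 : K.t0ei (dd f).1 e = 0 := if_neg h6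
    rw [a1, a2, a3, add_zero, add_zero, add_zero] at h7
    exact h5 h7

end Vale.Agent.P201.S
end

section

/-!
P201, part D1: StmtVK, general system.
-/

namespace Vale.Agent.P201.S

theorem stmtVK : StmtVK := stmtVK_of stmtVK0 stmtVK3 vk4 (stmtVK5 stmtT1 stmtRec)

end Vale.Agent.P201.S
end

section

/-!
P201, part D6/D7 (bridge): weight inequality of the disc, full domains of the sphere (helper611).
-/

namespace Vale.Agent.P201.S

open Finset

namespace BrW

/-- domain and range of a partial equivalence have the same size -/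
theorem domc_symm {S : Type} [Fintype S] (f : S ≃. S) : domc f.symm = domc f := by
  classical
  unfold domc
  refine Finset.card_bij' (fun s hs => (f.symm s).get (by simpa only [mem_filter, mem_univ, true_and] using hs))
    (fun s hs => (f s).get (by simpa only [mem_filter, mem_univ, true_and] using hs)) ?_ ?_ ?_ ?_
  · intro s hs
    have hs' : (f.symm s).isSome := by simpa only [mem_filter, mem_univ, true_and] using hs
    have e : f.symm s = some ((f.symm s).get hs') := (Option.some_get hs').symm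
    have e2 := (PEquiv.eq_some_iff f).1 e
    simp only [mem_filter, mem_univ, e2, Option.isSome_some, and_self]
  · intro s hs
    have hs' : (f s).isSome := by simpa only [mem_filter, mem_univ, true_and] using hs
    have e : f s = some ((f s).get hs') := (Option.some_get hs').symm
    have e2 := (PEquiv.eq_some_iff f).2 e
    simp only [mem_filter, mem_univ, e2, Option.isSome_some, and_self]
  · intro s hs
    have hs' : (f.symm s).isSome := by simpa only [mem_filter, mem_univ, true_and] using hs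
    have e : f.symm s = some ((f.symm s).get hs') := (Option.some_get hs').symm
    have e2 := (PEquiv.eq_some_iff f).1 e
    simp [e2]
  · intro s hs
    have hs' : (f s).isSome := by simpa only [mem_filter, mem_univ, true_and] using hs
    have e : f s = some ((f s).get hs') := (Option.some_get hs').symm
    have e2 := (PEquiv.eq_some_iff f).2 e
    simp [e2]

theorem card_none_add_domc {S : Type} [Fintype S] (f : S ≃. S) (A : Finset S)
    (hA : ∀ s, s ∈ A ↔ f s = none) : A.card + domc f = Fintype.card S := by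
  classical
  unfold domc
  rw [← Finset.card_univ, ← Finset.card_filter_add_card_filter_not (s := (univ : Finset S))
    (fun s => f s = none)]
  congr 2
  · ext s
    simp only [hA, mem_filter, mem_univ, true_and]
  · ext s
    simp only [Option.isSome_iff_ne_none, ne_eq, mem_filter, mem_univ, true_and]

end BrW

variable {S : Sys} {σ : Equiv.Perm S.C}

namespace Br

variable {K : PC (Let S)} (B : Br σ K)

theorem brw_xs_inj {s t : B.Q} (h : B.xs s = B.xs t) : s = t :=
  B.inj (K.face_unique (B.xs_mem s) (h ▸ B.xs_mem t))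
theorem brw_ys_inj {s t : B.Q} (h : B.ys s = B.ys t) : s = t :=
  B.inj (K.face_unique (B.ys_mem s) (h ▸ B.ys_mem t))
theorem brw_ye_inj {s t : B.Q} (h : B.ye s = B.ye t) : s = t :=
  B.inj (K.face_unique (B.ye_mem s) (h ▸ B.ye_mem t))
theorem brw_xe_inj {s t : B.Q} (h : B.xe s = B.xe t) : s = t :=
  B.inj (K.face_unique (B.xe_mem s) (h ▸ B.xe_mem t))

theorem brw_fs_eq_none {d : K.E × Bool} : B.fs d = none ↔ ∀ s, d ∉ K.bd (B.j s) := by
  constructor
  · intro h s hs
    rw [B.fs_eq_some.2 hs] at h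
    exact absurd h (by simp)
  · intro h
    cases e : B.fs d with
    | none => rfl
    | some s => exact absurd (B.fs_eq_some.1 e) (h s)

/-- sphere: the domains are full -/
theorem brw_domc_full (hj : Function.Surjective B.j) :
    domc B.glue.X = Fintype.card B.Q ∧ domc B.glue.Y = Fintype.card B.Q := by
  classical
  have key : ∀ d, (B.fs d).isSome = true := by
    intro d
    obtain ⟨s, hs⟩ := hj (K.fc d)
    have : B.fs d = some s := B.fs_eq_some.2 (hs ▸ K.mem_fc d)
    rw [this]
    rfl
  have hX : ∀ s, (B.glue.X s).isSome = true := fun s => key (rv (B.xs s))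
  have hY : ∀ s, (B.glue.Y s).isSome = true := fun s => key (rv (B.ye s))
  constructor
  · unfold domc
    rw [Finset.filter_true_of_mem (fun s _ => hX s)]
    rfl
  · unfold domc
    rw [Finset.filter_true_of_mem (fun s _ => hY s)]
    rfl

end Br

/-- domains on the sphere -/
theorem brw_domc_S (K : SqK σ) (q0 : Port S) (h : K.outw = relw σ q0) :
    domc (brS K q0 h).glue.X = Fintype.card K.F + 1 ∧
    domc (brS K q0 h).glue.Y = Fintype.card K.F + 1 := by
  have h1 := (brS K q0 h).brw_domc_full Function.surjective_id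
  have h2 : Fintype.card (brS K q0 h).Q = Fintype.card K.F + 1 := Fintype.card_option
  rw [h2] at h1
  exact h1

namespace SqK

variable (K : SqK σ)

theorem brw_fsD_none {d : K.E × Bool} : (brD K).fs d = none ↔ d ∈ K.bd none := by
  rw [Br.brw_fs_eq_none]
  constructor
  · intro h
    obtain ⟨g, hg⟩ := K.exists_face d
    cases g with
    | none => exact hg
    | some g => exact absurd hg (h g)
  · intro h s hs
    have h1 : (none : Option K.F) = some s := K.face_unique h hs
    exact absurd h1 (by simp)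

theorem brw_wtw_winv (Y : ℕ) (l : List (Let S × Bool)) :
    wtw Y (winv l) = (l.map (fun a => wtl Y a.1)).sum := by
  unfold wtw winv
  rw [List.map_reverse, List.sum_reverse, List.map_map]
  rfl

theorem brw_wtw_outw (Y : ℕ) :
    wtw Y K.outw = ∑ d ∈ (K.bd none).toFinset, wtl Y (K.lab d.1) := by
  unfold outw
  rw [brw_wtw_winv, PC.wd, List.map_map, List.sum_toFinset _ (K.bd_nodup none)]
  rfl

/-- the weight inequality of the bridge -/
theorem brw_weight_D (Y : ℕ) :
    2 * (Fintype.card K.F - domc (brD K).glue.X) +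
      Y * (2 * (Fintype.card K.F - domc (brD K).glue.Y)) ≤ wtw Y K.outw := by
  classical
  have c1' : ∀ s : K.F, (brD K).glue.X s = none ↔ rv ((brD K).xs s) ∈ K.bd none :=
    fun s => K.brw_fsD_none
  have c2' : ∀ s : K.F, (brD K).glue.Y s = none ↔ rv ((brD K).ye s) ∈ K.bd none :=
    fun s => K.brw_fsD_none
  have c3' : ∀ s : K.F, (brD K).glue.X.symm s = none ↔ rv ((brD K).xe s) ∈ K.bd none :=
    fun s => K.brw_fsD_none
  have c4' : ∀ s : K.F, (brD K).glue.Y.symm s = none ↔ rv ((brD K).ys s) ∈ K.bd none :=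
    fun s => K.brw_fsD_none
  set A1 : Finset K.F := univ.filter (fun s : K.F => (brD K).glue.X s = none) with hA1
  set A2 : Finset K.F := univ.filter (fun s : K.F => (brD K).glue.Y s = none) with hA2
  set A3 : Finset K.F := univ.filter (fun s : K.F => (brD K).glue.X.symm s = none) with hA3
  set A4 : Finset K.F := univ.filter (fun s : K.F => (brD K).glue.Y.symm s = none) with hA4
  have e1 : A1.card + domc (brD K).glue.X = Fintype.card K.F :=
    BrW.card_none_add_domc (S := K.F) (brD K).glue.X A1 (fun s => by rw [hA1, Finset.mem_filter]; exact ⟨fun h => h.2, fun h => ⟨Finset.mem_univ _, h⟩⟩)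
  have e2 : A2.card + domc (brD K).glue.Y = Fintype.card K.F :=
    BrW.card_none_add_domc (S := K.F) (brD K).glue.Y A2 (fun s => by rw [hA2, Finset.mem_filter]; exact ⟨fun h => h.2, fun h => ⟨Finset.mem_univ _, h⟩⟩)
  have e3 : A3.card + domc (brD K).glue.X = Fintype.card K.F := by
    rw [← BrW.domc_symm (S := (brD K).glue.Q)]
    exact BrW.card_none_add_domc (S := K.F) (brD K).glue.X.symm A3 (fun s => by rw [hA3, Finset.mem_filter]; exact ⟨fun h => h.2, fun h => ⟨Finset.mem_univ _, h⟩⟩)
  have e4 : A4.card + domc (brD K).glue.Y = Fintype.card K.F := by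
    rw [← BrW.domc_symm (S := (brD K).glue.Q)]
    exact BrW.card_none_add_domc (S := K.F) (brD K).glue.Y.symm A4 (fun s => by rw [hA4, Finset.mem_filter]; exact ⟨fun h => h.2, fun h => ⟨Finset.mem_univ _, h⟩⟩)
  set B := (K.bd none).toFinset with hB
  set T1 := A1.image (fun f => rv ((brD K).xs f)) with hT1
  set T2 := A2.image (fun f => rv ((brD K).ye f)) with hT2
  set T3 := A3.image (fun f => rv ((brD K).xe f)) with hT3
  set T4 := A4.image (fun f => rv ((brD K).ys f)) with hT4
  have c1 : T1.card = A1.card := Finset.card_image_of_injective _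
    (fun _ _ h => (brD K).brw_xs_inj (rv_inj h))
  have c2 : T2.card = A2.card := Finset.card_image_of_injective _
    (fun _ _ h => (brD K).brw_ye_inj (rv_inj h))
  have c3 : T3.card = A3.card := Finset.card_image_of_injective _
    (fun _ _ h => (brD K).brw_xe_inj (rv_inj h))
  have c4 : T4.card = A4.card := Finset.card_image_of_injective _
    (fun _ _ h => (brD K).brw_ys_inj (rv_inj h))
  have hd1 : ∀ d ∈ T1, (∃ i, K.lab d.1 = Let.x i) ∧ d.2 = false := by
    intro d hd
    obtain ⟨f, -, rfl⟩ := Finset.mem_image.1 hd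
    exact ⟨⟨_, (brD K).lab_xs f⟩, by rw [rv_snd, (brD K).sg_xs]; rfl⟩
  have hd3 : ∀ d ∈ T3, (∃ i, K.lab d.1 = Let.x i) ∧ d.2 = true := by
    intro d hd
    obtain ⟨f, -, rfl⟩ := Finset.mem_image.1 hd
    exact ⟨⟨_, (brD K).lab_xe f⟩, by rw [rv_snd, (brD K).sg_xe]; rfl⟩
  have hd2 : ∀ d ∈ T2, (∃ j, K.lab d.1 = Let.y j) ∧ d.2 = true := by
    intro d hd
    obtain ⟨f, -, rfl⟩ := Finset.mem_image.1 hd
    exact ⟨⟨_, (brD K).lab_ye f⟩, by rw [rv_snd, (brD K).sg_ye]; rfl⟩
  have hd4 : ∀ d ∈ T4, (∃ j, K.lab d.1 = Let.y j) ∧ d.2 = false := by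
    intro d hd
    obtain ⟨f, -, rfl⟩ := Finset.mem_image.1 hd
    exact ⟨⟨_, (brD K).lab_ys f⟩, by rw [rv_snd, (brD K).sg_ys]; rfl⟩
  have d13 : Disjoint T1 T3 := by
    rw [Finset.disjoint_left]
    intro d h h'
    have := (hd1 d h).2
    rw [(hd3 d h').2] at this
    exact absurd this (by simp)
  have d24 : Disjoint T2 T4 := by
    rw [Finset.disjoint_left]
    intro d h h'
    have := (hd2 d h).2
    rw [(hd4 d h').2] at this
    exact absurd this (by simp)
  have dx : Disjoint (T1 ∪ T3) (T2 ∪ T4) := by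
    rw [Finset.disjoint_left]
    intro d h h'
    have h1 : ∃ i, K.lab d.1 = Let.x i := by
      rcases Finset.mem_union.1 h with h | h
      · exact (hd1 d h).1
      · exact (hd3 d h).1
    have h2 : ∃ j, K.lab d.1 = Let.y j := by
      rcases Finset.mem_union.1 h' with h | h
      · exact (hd2 d h).1
      · exact (hd4 d h).1
    obtain ⟨i, h1⟩ := h1
    obtain ⟨j, h2⟩ := h2
    rw [h1] at h2
    exact absurd h2 (by simp)
  have hsub : (T1 ∪ T3) ∪ (T2 ∪ T4) ⊆ B := by
    intro d hd
    rw [hB, List.mem_toFinset]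
    rcases Finset.mem_union.1 hd with h | h
    · rcases Finset.mem_union.1 h with h | h
      · obtain ⟨f, hf, rfl⟩ := Finset.mem_image.1 h
        exact (c1' f).1 (Finset.mem_filter.1 hf).2
      · obtain ⟨f, hf, rfl⟩ := Finset.mem_image.1 h
        exact (c3' f).1 (Finset.mem_filter.1 hf).2
    · rcases Finset.mem_union.1 h with h | h
      · obtain ⟨f, hf, rfl⟩ := Finset.mem_image.1 h
        exact (c2' f).1 (Finset.mem_filter.1 hf).2
      · obtain ⟨f, hf, rfl⟩ := Finset.mem_image.1 h
        exact (c4' f).1 (Finset.mem_filter.1 hf).2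
  have s1 : ∑ d ∈ T1 ∪ T3, wtl Y (K.lab d.1) = A1.card + A3.card := by
    rw [← c1, ← c3, ← Finset.card_union_of_disjoint d13, Finset.card_eq_sum_ones]
    refine Finset.sum_congr rfl fun d h => ?_
    have h1 : ∃ i, K.lab d.1 = Let.x i := by
      rcases Finset.mem_union.1 h with h | h
      · exact (hd1 d h).1
      · exact (hd3 d h).1
    obtain ⟨i, h1⟩ := h1
    rw [h1]
    rfl
  have s2 : ∑ d ∈ T2 ∪ T4, wtl Y (K.lab d.1) = Y * (A2.card + A4.card) := by
    rw [← c2, ← c4, ← Finset.card_union_of_disjoint d24, mul_comm, Finset.card_eq_sum_ones,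
      Finset.sum_mul]
    refine Finset.sum_congr rfl fun d h => ?_
    have h1 : ∃ j, K.lab d.1 = Let.y j := by
      rcases Finset.mem_union.1 h with h | h
      · exact (hd2 d h).1
      · exact (hd4 d h).1
    obtain ⟨j, h1⟩ := h1
    rw [h1, one_mul]
    rfl
  have key : ∑ d ∈ (T1 ∪ T3) ∪ (T2 ∪ T4), wtl Y (K.lab d.1) ≤ ∑ d ∈ B, wtl Y (K.lab d.1) :=
    Finset.sum_le_sum_of_subset hsub
  rw [Finset.sum_union dx, s1, s2] at key
  rw [K.brw_wtw_outw]
  refine le_trans (le_of_eq ?_) key
  have f1 : Fintype.card K.F - domc (brD K).glue.X = A1.card := by omega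
  have f3 : A3.card = A1.card := by omega
  have f2 : Fintype.card K.F - domc (brD K).glue.Y = A2.card := by (clear * - e2 e4 c2 c4; omega)
  have f4 : A4.card = A2.card := by omega
  rw [f1, f2, f3, f4]
  ring

end SqK

end Vale.Agent.P201.S
end

section

/-!
P201, part D6/D7 (bridge): StmtBrEulD and StmtBrEulS (helper273, weights by helper611).
-/

namespace Vale.Agent.P201.S.BrEul

theorem stmtBrEulD : StmtBrEulD :=
  fun _ _ K => ⟨BrEul.eulD K, K.brw_weight_D⟩

theorem stmtBrEulS : StmtBrEulS :=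
  fun _ _ K q0 h => ⟨BrEul.eulS K q0 h, brw_domc_S K q0 h⟩

end Vale.Agent.P201.S.BrEul
end

section

/-! P201, parts D6 and D7: mirror pairs are excluded (leaf D-Br-Red, helper466). -/

namespace Vale.Agent.P201.S.BrRed

open Finset Vale.Agent.P201.S

/-- (D0 d) a rooted dual spanning tree extends to a cotree (hypothesis, leaf D-T2) -/
def HypT2 : Prop :=
  ∀ (A : Type) (K : PC A) (par : K.F → Option K.F) (dd : K.F → K.E × Bool) (rank : K.F → ℕ)
    (root : K.V), (∀ f, dd f ∈ K.bd (some f)) → (∀ f, rv (dd f) ∈ K.bd (par f)) →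
    (∀ f g, par f = some g → rank g < rank f) →
    ∃ C : K.Cotree, C.par = par ∧ C.dd = dd ∧ C.root = root

variable {S : Sys}

/-! ### words -/

theorem winv_winv {A : Type} (l : List (A × Bool)) : winv (winv l) = l := by
  simp [winv, List.map_reverse, Function.comp_def]

theorem winv_append {A : Type} (a b : List (A × Bool)) : winv (a ++ b) = winv b ++ winv a := by
  simp [winv]

theorem winv_cons {A : Type} (x : A × Bool) (b : List (A × Bool)) :
    winv (x :: b) = winv b ++ [(x.1, !x.2)] := by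
  simp [winv]

theorem length_winv {A : Type} (l : List (A × Bool)) : (winv l).length = l.length := by
  simp [winv]

theorem mk_winv {A : Type} (l : List (A × Bool)) :
    FreeGroup.mk (winv l) = (FreeGroup.mk l)⁻¹ := by
  rw [FreeGroup.inv_mk]; rfl

theorem mt_mt (σ : Equiv.Perm S.C) (q : Port S) : mt σ (mt σ q) = q := by
  rcases q with ⟨c, b⟩
  cases b <;> simp [mt]

theorem mt_ne (σ : Equiv.Perm S.C) (q : Port S) : mt σ q ≠ q := by
  rcases q with ⟨c, b⟩
  cases b <;> simp [mt]

theorem relw_mt (σ : Equiv.Perm S.C) (q : Port S) :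
    relw σ (mt σ q) = winv (relw σ q) := by
  unfold relw
  rw [mt_mt, winv_append, winv_winv]

theorem pch_mt (σ : Equiv.Perm S.C) (g : Gp σ) (q : Port S) :
    pch σ g (mt σ q) = - pch σ g q := by
  rcases q with ⟨c, b⟩
  cases b <;> simp [mt, pch, ← Finsupp.single_neg]

theorem rv_rv {E : Type} (d : E × Bool) : rv (rv d) = d := by
  simp [rv]

theorem rv_ne {E : Type} (d : E × Bool) : rv d ≠ d := by
  rcases d with ⟨e, b⟩
  cases b <;> simp [rv]

theorem rv_inj {E : Type} {a b : E × Bool} (h : rv a = rv b) : a = b := by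
  rw [← rv_rv a, h, rv_rv]

theorem eq_or_rv {E : Type} {a b : E × Bool} (h : a.1 = b.1) : b = a ∨ b = rv a := by
  rcases a with ⟨e, x⟩
  rcases b with ⟨e', y⟩
  simp only at h
  subst h
  cases x <;> cases y <;> simp [rv]

/-! ### faces -/

section
variable {A : Type} (K : PC A)

theorem nodup_bd (f : Option K.F) : (K.bd f).Nodup := by
  classical
  rw [List.nodup_iff_count_le_one]
  intro d
  rw [← K.once d]
  exact Finset.single_le_sum (f := fun f => (K.bd f).count d) (fun _ _ => Nat.zero_le _)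
    (Finset.mem_univ f)

theorem face_unique {d : K.E × Bool} {f g : Option K.F} (hf : d ∈ K.bd f) (hg : d ∈ K.bd g) :
    f = g := by
  classical
  by_contra h
  have h1 := K.once d
  have h2 : ∑ x ∈ ({f, g} : Finset (Option K.F)), (K.bd x).count d
      ≤ ∑ x, (K.bd x).count d :=
    Finset.sum_le_sum_of_subset (Finset.subset_univ _)
  rw [Finset.sum_pair h, h1] at h2
  have h3 := List.count_pos_iff.2 hf
  have h4 := List.count_pos_iff.2 hg
  omega

/-- path along darts -/
def Path : K.V → List (K.E × Bool) → K.V → Prop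
  | a, [], b => a = b
  | a, x :: l, b => K.org x = a ∧ Path (K.org (rv x)) l b

variable {K}

theorem path_append {a b : K.V} {l m : List (K.E × Bool)} :
    Path K a (l ++ m) b ↔ ∃ c, Path K a l c ∧ Path K c m b := by
  induction l generalizing a with
  | nil => simp only [List.nil_append, Path, exists_eq_left']
  | cons x l ih =>
    simp only [List.cons_append, Path, ih]
    constructor
    · rintro ⟨h, c, h1, h2⟩; exact ⟨c, ⟨h, h1⟩, h2⟩
    · rintro ⟨c, ⟨h, h1⟩, h2⟩; exact ⟨h, c, h1, h2⟩

theorem path_of_chain (l : List (K.E × Bool)) : ∀ (x : K.E × Bool) (e : K.V),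
    List.IsChain (fun a b => K.org b = K.org (rv a)) (x :: l) →
    (∀ a ∈ (x :: l).getLast?, e = K.org (rv a)) → Path K (K.org x) (x :: l) e := by
  induction l with
  | nil =>
    intro x e _ h
    exact ⟨rfl, (h x (by simp)).symm⟩
  | cons y l ih =>
    intro x e hc h
    rw [List.isChain_cons_cons] at hc
    refine ⟨rfl, ?_⟩
    have := ih y e hc.2 (fun a ha => h a (by rwa [List.getLast?_cons_cons]))
    rwa [hc.1] at this

theorem path_face {f : Option K.F} {x : K.E × Bool} {l : List (K.E × Bool)}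
    (h : K.bd f = x :: l) : Path K (K.org x) (x :: l) (K.org x) := by
  apply path_of_chain
  · rw [← h]; exact K.chain f
  · intro a ha
    exact K.closed f a (by rwa [h]) x (by rw [h]; rfl)

/-- the closed boundary walk -/
theorem path_face' {f : Option K.F} (h : K.bd f ≠ []) :
    ∃ x, (K.bd f).head? = some x ∧ Path K (K.org x) (K.bd f) (K.org x) := by
  cases hb : K.bd f with
  | nil => exact absurd hb h
  | cons x l => exact ⟨x, rfl, path_face hb⟩

end

/-- the word of a list of darts -/
def wo {A : Type} (K : PC A) (l : List (K.E × Bool)) : List (A × Bool) :=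
  l.map (fun d => (K.lab d.1, d.2))

theorem wo_append {A : Type} (K : PC A) (l m : List (K.E × Bool)) :
    wo K (l ++ m) = wo K l ++ wo K m := by simp [wo]

theorem lt_rv {A : Type} (K : PC A) (d : K.E × Bool) : K.lt (rv d) = (K.lt d)⁻¹ := by
  rw [PC.lt, PC.lt, FreeGroup.inv_mk]; rfl

section
variable {A : Type} {K : PC A} (T : K.Cotree)

theorem c_rv (d : K.E × Bool) : T.c (rv d) = (T.c d)⁻¹ := by
  simp only [PC.Cotree.c, rv_rv, lt_rv, mul_inv_rev, inv_inv, mul_assoc]

theorem c_one {d : K.E × Bool} (h : ∀ f, (T.dd f).1 ≠ d.1) : T.c d = 1 := by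
  rw [PC.Cotree.c, T.triv d h, mul_inv_cancel]

theorem prod_path {l : List (K.E × Bool)} : ∀ {a b : K.V}, Path K a l b →
    (l.map T.c).prod = T.pot a * FreeGroup.mk (wo K l) * (T.pot b)⁻¹ := by
  induction l with
  | nil =>
    intro a b h
    simp only [Path] at h
    subst h
    simp [wo, ← FreeGroup.one_eq_mk]
  | cons x l ih =>
    intro a b h
    obtain ⟨h1, h2⟩ := h
    rw [List.map_cons, List.prod_cons, ih h2, PC.Cotree.c, h1]
    have : FreeGroup.mk (wo K (x :: l)) = K.lt x * FreeGroup.mk (wo K l) := by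
      rw [PC.lt, FreeGroup.mul_mk]; rfl
    rw [this]
    group

theorem dd_inj {f g : K.F} (h : T.dd f = T.dd g) : f = g := by
  have h1 := T.mem f
  rw [h] at h1
  exact Option.some_injective _ (face_unique K h1 (T.mem g))

theorem rv_dd_mem {f : Option K.F} {g : K.F} : rv (T.dd g) ∈ K.bd f ↔ T.par g = f :=
  ⟨fun h => face_unique K (T.memr g) h, fun h => h ▸ T.memr g⟩

/-! ### subtrees -/

theorem desc_cases {f g : K.F} : T.Desc f g ↔ g = f ∨ ∃ h, T.par h = some f ∧ T.Desc h g := by
  constructor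
  · intro h
    rcases Relation.ReflTransGen.cases_tail h with h | ⟨c, h1, h2⟩
    · exact Or.inl h.symm
    · exact Or.inr ⟨c, h2, h1⟩
  · rintro (h | ⟨h, h1, h2⟩)
    · subst h; exact Relation.ReflTransGen.refl
    · exact Relation.ReflTransGen.tail h2 h1

theorem rank_le {f g : K.F} (h : T.Desc f g) : T.rank f ≤ T.rank g := by
  unfold PC.Cotree.Desc at h
  induction h with
  | refl => exact le_refl _
  | tail _ h2 ih => exact (T.dec _ _ h2).le.trans ih

theorem desc_disj {f : Option K.F} {h h' x : K.F} (h1 : T.par h = f) (h2 : T.par h' = f)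
    (h3 : T.Desc h x) (h4 : T.Desc h' x) : h = h' := by
  have key : ∀ a b : K.F, T.par a = f → T.par b = f → T.Desc b a → a = b := by
    intro a b ha hb hab
    rcases Relation.ReflTransGen.cases_head hab with h | ⟨c, h5, h6⟩
    · exact h
    · exfalso
      rw [h5] at ha
      rw [← ha] at hb
      have := rank_le T (f := b) (g := c) h6
      have := T.dec _ _ hb
      omega
  have hu : Relator.RightUnique (fun a b => T.par a = some b) := by
    intro a b c hb hc
    rw [hb] at hc
    exact Option.some_injective _ hc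
  rcases Relation.ReflTransGen.total_of_right_unique hu h3 h4 with h5 | h5
  · exact key h h' h1 h2 h5
  · exact (key h' h h2 h1 h5).symm

open Classical in
theorem mem_sub {f g : K.F} : g ∈ T.sub f ↔ T.Desc f g := by
  simp only [PC.Cotree.sub, mem_filter, mem_univ, true_and]

open Classical in
theorem sum_sub {M : Type} [AddCommMonoid M] (m : K.F → M) (f : K.F) :
    ∑ x ∈ T.sub f, m x = m f + ∑ h with T.par h = some f, ∑ x ∈ T.sub h, m x := by
  have h1 : T.sub f = insert f ((univ.filter (fun h => T.par h = some f)).biUnion T.sub) := by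
    ext x
    rw [mem_sub, desc_cases, mem_insert, mem_biUnion]
    simp only [mem_filter, mem_univ, true_and, mem_sub]
  rw [h1, sum_insert, sum_biUnion]
  · intro a ha b hb hab
    simp only [coe_filter, mem_univ, true_and, Set.mem_ofPred_eq] at ha hb
    rw [Function.onFun, Finset.disjoint_left]
    intro x hx hx'
    rw [mem_sub] at hx hx'
    exact hab (desc_disj T ha hb hx hx')
  · rw [mem_biUnion]
    rintro ⟨h, hh, hf⟩
    simp only [mem_filter, mem_univ, true_and] at hh
    rw [mem_sub] at hf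
    have := rank_le T hf
    have := T.dec _ _ hh
    omega

theorem exists_top (x : K.F) : ∃ h, T.par h = none ∧ T.Desc h x := by
  induction hr : T.rank x using Nat.strong_induction_on generalizing x with
  | _ r ih =>
    cases hp : T.par x with
    | none => exact ⟨x, hp, Relation.ReflTransGen.refl⟩
    | some y =>
      have h1 := T.dec _ _ hp
      obtain ⟨h, h2, h3⟩ := ih _ (by omega) y rfl
      exact ⟨h, h2, Relation.ReflTransGen.head hp h3⟩

open Classical in
theorem sum_univ {M : Type} [AddCommMonoid M] (m : K.F → M) :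
    ∑ x, m x = ∑ h with T.par h = none, ∑ x ∈ T.sub h, m x := by
  have h1 : (univ : Finset K.F) = (univ.filter (fun h => T.par h = none)).biUnion T.sub := by
    ext x
    simp only [mem_univ, true_iff, mem_biUnion, mem_filter, true_and]
    obtain ⟨h, h2, h3⟩ := exists_top T x
    exact ⟨h, h2, (mem_sub T).2 h3⟩
  rw [h1, sum_biUnion]
  · rw [← h1]
  · intro a ha b hb hab
    simp only [coe_filter, mem_univ, true_and, Set.mem_ofPred_eq] at ha hb
    rw [Function.onFun, Finset.disjoint_left]
    intro x hx hx'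
    rw [mem_sub] at hx hx'
    exact hab (desc_disj T ha hb hx hx')

end

/-! ### expressions -/

theorem expr_mul {σ : Equiv.Perm S.C} {k1 : ℕ} {u1 : FreeGroup (Let S)} {z1 : Chn σ}
    (h1 : Expr σ k1 u1 z1) {k2 : ℕ} {u2 : FreeGroup (Let S)} {z2 : Chn σ}
    (h2 : Expr σ k2 u2 z2) : Expr σ (k1 + k2) (u1 * u2) (z1 + z2) := by
  induction h1 with
  | nil => simpa using h2
  | cons k u z v q _ ih =>
    have h3 := Expr.cons _ _ _ v q ih
    have e1 : k + k2 + 1 = k + 1 + k2 := by omega
    rw [e1, ← mul_assoc, ← add_assoc] at h3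
    exact h3

theorem expr_two (σ : Equiv.Perm S.C) (q : Port S) : Expr σ 2 1 0 := by
  have h1 := Expr.cons 0 1 0 1 q (Expr.nil (σ := σ))
  have h2 := Expr.cons _ _ _ 1 (mt σ q) h1
  have e1 : (1 : FreeGroup (Let S)) * val (relw σ (mt σ q)) * 1⁻¹ *
      (1 * val (relw σ q) * 1⁻¹ * 1) = 1 := by
    rw [relw_mt, val, val, mk_winv]; group
  have e2 : pch σ (PresentedGroup.mk (rels σ) 1) (mt σ q) +
      (pch σ (PresentedGroup.mk (rels σ) 1) q + 0) = 0 := by
    rw [pch_mt]; simp only [map_one, add_zero, neg_add_cancel]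
  rw [e1, e2] at h2
  exact h2

section
variable {σ : Equiv.Perm S.C} (K : SqK σ) (P : K.GPot)

theorem pi_path {l : List (K.E × Bool)} : ∀ {a b : K.V}, Path K.toPC a l b →
    P.π a * PresentedGroup.mk (rels σ) (FreeGroup.mk (wo K.toPC l)) = P.π b := by
  induction l with
  | nil =>
    intro a b h
    simp only [Path] at h
    subst h
    simp only [wo, List.map_nil, ← FreeGroup.one_eq_mk, map_one, mul_one]
  | cons x l ih =>
    intro a b h
    obtain ⟨h1, h2⟩ := h
    have : FreeGroup.mk (wo K.toPC (x :: l)) = K.toPC.lt x * FreeGroup.mk (wo K.toPC l) := by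
      rw [PC.lt, FreeGroup.mul_mk]; rfl
    rw [this, map_mul, ← mul_assoc, ← h1, P.st x, ih h2]

/-- chain of one face -/
noncomputable def mch (f : K.F) : Chn σ :=
  ∑ d ∈ ((K.bd (some f)).head?).toFinset, pch σ (P.π (K.org d)) (K.q f)

theorem chn_eq (C : Finset K.F) : K.chn P C = ∑ f ∈ C, mch K P f := rfl

variable {K P}
variable (T : K.toPC.Cotree)

open Classical in
/-- a product of darts whose nontrivial members are reversed cotree darts -/
theorem expr_list (hE : ∀ f, Expr σ (T.sub f).card (T.c (T.dd f)) (K.chn P (T.sub f)))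
    (L : List (K.E × Bool)) : L.Nodup →
    (∀ x ∈ L, ∀ g, (T.dd g).1 = x.1 → x = rv (T.dd g)) →
    Expr σ (∑ g with rv (T.dd g) ∈ L, (T.sub g).card) ((L.map T.c).prod)⁻¹
      (∑ g with rv (T.dd g) ∈ L, K.chn P (T.sub g)) := by
  induction L with
  | nil =>
    intro _ _
    simpa using Expr.nil
  | cons x L ih =>
    intro hn hx
    rw [List.nodup_cons] at hn
    have ih' := ih hn.2 (fun y hy => hx y (List.mem_cons_of_mem _ hy))
    rw [List.map_cons, List.prod_cons, mul_inv_rev]
    by_cases h : ∃ g, (T.dd g).1 = x.1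
    · obtain ⟨g, hg⟩ := h
      have hxg := hx x (List.mem_cons_self) g hg
      have hs : (univ.filter (fun g' => rv (T.dd g') ∈ x :: L))
          = insert g (univ.filter (fun g' => rv (T.dd g') ∈ L)) := by
        ext g'
        simp only [mem_filter, mem_univ, true_and, List.mem_cons, mem_insert]
        constructor
        · rintro (h1 | h1)
          · rw [hxg] at h1
            exact Or.inl (dd_inj T (rv_inj h1))
          · exact Or.inr h1
        · rintro (h1 | h1)
          · exact Or.inl (by rw [h1, hxg])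
          · exact Or.inr h1
      have hni : g ∉ univ.filter (fun g' => rv (T.dd g') ∈ L) := by
        simp only [mem_filter, mem_univ, true_and]
        rw [← hxg]
        exact hn.1
      rw [hs, sum_insert hni, sum_insert hni]
      have h3 : (T.c x)⁻¹ = T.c (T.dd g) := by
        rw [hxg, c_rv, inv_inv]
      rw [h3]
      have := expr_mul ih' (hE g)
      rw [add_comm, add_comm (K.chn P (T.sub g))]
      exact this
    · have h1 : T.c x = 1 := c_one T (fun f hf => h ⟨f, hf⟩)
      have hs : (univ.filter (fun g' => rv (T.dd g') ∈ x :: L))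
          = univ.filter (fun g' => rv (T.dd g') ∈ L) := by
        ext g'
        simp only [mem_filter, mem_univ, true_and, List.mem_cons]
        constructor
        · rintro (h1 | h1)
          · exact absurd ⟨g', by rw [← h1]; rfl⟩ h
          · exact h1
        · exact Or.inr
      rw [hs, h1, inv_one, mul_one]
      exact ih'

end

/-! ### two mirror faces -/

section
variable {A : Type} {K : PC A}

theorem words_mirror {l1 l2 m1 m2 : List (K.E × Bool)} {d : K.E × Bool} {w : List (A × Bool)}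
    (h1 : wo K (l1 ++ d :: l2) = w) (h2 : wo K (m1 ++ rv d :: m2) = winv w)
    (hl : m1.length = l2.length) : wo K m1 = winv (wo K l2) ∧ wo K m2 = winv (wo K l1) := by
  rw [← h1, wo_append, wo_append, winv_append] at h2
  have e1 : wo K (rv d :: m2) = (K.lab d.1, !d.2) :: wo K m2 := rfl
  have e2 : wo K (d :: l2) = (K.lab d.1, d.2) :: wo K l2 := rfl
  rw [e1, e2, winv_cons, List.append_assoc] at h2
  have h3 := List.append_inj h2 (by simp [wo, length_winv, hl])
  refine ⟨h3.1, ?_⟩
  have h4 := h3.2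
  simp only [List.cons_append, List.nil_append, List.cons.injEq, true_and] at h4
  exact h4

theorem path_rest {f : Option K.F} {l1 l2 : List (K.E × Bool)} {d : K.E × Bool}
    (hf : K.bd f = l1 ++ d :: l2) : ∃ x, (K.bd f).head? = some x ∧
      Path K (K.org x) l1 (K.org d) ∧ Path K (K.org (rv d)) l2 (K.org x) := by
  obtain ⟨x, hx, hp⟩ := path_face' (K := K) (f := f) (by rw [hf]; simp)
  refine ⟨x, hx, ?_⟩
  rw [hf, path_append] at hp
  obtain ⟨c, h1, h2, h3⟩ := hp
  exact ⟨h2 ▸ h1, h3⟩

theorem prod_rest (T : K.Cotree) {f g : Option K.F} {l1 l2 m1 m2 : List (K.E × Bool)}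
    {d : K.E × Bool} (hf : K.bd f = l1 ++ d :: l2) (hg : K.bd g = m1 ++ rv d :: m2)
    (hw1 : wo K m1 = winv (wo K l2)) (hw2 : wo K m2 = winv (wo K l1)) :
    (((l2 ++ l1) ++ (m2 ++ m1)).map T.c).prod = 1 := by
  obtain ⟨x, _, h1, h2⟩ := path_rest hf
  obtain ⟨y, _, h3, h4⟩ := path_rest hg
  rw [rv_rv] at h4
  have hp1 : Path K (K.org (rv d)) (l2 ++ l1) (K.org d) := path_append.2 ⟨_, h2, h1⟩
  have hp2 : Path K (K.org d) (m2 ++ m1) (K.org (rv d)) := path_append.2 ⟨_, h4, h3⟩
  rw [List.map_append, List.prod_append, prod_path T hp1, prod_path T hp2, wo_append, wo_append,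
    hw1, hw2, ← winv_append, mk_winv]
  group

end

section
variable {σ : Equiv.Perm S.C} {K : SqK σ} {P : K.GPot}

theorem mch_eq {f : K.F} {x : K.E × Bool} (h : (K.bd (some f)).head? = some x) :
    mch K P f = pch σ (P.π (K.org x)) (K.q f) := by
  rw [mch, h]; simp

theorem pi_mirror {f g : Option K.F} {l1 l2 m1 m2 : List (K.E × Bool)}
    {d : K.E × Bool} (hf : K.bd f = l1 ++ d :: l2) (hg : K.bd g = m1 ++ rv d :: m2)
    (hw1 : wo K.toPC m1 = winv (wo K.toPC l2)) : ∃ x y, (K.bd f).head? = some x ∧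
      (K.bd g).head? = some y ∧ P.π (K.org x) = P.π (K.org y) := by
  obtain ⟨x, hx, _, h2⟩ := path_rest hf
  obtain ⟨y, hy, h3, _⟩ := path_rest hg
  refine ⟨x, y, hx, hy, ?_⟩
  have e1 := pi_path K P h2
  have e2 := pi_path K P h3
  rw [← e1, ← e2, hw1, mk_winv, map_inv]
  group

open Classical in
theorem core_cards (T : K.toPC.Cotree) {M : Type} [AddCommMonoid M] (m : K.F → M) {f f' : K.F}
    (hpar : T.par f' = some f) :
    ∑ x ∈ T.sub f, m x = m f + m f' + ∑ g with (T.par g = some f ∧ g ≠ f') ∨ T.par g = some f',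
      ∑ x ∈ T.sub g, m x := by
  rw [sum_sub T m f]
  have h1 : (univ.filter (fun g => T.par g = some f))
      = insert f' (univ.filter (fun g => T.par g = some f ∧ g ≠ f')) := by
    ext g
    simp only [mem_filter, mem_univ, true_and, mem_insert]
    constructor
    · intro h
      by_cases hg : g = f'
      · exact Or.inl hg
      · exact Or.inr ⟨h, hg⟩
    · rintro (h | h)
      · rw [h]; exact hpar
      · exact h.1
  have h2 : f' ∉ univ.filter (fun g => T.par g = some f ∧ g ≠ f') := by simp only [ne_eq, mem_filter, mem_univ, not_true_eq_false, and_false, not_false_eq_true]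
  have h3 : (univ.filter (fun g => (T.par g = some f ∧ g ≠ f') ∨ T.par g = some f'))
      = (univ.filter (fun g => T.par g = some f ∧ g ≠ f')) ∪
        (univ.filter (fun g => T.par g = some f')) := by
    rw [← filter_or]
  have h4 : Disjoint (univ.filter (fun g => T.par g = some f ∧ g ≠ f'))
      (univ.filter (fun g => T.par g = some f')) := by
    rw [disjoint_filter]
    rintro x _ ⟨h5, _⟩ h6
    rw [h5] at h6
    have h7 := T.dec _ _ hpar
    rw [Option.some_injective _ h6] at h7
    omega
  rw [h1, sum_insert h2, sum_sub T m f', h3, sum_union h4]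
  abel

/-- mirror pair of two inner faces, with the common edge in the cotree -/
theorem core (T : K.toPC.Cotree)
    (hE : ∀ f, Expr σ (T.sub f).card (T.c (T.dd f)) (K.chn P (T.sub f)))
    {f f' : K.F} (hq : K.q f' = mt σ (K.q f)) {l1 l2 m1 m2 : List (K.E × Bool)}
    {d : K.E × Bool} (hf : K.bd (some f) = l1 ++ d :: l2)
    (hf' : K.bd (some f') = m1 ++ rv d :: m2) (hlen : m1.length = l2.length)
    (hpar : T.par f' = some f) (hdd : T.dd f' = rv d) :
    2 ≤ (T.sub f).card ∧
      Expr σ ((T.sub f).card - 2) (T.c (T.dd f)) (K.chn P (T.sub f)) := by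
  classical
  have hne : f ≠ f' := by
    rintro rfl
    exact mt_ne σ _ hq.symm
  have hwf : wo K.toPC (l1 ++ d :: l2) = relw σ (K.q f) := by rw [← hf]; exact K.sq f
  have hwf' : wo K.toPC (m1 ++ rv d :: m2) = winv (relw σ (K.q f)) := by
    rw [← relw_mt, ← hq, ← hf']; exact K.sq f'
  obtain ⟨hw1, hw2⟩ := words_mirror hwf hwf' hlen
  have hprod := prod_rest T hf hf' hw1 hw2
  have hnf := nodup_bd K.toPC (some f)
  have hnf' := nodup_bd K.toPC (some f')
  rw [hf] at hnf
  rw [hf'] at hnf'
  have hdis : ∀ x, x ∈ K.bd (some f) → x ∈ K.bd (some f') → False := fun x h1 h2 =>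
    hne (Option.some_injective _ (face_unique K.toPC h1 h2))
  have hpn : T.par f ≠ some f' := by
    intro h
    have h1 := T.dec _ _ h
    have h2 := T.dec _ _ hpar
    omega
  have hddf : T.dd f ≠ d := by
    intro h
    apply hpn
    rw [← rv_dd_mem, h, hf']
    simp
  have hmem : T.dd f ∈ l2 ++ l1 := by
    have := T.mem f
    rw [hf] at this
    simp only [List.mem_append, List.mem_cons] at this ⊢
    (clear * - this hddf; tauto)
  obtain ⟨a, b, hab⟩ := List.append_of_mem hmem
  -- membership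
  have hmemL : ∀ x, x ∈ (l2 ++ l1) ++ (m2 ++ m1) ↔
      (x ∈ K.bd (some f) ∨ x ∈ K.bd (some f')) ∧ x ≠ d ∧ x ≠ rv d := by
    intro x
    have hd1 : d ∉ m1 ++ rv d :: m2 := by
      rw [← hf']; intro h; exact hdis d (by rw [hf]; simp) h
    have hd2 : rv d ∉ l1 ++ d :: l2 := by
      rw [← hf]; intro h; exact hdis (rv d) h (by rw [hf']; simp)
    have hd3 : d ∉ l1 ∧ d ∉ l2 := by
      rw [List.nodup_middle, List.nodup_cons] at hnf
      simpa using hnf.1
    have hd4 : rv d ∉ m1 ∧ rv d ∉ m2 := by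
      rw [List.nodup_middle, List.nodup_cons] at hnf'
      simpa using hnf'.1
    rw [hf, hf']
    simp only [List.mem_append, List.mem_cons, not_or] at hd1 hd2 ⊢
    constructor
    · intro h
      refine ⟨by (clear * - hd3 hd4 hd1 hd2 h; tauto), ?_, ?_⟩
      · rintro rfl; (clear * - h hd3 hd4 hd1 hd2; tauto)
      · rintro rfl; (clear * - hd3 hd4 hd1 hd2 h; tauto)
    · rintro ⟨h1, h2, h3⟩
      (clear * - hd3 hd4 hd1 hd2 h1 h2 h3; tauto)
  have hnL : ((l2 ++ l1) ++ (m2 ++ m1)).Nodup := by
    rw [List.nodup_middle, List.nodup_cons] at hnf hnf'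
    have h1 : (l2 ++ l1).Nodup := (List.perm_append_comm.nodup_iff).1 hnf.2
    have h2 : (m2 ++ m1).Nodup := (List.perm_append_comm.nodup_iff).1 hnf'.2
    refine List.Nodup.append h1 h2 ?_
    intro x hx hx'
    refine hdis x ?_ ?_
    · rw [hf]; simp only [List.mem_append, List.mem_cons] at hx ⊢; (clear * - hnf hnf' hx; tauto)
    · rw [hf']; simp only [List.mem_append, List.mem_cons] at hx' ⊢; (clear * - hnf hnf' hx'; tauto)
  rw [hab] at hnL
  have hnM : ((b ++ (m2 ++ m1)) ++ a).Nodup := by
    have : (a ++ T.dd f :: (b ++ (m2 ++ m1))).Nodup := by simpa using hnL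
    rw [List.nodup_middle, List.nodup_cons] at this
    exact (List.perm_append_comm.nodup_iff).1 this.2
  have hddn : T.dd f ∉ (b ++ (m2 ++ m1)) ++ a := by
    have : (a ++ T.dd f :: (b ++ (m2 ++ m1))).Nodup := by simpa using hnL
    rw [List.nodup_middle, List.nodup_cons] at this
    intro h
    exact this.1 ((List.perm_append_comm).mem_iff.1 h)
  have hmemM : ∀ x, x ∈ (b ++ (m2 ++ m1)) ++ a ↔
      (x ∈ K.bd (some f) ∨ x ∈ K.bd (some f')) ∧ x ≠ d ∧ x ≠ rv d ∧ x ≠ T.dd f := by
    intro x
    have h1 := hmemL x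
    rw [hab] at h1
    have h2 : x ∈ (a ++ T.dd f :: b) ++ (m2 ++ m1) ↔ x = T.dd f ∨ x ∈ (b ++ (m2 ++ m1)) ++ a := by
      simp only [List.mem_append, List.mem_cons]; (clear * - h1; tauto)
    constructor
    · intro h
      have h3 := h1.1 (h2.2 (Or.inr h))
      refine ⟨h3.1, h3.2.1, h3.2.2, ?_⟩
      rintro rfl
      exact hddn h
    · rintro ⟨h3, h4, h5, h6⟩
      rcases h2.1 (h1.2 ⟨h3, h4, h5⟩) with h7 | h7
      · exact absurd h7 h6
      · exact h7
  have hx : ∀ x ∈ (b ++ (m2 ++ m1)) ++ a, ∀ g, (T.dd g).1 = x.1 → x = rv (T.dd g) := by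
    intro x hx g hg
    obtain ⟨h1, h2, h3, h4⟩ := (hmemM x).1 hx
    rcases eq_or_rv hg with h | h
    · exfalso
      have h5 := T.mem g
      rw [← h] at h5
      rcases h1 with h1 | h1
      · have := Option.some_injective _ (face_unique K.toPC h1 h5)
        rw [← this] at h
        exact h4 h
      · have := Option.some_injective _ (face_unique K.toPC h1 h5)
        rw [← this, hdd] at h
        exact h3 h
    · exact h
  have hex := expr_list T hE _ hnM hx
  have hval : ((((b ++ (m2 ++ m1)) ++ a).map T.c).prod)⁻¹ = T.c (T.dd f) := by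
    rw [hab] at hprod
    simp only [List.map_append, List.map_cons, List.prod_append, List.prod_cons] at hprod ⊢
    rw [inv_eq_iff_mul_eq_one]
    have h2 : (a.map T.c).prod * (T.c (T.dd f) * ((b.map T.c).prod *
        ((m2.map T.c).prod * (m1.map T.c).prod))) = 1 := by
      rw [← hprod]; group
    have h3 := mul_eq_one_comm.1 h2
    rw [← h3]
    have h4 := mul_eq_one_comm.1 (show (T.c (T.dd f)) * (((b.map T.c).prod *
        ((m2.map T.c).prod * (m1.map T.c).prod)) * (a.map T.c).prod) = 1 by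
      rw [← h3]; group)
    rw [h3, ← h4]
  have hS : (univ.filter (fun g => rv (T.dd g) ∈ (b ++ (m2 ++ m1)) ++ a))
      = univ.filter (fun g => (T.par g = some f ∧ g ≠ f') ∨ T.par g = some f') := by
    ext g
    simp only [mem_filter, mem_univ, true_and]
    rw [hmemM, rv_dd_mem, rv_dd_mem]
    constructor
    · rintro ⟨h1, h2, h3, h4⟩
      rcases h1 with h1 | h1
      · refine Or.inl ⟨h1, ?_⟩
        rintro rfl
        rw [hdd, rv_rv] at h2
        exact h2 rfl
      · exact Or.inr h1
    · intro h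
      refine ⟨by (clear * - h; tauto), ?_, ?_, ?_⟩
      · intro h1
        have h2 : T.dd g = T.dd f' := by rw [hdd, ← h1, rv_rv]
        have h3 := dd_inj T h2
        rcases h with h | h
        · exact h.2 h3
        · rw [h3, hpar] at h
          exact hne (Option.some_injective _ h)
      · intro h1
        have h2 := T.mem g
        rw [rv_inj h1] at h2
        have h3 : g = f := Option.some_injective _
          (face_unique K.toPC h2 (by rw [hf]; simp))
        rw [h3] at h1
        exact hddf (rv_inj h1)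
      · intro h1
        have h2 : T.par g = some f := by
          rw [← rv_dd_mem, h1]; exact T.mem f
        have h3 : T.par f = some g := by
          rw [← rv_dd_mem, ← h1, rv_rv]; exact T.mem g
        have h4 := T.dec _ _ h2
        have h5 := T.dec _ _ h3
        omega
  rw [hval, hS] at hex
  have hc := core_cards T (fun _ => (1 : ℕ)) hpar
  simp only [← card_eq_sum_ones] at hc
  have hch := core_cards T (mch K P) hpar
  have hm : mch K P f + mch K P f' = 0 := by
    obtain ⟨x, y, hx1, hy1, hxy⟩ := pi_mirror (P := P) hf hf' hw1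
    rw [mch_eq hx1, mch_eq hy1, hxy, hq, pch_mt, add_neg_cancel]
  rw [hm, zero_add] at hch
  refine ⟨by omega, ?_⟩
  have e1 : (T.sub f).card - 2 = ∑ g with (T.par g = some f ∧ g ≠ f') ∨ T.par g = some f',
      (T.sub g).card := by omega
  rw [e1, chn_eq, hch]
  exact hex

/-- an identity from a mirror pair of an inner face and the outer face -/
theorem core_out (T : K.toPC.Cotree)
    (hE : ∀ f, Expr σ (T.sub f).card (T.c (T.dd f)) (K.chn P (T.sub f)))
    {f : K.F} {q0 : Port S} (hq : K.q f = q0) (hout : K.outw = relw σ q0)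
    {l1 l2 m1 m2 : List (K.E × Bool)}
    {d : K.E × Bool} (hf : K.bd (some f) = l1 ++ d :: l2)
    (hf' : K.bd none = m1 ++ rv d :: m2) (hlen : m1.length = l2.length)
    (hpar : T.par f = none) (hdd : T.dd f = d) :
    Expr σ (Fintype.card K.F - 1) 1 (K.chn P univ - pch σ 1 q0) := by
  classical
  have hwf : wo K.toPC (l1 ++ d :: l2) = relw σ q0 := by rw [← hf, ← hq]; exact K.sq f
  have hwf' : wo K.toPC (m1 ++ rv d :: m2) = winv (relw σ q0) := by
    rw [← hout, ← hf', SqK.outw, winv_winv]; rfl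
  obtain ⟨hw1, hw2⟩ := words_mirror hwf hwf' hlen
  have hprod := prod_rest T hf hf' hw1 hw2
  have hnf := nodup_bd K.toPC (some f)
  have hnf' := nodup_bd K.toPC none
  rw [hf] at hnf
  rw [hf'] at hnf'
  have hdis : ∀ x, x ∈ K.bd (some f) → x ∈ K.bd none → False := fun x h1 h2 => by
    have := face_unique K.toPC h1 h2
    simp at this
  have hmemL : ∀ x, x ∈ (l2 ++ l1) ++ (m2 ++ m1) ↔
      (x ∈ K.bd (some f) ∨ x ∈ K.bd none) ∧ x ≠ d ∧ x ≠ rv d := by
    intro x
    have hd1 : d ∉ m1 ++ rv d :: m2 := by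
      rw [← hf']; intro h; exact hdis d (by rw [hf]; simp) h
    have hd2 : rv d ∉ l1 ++ d :: l2 := by
      rw [← hf]; intro h; exact hdis (rv d) h (by rw [hf']; simp)
    have hd3 : d ∉ l1 ∧ d ∉ l2 := by
      rw [List.nodup_middle, List.nodup_cons] at hnf
      simpa using hnf.1
    have hd4 : rv d ∉ m1 ∧ rv d ∉ m2 := by
      rw [List.nodup_middle, List.nodup_cons] at hnf'
      simpa using hnf'.1
    rw [hf, hf']
    simp only [List.mem_append, List.mem_cons, not_or] at hd1 hd2 ⊢
    constructor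
    · intro h
      refine ⟨by (clear * - hd3 hd4 hd1 hd2 h; tauto), ?_, ?_⟩
      · rintro rfl; (clear * - h hd3 hd4 hd1 hd2; tauto)
      · rintro rfl; (clear * - hd3 hd4 hd1 hd2 h; tauto)
    · rintro ⟨h1, h2, h3⟩
      (clear * - hd3 hd4 hd1 hd2 h1 h2 h3; tauto)
  have hnL : ((l2 ++ l1) ++ (m2 ++ m1)).Nodup := by
    rw [List.nodup_middle, List.nodup_cons] at hnf hnf'
    have h1 : (l2 ++ l1).Nodup := (List.perm_append_comm.nodup_iff).1 hnf.2
    have h2 : (m2 ++ m1).Nodup := (List.perm_append_comm.nodup_iff).1 hnf'.2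
    refine List.Nodup.append h1 h2 ?_
    intro x hx hx'
    refine hdis x ?_ ?_
    · rw [hf]; simp only [List.mem_append, List.mem_cons] at hx ⊢; (clear * - hnf hnf' hx; tauto)
    · rw [hf']; simp only [List.mem_append, List.mem_cons] at hx' ⊢; (clear * - hnf hnf' hx'; tauto)
  have hx : ∀ x ∈ (l2 ++ l1) ++ (m2 ++ m1), ∀ g, (T.dd g).1 = x.1 → x = rv (T.dd g) := by
    intro x hx g hg
    obtain ⟨h1, h2, h3⟩ := (hmemL x).1 hx
    rcases eq_or_rv hg with h | h
    · exfalso
      have h5 := T.mem g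
      rw [← h] at h5
      rcases h1 with h1 | h1
      · have := Option.some_injective _ (face_unique K.toPC h1 h5)
        rw [← this, hdd] at h
        exact h2 h
      · have := face_unique K.toPC h1 h5
        simp at this
    · exact h
  have hex := expr_list T hE _ hnL hx
  rw [hprod, inv_one] at hex
  have hS : (univ.filter (fun g => rv (T.dd g) ∈ (l2 ++ l1) ++ (m2 ++ m1)))
      = univ.filter (fun g => T.par g = some f) ∪
        univ.filter (fun g => T.par g = none ∧ g ≠ f) := by
    ext g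
    simp only [mem_filter, mem_univ, true_and, mem_union]
    rw [hmemL, rv_dd_mem, rv_dd_mem]
    constructor
    · rintro ⟨h1, h2, h3⟩
      rcases h1 with h1 | h1
      · exact Or.inl h1
      · refine Or.inr ⟨h1, ?_⟩
        rintro rfl
        rw [hdd] at h3
        exact h3 rfl
    · intro h
      refine ⟨by (clear * - h; tauto), ?_, ?_⟩
      · intro h1
        have h2 := T.mem g
        have h3 : T.dd g = rv d := by rw [← h1, rv_rv]
        rw [h3] at h2
        have := face_unique K.toPC h2 (show rv d ∈ K.bd none by rw [hf']; simp)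
        simp at this
      · intro h1
        have h2 : T.dd g = T.dd f := by rw [hdd, rv_inj h1]
        have h3 := dd_inj T h2
        rw [h3] at h
        rcases h with h | h
        · have := T.dec _ _ h
          omega
        · exact h.2 rfl
  have hsum : ∀ {M : Type} [AddCommMonoid M] (m : K.F → M),
      ∑ x, m x = m f + ∑ g ∈ univ.filter (fun g => T.par g = some f) ∪
        univ.filter (fun g => T.par g = none ∧ g ≠ f), ∑ x ∈ T.sub g, m x := by
    intro M _ m
    have h1 : (univ.filter (fun g => T.par g = none))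
        = insert f (univ.filter (fun g => T.par g = none ∧ g ≠ f)) := by
      ext g
      simp only [mem_filter, mem_univ, true_and, mem_insert]
      constructor
      · intro h
        by_cases hg : g = f
        · exact Or.inl hg
        · exact Or.inr ⟨h, hg⟩
      · rintro (h | h)
        · rw [h]; exact hpar
        · exact h.1
    have h2 : f ∉ univ.filter (fun g => T.par g = none ∧ g ≠ f) := by simp only [ne_eq, mem_filter, mem_univ, not_true_eq_false, and_false, not_false_eq_true]
    have h4 : Disjoint (univ.filter (fun g => T.par g = some f))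
        (univ.filter (fun g => T.par g = none ∧ g ≠ f)) := by
      rw [disjoint_filter]
      rintro x _ h5 ⟨h6, _⟩
      rw [h5] at h6
      simp at h6
    rw [sum_univ T m, h1, sum_insert h2, sum_sub T m f, sum_union h4]
    abel
  rw [hS] at hex
  have hc := hsum (fun _ => (1 : ℕ))
  simp only [← card_eq_sum_ones] at hc
  have hch := hsum (mch K P)
  have hm : mch K P f = pch σ 1 q0 := by
    obtain ⟨x, y, hx1, hy1, hxy⟩ := pi_mirror (P := P) hf hf' hw1
    rw [mch_eq hx1, hxy, P.base y hy1, hq]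
  have e1 : Fintype.card K.F - 1 = ∑ g ∈ univ.filter (fun g => T.par g = some f) ∪
        univ.filter (fun g => T.par g = none ∧ g ≠ f), (T.sub g).card := by
    rw [← Finset.card_univ]; omega
  rw [e1, chn_eq, hch, hm, add_sub_cancel_left]
  exact hex

/-! ### the dual spanning tree -/

section
variable {A : Type} (K : PC A)

/-- dual graph -/
def dG : SimpleGraph (Option K.F) :=
  SimpleGraph.fromRel (fun a b => ∃ d, d ∈ K.bd a ∧ rv d ∈ K.bd b)

theorem dG_adj {a b : Option K.F} :
    (dG K).Adj a b ↔ a ≠ b ∧ ∃ d, d ∈ K.bd a ∧ rv d ∈ K.bd b := by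
  rw [dG, SimpleGraph.fromRel_adj]
  constructor
  · rintro ⟨h, h1 | ⟨d, h1, h2⟩⟩
    · exact ⟨h, h1⟩
    · exact ⟨h, rv d, h2, by rwa [rv_rv]⟩
  · rintro ⟨h, h1⟩
    exact ⟨h, Or.inl h1⟩

theorem dG_reach (a b : Option K.F) : (dG K).Reachable a b := by
  have h := K.dconn a b
  induction h with
  | refl => exact SimpleGraph.Reachable.refl _
  | @tail x y _ h2 ih =>
    by_cases hxy : x = y
    · rw [← hxy]; exact ih
    · exact ih.trans (SimpleGraph.Adj.reachable ((dG_adj K).2 ⟨hxy, h2⟩))

theorem dG_parent (g : K.F) : ∃ y : Option K.F, ∃ d, d ∈ K.bd (some g) ∧ rv d ∈ K.bd y ∧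
    (dG K).dist y none < (dG K).dist (some g) none := by
  obtain ⟨w, hw⟩ := (dG_reach K (some g) none).exists_walk_length_eq_dist
  cases w with
  | cons h p =>
    rename_i y
    obtain ⟨d, h1, h2⟩ := ((dG_adj K).1 h).2
    refine ⟨y, d, h1, h2, ?_⟩
    have := SimpleGraph.dist_le p
    rw [← hw, SimpleGraph.Walk.length_cons]
    omega

end

section

variable (K P)

theorem bd_none_ne (f : K.F) : K.bd none ≠ [] := by
  intro h
  have h1 := K.dconn none (some f)
  rcases Relation.ReflTransGen.cases_head h1 with h2 | ⟨c, ⟨d, h2, _⟩, _⟩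
  · simp at h2
  · rw [h] at h2
    simp at h2

/-- a cotree rooted at the base vertex, with prescribed dual edge -/
theorem exists_cotree (hT : HypT2) (x0 : K.E × Bool)
    {f' : K.F} {y : Option K.F} {d : K.E × Bool}
    (h1 : d ∈ K.bd (some f')) (h2 : rv d ∈ K.bd y)
    (hd : (dG K.toPC).dist y none ≤ (dG K.toPC).dist (some f') none) (hy : y ≠ some f') :
    ∃ T : K.toPC.Cotree, T.par f' = y ∧ T.dd f' = d ∧ T.root = K.org x0 := by
  classical
  choose par dd hm hr hdist using dG_parent K.toPC
  let D : Option K.F → ℕ := fun a => (dG K.toPC).dist a none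
  obtain ⟨C, hC1, hC2, hC3⟩ := hT (Let S) K.toPC (fun g => if g = f' then y else par g)
    (fun g => if g = f' then d else dd g) (fun g => 2 * D (some g) + if g = f' then 1 else 0)
    (K.org x0)
    (by
      intro g
      by_cases hg : g = f'
      · simp only [hg, if_true]; exact h1
      · simp only [hg, if_false]; exact hm g)
    (by
      intro g
      by_cases hg : g = f'
      · simp only [hg, if_true]; exact h2
      · simp only [hg, if_false]; exact hr g)
    (by
      intro g k hgk
      by_cases hg : g = f'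
      · simp only [hg, if_true] at hgk ⊢
        have hk : k ≠ f' := by
          rintro rfl
          exact hy hgk
        simp only [hk, if_false]
        rw [hgk] at hd
        have : D (some k) ≤ D (some f') := hd
        omega
      · simp only [hg, if_false] at hgk ⊢
        have h3 := hdist g
        rw [hgk] at h3
        have : D (some k) < D (some g) := h3
        split_ifs <;> omega)
  refine ⟨C, ?_, ?_, hC3⟩
  · rw [hC1]; simp
  · rw [hC2]; simp

/-- MIRROR PAIR OF INNER FACES: shorter expression of the outer word with the same chain. -/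
theorem mirror_expr (hT : HypT2) (hRec : StmtRec) (hRepl : StmtRepl)
    {f f' : K.F} (hq : K.q f' = mt σ (K.q f)) {l1 l2 m1 m2 : List (K.E × Bool)}
    {d : K.E × Bool} (hf : K.bd (some f) = l1 ++ d :: l2)
    (hf' : K.bd (some f') = m1 ++ rv d :: m2) (hlen : m1.length = l2.length) :
    2 ≤ Fintype.card K.F ∧
      Expr σ (Fintype.card K.F - 2) (val K.outw) (K.chn P univ) := by
  classical
  obtain ⟨x0, hx0⟩ : ∃ x0, (K.bd none).head? = some x0 := by
    cases h : K.bd none with
    | nil => exact absurd h (bd_none_ne K f)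
    | cons x l => exact ⟨x, rfl⟩
  have key : ∀ (f f' : K.F) (_ : K.q f' = mt σ (K.q f)) (l1 l2 m1 m2 : List (K.E × Bool))
      (d : K.E × Bool) (_ : K.bd (some f) = l1 ++ d :: l2)
      (_ : K.bd (some f') = m1 ++ rv d :: m2) (_ : m1.length = l2.length)
      (_ : (dG K.toPC).dist (some f) none ≤ (dG K.toPC).dist (some f') none),
      2 ≤ Fintype.card K.F ∧
      Expr σ (Fintype.card K.F - 2) (val K.outw) (K.chn P univ) := by
    intro f f' hq l1 l2 m1 m2 d hf hf' hlen hD
    have hne : f ≠ f' := by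
      rintro rfl
      exact mt_ne σ _ hq.symm
    obtain ⟨T, hT1, hT2, hT3⟩ := exists_cotree K hT x0 (f' := f') (y := some f) (d := rv d)
      (by rw [hf']; simp) (by rw [rv_rv, hf]; simp) hD (by simpa using hne)
    have hroot : P.π T.root = 1 := by rw [hT3]; exact P.base x0 hx0
    have hrt : ∀ d ∈ (K.bd none).head?, K.org d = T.root := by
      intro d hd
      rw [hx0] at hd
      simp only [Option.mem_def, Option.some.injEq] at hd
      rw [hT3, hd]
    have hE := (hRec S σ K P T hroot).2
    obtain ⟨h2, hex⟩ := core T hE hq hf hf' hlen hT1 hT2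
    have hrep := hRepl S σ K P T hroot hrt f _ _ hex
    have hcard : (T.sub f).card ≤ Fintype.card K.F := Finset.card_le_univ _
    refine ⟨h2.trans hcard, ?_⟩
    rw [sub_add_cancel] at hrep
    have e1 : Fintype.card K.F - (T.sub f).card + ((T.sub f).card - 2) = Fintype.card K.F - 2 := by
      (clear * - h2 hcard; omega)
    rwa [e1] at hrep
  rcases le_total ((dG K.toPC).dist (some f) none) ((dG K.toPC).dist (some f') none) with h | h
  · exact key f f' hq l1 l2 m1 m2 d hf hf' hlen h
  · have hl : (K.bd (some f)).length = (K.bd (some f')).length := by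
      have e1 := congrArg List.length (K.sq f)
      have e2 := congrArg List.length (K.sq f')
      rw [List.length_map] at e1 e2
      rw [e1, e2, hq, relw_mt, length_winv]
    rw [hf, hf'] at hl
    simp only [List.length_append, List.length_cons] at hl
    exact key f' f (by rw [hq, mt_mt]) m1 m2 l1 l2 (rv d) hf' (by rw [rv_rv]; exact hf)
      (by omega) h

/-- MIRROR PAIRS ARE EXCLUDED (D6). -/
theorem mirror (hT : HypT2) (hRec : StmtRec) (hRepl : StmtRepl)
    (hno : NoRed σ (val K.outw) (Fintype.card K.F) (K.chn P univ))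
    {f f' : K.F} (hq : K.q f' = mt σ (K.q f)) {l1 l2 m1 m2 : List (K.E × Bool)}
    {d : K.E × Bool} (hf : K.bd (some f) = l1 ++ d :: l2)
    (hf' : K.bd (some f') = m1 ++ rv d :: m2) (hlen : m1.length = l2.length) : False := by
  obtain ⟨h2, hex⟩ := mirror_expr K P hT hRec hRepl hq hf hf' hlen
  refine hno 2 0 (by omega) h2 (expr_two σ (K.q f)) ?_
  rwa [sub_zero]

/-- MIRROR PAIR OF AN INNER FACE AND THE OUTER FACE (D7). -/
theorem mirror_out (hT : HypT2) (hRec : StmtRec)
    {f : K.F} {q0 : Port S} (hq : K.q f = q0) (hout : K.outw = relw σ q0)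
    {l1 l2 m1 m2 : List (K.E × Bool)}
    {d : K.E × Bool} (hf : K.bd (some f) = l1 ++ d :: l2)
    (hf' : K.bd none = m1 ++ rv d :: m2) (hlen : m1.length = l2.length) :
    Expr σ (Fintype.card K.F - 1) 1 (K.chn P univ - pch σ 1 q0) := by
  obtain ⟨x0, hx0⟩ : ∃ x0, (K.bd none).head? = some x0 := by
    cases h : K.bd none with
    | nil => exact absurd h (bd_none_ne K f)
    | cons x l => exact ⟨x, rfl⟩
  obtain ⟨T, hT1, hT2, hT3⟩ := exists_cotree K hT x0 (f' := f) (y := none) (d := d)
      (by rw [hf]; simp) (by rw [hf']; simp) (by simp) (by simp)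
  have hroot : P.π T.root = 1 := by rw [hT3]; exact P.base x0 hx0
  exact core_out T (hRec S σ K P T hroot).2 hq hout hf hf' hlen hT1 hT2

end

end

end Vale.Agent.P201.S.BrRed
end

section

/-! P201, parts D6 and D7: `StmtMirD` and `StmtMirS` (helper466). -/

namespace Vale.Agent.P201.S.BrMir

open Finset Vale.Agent.P201.S

variable {S : Sys} {σ : Equiv.Perm S.C}

theorem hypT2 : BrRed.HypT2 := fun _ K par dd rank root h1 h2 h3 =>
  T2.exists_cotree_of_dual K par dd rank h1 h2 h3 root

section
variable {K : PC (Let S)} (B : Br σ K)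

theorem len_T1 (s : B.Q) : (B.sd s).T1.length = (S.ht (B.ε s)).natAbs := by
  have := congrArg List.length (B.sd s).lT1
  simpa only [List.length_map, tw, List.length_replicate] using this

theorem len_T2 (s : B.Q) : (B.sd s).T2.length = (S.ht (mt σ (B.ε s))).natAbs := by
  have := congrArg List.length (B.sd s).lT2
  simpa only [List.length_map, winv, tw, List.map_replicate, List.reverse_replicate,     List.length_replicate] using this

theorem cut_x {s s' : B.Q} (he : B.ε s' = mt σ (B.ε s)) (h : rv (B.xs s) = B.xe s') :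
    ∃ (l1 l2 m1 m2 : List (K.E × Bool)) (d : K.E × Bool), K.bd (B.j s) = l1 ++ d :: l2 ∧
      K.bd (B.j s') = m1 ++ rv d :: m2 ∧ m1.length = l2.length := by
  refine ⟨[], (B.sd s).T1 ++ B.ys s :: B.ye s :: ((B.sd s).T2 ++ [B.xe s]),
    B.xs s' :: ((B.sd s').T1 ++ B.ys s' :: B.ye s' :: (B.sd s').T2), [], B.xs s, ?_, ?_, ?_⟩
  · rw [B.bd_eq s]; rfl
  · rw [B.bd_eq s', h]; simp
  · have h1 := len_T1 B s
    have h2 := len_T2 B s
    have h3 := len_T1 B s'
    have h4 := len_T2 B s'
    have e1 : (S.ht (B.ε s')).natAbs = (S.ht (mt σ (B.ε s))).natAbs := by rw [he]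
    have e2 : (S.ht (mt σ (B.ε s'))).natAbs = (S.ht (B.ε s)).natAbs := by
      rw [he, BrRed.mt_mt]
    simp only [List.length_cons, List.length_append, List.length_nil]
    omega

theorem cut_y {s s' : B.Q} (he : B.ε s' = mt σ (B.ε s)) (h : rv (B.ye s) = B.ys s') :
    ∃ (l1 l2 m1 m2 : List (K.E × Bool)) (d : K.E × Bool), K.bd (B.j s) = l1 ++ d :: l2 ∧
      K.bd (B.j s') = m1 ++ rv d :: m2 ∧ m1.length = l2.length := by
  refine ⟨B.xs s :: ((B.sd s).T1 ++ [B.ys s]), (B.sd s).T2 ++ [B.xe s],
    B.xs s' :: (B.sd s').T1, B.ye s' :: ((B.sd s').T2 ++ [B.xe s']), B.ye s, ?_, ?_, ?_⟩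
  · rw [B.bd_eq s]; simp
  · rw [B.bd_eq s', h]; simp
  · have h2 := len_T2 B s
    have h3 := len_T1 B s'
    have e1 : (S.ht (B.ε s')).natAbs = (S.ht (mt σ (B.ε s))).natAbs := by rw [he]
    simp only [List.length_cons, List.length_append, List.length_nil]
    omega

end

theorem stmtMirD : StmtMirD := by
  intro S σ K P hno s s' hq
  constructor
  · intro h
    obtain ⟨l1, l2, m1, m2, d, h1, h2, h3⟩ := cut_x (brD K) (s := s) (s' := s') hq h
    exact BrRed.mirror K P hypT2 stmtRec stmtRepl hno hq h1 h2 h3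
  · intro h
    obtain ⟨l1, l2, m1, m2, d, h1, h2, h3⟩ := cut_y (brD K) (s := s) (s' := s') hq h
    exact BrRed.mirror K P hypT2 stmtRec stmtRepl hno hq h1 h2 h3

theorem sph_aux (K : SqK σ) (P : K.GPot) (q0 : Port S) (h : K.outw = relw σ q0)
    (hc : K.chn P univ - pch σ 1 q0 ≠ 0)
    (hz : ∀ k z, k ≤ Fintype.card K.F → Expr σ k 1 z → z = 0) (s s' : Option K.F)
    (hq : (brS K q0 h).ε s' = mt σ ((brS K q0 h).ε s))
    {l1 l2 m1 m2 : List (K.E × Bool)} {d : K.E × Bool}
    (h1 : K.bd s = l1 ++ d :: l2) (h2 : K.bd s' = m1 ++ rv d :: m2)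
    (h3 : m1.length = l2.length) : False := by
  have hlen : (K.bd s).length = (K.bd s').length := by
    have e1 := congrArg List.length ((brS K q0 h).sq s)
    have e2 := congrArg List.length ((brS K q0 h).sq s')
    have e3 : (K.wd s).length = (K.bd s).length := by simp [PC.wd]
    have e4 : (K.wd s').length = (K.bd s').length := by simp [PC.wd]
    have e5 : (K.wd s).length = (relw σ ((brS K q0 h).ε s)).length := e1
    have e6 : (K.wd s').length = (relw σ ((brS K q0 h).ε s')).length := e2
    rw [← e3, ← e4, e5, e6, hq, BrRed.relw_mt, BrRed.length_winv]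
  rw [h1, h2] at hlen
  simp only [List.length_append, List.length_cons] at hlen
  rcases s with _ | f
  · rcases s' with _ | f'
    · exact BrRed.mt_ne σ _ hq.symm
    · have e : K.q f' = q0 := by
        have : K.q f' = mt σ (mt σ q0) := hq
        rw [this, BrRed.mt_mt]
      have hex := BrRed.mirror_out K P hypT2 stmtRec (f := f') e h h2
        (d := rv d) (by rw [BrRed.rv_rv]; exact h1) (by omega)
      exact hc (hz _ _ (by omega) hex)
  · rcases s' with _ | f'
    · have e : K.q f = q0 := by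
        have : mt σ q0 = mt σ (K.q f) := hq
        rw [← BrRed.mt_mt σ (K.q f), ← this, BrRed.mt_mt]
      have hex := BrRed.mirror_out K P hypT2 stmtRec (f := f) e h h1 h2 h3
      exact hc (hz _ _ (by omega) hex)
    · obtain ⟨hk, hex⟩ := BrRed.mirror_expr K P hypT2 stmtRec stmtRepl (f := f) (f' := f') hq h1 h2 h3
      have hex2 := Expr.cons _ _ _ 1 (mt σ q0) hex
      have e1 : (1 : FreeGroup (Let S)) * val (relw σ (mt σ q0)) * 1⁻¹ * val K.outw = 1 := by
        rw [BrRed.relw_mt, h, val, val, BrRed.mk_winv]; group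
      have e2 : pch σ (PresentedGroup.mk (rels σ) 1) (mt σ q0) + K.chn P univ
          = K.chn P univ - pch σ 1 q0 := by
        rw [BrRed.pch_mt, map_one, neg_add_eq_sub]
      rw [e1, e2] at hex2
      exact hc (hz _ _ (by omega) hex2)

theorem stmtMirS : StmtMirS := by
  intro S σ K P q0 h hc hz s s' hq
  constructor
  · intro h0
    obtain ⟨l1, l2, m1, m2, d, h1, h2, h3⟩ := cut_x (brS K q0 h) (s := s) (s' := s') hq h0
    exact sph_aux K P q0 h hc hz s s' hq h1 h2 h3
  · intro h0
    obtain ⟨l1, l2, m1, m2, d, h1, h2, h3⟩ := cut_y (brS K q0 h) (s := s) (s' := s') hq h0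
    exact sph_aux K P q0 h hc hz s s' hq h1 h2 h3

end Vale.Agent.P201.S.BrMir
end

section

/-!
P201, part D: `StmtBond` (helper747).
-/

namespace Vale.Agent.P201.S.Bnd

open Finset

variable {A : Type} {K : PC A}

theorem mem_bdry {C : Finset K.F} (d : K.E × Bool) : d.1 ∈ K.bdry C ↔
    ¬ ((∃ f ∈ C, d ∈ K.bd (some f)) ↔ (∃ f ∈ C, rv d ∈ K.bd (some f))) := by
  classical
  obtain ⟨e, b⟩ := d
  have h2 : e ∈ K.bdry C ↔ ¬ ((∃ f ∈ C, (e, true) ∈ K.bd (some f)) ↔
      (∃ f ∈ C, (e, false) ∈ K.bd (some f))) := by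
    unfold PC.bdry
    simp only [mem_filter, mem_univ, true_and]
  cases b
  · rw [h2]
    simp only [rv, Bool.not_false]
    exact not_congr Iff.comm
  · rw [h2]
    simp only [rv, Bool.not_true]

theorem ch_nodup {l : List (K.E × Bool)} (h : (l.map Prod.fst).Nodup) (e : K.E) :
    ch l e = if e ∈ l.map Prod.fst then 1 else 0 := by
  classical
  induction l with
  | nil => simp [ch]
  | cons d l ih =>
    rw [List.map_cons, List.nodup_cons] at h
    have h2 : ch (d :: l) e = (if d.1 = e then (1 : ZMod 2) else 0) + ch l e := by simp [ch]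
    rw [h2, ih h.2]
    by_cases hd : d.1 = e
    · subst hd
      rw [if_pos rfl, if_neg h.1, if_pos (by simp only [List.map_cons, List.mem_cons, List.mem_map, Prod.exists, exists_and_right, Bool.exists_bool, exists_eq_right, true_or]), add_zero]
    · rw [if_neg hd, zero_add]
      by_cases hm : e ∈ l.map Prod.fst
      · rw [if_pos hm, if_pos (by rw [List.map_cons]; exact List.mem_cons_of_mem _ hm)]
      · rw [if_neg hm, if_neg]
        rw [List.map_cons, List.mem_cons]
        rintro (h | h)
        · exact hd h.symm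
        · exact hm h

theorem exists_walk (D : DT K) {a b : K.V} (h : Relation.ReflTransGen (St D) a b) :
    ∃ l, Wk K l a b ∧ ∀ d ∈ l, ∀ f, (D.dd f).1 ≠ d.1 := by
  induction h with
  | refl => exact ⟨[], wk_nil.2 rfl, by simp only [List.not_mem_nil, ne_eq, IsEmpty.forall_iff, implies_true]⟩
  | tail _ h ih =>
    obtain ⟨l, h1, h2⟩ := ih
    obtain ⟨d, h3, rfl, rfl⟩ := h
    refine ⟨l ++ [d], wk_append.2 ⟨_, h1, wk_cons.2 ⟨rfl, wk_nil.2 rfl⟩⟩, fun x hx => ?_⟩
    rcases List.mem_append.1 hx with hx | hx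
    · exact h2 x hx
    · rw [List.mem_singleton] at hx
      rw [hx]; exact h3

theorem pot_walk (C : K.Cotree) {l : List (K.E × Bool)} {a b : K.V} (h : Wk K l a b)
    (hl : ∀ d ∈ l, ∀ f, (C.dd f).1 ≠ d.1) :
    C.pot a * FreeGroup.mk (l.map (fun d => (K.lab d.1, d.2))) = C.pot b := by
  induction l generalizing a with
  | nil =>
    rw [wk_nil.1 h, List.map_nil, ← FreeGroup.one_eq_mk, mul_one]
  | cons d l ih =>
    obtain ⟨rfl, h'⟩ := wk_cons.1 h
    have h1 : FreeGroup.mk ((d :: l).map (fun d => (K.lab d.1, d.2))) =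
        K.lt d * FreeGroup.mk (l.map (fun d => (K.lab d.1, d.2))) := by
      unfold PC.lt
      rw [FreeGroup.mul_mk]
      rfl
    rw [h1, ← mul_assoc, C.triv d (hl d List.mem_cons_self)]
    exact ih h' fun x hx => hl x (List.mem_cons_of_mem _ hx)

/-- a crossing dart -/
theorem exists_cross (C : Finset K.F) (hne : C.Nonempty) :
    ∃ f ∈ C, ∃ g : Option K.F, (∀ x ∈ C, g ≠ some x) ∧ ∃ d, d ∈ K.bd (some f) ∧ rv d ∈ K.bd g := by
  obtain ⟨c, hc⟩ := hne
  have key : ∀ x : Option K.F,
      Relation.ReflTransGen (fun a b => ∃ d, d ∈ K.bd a ∧ rv d ∈ K.bd b) x none →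
      (∃ y ∈ C, x = some y) →
      ∃ f ∈ C, ∃ g : Option K.F, (∀ x ∈ C, g ≠ some x) ∧
        ∃ d, d ∈ K.bd (some f) ∧ rv d ∈ K.bd g := by
    intro x hx
    induction hx using Relation.ReflTransGen.head_induction_on with
    | refl => rintro ⟨y, -, hy⟩; cases hy
    | @head a b h _ ih =>
      rintro ⟨y, hy, rfl⟩
      obtain ⟨d, hd, hd'⟩ := h
      by_cases hb : ∃ z ∈ C, b = some z
      · exact ih hb
      · push Not at hb
        exact ⟨y, hy, b, hb, d, hd, hd'⟩
  exact key (some c) (K.dconn _ _) ⟨c, hc, rfl⟩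

open Classical in
/-- the rooted dual tree adapted to a bond -/
theorem exists_dt {C : Finset K.F} (h : K.Bond C) : ∃ (D : DT K) (f0 : K.F), f0 ∈ C ∧
    (∀ f ∈ C, f ≠ f0 → ∃ g ∈ C, D.par f = some g ∧ D.rank g < D.rank f) ∧
    (∀ f, f ∉ C ∨ f = f0 → ∀ x ∈ C, D.par f ≠ some x) := by
  obtain ⟨hne, hC, hN⟩ := h
  obtain ⟨f0, hf0, g0, hg0, d0, hd0, hd0'⟩ := exists_cross C hne
  obtain ⟨rkN, hrkN⟩ := exists_rank (fun a b : Option K.F => (∀ x ∈ C, b ≠ some x) ∧
    ∃ d, d ∈ K.bd a ∧ rv d ∈ K.bd b) none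
  obtain ⟨rkC, hrkC⟩ := exists_rank (fun a b : K.F => b ∈ C ∧
    ∃ d, d ∈ K.bd (some a) ∧ rv d ∈ K.bd (some b)) f0
  have hall : ∀ f : K.F, ∃ (y : Option K.F) (e : K.E × Bool), e ∈ K.bd (some f) ∧ rv e ∈ K.bd y ∧
      (f ∉ C → (∀ x ∈ C, y ≠ some x) ∧ rkN y < rkN (some f)) ∧
      (f ∈ C → f ≠ f0 → ∃ z ∈ C, y = some z ∧ rkC z < rkC f) ∧
      (f = f0 → ∀ x ∈ C, y ≠ some x) := by
    intro f
    by_cases hf : f ∈ C
    · by_cases hff : f = f0
      · subst hff
        exact ⟨g0, d0, hd0, hd0', fun h => absurd hf h, fun _ h => absurd rfl h, fun _ => hg0⟩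
      · obtain ⟨y, hy, ⟨-, d, hd, hd'⟩, hlt⟩ := hrkC f (hC f0 hf0 f hf) hff
        have hyC : y ∈ C := by
          rcases Relation.ReflTransGen.cases_tail hy with rfl | ⟨z, -, hz, -⟩
          · exact hf0
          · exact hz
        exact ⟨some y, rv d, hd', by rw [rv_rv]; exact hd, fun h => absurd hf h,
          fun _ _ => ⟨y, hyC, rfl, hlt⟩, fun h => absurd h hff⟩
    · obtain ⟨y, hy, ⟨-, d, hd, hd'⟩, hlt⟩ := hrkN (some f) (hN none (some f)
        (fun x _ h => by cases h) (fun x hx h => hf (by rw [Option.some.inj h]; exact hx)))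
        (fun h => by cases h)
      have hyC : ∀ x ∈ C, y ≠ some x := by
        rcases Relation.ReflTransGen.cases_tail hy with rfl | ⟨z, -, hz, -⟩
        · intro x _ h; cases h
        · exact hz
      exact ⟨y, rv d, hd', by rw [rv_rv]; exact hd, fun _ => ⟨hyC, hlt⟩, fun h => absurd h hf,
        fun h => absurd (h ▸ hf0) hf⟩
  choose par dd h1 h2 h3 h4 h5 using hall
  obtain ⟨M, hM⟩ : ∃ M, ∀ f : K.F, rkN (some f) ≤ M :=
    ⟨∑ f : K.F, rkN (some f), fun f => Finset.single_le_sum (f := fun f => rkN (some f))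
      (fun _ _ => Nat.zero_le _) (Finset.mem_univ f)⟩
  let rank : K.F → ℕ := fun f => if f ∈ C then M + 1 + rkC f else rkN (some f)
  have hr1 : ∀ f, f ∈ C → rank f = M + 1 + rkC f := fun f hf => if_pos hf
  have hr2 : ∀ f, f ∉ C → rank f = rkN (some f) := fun f hf => if_neg hf
  have hpar : ∀ f ∈ C, f ≠ f0 → ∃ g ∈ C, par f = some g ∧ rank g < rank f := by
    intro f hf hff
    obtain ⟨z, hz, hy, hlt⟩ := h4 f hf hff
    refine ⟨z, hz, hy, ?_⟩
    rw [hr1 _ hz, hr1 _ hf]; omega
  have hpar2 : ∀ f, f ∉ C ∨ f = f0 → ∀ x ∈ C, par f ≠ some x := by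
    rintro f (hf | hf)
    · exact (h3 f hf).1
    · exact h5 f hf
  let D : DT K :=
    { par := par
      dd := dd
      rank := rank
      mem := h1
      memr := h2
      dec := by
        intro f g hfg
        by_cases hf : f ∈ C
        · by_cases hff : f = f0
          · have hg : g ∉ C := fun hg => h5 f hff g hg hfg
            rw [hr1 f hf, hr2 g hg]
            have := hM g
            omega
          · obtain ⟨z, hz, hy, hlt⟩ := hpar f hf hff
            rw [hy, Option.some.injEq] at hfg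
            rw [← hfg]; exact hlt
        · have hg : g ∉ C := fun hg => (h3 f hf).1 g hg hfg
          rw [hr2 f hf, hr2 g hg, ← hfg]
          exact (h3 f hf).2 }
  exact ⟨D, f0, hf0, hpar, hpar2⟩

end Vale.Agent.P201.S.Bnd

namespace Vale.Agent.P201.S

open Finset Bnd

theorem stmtBond : StmtBond := by
  classical
  intro A K C hB
  obtain ⟨D, f0, hf0, hp1, hp2⟩ := exists_dt hB
  obtain ⟨root, hroot⟩ : ∃ root : K.V, ∀ d ∈ (K.bd none).head?, K.org d = root := by
    cases h : (K.bd none).head? with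
    | none => exact ⟨K.org (D.dd f0), by simp⟩
    | some d =>
      refine ⟨K.org d, fun x hx => ?_⟩
      rw [Option.mem_def, Option.some.injEq] at hx
      rw [hx]
  obtain ⟨T, S, hpar, hdd, hTroot, hSroot, hE⟩ := exists_cotree D root
  -- the tree walk
  obtain ⟨l0, hl0, hl0n⟩ := exists_walk D (st_conn D (K.org (rv (D.dd f0))) (K.org (D.dd f0)))
  obtain ⟨l, hl, hnd, hsub⟩ := exists_nodup hl0
  have hln : ∀ d ∈ l, ∀ f, (D.dd f).1 ≠ d.1 := fun d hd => hl0n d (hsub d hd)
  set d0 := D.dd f0 with hd0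
  have hL : Wk K (d0 :: l) (K.org d0) (K.org d0) := wk_cons.2 ⟨rfl, hl⟩
  have hLnd : ((d0 :: l).map Prod.fst).Nodup := by
    rw [List.map_cons, List.nodup_cons]
    refine ⟨fun h => ?_, hnd⟩
    rw [List.mem_map] at h
    obtain ⟨x, hx, hxd⟩ := h
    exact hln x hx f0 hxd.symm
  -- membership of descendants
  have hsubC : T.sub f0 = C := by
    ext g
    unfold PC.Cotree.sub PC.Cotree.Desc
    simp only [Finset.mem_filter, Finset.mem_univ, true_and]
    rw [hpar]
    constructor
    · intro h
      induction h using Relation.ReflTransGen.head_induction_on with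
      | refl => exact hf0
      | head h _ ih =>
        by_contra hn
        exact hp2 _ (Or.inl hn) _ ih h
    · intro hg
      obtain ⟨n, hn⟩ : ∃ n, D.rank g = n := ⟨_, rfl⟩
      induction n using Nat.strong_induction_on generalizing g with
      | _ n ih =>
      by_cases hgf : g = f0
      · rw [hgf]
      · obtain ⟨z, hz, hgz, hlt⟩ := hp1 g hg hgf
        exact Relation.ReflTransGen.head hgz (ih (D.rank z) (by omega) z hz rfl)
  -- the boundary
  have hm : ∀ e, ch (d0 :: l) e + ∑ f ∈ C, ch (K.bd (some f)) e = 0 := by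
    refine tree_zero S (m := fun e => ch (d0 :: l) e + ∑ f ∈ C, ch (K.bd (some f)) e) ?_ ?_
    · intro e he
      rw [hE] at he
      push Not at he
      obtain ⟨g, rfl⟩ := he
      rw [ch_faces, ch_nodup hLnd]
      have h1 : (D.dd g).1 ∈ (d0 :: l).map Prod.fst ↔ g = f0 := by
        rw [List.map_cons, List.mem_cons]
        constructor
        · rintro (h | h)
          · exact D.inj h
          · exfalso
            rw [List.mem_map] at h
            obtain ⟨x, hx, hxd⟩ := h
            exact hln x hx g hxd.symm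
        · intro h
          left
          rw [h]
      have h2 : (D.dd g).1 ∈ K.bdry C ↔ g = f0 := by
        rw [mem_bdry]
        have h3 : (∃ f ∈ C, D.dd g ∈ K.bd (some f)) ↔ g ∈ C := by
          constructor
          · rintro ⟨f, hf, h⟩
            have : g = f := Option.some.inj (face_unique (D.mem g) h)
            rw [this]; exact hf
          · intro hg
            exact ⟨g, hg, D.mem g⟩
        have h4 : (∃ f ∈ C, rv (D.dd g) ∈ K.bd (some f)) ↔ ∃ x ∈ C, D.par g = some x := by
          constructor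
          · rintro ⟨f, hf, h⟩
            exact ⟨f, hf, face_unique (D.memr g) h⟩
          · rintro ⟨x, hx, h⟩
            exact ⟨x, hx, h ▸ D.memr g⟩
        rw [h3, h4]
        constructor
        · intro h
          by_contra hgf
          apply h
          constructor
          · intro hg
            obtain ⟨z, hz, hgz, -⟩ := hp1 g hg hgf
            exact ⟨z, hz, hgz⟩
          · rintro ⟨x, hx, hgx⟩
            by_contra hg
            exact hp2 g (Or.inl hg) x hx hgx
        · rintro rfl h
          obtain ⟨x, hx, hgx⟩ := h.1 hf0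
          exact hp2 _ (Or.inr rfl) x hx hgx
      by_cases hg : g = f0
      · rw [if_pos (h1.2 hg), if_pos (h2.2 hg)]
        exact CharTwo.add_self_eq_zero _
      · rw [if_neg (fun h => hg (h1.1 h)), if_neg (fun h => hg (h2.1 h)), add_zero]
    · intro v
      rw [bnd_add, bnd_closed hL v, bnd_faces, add_zero]
  refine ⟨T, f0, d0 :: l, T.pot (K.org d0), hsubC, ?_, hLnd, ?_, ?_⟩
  · rw [hTroot]; exact hroot
  · ext e
    have h := hm e
    rw [ch_faces, ch_nodup hLnd] at h
    rw [List.mem_toFinset]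
    by_cases h1 : e ∈ (d0 :: l).map Prod.fst
    · by_cases h2 : e ∈ K.bdry C
      · exact iff_of_true h1 h2
      · rw [if_pos h1, if_neg h2, add_zero] at h
        exact absurd h one_ne_zero
    · by_cases h2 : e ∈ K.bdry C
      · rw [if_neg h1, if_pos h2, zero_add] at h
        exact absurd h one_ne_zero
      · exact iff_of_false h1 h2
  · have h1 := pot_walk T hl (by rw [hdd]; exact hln)
    have h2 : FreeGroup.mk ((d0 :: l).map (fun d => (K.lab d.1, d.2))) =
        K.lt d0 * FreeGroup.mk (l.map (fun d => (K.lab d.1, d.2))) := by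
      unfold PC.lt
      rw [FreeGroup.mul_mk]
      rfl
    unfold PC.Cotree.c
    rw [hdd, ← hd0, h2, ← h1]
    group

end Vale.Agent.P201.S
end

section

/-!
P201, part D6/D7: the bridge (assembly by helper273; Mir: helper466, Lab: helper43, 768;
weights: helper611).
-/

namespace Vale.Agent.P201.S

/-- D6: the disc bridge -/
theorem stmtBridge : StmtBridge :=
  stmtBridge_of BrEul.stmtBrEulD BrMir.stmtMirD (BrLab.stmtLabD_of stmtBond stmtRec stmtRepl)

/-- D7: the sphere bridge -/
theorem stmtBridgeS : StmtBridgeS :=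
  stmtBridgeS_of BrEul.stmtBrEulS BrMir.stmtMirS (BrLab.stmtLabS_of stmtBond stmtRec stmtRepl)

end Vale.Agent.P201.S
end

section

/-!
P201 part F: `StmtGd` (unreducible complexes are good), from `StmtMirD` and the heights (helper631).
-/

namespace Vale.Agent.P201.S

open Finset

namespace GdF

variable {S : Sys} {σ : Equiv.Perm S.C}

theorem redK_of (K : SqK σ)
    (h : ∀ (s s' : K.F), K.q s' = mt σ (K.q s) →
      rv ((brD K).xs s) ≠ (brD K).xe s' ∧ rv ((brD K).ye s) ≠ (brD K).ys s') : K.RedK := by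
  intro f f' d hd hd' hl hq
  have hq' : K.q f = mt σ (K.q f') := by rw [hq, mt_mt]
  have hm := (brD K).mem_cases (s := f) hd
  rcases hm with e | e | e | e | e | e
  · subst e
    refine (h f f' hq).1 ?_
    exact (brD K).eq_xe (s := f') hd' ((brD K).lab_xs f) (congrArg not ((brD K).sg_xs f))
  · exact hl ((brD K).lab_T1 f e)
  · subst e
    have h1 : rv ((brD K).ys f) = (brD K).ye f' :=
      (brD K).eq_ye (s := f') hd' ((brD K).lab_ys f) (congrArg not ((brD K).sg_ys f))
    refine (h f' f hq').2 ?_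
    rw [← h1, rv_rv]
  · subst e
    refine (h f f' hq).2 ?_
    exact (brD K).eq_ys (s := f') hd' ((brD K).lab_ye f) (congrArg not ((brD K).sg_ye f))
  · exact hl ((brD K).lab_T2 f e)
  · subst e
    have h1 : rv ((brD K).xe f) = (brD K).xs f' :=
      (brD K).eq_xs (s := f') hd' ((brD K).lab_xe f) (congrArg not ((brD K).sg_xe f))
    refine (h f' f hq').1 ?_
    rw [← h1, rv_rv]

end GdF

theorem stmtGd : StmtGd := by
  intro S σ K P hN ht
  exact ⟨GdF.redK_of K (BrMir.stmtMirD S σ K P hN), BrLab.posK_of stmtBond stmtRec stmtRepl K P hN ht⟩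

end Vale.Agent.P201.S
end

section

/-!
P201 part F, route 2: the weight inequality of the bridge with `K.W Y` (only the edges with exactly
one inner side count).
-/

namespace Vale.Agent.P201.S

open Finset

variable {S : Sys} {σ : Equiv.Perm (S.C)}

namespace LocK

variable (K : SqK σ)

open Classical in
/-- outer darts with an inner reverse -/
noncomputable def od : Finset (K.E × Bool) :=
  (K.bd none).toFinset.filter (fun d => ∃ f : K.F, rv d ∈ K.bd (some f))

theorem sum_od_le (Y : ℕ) : ∑ d ∈ od K, wtl Y (K.lab d.1) ≤ K.W Y := by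
  classical
  have hinj : Set.InjOn (fun d : K.E × Bool => d.1) (od K : Set (K.E × Bool)) := by
    intro d hd d' hd' h
    have h1 := (Finset.mem_filter.1 (Finset.mem_coe.1 hd))
    have h2 := (Finset.mem_filter.1 (Finset.mem_coe.1 hd'))
    obtain ⟨e, b⟩ := d
    obtain ⟨e', b'⟩ := d'
    have h : e = e' := h
    subst h
    by_cases hb : b = b'
    · rw [hb]
    · exfalso
      have hb' : rv (e, b) = (e, b') := by
        unfold rv
        cases b <;> cases b' <;> simp_all
      obtain ⟨f, hf⟩ := h1.2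
      rw [hb'] at hf
      have h3 : (none : Option K.F) = some f := K.face_unique (List.mem_toFinset.1 h2.1) hf
      exact absurd h3 (by simp)
  have h1 : ∑ d ∈ od K, wtl Y (K.lab d.1) = ∑ e ∈ (od K).image (fun d => d.1), wtl Y (K.lab e) :=
    (Finset.sum_image (f := fun e => wtl Y (K.lab e)) hinj).symm
  rw [h1]
  refine Finset.sum_le_sum_of_subset ?_
  intro e he
  obtain ⟨d, hd, rfl⟩ := Finset.mem_image.1 he
  obtain ⟨h2, f, hf⟩ := Finset.mem_filter.1 hd
  rw [List.mem_toFinset] at h2
  unfold PC.bdry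
  rw [Finset.mem_filter]
  refine ⟨Finset.mem_univ _, fun h => ?_⟩
  have h3 : ¬ ∃ g ∈ (univ : Finset K.F), d ∈ K.bd (some g) := by
    rintro ⟨g, -, hg⟩
    have h3 : (none : Option K.F) = some g := K.face_unique h2 hg
    exact absurd h3 (by simp)
  have h4 : ∃ g ∈ (univ : Finset K.F), rv d ∈ K.bd (some g) := ⟨f, Finset.mem_univ _, hf⟩
  obtain ⟨e, b⟩ := d
  cases b with
  | true => exact h3 (h.2 h4)
  | false => exact h3 (h.1 h4)

/-- the weight inequality -/
theorem weight (Y : ℕ) :
    2 * (Fintype.card K.F - domc (brD K).glue.X) +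
      Y * (2 * (Fintype.card K.F - domc (brD K).glue.Y)) ≤ K.W Y := by
  classical
  have c1' : ∀ s : K.F, (brD K).glue.X s = none ↔ rv ((brD K).xs s) ∈ K.bd none :=
    fun s => K.brw_fsD_none
  have c2' : ∀ s : K.F, (brD K).glue.Y s = none ↔ rv ((brD K).ye s) ∈ K.bd none :=
    fun s => K.brw_fsD_none
  have c3' : ∀ s : K.F, (brD K).glue.X.symm s = none ↔ rv ((brD K).xe s) ∈ K.bd none :=
    fun s => K.brw_fsD_none
  have c4' : ∀ s : K.F, (brD K).glue.Y.symm s = none ↔ rv ((brD K).ys s) ∈ K.bd none :=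
    fun s => K.brw_fsD_none
  set A1 : Finset K.F := univ.filter (fun s : K.F => (brD K).glue.X s = none) with hA1
  set A2 : Finset K.F := univ.filter (fun s : K.F => (brD K).glue.Y s = none) with hA2
  set A3 : Finset K.F := univ.filter (fun s : K.F => (brD K).glue.X.symm s = none) with hA3
  set A4 : Finset K.F := univ.filter (fun s : K.F => (brD K).glue.Y.symm s = none) with hA4
  have e1 : A1.card + domc (brD K).glue.X = Fintype.card K.F :=
    BrW.card_none_add_domc (S := K.F) (brD K).glue.X A1 (fun s => by rw [hA1, Finset.mem_filter]; exact ⟨fun h => h.2, fun h => ⟨Finset.mem_univ _, h⟩⟩)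
  have e2 : A2.card + domc (brD K).glue.Y = Fintype.card K.F :=
    BrW.card_none_add_domc (S := K.F) (brD K).glue.Y A2 (fun s => by rw [hA2, Finset.mem_filter]; exact ⟨fun h => h.2, fun h => ⟨Finset.mem_univ _, h⟩⟩)
  have e3 : A3.card + domc (brD K).glue.X = Fintype.card K.F := by
    rw [← BrW.domc_symm (S := (brD K).glue.Q)]
    exact BrW.card_none_add_domc (S := K.F) (brD K).glue.X.symm A3 (fun s => by rw [hA3, Finset.mem_filter]; exact ⟨fun h => h.2, fun h => ⟨Finset.mem_univ _, h⟩⟩)
  have e4 : A4.card + domc (brD K).glue.Y = Fintype.card K.F := by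
    rw [← BrW.domc_symm (S := (brD K).glue.Q)]
    exact BrW.card_none_add_domc (S := K.F) (brD K).glue.Y.symm A4 (fun s => by rw [hA4, Finset.mem_filter]; exact ⟨fun h => h.2, fun h => ⟨Finset.mem_univ _, h⟩⟩)
  set T1 := A1.image (fun f => rv ((brD K).xs f)) with hT1
  set T2 := A2.image (fun f => rv ((brD K).ye f)) with hT2
  set T3 := A3.image (fun f => rv ((brD K).xe f)) with hT3
  set T4 := A4.image (fun f => rv ((brD K).ys f)) with hT4
  have c1 : T1.card = A1.card := Finset.card_image_of_injective _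
    (fun _ _ h => (brD K).brw_xs_inj (rv_inj h))
  have c2 : T2.card = A2.card := Finset.card_image_of_injective _
    (fun _ _ h => (brD K).brw_ye_inj (rv_inj h))
  have c3 : T3.card = A3.card := Finset.card_image_of_injective _
    (fun _ _ h => (brD K).brw_xe_inj (rv_inj h))
  have c4 : T4.card = A4.card := Finset.card_image_of_injective _
    (fun _ _ h => (brD K).brw_ys_inj (rv_inj h))
  have hd1 : ∀ d ∈ T1, (∃ i, K.lab d.1 = Let.x i) ∧ d.2 = false := by
    intro d hd
    obtain ⟨f, -, rfl⟩ := Finset.mem_image.1 hd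
    exact ⟨⟨_, (brD K).lab_xs f⟩, by rw [rv_snd, (brD K).sg_xs]; rfl⟩
  have hd3 : ∀ d ∈ T3, (∃ i, K.lab d.1 = Let.x i) ∧ d.2 = true := by
    intro d hd
    obtain ⟨f, -, rfl⟩ := Finset.mem_image.1 hd
    exact ⟨⟨_, (brD K).lab_xe f⟩, by rw [rv_snd, (brD K).sg_xe]; rfl⟩
  have hd2 : ∀ d ∈ T2, (∃ j, K.lab d.1 = Let.y j) ∧ d.2 = true := by
    intro d hd
    obtain ⟨f, -, rfl⟩ := Finset.mem_image.1 hd
    exact ⟨⟨_, (brD K).lab_ye f⟩, by rw [rv_snd, (brD K).sg_ye]; rfl⟩
  have hd4 : ∀ d ∈ T4, (∃ j, K.lab d.1 = Let.y j) ∧ d.2 = false := by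
    intro d hd
    obtain ⟨f, -, rfl⟩ := Finset.mem_image.1 hd
    exact ⟨⟨_, (brD K).lab_ys f⟩, by rw [rv_snd, (brD K).sg_ys]; rfl⟩
  have d13 : Disjoint T1 T3 := by
    rw [Finset.disjoint_left]
    intro d h h'
    have := (hd1 d h).2
    rw [(hd3 d h').2] at this
    exact absurd this (by simp)
  have d24 : Disjoint T2 T4 := by
    rw [Finset.disjoint_left]
    intro d h h'
    have := (hd2 d h).2
    rw [(hd4 d h').2] at this
    exact absurd this (by simp)
  have dx : Disjoint (T1 ∪ T3) (T2 ∪ T4) := by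
    rw [Finset.disjoint_left]
    intro d h h'
    have h1 : ∃ i, K.lab d.1 = Let.x i := by
      rcases Finset.mem_union.1 h with h | h
      · exact (hd1 d h).1
      · exact (hd3 d h).1
    have h2 : ∃ j, K.lab d.1 = Let.y j := by
      rcases Finset.mem_union.1 h' with h | h
      · exact (hd2 d h).1
      · exact (hd4 d h).1
    obtain ⟨i, h1⟩ := h1
    obtain ⟨j, h2⟩ := h2
    rw [h1] at h2
    exact absurd h2 (by simp)
  have hmem : ∀ (d : K.E × Bool) (f : K.F), d ∈ K.bd (some f) → rv d ∈ K.bd none → rv d ∈ od K := by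
    intro d f h1 h2
    refine Finset.mem_filter.2 ⟨List.mem_toFinset.2 h2, f, ?_⟩
    rw [rv_rv]
    exact h1
  have hsub : (T1 ∪ T3) ∪ (T2 ∪ T4) ⊆ od K := by
    intro d hd
    rcases Finset.mem_union.1 hd with h | h
    · rcases Finset.mem_union.1 h with h | h
      · obtain ⟨f, hf, rfl⟩ := Finset.mem_image.1 h
        exact hmem _ f ((brD K).xs_mem f) ((c1' f).1 (Finset.mem_filter.1 hf).2)
      · obtain ⟨f, hf, rfl⟩ := Finset.mem_image.1 h
        exact hmem _ f ((brD K).xe_mem f) ((c3' f).1 (Finset.mem_filter.1 hf).2)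
    · rcases Finset.mem_union.1 h with h | h
      · obtain ⟨f, hf, rfl⟩ := Finset.mem_image.1 h
        exact hmem _ f ((brD K).ye_mem f) ((c2' f).1 (Finset.mem_filter.1 hf).2)
      · obtain ⟨f, hf, rfl⟩ := Finset.mem_image.1 h
        exact hmem _ f ((brD K).ys_mem f) ((c4' f).1 (Finset.mem_filter.1 hf).2)
  have s1 : ∑ d ∈ T1 ∪ T3, wtl Y (K.lab d.1) = A1.card + A3.card := by
    rw [← c1, ← c3, ← Finset.card_union_of_disjoint d13, Finset.card_eq_sum_ones]
    refine Finset.sum_congr rfl fun d h => ?_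
    have h1 : ∃ i, K.lab d.1 = Let.x i := by
      rcases Finset.mem_union.1 h with h | h
      · exact (hd1 d h).1
      · exact (hd3 d h).1
    obtain ⟨i, h1⟩ := h1
    rw [h1]
    rfl
  have s2 : ∑ d ∈ T2 ∪ T4, wtl Y (K.lab d.1) = Y * (A2.card + A4.card) := by
    rw [← c2, ← c4, ← Finset.card_union_of_disjoint d24, mul_comm, Finset.card_eq_sum_ones,
      Finset.sum_mul]
    refine Finset.sum_congr rfl fun d h => ?_
    have h1 : ∃ j, K.lab d.1 = Let.y j := by
      rcases Finset.mem_union.1 h with h | h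
      · exact (hd2 d h).1
      · exact (hd4 d h).1
    obtain ⟨j, h1⟩ := h1
    rw [h1, one_mul]
    rfl
  have key : ∑ d ∈ (T1 ∪ T3) ∪ (T2 ∪ T4), wtl Y (K.lab d.1) ≤ ∑ d ∈ od K, wtl Y (K.lab d.1) :=
    Finset.sum_le_sum_of_subset hsub
  rw [Finset.sum_union dx, s1, s2] at key
  refine le_trans (le_of_eq ?_) (key.trans (sum_od_le K Y))
  have f1 : Fintype.card K.F - domc (brD K).glue.X = A1.card := by omega
  have f3 : A3.card = A1.card := by omega
  have f2 : Fintype.card K.F - domc (brD K).glue.Y = A2.card := by (clear * - e2 e4 c2 c4; omega)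
  have f4 : A4.card = A2.card := by omega
  rw [f1, f2, f3, f4]
  ring

end LocK

/-- the gluing data of a good complex -/
theorem stmtLocK : StmtLocK := by
  intro S σ K hG
  obtain ⟨hR, hP⟩ := hG
  refine ⟨(brD K).glue, ?_, BrLab.lab_of_posK K hP, BrEul.eulD K, rfl, fun Y => LocK.weight K Y⟩
  constructor
  · intro s s' h
    refine ⟨(brD K).blk_Y h, ?_⟩
    have h4 := (brD K).Y_eq_some.1 h
    refine hR s s' ((brD K).ye s) ((brD K).ye_mem s) ?_ ?_
    · rw [h4]
      exact (brD K).ys_mem s'
    · intro h5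
      exact absurd (((brD K).lab_ye s).symm.trans h5) (by simp)
  · intro s s' h
    refine ⟨(brD K).rc_X h, ?_⟩
    have h4 := (brD K).X_eq_some.1 h
    intro h5
    refine hR s s' ((brD K).xs s) ((brD K).xs_mem s) ?_ ?_ ?_
    · rw [h4]
      exact (brD K).xe_mem s'
    · intro h6
      exact absurd (((brD K).lab_xs s).symm.trans h6) (by simp)
    · have h6 : K.q s = mt σ (K.q s') := h5
      rw [h6, mt_mt]

end Vale.Agent.P201.S
end

section

/-!
P201, part F: merging the complement of a bond with the outer face (helper402).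
-/

namespace Vale.Agent.P201.S

open Finset

variable {S : Sys} {σ : Equiv.Perm S.C}

/-- the restriction of `K` along an embedding of complexes -/
def SqK.ofEm (K : SqK σ) (K' : PC (Let S)) (i : Dl.Em K' K.toPC) : SqK σ where
  toPC := K'
  q := fun f => K.q (i.f f)
  sq := by
    intro f
    rw [← K.sq (i.f f), ← i.bd f, List.map_map]
    refine List.map_congr_left fun d _ => ?_
    simp only [Function.comp_apply]
    rw [i.lab]

theorem SqK.ofEm_card (K : SqK σ) (K' : PC (Let S)) (i : Dl.Em K' K.toPC) {C : Finset K.F}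
    (hi : Dl.IsRes i C) : Fintype.card (K.ofEm K' i).F = C.card := by
  classical
  have h : C = univ.image i.f := by
    ext g
    rw [hi.rng g]
    simp only [mem_image, mem_univ, true_and]
  rw [h, Finset.card_image_of_injective _ i.finj]
  rfl

theorem SqK.ofEm_W (K : SqK σ) (K' : PC (Let S)) (i : Dl.Em K' K.toPC) {C : Finset K.F}
    (hi : Dl.IsRes i C) (Y : ℕ) : (K.ofEm K' i).W Y = K.wS Y (K.bdry C) := by
  show ∑ e ∈ K'.bdry univ, wtl Y (K'.lab e) = ∑ e ∈ K.bdry C, wtl Y (K.lab e)
  refine Finset.sum_bij (fun e _ => i.e e) (fun e he => (hi.bdr e).1 he)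
    (fun a _ b _ h => i.einj h) ?_ ?_
  · intro y hy
    obtain ⟨x, hx⟩ := hi.sur y hy
    exact ⟨x, (hi.bdr x).2 (hx ▸ hy), hx⟩
  · intro e _
    show wtl Y (K'.lab e) = wtl Y (K.lab (i.e e))
    rw [i.lab]

theorem SqK.ofEm_mem (K : SqK σ) (K' : PC (Let S)) (i : Dl.Em K' K.toPC) {f : K'.F}
    {d : K'.E × Bool} (h : d ∈ K'.bd (some f)) : (i.e d.1, d.2) ∈ K.bd (some (i.f f)) := by
  rw [← i.bd f]
  exact List.mem_map_of_mem (f := fun x : K'.E × Bool => (i.e x.1, x.2)) h

theorem SqK.ofEm_out (K : SqK σ) (K' : PC (Let S)) (i : Dl.Em K' K.toPC) {d : K'.E × Bool}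
    (h : (i.e d.1, d.2) ∈ K.bd none) : d ∈ K'.bd none := by
  obtain ⟨f, hf⟩ := Dl.exists_face K' d
  cases f with
  | none => exact hf
  | some f => exact absurd (Dl.face_unique h (K.ofEm_mem K' i hf)) (by simp)

theorem SqK.ofEm_gd (K : SqK σ) (K' : PC (Let S)) (i : Dl.Em K' K.toPC) (h : K.Gd) :
    (K.ofEm K' i).Gd := by
  obtain ⟨h1, τ, O, hO1, hO2, h2⟩ := h
  have hR : ∀ (f f' : K'.F) (d : K'.E × Bool), d ∈ K'.bd (some f) → rv d ∈ K'.bd (some f') →
      K'.lab d.1 ≠ Let.t → K.q (i.f f') ≠ mt σ (K.q (i.f f)) := by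
    intro f f' d hd hr hl
    refine h1 (i.f f) (i.f f') (i.e d.1, d.2) (K.ofEm_mem K' i hd) (K.ofEm_mem K' i hr) ?_
    intro e
    apply hl
    rw [i.lab]
    exact e
  have hP : ∀ e : K'.E, K'.lab e = Let.t → ¬ O (i.e e) →
      τ (i.v (K'.org (e, false))) = τ (i.v (K'.org (e, true))) + 1 := by
    intro e hl he
    rw [i.lab] at hl
    rw [i.org, i.org]
    exact h2 (i.e e) hl he
  have hU : ∀ e e2 : K'.E, O (i.e e) → O (i.e e2) → e = e2 :=
    fun e e2 he he2 => i.einj (hO1 _ _ he he2)
  have hN : ∀ e : K'.E, O (i.e e) → ∃ b, (e, b) ∈ K'.bd none := by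
    intro e he
    obtain ⟨b, hb⟩ := hO2 _ he
    exact ⟨b, K.ofEm_out K' i hb⟩
  exact ⟨hR, fun v => τ (i.v v), fun e => O (i.e e), hU, hN, hP⟩

/-- (M) -/
theorem stmtMerge : StmtMerge := by
  intro S σ K C hC
  obtain ⟨K', i, hi⟩ := Dl.exists_res K.toPC C hC
  exact ⟨K.ofEm K' i, K.ofEm_card K' i hi, fun Y => K.ofEm_W K' i hi Y, K.ofEm_gd K' i⟩

end Vale.Agent.P201.S
end

section

/-!
P201, part F: components of a set of faces and their fillings (bonds).  (helper192)
-/

namespace Vale.Agent.P201.S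

open Finset

namespace PC

variable {A : Type} (K : PC A)

theorem exists_face_bd521 (d : K.E × Bool) : ∃ f, d ∈ K.bd f := by
  by_contra h
  push Not at h
  have := K.once d
  rw [Finset.sum_eq_zero (fun f _ => List.count_eq_zero.mpr (h f))] at this
  exact absurd this (by decide)

theorem fill_face_unique {d : K.E × Bool} {f g : Option K.F} (hf : d ∈ K.bd f) (hg : d ∈ K.bd g) :
    f = g := by
  by_contra hne
  have h1 : 1 ≤ (K.bd f).count d := List.count_pos_iff.mpr hf
  have h2 : 1 ≤ (K.bd g).count d := List.count_pos_iff.mpr hg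
  have h3 : (K.bd f).count d + (K.bd g).count d ≤ ∑ f, (K.bd f).count d := by
    rw [← Finset.sum_pair (f := fun x => (K.bd x).count d) hne]
    exact Finset.sum_le_sum_of_subset (Finset.subset_univ _)
  rw [K.once d] at h3
  omega

theorem fc_mem (d : K.E × Bool) : d ∈ K.bd (K.fc d) :=
  Classical.epsilon_spec (K.exists_face_bd521 d)

theorem fc_eq_bd522 {d : K.E × Bool} {f : Option K.F} (hf : d ∈ K.bd f) : K.fc d = f :=
  K.fill_face_unique (K.fc_mem d) hf

theorem mem_bd_iff {d : K.E × Bool} {f : Option K.F} : d ∈ K.bd f ↔ K.fc d = f :=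
  ⟨K.fc_eq_bd522, fun h => h ▸ K.fc_mem d⟩

theorem mem_bdry {C : Finset K.F} {e : K.E} : e ∈ K.bdry C ↔
    ¬ ((∃ f ∈ C, K.fc (e, true) = some f) ↔ (∃ f ∈ C, K.fc (e, false) = some f)) := by
  unfold bdry
  simp only [mem_filter, mem_univ, true_and, mem_bd_iff]

/-- dual adjacency -/
def DAdj (f g : Option K.F) : Prop := ∃ d, d ∈ K.bd f ∧ rv d ∈ K.bd g

theorem rv_rv_bd520 {E : Type} (d : E × Bool) : rv (rv d) = d := by
  simp [rv]

theorem DAdj.symm {K : PC A} {f g : Option K.F} (h : K.DAdj f g) : K.DAdj g f := by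
  obtain ⟨d, h1, h2⟩ := h
  exact ⟨rv d, h2, by rw [rv_rv_bd520]; exact h1⟩

theorem dAdj_edge (e : K.E) (b : Bool) : K.DAdj (K.fc (e, b)) (K.fc (e, !b)) :=
  ⟨(e, b), K.fc_mem _, K.fc_mem _⟩

open Classical in
/-- component of the face `f` in the set `D` -/
noncomputable def comp (D : Finset K.F) (f : K.F) : Finset K.F :=
  univ.filter (fun g => Relation.ReflTransGen (fun a b => b ∈ D ∧ K.DAdj (some a) (some b)) f g)

/-- the faces connected with the outer face outside of `C` -/
def Out (C : Finset K.F) (g : Option K.F) : Prop :=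
  Relation.ReflTransGen (fun a b => (∀ x ∈ C, b ≠ some x) ∧ K.DAdj a b) none g

open Classical in
/-- filling -/
noncomputable def fill (C : Finset K.F) : Finset K.F := univ.filter (fun g => ¬ K.Out C (some g))

variable {K}

theorem mem_comp {D : Finset K.F} {f g : K.F} : g ∈ K.comp D f ↔
    Relation.ReflTransGen (fun a b => b ∈ D ∧ K.DAdj (some a) (some b)) f g := by
  simp only [comp, mem_filter, mem_univ, true_and]

theorem mem_fill {C : Finset K.F} {g : K.F} : g ∈ K.fill C ↔ ¬ K.Out C (some g) := by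
  simp only [fill, mem_filter, mem_univ, true_and]

theorem self_mem_comp (D : Finset K.F) (f : K.F) : f ∈ K.comp D f :=
  mem_comp.mpr Relation.ReflTransGen.refl

theorem comp_subset {D : Finset K.F} {f : K.F} (hf : f ∈ D) : K.comp D f ⊆ D := by
  intro g hg
  rcases Relation.ReflTransGen.cases_tail (mem_comp.mp hg) with h | ⟨c, _, h⟩
  · rw [h]; exact hf
  · exact h.1

theorem reach_symm {D : Finset K.F} {f g : K.F} (hf : f ∈ D)
    (h : Relation.ReflTransGen (fun a b => b ∈ D ∧ K.DAdj (some a) (some b)) f g) :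
    Relation.ReflTransGen (fun a b => b ∈ D ∧ K.DAdj (some a) (some b)) g f := by
  induction h with
  | refl => exact Relation.ReflTransGen.refl
  | @tail b c hab hbc ih =>
    have hb : b ∈ D := by
      rcases Relation.ReflTransGen.cases_tail hab with h | ⟨x, _, h⟩
      · rw [h]; exact hf
      · exact h.1
    exact Relation.ReflTransGen.head ⟨hb, hbc.2.symm⟩ ih

theorem comp_eq {D : Finset K.F} {f g : K.F} (hf : f ∈ D) (hg : g ∈ K.comp D f) :
    K.comp D g = K.comp D f := by
  have h1 := mem_comp.mp hg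
  have h2 := reach_symm hf h1
  ext x
  rw [mem_comp, mem_comp]
  exact ⟨fun h => h1.trans h, fun h => h2.trans h⟩

theorem Out.not_mem {C : Finset K.F} {g : Option K.F} (h : K.Out C g) : ∀ x ∈ C, g ≠ some x := by
  rcases Relation.ReflTransGen.cases_tail h with h | ⟨c, _, h⟩
  · rw [h]; intro x _ hx; cases hx
  · exact h.1

theorem subset_fill (C : Finset K.F) : C ⊆ K.fill C := by
  intro g hg
  rw [mem_fill]
  intro h
  exact h.not_mem g hg rfl

theorem Out.step {C : Finset K.F} {g h : Option K.F} (hg : K.Out C g) (ha : K.DAdj g h)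
    (hh : ∀ x ∈ C, h ≠ some x) : K.Out C h :=
  Relation.ReflTransGen.tail hg ⟨hh, ha⟩

theorem fill_reach {C : Finset K.F} {f : K.F} (hf : f ∈ K.fill C) : ∃ c ∈ C,
    Relation.ReflTransGen (fun a b => b ∈ K.fill C ∧ K.DAdj (some a) (some b)) f c := by
  have key : ∀ x : Option K.F, Relation.ReflTransGen (fun a b => ∃ d, d ∈ K.bd a ∧ rv d ∈ K.bd b) x none →
      ∀ f, x = some f → f ∈ K.fill C → ∃ c ∈ C,
        Relation.ReflTransGen (fun a b => b ∈ K.fill C ∧ K.DAdj (some a) (some b)) f c := by
    intro x hx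
    induction hx using Relation.ReflTransGen.head_induction_on with
    | refl => intro f hf; cases hf
    | @head a b hab hb ih =>
      intro f haf hf
      subst haf
      by_cases hfC : f ∈ C
      · exact ⟨f, hfC, Relation.ReflTransGen.refl⟩
      · have hb' : ¬ K.Out C b := by
          intro hob
          apply mem_fill.mp hf
          apply hob.step (DAdj.symm hab)
          intro x hx h
          apply hfC
          cases h
          exact hx
        rcases b with _ | g
        · exact absurd Relation.ReflTransGen.refl hb'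
        · have hg : g ∈ K.fill C := mem_fill.mpr hb'
          obtain ⟨c, hc, hgc⟩ := ih g rfl hg
          exact ⟨c, hc, Relation.ReflTransGen.head ⟨hg, hab⟩ hgc⟩
  exact key (some f) (K.dconn _ _) f rfl hf

theorem bond_fill {D : Finset K.F} {f : K.F} (hf : f ∈ D) : K.Bond (K.fill (K.comp D f)) := by
  set C := K.comp D f with hC
  have hfC : f ∈ C := self_mem_comp D f
  refine ⟨⟨f, subset_fill C hfC⟩, ?_, ?_⟩
  · intro a ha b hb
    obtain ⟨c, hc, hac⟩ := fill_reach ha
    obtain ⟨c', hc', hbc⟩ := fill_reach hb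
    have h1 := reach_symm hb hbc
    have hcD : c ∈ D := comp_subset hf hc
    have h2 : Relation.ReflTransGen (fun a b => b ∈ D ∧ K.DAdj (some a) (some b)) c c' :=
      (reach_symm hf (mem_comp.mp hc)).trans (mem_comp.mp hc')
    have h3 : Relation.ReflTransGen (fun a b => b ∈ K.fill C ∧ K.DAdj (some a) (some b)) c c' := by
      clear h1 hbc hc'
      induction h2 with
      | refl => exact Relation.ReflTransGen.refl
      | @tail x y hcx hxy ih =>
        refine Relation.ReflTransGen.tail ih ⟨subset_fill C ?_, hxy.2⟩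
        exact mem_comp.mpr (((mem_comp.mp hc).trans hcx).tail hxy)
    exact hac.trans (h3.trans h1)
  · have hout : ∀ g : Option K.F, (∀ x ∈ K.fill C, g ≠ some x) → K.Out C g := by
      intro g hg
      rcases g with _ | g
      · exact Relation.ReflTransGen.refl
      · by_contra h
        exact hg g (mem_fill.mpr h) rfl
    have hnot : ∀ g : Option K.F, K.Out C g → ∀ x ∈ K.fill C, g ≠ some x := by
      intro g hg x hx h
      subst h
      exact mem_fill.mp hx hg
    have hfrom : ∀ g : Option K.F, K.Out C g → Relation.ReflTransGen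
        (fun a b => (∀ x ∈ K.fill C, b ≠ some x) ∧ ∃ d, d ∈ K.bd a ∧ rv d ∈ K.bd b) none g := by
      intro g hg
      have : Relation.ReflTransGen
        (fun a b => (∀ x ∈ K.fill C, b ≠ some x) ∧ ∃ d, d ∈ K.bd a ∧ rv d ∈ K.bd b) none g ∧ K.Out C g := by
        induction hg with
        | refl => exact ⟨Relation.ReflTransGen.refl, Relation.ReflTransGen.refl⟩
        | @tail x y hx hxy ih =>
          have hy : K.Out C y := ih.2.step hxy.2 hxy.1
          exact ⟨ih.1.tail ⟨hnot y hy, hxy.2⟩, hy⟩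
      exact this.1
    have hto : ∀ g : Option K.F, K.Out C g → Relation.ReflTransGen
        (fun a b => (∀ x ∈ K.fill C, b ≠ some x) ∧ ∃ d, d ∈ K.bd a ∧ rv d ∈ K.bd b) g none := by
      intro g hg
      have : Relation.ReflTransGen
        (fun a b => (∀ x ∈ K.fill C, b ≠ some x) ∧ ∃ d, d ∈ K.bd a ∧ rv d ∈ K.bd b) g none ∧ K.Out C g := by
        induction hg with
        | refl => exact ⟨Relation.ReflTransGen.refl, Relation.ReflTransGen.refl⟩
        | @tail x y hx hxy ih =>
          have hy : K.Out C y := ih.2.step hxy.2 hxy.1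
          exact ⟨Relation.ReflTransGen.head ⟨hnot x ih.2, DAdj.symm hxy.2⟩ ih.1, hy⟩
      exact this.1
    intro a b ha hb
    exact (hto a (hout a ha)).trans (hfrom b (hout b hb))

/-- a boundary edge of the filling has one side in `C`, the other one outside of the filling -/
theorem bdry_fill {C : Finset K.F} {e : K.E} (he : e ∈ K.bdry (K.fill C)) :
    ∃ b : Bool, (∃ f ∈ C, K.fc (e, b) = some f) ∧ ∀ f ∈ K.fill C, K.fc (e, !b) ≠ some f := by
  have key : ∀ b : Bool, (∃ f ∈ K.fill C, K.fc (e, b) = some f) →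
      (¬ ∃ f ∈ K.fill C, K.fc (e, !b) = some f) →
      (∃ f ∈ C, K.fc (e, b) = some f) ∧ ∀ f ∈ K.fill C, K.fc (e, !b) ≠ some f := by
    intro b ⟨f, hf, hfe⟩ h2
    push Not at h2
    refine ⟨⟨f, ?_, hfe⟩, h2⟩
    by_contra hfC
    have ho : K.Out C (K.fc (e, !b)) := by
      rcases hx : K.fc (e, !b) with _ | g
      · exact Relation.ReflTransGen.refl
      · by_contra h
        exact h2 g (mem_fill.mpr h) hx
    apply mem_fill.mp hf
    apply ho.step
    · rw [← hfe]; exact (K.dAdj_edge e b).symm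
    · intro x hx h
      cases h
      exact hfC hx
  rw [mem_bdry] at he
  by_cases h1 : ∃ f ∈ K.fill C, K.fc (e, true) = some f
  · by_cases h2 : ∃ f ∈ K.fill C, K.fc (e, false) = some f
    · exact absurd (iff_of_true h1 h2) he
    · exact ⟨true, key true h1 h2⟩
  · by_cases h2 : ∃ f ∈ K.fill C, K.fc (e, false) = some f
    · exact ⟨false, key false h2 h1⟩
    · exact absurd (iff_of_false h1 h2) he

/-- a boundary edge of the filled component of `f` has one side in the component, the other side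
not in `D` -/
theorem bdry_fill_comp {D : Finset K.F} {f : K.F} (hf : f ∈ D) {e : K.E}
    (he : e ∈ K.bdry (K.fill (K.comp D f))) :
    ∃ b : Bool, (∃ g ∈ K.comp D f, K.fc (e, b) = some g) ∧ ∀ g ∈ D, K.fc (e, !b) ≠ some g := by
  obtain ⟨b, ⟨g, hg, hge⟩, h2⟩ := bdry_fill he
  refine ⟨b, ⟨g, hg, hge⟩, ?_⟩
  intro g' hg' h
  apply h2 g' _ h
  apply subset_fill
  refine mem_comp.mpr ((mem_comp.mp hg).tail ⟨hg', ?_⟩)
  rw [← hge, ← h]
  exact K.dAdj_edge e b

theorem bdry_fill_subset {D : Finset K.F} {f : K.F} (hf : f ∈ D) :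
    K.bdry (K.fill (K.comp D f)) ⊆ K.bdry D := by
  intro e he
  obtain ⟨b, ⟨g, hg, hge⟩, h2⟩ := bdry_fill_comp hf he
  rw [mem_bdry]
  have hgD := comp_subset hf hg
  intro h
  cases b
  · obtain ⟨x, hx, hxe⟩ := h.mpr ⟨g, hgD, hge⟩
    exact h2 x hx hxe
  · obtain ⟨x, hx, hxe⟩ := h.mp ⟨g, hgD, hge⟩
    exact h2 x hx hxe

theorem bdry_fill_disjoint {D : Finset K.F} {f g : K.F} (hf : f ∈ D) (hg : g ∈ D)
    (hne : K.comp D f ≠ K.comp D g) :
    Disjoint (K.bdry (K.fill (K.comp D f))) (K.bdry (K.fill (K.comp D g))) := by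
  rw [Finset.disjoint_left]
  intro e he he'
  obtain ⟨b, ⟨x, hx, hxe⟩, h2⟩ := bdry_fill_comp hf he
  obtain ⟨b', ⟨x', hx', hxe'⟩, h2'⟩ := bdry_fill_comp hg he'
  by_cases hb : b = b'
  · subst hb
    rw [hxe] at hxe'
    cases hxe'
    exact hne ((comp_eq hf hx).symm.trans (comp_eq hg hx'))
  · have : b' = !b := by cases b <;> cases b' <;> simp_all
    subst this
    exact h2 x' (comp_subset hg hx') hxe'

theorem not_mem_fill {D : Finset K.F} {f g : K.F} (hf : f ∈ D) (hg : g ∉ D)
    (ha : K.DAdj none (some g)) : g ∉ K.fill (K.comp D f) := by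
  rw [mem_fill, not_not]
  refine Relation.ReflTransGen.tail Relation.ReflTransGen.refl ⟨?_, ha⟩
  intro x hx h
  cases h
  exact hg (comp_subset hf hx)

variable (K)

/-- Isoperimetric inequality for all sets of faces from the one for bonds. -/
theorem card_le_of_bonds (D : Finset K.F) (w : K.E → ℝ) (hw : ∀ e, 0 ≤ w e) (e0 : ℝ) (he0 : 0 ≤ e0)
    (h : ∀ C, K.Bond C → K.bdry C ⊆ K.bdry D →
      (∀ g, g ∉ D → K.DAdj none (some g) → g ∉ C) →
      e0 * C.card ≤ ∑ e ∈ K.bdry C, w e) :
    e0 * D.card ≤ ∑ e ∈ K.bdry D, w e := by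
  classical
  set I : Finset (Finset K.F) := D.image (K.comp D) with hI
  have h1 : D ⊆ I.biUnion K.fill := by
    intro f hf
    rw [Finset.mem_biUnion]
    exact ⟨K.comp D f, Finset.mem_image_of_mem _ hf, subset_fill _ (self_mem_comp D f)⟩
  have h2 : (D.card : ℝ) ≤ ∑ C ∈ I, ((K.fill C).card : ℝ) := by
    have := (Finset.card_le_card h1).trans (Finset.card_biUnion_le)
    exact_mod_cast this
  have h3 : ∀ C ∈ I, e0 * ((K.fill C).card : ℝ) ≤ ∑ e ∈ K.bdry (K.fill C), w e := by
    intro C hC
    obtain ⟨f, hf, rfl⟩ := Finset.mem_image.mp hC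
    exact h _ (bond_fill hf) (bdry_fill_subset hf) (fun g hg ha => not_mem_fill hf hg ha)
  have h4 : ∑ C ∈ I, ∑ e ∈ K.bdry (K.fill C), w e = ∑ e ∈ I.biUnion (fun C => K.bdry (K.fill C)), w e := by
    rw [Finset.sum_biUnion]
    intro C hC C' hC' hne
    obtain ⟨f, hf, rfl⟩ := Finset.mem_image.mp (Finset.mem_coe.mp hC)
    obtain ⟨f', hf', rfl⟩ := Finset.mem_image.mp (Finset.mem_coe.mp hC')
    exact bdry_fill_disjoint hf hf' hne
  have h5 : I.biUnion (fun C => K.bdry (K.fill C)) ⊆ K.bdry D := by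
    intro e he
    obtain ⟨C, hC, he'⟩ := Finset.mem_biUnion.mp he
    obtain ⟨f, hf, rfl⟩ := Finset.mem_image.mp hC
    exact bdry_fill_subset hf he'
  calc e0 * (D.card : ℝ) ≤ e0 * ∑ C ∈ I, ((K.fill C).card : ℝ) := by (clear * - h2 he0; gcongr)
    _ = ∑ C ∈ I, e0 * ((K.fill C).card : ℝ) := by rw [Finset.mul_sum]
    _ ≤ ∑ C ∈ I, ∑ e ∈ K.bdry (K.fill C), w e := Finset.sum_le_sum h3
    _ = ∑ e ∈ I.biUnion (fun C => K.bdry (K.fill C)), w e := h4
    _ ≤ ∑ e ∈ K.bdry D, w e := Finset.sum_le_sum_of_subset_of_nonneg h5 (fun e _ _ => hw e)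

end PC

end Vale.Agent.P201.S
end

section

/-!
P201, part F: growth of balls (helper643).
* `PC.radius_disc` (F4): every vertex is close to the outer boundary.
* `PC.diam_sphere` (F7c): all vertices are close to each other (all faces squares).
-/

set_option linter.all false

namespace Vale.Agent.P201.S

open Finset

variable {S : Sys} {σ : Equiv.Perm (S.C)}

namespace PC

variable (K : PC (Let S))

/-- `b` is the boundary of a set of faces (possibly with the outer face) -/
noncomputable def bdryO (C : Finset (Option K.F)) : Finset K.E := by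
  classical
  exact univ.filter (fun e => ¬ (K.fc (e, true) ∈ C ↔ K.fc (e, false) ∈ C))

/-- faces of `Q` whose end vertex is within weight `r` of `v` -/
noncomputable def ball (Y : ℕ) (Q : Finset (Option K.F)) (r : ℕ) (v : K.V) : Finset (Option K.F) := by
  classical
  exact Q.filter (fun φ => K.Reach (K.wE Y) r v (K.ev φ))

/-- x-edges of a face -/
noncomputable def xed (φ : Option K.F) : Finset K.E := by
  classical
  exact univ.filter (fun e => (∃ i, K.lab e = Let.x i) ∧ ∃ b, (e, b) ∈ K.bd φ)

variable {K}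

theorem mem_bdryO {C : Finset (Option K.F)} {e : K.E} :
    e ∈ K.bdryO C ↔ ¬ (K.fc (e, true) ∈ C ↔ K.fc (e, false) ∈ C) := by
  simp only [bdryO, mem_filter, mem_univ, true_and]

theorem mem_ball {Y : ℕ} {Q : Finset (Option K.F)} {r : ℕ} {v : K.V} {φ : Option K.F} :
    φ ∈ K.ball Y Q r v ↔ φ ∈ Q ∧ K.Reach (K.wE Y) r v (K.ev φ) := by
  simp [ball]

theorem mem_xed {φ : Option K.F} {e : K.E} :
    e ∈ K.xed φ ↔ (∃ i, K.lab e = Let.x i) ∧ ∃ b, (e, b) ∈ K.bd φ := by
  simp only [xed, Bool.exists_bool, mem_filter, mem_univ, true_and]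

theorem ball_subset (Y : ℕ) (Q : Finset (Option K.F)) (r : ℕ) (v : K.V) : K.ball Y Q r v ⊆ Q := by
  intro φ hφ
  exact (mem_ball.1 hφ).1

theorem ball_mono {Y : ℕ} {Q : Finset (Option K.F)} {r s : ℕ} (h : r ≤ s) (v : K.V) :
    K.ball Y Q r v ⊆ K.ball Y Q s v := by
  intro φ hφ
  rw [mem_ball] at hφ ⊢
  exact ⟨hφ.1, hφ.2.mono h⟩

theorem card_xed {φ : Option K.F} {q : Port S} (h : K.IsSq σ φ q) : (K.xed φ).card ≤ 2 := by
  classical
  obtain ⟨G⟩ := h.geo
  have : K.xed φ ⊆ {G.dx.1, G.dx'.1} := by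
    intro e he
    rw [mem_xed] at he
    obtain ⟨hx, b, hb⟩ := he
    rcases G.x_darts hb hx with h | h
    · simp [← h]
    · simp [← h]
  exact (card_le_card this).trans card_le_two

/-- the crossing edges of a ball -/
theorem bdry_ball {Y : ℕ} {Q : Finset (Option K.F)} (hQ : ∀ φ ∈ Q, ∃ q, K.IsSq σ φ q)
    {r : ℕ} {v : K.V}
    (hno : ∀ φ, φ ∉ Q → ∀ d ∈ K.bd φ, ¬ K.Reach (K.wE Y) (r + 2 * Y + 2) v (K.org d))
    {e : K.E} {b : Bool} (h1 : K.fc (e, b) ∈ K.ball Y Q r v) (h2 : K.fc (e, !b) ∉ K.ball Y Q r v) :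
    K.lab e = Let.t ∨ ∃ φ ∈ K.ball Y Q (r + 2 * Y) v \ K.ball Y Q r v, e ∈ K.xed φ := by
  classical
  have hα := K.fc_mem (e, b)
  have hβ := K.fc_mem (e, !b)
  set α := K.fc (e, b) with hαd
  set β := K.fc (e, !b) with hβd
  obtain ⟨hαQ, hαr⟩ := mem_ball.1 h1
  obtain ⟨qa, hqa⟩ := hQ α hαQ
  obtain ⟨Ga⟩ := hqa.geo
  -- the head of the edge
  have key : ∀ (s : ℕ), s ≤ r + Y → wtl Y (K.lab e) ≤ Y + 1 →
      K.Reach (K.wE Y) s v (K.org (e, false)) → β ∈ Q := by
    intro s hs hw hreach
    by_contra hβQ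
    cases hb : (!b) with
    | false =>
      rw [hb] at hβ
      exact hno β hβQ _ hβ (hreach.mono (by omega))
    | true =>
      rw [hb] at hβ
      have h3 := hreach.trans (Reach.edge (K := K) (wt := K.wE Y) (e, false))
      have h4 : rv ((e, false) : K.E × Bool) = (e, true) := rfl
      rw [h4] at h3
      refine hno β hβQ _ hβ (h3.mono ?_)
      have : K.wE Y e = wtl Y (K.lab e) := rfl
      simp only at *
      omega
  cases hl : K.lab e with
  | t => exact Or.inl rfl
  | y c =>
    exfalso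
    have h3 : K.org (e, false) = K.ev α := Ga.ev_y hα ⟨c, hl⟩
    have h4 : K.Reach (K.wE Y) r v (K.org (e, false)) := by rw [h3]; exact hαr
    have hβQ : β ∈ Q := key r (by omega) (by rw [hl]; simp only [wtl, le_add_iff_nonneg_right, zero_le]) h4
    obtain ⟨qb, hqb⟩ := hQ β hβQ
    obtain ⟨Gb⟩ := hqb.geo
    have h5 : K.org (e, false) = K.ev β := Gb.ev_y hβ ⟨c, hl⟩
    apply h2
    rw [mem_ball]
    exact ⟨hβQ, by rw [← h5]; exact h4⟩
  | x i =>
    right
    have h3 : K.Reach (K.wE Y) (r + Y) v (K.org (e, false)) := hαr.trans (Ga.reach_x Y hα ⟨i, hl⟩)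
    have hβQ : β ∈ Q := key (r + Y) le_rfl (by rw [hl]; simp only [wtl, le_add_iff_nonneg_left, zero_le]) h3
    obtain ⟨qb, hqb⟩ := hQ β hβQ
    obtain ⟨Gb⟩ := hqb.geo
    refine ⟨β, ?_, ?_⟩
    · rw [mem_sdiff]
      refine ⟨?_, h2⟩
      rw [mem_ball]
      refine ⟨hβQ, ?_⟩
      have h6 := h3.trans (Gb.reach_x Y hβ ⟨i, hl⟩).symm
      exact h6.mono (by omega)
    · rw [mem_xed]
      exact ⟨⟨i, hl⟩, _, hβ⟩

/-- the weight of the boundary of a ball is at most twice the next annulus -/
theorem wt_bdry_ball {Y : ℕ} {Q : Finset (Option K.F)} (hQ : ∀ φ ∈ Q, ∃ q, K.IsSq σ φ q)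
    {r : ℕ} {v : K.V}
    (hno : ∀ φ, φ ∉ Q → ∀ d ∈ K.bd φ, ¬ K.Reach (K.wE Y) (r + 2 * Y + 2) v (K.org d)) :
    ∑ e ∈ K.bdryO (K.ball Y Q r v), K.wE Y e ≤
      2 * (K.ball Y Q (r + 2 * Y) v \ K.ball Y Q r v).card := by
  classical
  set D := K.ball Y Q (r + 2 * Y) v \ K.ball Y Q r v with hD
  have h1 : ∀ e ∈ K.bdryO (K.ball Y Q r v), K.lab e = Let.t ∨ e ∈ D.biUnion K.xed := by
    intro e he
    rw [mem_bdryO] at he
    rw [mem_biUnion]
    by_cases h2 : K.fc (e, true) ∈ K.ball Y Q r v
    · have h3 : K.fc (e, !true) ∉ K.ball Y Q r v := by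
        intro h4; exact he ⟨fun _ => h4, fun _ => h2⟩
      exact bdry_ball hQ hno h2 h3
    · have h3 : K.fc (e, false) ∈ K.ball Y Q r v := by
        by_contra h4; exact he ⟨fun h => absurd h h2, fun h => absurd h h4⟩
      have h2' : K.fc (e, !false) ∉ K.ball Y Q r v := h2
      exact bdry_ball hQ hno h3 h2'
  have h2 : ∑ e ∈ K.bdryO (K.ball Y Q r v), K.wE Y e ≤ ∑ e ∈ D.biUnion K.xed, 1 := by
    have h3 : ∑ e ∈ K.bdryO (K.ball Y Q r v), K.wE Y e =
        ∑ e ∈ (K.bdryO (K.ball Y Q r v)).filter (fun e => e ∈ D.biUnion K.xed), K.wE Y e := by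
      rw [Finset.sum_filter]
      refine Finset.sum_congr rfl ?_
      intro e he
      split_ifs with h4
      · rfl
      · rcases h1 e he with h5 | h5
        · simp [wE, h5, wtl]
        · exact absurd h5 h4
    rw [h3]
    calc ∑ e ∈ (K.bdryO (K.ball Y Q r v)).filter (fun e => e ∈ D.biUnion K.xed), K.wE Y e
        ≤ ∑ e ∈ (K.bdryO (K.ball Y Q r v)).filter (fun e => e ∈ D.biUnion K.xed), 1 := by
          refine Finset.sum_le_sum ?_
          intro e he
          obtain ⟨φ, _, h5⟩ := mem_biUnion.1 (mem_filter.1 he).2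
          obtain ⟨⟨i, h6⟩, _⟩ := mem_xed.1 h5
          simp [wE, h6, wtl]
      _ ≤ ∑ e ∈ D.biUnion K.xed, 1 := by
          refine Finset.sum_le_sum_of_subset ?_
          intro e he
          exact (mem_filter.1 he).2
  refine h2.trans ?_
  rw [Finset.sum_const, smul_eq_mul, mul_one, mul_comm]
  refine card_biUnion_le_card_mul _ _ _ ?_
  intro φ hφ
  rw [hD, mem_sdiff] at hφ
  obtain ⟨q, hq⟩ := hQ φ (mem_ball.1 hφ.1).1
  exact card_xed hq

/-! ## disc -/

variable (K) in
/-- inner faces as faces -/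
noncomputable def inn : Finset (Option K.F) := (univ : Finset K.F).map Function.Embedding.some

theorem mem_inn {φ : Option K.F} : φ ∈ K.inn ↔ φ ≠ none := by
  cases φ <;> simp [inn]

theorem bdryO_map (C : Finset K.F) : K.bdryO (C.map Function.Embedding.some) = K.bdry C := by
  ext e
  rw [mem_bdryO, mem_bdry]
  have h : ∀ b, K.fc (e, b) ∈ C.map Function.Embedding.some ↔ ∃ f ∈ C, K.fc (e, b) = some f := by
    intro b
    rw [mem_map]
    constructor
    · rintro ⟨f, hf, h⟩
      exact ⟨f, hf, h.symm⟩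
    · rintro ⟨f, hf, h⟩
      exact ⟨f, hf, h.symm⟩
  rw [h, h]

theorem exists_dart [Nonempty K.F] (v : K.V) : ∃ d, K.org d = v := by
  obtain ⟨f⟩ := ‹Nonempty K.F›
  have h1 : ∃ d, d ∈ K.bd (some f) := by
    cases h : K.bd (some f) with
    | nil => exact absurd h (K.ne f)
    | cons a l => exact ⟨a, by simp⟩
  obtain ⟨d, _⟩ := h1
  by_cases h : K.org d = v
  · exact ⟨d, h⟩
  · have h2 := K.conn v (K.org d)
    rcases Relation.ReflTransGen.cases_head h2 with h3 | ⟨c, h3, _⟩
    · exact ⟨d, h3.symm⟩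
    · obtain ⟨d', h4, _⟩ := h3
      exact ⟨d', h4⟩

theorem wE_le (Y : ℕ) (e : K.E) : K.wE Y e ≤ Y + 1 := by
  unfold wE
  cases K.lab e <;> simp [wtl]

theorem radius_disc (K : PC (Let S)) [Nonempty K.F]
    (hsq : ∀ f : K.F, ∃ q, K.IsSq σ (some f) q) (Y j0 : ℕ) (e g : ℝ) (he : 0 ≤ e) (hg : 0 < g)
    (hj : (Fintype.card K.F : ℝ) < g * (1 + e / 2) ^ j0)
    (iso : ∀ D : Finset K.F, (∀ h, K.DAdj none (some h) → h ∉ D) →
      e * D.card ≤ ∑ b ∈ K.bdry D, (K.wE Y b : ℝ))
    (star : ∀ f : K.F, (∀ d ∈ K.bd none, K.org d ≠ K.ev (some f)) →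
      g ≤ ((univ.filter (fun f' : K.F => K.ev (some f') = K.ev (some f))).card : ℝ))
    (v : K.V) : ∃ d ∈ K.bd none, K.Reach (K.wE Y) (2 * Y * j0 + Y + 3) v (K.org d) := by
  classical
  by_contra hcon
  push Not at hcon
  have hQ : ∀ φ ∈ K.inn, ∃ q, K.IsSq σ φ q := by
    intro φ hφ
    cases φ with
    | none => exact absurd rfl (mem_inn.1 hφ)
    | some f => exact hsq f
  have hballcard : ∀ r, ((K.ball Y K.inn r v).card : ℝ) ≤ Fintype.card K.F := by
    intro r
    have h1 := card_le_card (ball_subset (K := K) Y K.inn r v)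
    have h2 : (K.inn).card = Fintype.card K.F := by simp only [inn, card_map, card_univ]
    rw [h2] at h1
    exact_mod_cast h1
  have hstep : ∀ j, j ≤ j0 → g * (1 + e / 2) ^ j ≤ ((K.ball Y K.inn (Y + 1 + 2 * Y * j) v).card : ℝ) := by
    intro j
    induction j with
    | zero =>
      intro _
      obtain ⟨d, hd⟩ := exists_dart (K := K) v
      have hfd := K.fc_mem d
      cases hφ : K.fc d with
      | none =>
        rw [hφ] at hfd
        refine absurd ?_ (hcon d hfd)
        rw [hd]
        exact (Reach.refl v).mono (by omega)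
      | some f0 =>
        rw [hφ] at hfd
        obtain ⟨q, hq⟩ := hsq f0
        obtain ⟨G⟩ := hq.geo
        have h1 : K.Reach (K.wE Y) (Y + 1) v (K.ev (some f0)) := by
          have := (G.reach_all Y hfd).symm
          rwa [hd] at this
        have h2 : ∀ d ∈ K.bd none, K.org d ≠ K.ev (some f0) := by
          intro d' hd' he'
          refine hcon d' hd' ?_
          rw [he']
          exact h1.mono (by omega)
        have h3 := star f0 h2
        have h4 : (univ.filter (fun f' : K.F => K.ev (some f') = K.ev (some f0))).map Function.Embedding.some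
            ⊆ K.ball Y K.inn (Y + 1 + 2 * Y * 0) v := by
          intro φ hφ'
          rw [mem_map] at hφ'
          obtain ⟨f', hf', rfl⟩ := hφ'
          rw [mem_ball]
          refine ⟨by simp [inn], ?_⟩
          have h5 : K.ev (some f') = K.ev (some f0) := (mem_filter.1 hf').2
          have h6 : (Function.Embedding.some f' : Option K.F) = some f' := rfl
          rw [h6, h5]
          exact h1.mono (by omega)
        have h7 := card_le_card h4
        rw [card_map] at h7
        have h8 : (((univ.filter (fun f' : K.F => K.ev (some f') = K.ev (some f0))).card : ℕ) : ℝ) ≤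
          ((K.ball Y K.inn (Y + 1 + 2 * Y * 0) v).card : ℝ) := by exact_mod_cast h7
        simpa only [pow_zero, mul_one, mul_zero, add_zero, ge_iff_le] using h3.trans h8
    | succ j ih =>
      intro hjj
      have ih' := ih (by omega)
      set r := Y + 1 + 2 * Y * j with hr
      have hrr : Y + 1 + 2 * Y * (j + 1) = r + 2 * Y := by rw [hr]; ring
      have hle : r + 2 * Y + 2 ≤ 2 * Y * j0 + Y + 3 := by
        have : 2 * Y * (j + 1) ≤ 2 * Y * j0 := Nat.mul_le_mul_left _ hjj
        rw [hr]
        nlinarith only [this]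
      have hno : ∀ φ, φ ∉ K.inn → ∀ d ∈ K.bd φ, ¬ K.Reach (K.wE Y) (r + 2 * Y + 2) v (K.org d) := by
        intro φ hφ d hd hre
        have : φ = none := by
          by_contra h; exact hφ (mem_inn.2 h)
        subst this
        exact hcon d hd (hre.mono hle)
      have hw := wt_bdry_ball (v := v) hQ hno
      set S : Finset K.F := univ.filter (fun f => K.Reach (K.wE Y) r v (K.ev (some f))) with hS
      have hSball : K.ball Y K.inn r v = S.map Function.Embedding.some := by
        ext φ
        rw [mem_ball, mem_map]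
        constructor
        · rintro ⟨h1, h2⟩
          cases φ with
          | none => exact absurd rfl (mem_inn.1 h1)
          | some f => exact ⟨f, by simp [hS, h2], rfl⟩
        · rintro ⟨f, hf, rfl⟩
          refine ⟨by simp [inn], ?_⟩
          exact (mem_filter.1 hf).2
      have hiso := iso S (by
        intro h hadj hhS
        obtain ⟨d, hd1, hd2⟩ := hadj
        obtain ⟨q, hq⟩ := hsq h
        obtain ⟨G⟩ := hq.geo
        have h1 : K.Reach (K.wE Y) r v (K.ev (some h)) := (mem_filter.1 hhS).2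
        have h2 := h1.trans (G.reach_all Y hd2)
        have h3 := h2.trans (Reach.edge (K := K) (wt := K.wE Y) (rv d))
        rw [rv_rv] at h3
        have h4 : K.wE Y (rv d).1 ≤ Y + 1 := wE_le Y _
        exact hcon d hd1 (h3.mono (by omega)))
      rw [← bdryO_map, ← hSball] at hiso
      have h5 : (S.card : ℝ) = ((K.ball Y K.inn r v).card : ℝ) := by
        rw [hSball, card_map]
      have h6 : (∑ b ∈ K.bdryO (K.ball Y K.inn r v), (K.wE Y b : ℝ)) ≤
          2 * (((K.ball Y K.inn (r + 2 * Y) v).card : ℝ) - ((K.ball Y K.inn r v).card : ℝ)) := by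
        have h7 : (∑ b ∈ K.bdryO (K.ball Y K.inn r v), (K.wE Y b : ℝ)) =
          ((∑ b ∈ K.bdryO (K.ball Y K.inn r v), K.wE Y b : ℕ) : ℝ) := by push_cast; rfl
        rw [h7]
        have h8 : ((∑ b ∈ K.bdryO (K.ball Y K.inn r v), K.wE Y b : ℕ) : ℝ) ≤
          ((2 * (K.ball Y K.inn (r + 2 * Y) v \ K.ball Y K.inn r v).card : ℕ) : ℝ) := by exact_mod_cast hw
        refine h8.trans ?_
        rw [card_sdiff_of_subset (ball_mono (by omega) v)]
        have h9 := card_le_card (ball_mono (K := K) (Y := Y) (Q := K.inn) (r := r) (s := r + 2 * Y) (by omega) v)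
        rw [Nat.cast_mul, Nat.cast_sub h9]
        norm_num
      rw [hrr, pow_succ]
      rw [h5] at hiso
      have h10 : 0 ≤ 1 + e / 2 := by linarith only [he]
      nlinarith only [hiso, h6, ih', h10]
  have h1 := hstep j0 le_rfl
  have h2 := hballcard (Y + 1 + 2 * Y * j0)
  linarith

/-! ## sphere -/

theorem diam_sphere (K : PC (Let S)) [Nonempty K.F]
    (hsq : ∀ φ : Option K.F, ∃ q, K.IsSq σ φ q) (Y j0 : ℕ) (e g : ℝ) (he : 0 ≤ e) (hg : 0 < g)
    (hj : (Fintype.card K.F : ℝ) + 1 < g * (1 + e / 2) ^ j0)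
    (iso : ∀ D : Finset (Option K.F),
      e * min (D.card : ℝ) ((Fintype.card K.F : ℝ) + 1 - D.card) ≤ ∑ b ∈ K.bdryO D, (K.wE Y b : ℝ))
    (star : ∀ φ : Option K.F,
      g ≤ ((univ.filter (fun φ' : Option K.F => K.ev φ' = K.ev φ)).card : ℝ))
    (v1 v2 : K.V) : K.Reach (K.wE Y) (4 * Y * j0 + 2) v1 v2 := by
  classical
  by_contra hcon
  have hdisj : ∀ r, r ≤ 2 * Y * j0 + 1 → Disjoint (K.ball Y univ r v1) (K.ball Y univ r v2) := by
    intro r hr
    rw [Finset.disjoint_left]
    intro φ h1 h2
    have h3 := (mem_ball.1 h1).2.trans (mem_ball.1 h2).2.symm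
    exact hcon (h3.mono (by linarith))
  have hno : ∀ (v : K.V) (r : ℕ), ∀ φ, φ ∉ (univ : Finset (Option K.F)) → ∀ d ∈ K.bd φ,
      ¬ K.Reach (K.wE Y) (r + 2 * Y + 2) v (K.org d) := by
    intro v r φ hφ
    exact absurd (mem_univ φ) hφ
  have hNcard : (Fintype.card (Option K.F) : ℝ) = (Fintype.card K.F : ℝ) + 1 := by
    rw [Fintype.card_option]; push_cast; rfl
  have hballcard : ∀ (v : K.V) (r : ℕ), ((K.ball Y univ r v).card : ℝ) ≤ (Fintype.card K.F : ℝ) + 1 := by
    intro v r
    rw [← hNcard]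
    exact_mod_cast card_le_univ _
  have hgrow : ∀ (v : K.V) (r : ℕ), e * min ((K.ball Y univ r v).card : ℝ)
      ((Fintype.card K.F : ℝ) + 1 - (K.ball Y univ r v).card) ≤
      2 * (((K.ball Y univ (r + 2 * Y) v).card : ℝ) - ((K.ball Y univ r v).card : ℝ)) := by
    intro v r
    have hw := wt_bdry_ball (v := v) (fun φ _ => hsq φ) (hno v r)
    refine (iso _).trans ?_
    have h7 : (∑ b ∈ K.bdryO (K.ball Y univ r v), (K.wE Y b : ℝ)) =
      ((∑ b ∈ K.bdryO (K.ball Y univ r v), K.wE Y b : ℕ) : ℝ) := by push_cast; rfl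
    rw [h7]
    have h8 : ((∑ b ∈ K.bdryO (K.ball Y univ r v), K.wE Y b : ℕ) : ℝ) ≤
      ((2 * (K.ball Y univ (r + 2 * Y) v \ K.ball Y univ r v).card : ℕ) : ℝ) := by exact_mod_cast hw
    refine h8.trans ?_
    rw [card_sdiff_of_subset (ball_mono (by omega) v)]
    have h9 := card_le_card (ball_mono (K := K) (Y := Y) (Q := univ) (r := r) (s := r + 2 * Y) (by omega) v)
    rw [Nat.cast_mul, Nat.cast_sub h9]
    norm_num
  have hstart : ∀ v : K.V, g ≤ ((K.ball Y univ (Y + 1 + 2 * Y * 0) v).card : ℝ) := by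
    intro v
    obtain ⟨d, hd⟩ := exists_dart (K := K) v
    have hfd := K.fc_mem d
    obtain ⟨q, hq⟩ := hsq (K.fc d)
    obtain ⟨G⟩ := hq.geo
    have h1 : K.Reach (K.wE Y) (Y + 1) v (K.ev (K.fc d)) := by
      have := (G.reach_all Y hfd).symm
      rwa [hd] at this
    refine (star (K.fc d)).trans ?_
    have h4 : (univ.filter (fun φ' : Option K.F => K.ev φ' = K.ev (K.fc d)))
        ⊆ K.ball Y univ (Y + 1 + 2 * Y * 0) v := by
      intro φ hφ'
      rw [mem_ball]
      refine ⟨mem_univ _, ?_⟩
      rw [(mem_filter.1 hφ').2]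
      exact h1.mono (by omega)
    exact_mod_cast card_le_card h4
  have hstep : ∀ j, j ≤ j0 → g * (1 + e / 2) ^ j ≤ ((K.ball Y univ (Y + 1 + 2 * Y * j) v1).card : ℝ) ∧
      g * (1 + e / 2) ^ j ≤ ((K.ball Y univ (Y + 1 + 2 * Y * j) v2).card : ℝ) := by
    intro j
    induction j with
    | zero =>
      intro _
      exact ⟨by simpa only [pow_zero, mul_one, mul_zero, add_zero] using hstart v1, by simpa only [pow_zero, mul_one, mul_zero, add_zero] using hstart v2⟩
    | succ j ih =>
      intro hjj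
      obtain ⟨i1, i2⟩ := ih (by omega)
      set r := Y + 1 + 2 * Y * j with hr
      have hrr : Y + 1 + 2 * Y * (j + 1) = r + 2 * Y := by rw [hr]; ring
      have hle : r ≤ 2 * Y * j0 + 1 := by
        have : 2 * Y * (j + 1) ≤ 2 * Y * j0 := Nat.mul_le_mul_left _ hjj
        rw [hr]
        nlinarith only [this]
      have hd := hdisj r hle
      have h1 : ((K.ball Y univ r v1).card : ℝ) + ((K.ball Y univ r v2).card : ℝ) ≤
          (Fintype.card K.F : ℝ) + 1 := by
        rw [← hNcard]
        have h2 : (K.ball Y univ r v1 ∪ K.ball Y univ r v2).card ≤ Fintype.card (Option K.F) :=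
          card_le_univ _
        rw [card_union_of_disjoint hd] at h2
        exact_mod_cast h2
      have g1 := hgrow v1 r
      have g2 := hgrow v2 r
      rw [hrr, pow_succ]
      set a := ((K.ball Y univ r v1).card : ℝ)
      set b := ((K.ball Y univ r v2).card : ℝ)
      set m := g * (1 + e / 2) ^ j
      have hm1 : m ≤ min a ((Fintype.card K.F : ℝ) + 1 - a) := le_min i1 (by linarith only [h1, i2])
      have hm2 : m ≤ min b ((Fintype.card K.F : ℝ) + 1 - b) := le_min i2 (by linarith only [h1, i1])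
      have k1 := mul_le_mul_of_nonneg_left hm1 he
      have k2 := mul_le_mul_of_nonneg_left hm2 he
      constructor
      · nlinarith only [g1, i1, k1]
      · nlinarith only [g2, i2, k2]
  have h1 := (hstep j0 le_rfl).1
  have h2 := hballcard v1 (Y + 1 + 2 * Y * j0)
  linarith

end PC

end Vale.Agent.P201.S
end

section

/-!
P201 part F, leaf F5b (helper859): the cut lemma for planar complexes.

`cut`: for a cotree `C` whose root subtrees have boundary in the outer boundary and all of whose
subtrees have small boundary inside, a subadditive isoperimetric function `psi` valid for all proper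
bonds is either valid for the whole complex or there is a balanced cut.
-/

namespace Vale.Agent.P201.S

open Finset

namespace F5b

variable {A : Type} {K : PC A}

/-- weight of the outer boundary, with multiplicity -/
noncomputable def wout (K : PC A) (w : K.E → ℝ) : ℝ := ((K.bd none).map (fun d => w d.1)).sum

lemma mem_unique {f g : Option K.F} {d : K.E × Bool} (hf : d ∈ K.bd f) (hg : d ∈ K.bd g) : f = g := by
  by_contra hne
  have h := K.once d
  have h1 : 1 ≤ (K.bd f).count d := List.one_le_count_iff.mpr hf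
  have h2 : 1 ≤ (K.bd g).count d := List.one_le_count_iff.mpr hg
  have h3 : (K.bd f).count d + (K.bd g).count d ≤ ∑ f, (K.bd f).count d := by
    rw [← Finset.sum_pair (f := fun f => (K.bd f).count d) hne]
    exact Finset.sum_le_sum_of_subset (Finset.subset_univ _)
  omega

lemma exists_face (K : PC A) (d : K.E × Bool) : ∃ f, d ∈ K.bd f := by
  by_contra hne
  push Not at hne
  have h := K.once d
  rw [Finset.sum_eq_zero (fun f _ => List.count_eq_zero.mpr (hne f))] at h
  omega

lemma fc_mem (K : PC A) (d : K.E × Bool) : d ∈ K.bd (K.fc d) :=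
  Classical.epsilon_spec (exists_face K d)

lemma fc_eq {f : Option K.F} {d : K.E × Bool} (hf : d ∈ K.bd f) : K.fc d = f :=
  mem_unique (fc_mem K d) hf

lemma mem_bd_iff {f : Option K.F} {d : K.E × Bool} : d ∈ K.bd f ↔ K.fc d = f :=
  ⟨fc_eq, fun h => h ▸ fc_mem K d⟩

@[simp] lemma rv_rv {E : Type} (d : E × Bool) : rv (rv d) = d := by
  simp [rv]

/-- dual adjacency -/
def Adj (K : PC A) (a b : Option K.F) : Prop := ∃ d, d ∈ K.bd a ∧ rv d ∈ K.bd b

lemma Adj.symm {a b : Option K.F} (h : Adj K a b) : Adj K b a := by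
  obtain ⟨d, h1, h2⟩ := h
  exact ⟨rv d, h2, by simpa using h1⟩

/-- the face on the side `(e,b)` is in `C` -/
def Side (C : Finset K.F) (d : K.E × Bool) : Prop := ∃ f ∈ C, K.fc d = some f

lemma mem_bdry {C : Finset K.F} {e : K.E} :
    e ∈ K.bdry C ↔ ∃ b : Bool, Side C (e, b) ∧ ¬ Side C (e, !b) := by
  unfold PC.bdry
  rw [Finset.mem_filter]
  simp only [Finset.mem_univ, true_and, mem_bd_iff]
  unfold Side
  constructor
  · intro h
    by_cases h1 : ∃ f ∈ C, K.fc (e, true) = some f
    · refine ⟨true, h1, fun h2 => h ?_⟩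
      exact ⟨fun _ => by simpa only [Bool.not_true] using h2, fun _ => h1⟩
    · refine ⟨false, ?_, by simpa only [Bool.not_false, not_exists, not_and] using h1⟩
      by_contra h2
      exact h ⟨fun h3 => absurd h3 h1, fun h3 => absurd h3 h2⟩
  · rintro ⟨b, h1, h2⟩ h
    cases b
    · exact h2 (by simpa only [Bool.not_false] using h.mpr h1)
    · exact h2 (by simpa only [Bool.not_true] using h.mp h1)

lemma mem_outE {e : K.E} : e ∈ K.outE ↔ ∃ b : Bool, K.fc (e, b) = none := by
  unfold PC.outE
  rw [List.mem_toFinset, List.mem_map]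
  constructor
  · rintro ⟨⟨e', b⟩, h1, h2⟩
    refine ⟨b, ?_⟩
    simp only at h2
    subst h2
    exact fc_eq h1
  · rintro ⟨b, h⟩
    exact ⟨(e, b), mem_bd_iff.mpr h, rfl⟩

lemma outE_le_wout (w : K.E → ℝ) (hw : ∀ e, 0 ≤ w e) : ∑ e ∈ K.outE, w e ≤ wout K w := by
  unfold wout PC.outE
  have h : (K.bd none).map (fun d => w d.1) = ((K.bd none).map Prod.fst).map w := by
    rw [List.map_map]
    rfl
  rw [h, Finset.sum_list_map_count]
  apply Finset.sum_le_sum
  intro e he
  have h1 : 1 ≤ ((K.bd none).map Prod.fst).count e := List.one_le_count_iff.mpr (List.mem_toFinset.mp he)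
  rw [nsmul_eq_mul]
  have h2 : (1 : ℝ) ≤ (((K.bd none).map Prod.fst).count e : ℝ) := by exact_mod_cast h1
  nlinarith only [h2, hw e]

lemma outE_side {S : Finset K.F} {e : K.E} (he : e ∈ K.outE) (hS : e ∈ K.bdry S) :
    ∃ b0 : Bool, K.fc (e, b0) = none ∧ Side S (e, !b0) := by
  obtain ⟨b0, hb0⟩ := mem_outE.mp he
  refine ⟨b0, hb0, ?_⟩
  obtain ⟨b, hb1, hb2⟩ := mem_bdry.mp hS
  by_cases h : b = b0
  · obtain ⟨y, _, hy⟩ := hb1
    rw [h, hb0] at hy
    exact absurd hy (by simp)
  · have : b = !b0 := by cases b <;> cases b0 <;> simp_all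
    rw [← this]
    exact hb1

/-- an outer edge in the boundary of a set of inner faces is in the boundary of the set of all faces -/
lemma mem_bdry_univ {S : Finset K.F} {e : K.E} (he : e ∈ K.outE) (hS : e ∈ K.bdry S) :
    e ∈ K.bdry univ := by
  obtain ⟨b0, hb0, y, _, hy⟩ := outE_side he hS
  refine mem_bdry.mpr ⟨!b0, ⟨y, mem_univ _, hy⟩, ?_⟩
  rintro ⟨x, _, hx⟩
  rw [Bool.not_not, hb0] at hx
  exact absurd hx (by simp)

lemma bdry_univ_subset : K.bdry (univ : Finset K.F) ⊆ K.outE := by
  intro e he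
  obtain ⟨b, _, h2⟩ := mem_bdry.mp he
  refine mem_outE.mpr ⟨!b, ?_⟩
  rcases hfc : K.fc (e, !b) with _ | y
  · rfl
  · exact absurd ⟨y, mem_univ _, hfc⟩ h2

lemma bdry_univ_le_wout (w : K.E → ℝ) (hw : ∀ e, 0 ≤ w e) : ∑ e ∈ K.bdry univ, w e ≤ wout K w :=
  (Finset.sum_le_sum_of_subset_of_nonneg bdry_univ_subset (fun e _ _ => hw e)).trans
    (outE_le_wout w hw)

/-- reversing paths inside a set -/
lemma rtg_symm {X : Type} {P : X → Prop} {R : X → X → Prop} (hR : ∀ a b, R a b → R b a) {a b : X}
    (ha : P a) (h : Relation.ReflTransGen (fun a b => P b ∧ R a b) a b) :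
    Relation.ReflTransGen (fun a b => P b ∧ R a b) b a := by
  induction h with
  | refl => exact Relation.ReflTransGen.refl
  | tail h1 h2 ih =>
    rename_i b c
    have hb : P b := by
      rcases Relation.ReflTransGen.cases_tail h1 with h3 | ⟨x, _, h3⟩
      · rw [h3]; exact ha
      · exact h3.1
    exact Relation.ReflTransGen.head ⟨hb, hR _ _ h2.2⟩ ih

section Cotree

variable (C : K.Cotree)

lemma par_eq (f : K.F) : K.fc (rv (C.dd f)) = C.par f := fc_eq (C.memr f)

lemma dd_fc (f : K.F) : K.fc (C.dd f) = some f := fc_eq (C.mem f)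

lemma dd_inj {f g : K.F} (h : C.dd f = C.dd g) : f = g := by
  have h1 := dd_fc C f
  have h2 := dd_fc C g
  rw [h, h2] at h1
  exact (Option.some.inj h1).symm

lemma adj_par (f : K.F) : Adj K (some f) (C.par f) := ⟨C.dd f, C.mem f, C.memr f⟩

lemma mem_sub {f g : K.F} : g ∈ C.sub f ↔ C.Desc f g := by
  unfold PC.Cotree.sub
  simp only [mem_filter, mem_univ, true_and]

lemma self_mem_sub (f : K.F) : f ∈ C.sub f := (mem_sub C).mpr Relation.ReflTransGen.refl

lemma rank_le {f g : K.F} (h : C.Desc f g) : C.rank f ≤ C.rank g := by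
  unfold PC.Cotree.Desc at h
  induction h with
  | refl => exact le_rfl
  | tail _ h2 ih => exact (C.dec _ _ h2).le.trans ih

/-- if `x` has the ancestors `g`, `g'`, one is an ancestor of the other -/
lemma desc_linear {x g g' : K.F} (h : C.Desc g x) (h' : C.Desc g' x) : C.Desc g g' ∨ C.Desc g' g := by
  unfold PC.Cotree.Desc at *
  induction h using Relation.ReflTransGen.head_induction_on with
  | refl => right; exact h'
  | head h1 h2 ih =>
    rename_i a c
    rcases Relation.ReflTransGen.cases_head h' with h3 | ⟨y, h3, h4⟩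
    · subst h3
      left
      exact Relation.ReflTransGen.head h1 h2
    · have : y = c := by
        rw [h1] at h3
        exact (Option.some.inj h3).symm
      subst this
      exact ih h4

lemma desc_ne {g g' : K.F} (h : C.Desc g g') (hne : g ≠ g') : ∃ y, C.par g' = some y ∧ C.Desc g y := by
  unfold PC.Cotree.Desc at *
  rcases Relation.ReflTransGen.cases_head h with h3 | ⟨y, h3, h4⟩
  · exact absurd h3.symm hne
  · exact ⟨y, h3, h4⟩

/-- siblings have disjoint subtrees -/
lemma sib_disj {P : Option K.F} {g g' : K.F} (hg : C.par g = P) (hg' : C.par g' = P) (hne : g ≠ g') :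
    Disjoint (C.sub g) (C.sub g') := by
  have key : ∀ a b : K.F, C.par a = P → C.par b = P → a ≠ b → ¬ C.Desc a b := by
    intro a b ha hb hab h
    obtain ⟨y, h1, h2⟩ := desc_ne C h hab
    rw [hb] at h1
    have h3 := C.dec a y (ha.trans h1)
    have h4 := rank_le C h2
    omega
  rw [Finset.disjoint_left]
  intro x h1 h2
  rcases desc_linear C ((mem_sub C).mp h1) ((mem_sub C).mp h2) with h | h
  · exact key g g' hg hg' hne h
  · exact key g' g hg' hg (Ne.symm hne) h

/-- children of `P` -/
noncomputable def chd (P : Option K.F) : Finset K.F := by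
  classical
  exact univ.filter (fun g => C.par g = P)

lemma mem_chd {P : Option K.F} {g : K.F} : g ∈ chd C P ↔ C.par g = P := by
  unfold chd
  simp only [mem_filter, mem_univ, true_and]

lemma chd_card (P : Option K.F) : (chd C P).card ≤ (K.bd P).length := by
  classical
  calc (chd C P).card = ((chd C P).image (fun g => rv (C.dd g))).card := by
        rw [Finset.card_image_of_injOn]
        intro a _ b _ h
        have h1 : rv (rv (C.dd a)) = rv (rv (C.dd b)) := congrArg rv h
        rw [rv_rv, rv_rv] at h1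
        exact dd_inj C h1
    _ ≤ (K.bd P).toFinset.card := by
        apply Finset.card_le_card
        intro d hd
        obtain ⟨g, hg, rfl⟩ := Finset.mem_image.mp hd
        rw [List.mem_toFinset]
        have := C.memr g
        rwa [(mem_chd C).mp hg] at this
    _ ≤ (K.bd P).length := List.toFinset_card_le _

lemma exists_top (x : K.F) : ∃ g, C.par g = none ∧ C.Desc g x := by
  induction h : C.rank x using Nat.strong_induction_on generalizing x with
  | _ n ih =>
    rcases hp : C.par x with _ | y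
    · exact ⟨x, hp, Relation.ReflTransGen.refl⟩
    · obtain ⟨g, h1, h2⟩ := ih (C.rank y) (h ▸ C.dec x y hp) y rfl
      exact ⟨g, h1, Relation.ReflTransGen.head hp h2⟩

lemma univ_eq [DecidableEq K.F] : (univ : Finset K.F) = (chd C none).biUnion C.sub := by
  ext x
  simp only [Finset.mem_univ, Finset.mem_biUnion, true_iff]
  obtain ⟨g, h1, h2⟩ := exists_top C x
  exact ⟨g, (mem_chd C).mpr h1, (mem_sub C).mpr h2⟩

lemma sub_eq (f : K.F) : (C.sub f) = insert f ((chd C (some f)).biUnion C.sub) := by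
  ext x
  rw [Finset.mem_insert, Finset.mem_biUnion, mem_sub]
  constructor
  · intro h
    unfold PC.Cotree.Desc at h
    rcases Relation.ReflTransGen.cases_tail h with h3 | ⟨y, h3, h4⟩
    · left; exact h3.symm
    · right
      exact ⟨y, (mem_chd C).mpr h4, (mem_sub C).mpr h3⟩
  · rintro (h | ⟨g, h1, h2⟩)
    · rw [h]; exact Relation.ReflTransGen.refl
    · exact Relation.ReflTransGen.tail ((mem_sub C).mp h2) ((mem_chd C).mp h1)

lemma card_sub (f : K.F) : (C.sub f).card = 1 + ∑ g ∈ chd C (some f), (C.sub g).card := by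
  rw [sub_eq C f, Finset.card_insert_of_notMem, Finset.card_biUnion, add_comm]
  · intro g hg g' hg' hne
    exact sib_disj C ((mem_chd C).mp hg) ((mem_chd C).mp hg') hne
  · rw [Finset.mem_biUnion]
    rintro ⟨g, h1, h2⟩
    have h3 := C.dec g f ((mem_chd C).mp h1)
    have h4 := rank_le C ((mem_sub C).mp h2)
    omega

lemma card_univ_eq : Fintype.card K.F = ∑ g ∈ chd C none, (C.sub g).card := by
  rw [← Finset.card_univ, univ_eq C, Finset.card_biUnion]
  intro g hg g' hg' hne
  exact sib_disj C ((mem_chd C).mp hg) ((mem_chd C).mp hg') hne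

/-- a subtree is a bond -/
lemma bond_sub (f : K.F) : K.Bond (C.sub f) := by
  refine ⟨⟨f, self_mem_sub C f⟩, ?_, ?_⟩
  · have up : ∀ g ∈ C.sub f, Relation.ReflTransGen
        (fun a b => b ∈ C.sub f ∧ Adj K (some a) (some b)) g f := by
      intro g hg
      have h := (mem_sub C).mp hg
      unfold PC.Cotree.Desc at h
      induction h using Relation.ReflTransGen.head_induction_on with
      | refl => exact Relation.ReflTransGen.refl
      | head h1 h2 ih =>
        rename_i a c
        have hc : c ∈ C.sub f := (mem_sub C).mpr h2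
        refine Relation.ReflTransGen.head ⟨hc, ?_⟩ (ih hc)
        rw [← h1]
        exact adj_par C a
    intro a ha b hb
    have h1 := up a ha
    have h2 := rtg_symm (P := fun b => b ∈ C.sub f) (R := fun a b => Adj K (some a) (some b))
      (fun _ _ h => h.symm) hb (up b hb)
    exact h1.trans h2
  · have up : ∀ n : ℕ, ∀ g : K.F, C.rank g = n → g ∉ C.sub f → Relation.ReflTransGen
        (fun a b => (∀ x ∈ C.sub f, b ≠ some x) ∧ Adj K a b) (some g) none := by
      intro n
      induction n using Nat.strong_induction_on with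
      | _ n ih =>
        intro g hn hg
        rcases hp : C.par g with _ | y
        · refine Relation.ReflTransGen.single ⟨fun x _ => by simp, ?_⟩
          rw [← hp]
          exact adj_par C g
        · have hy : y ∉ C.sub f := by
            intro h
            exact hg ((mem_sub C).mpr (Relation.ReflTransGen.head hp ((mem_sub C).mp h)))
          refine Relation.ReflTransGen.head ⟨?_, ?_⟩ (ih (C.rank y) (hn ▸ C.dec g y hp) y rfl hy)
          · intro x hx h
            rw [Option.some.inj h] at hy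
            exact hy hx
          · rw [← hp]
            exact adj_par C g
    have up2 : ∀ a : Option K.F, (∀ x ∈ C.sub f, a ≠ some x) → Relation.ReflTransGen
        (fun a b => (∀ x ∈ C.sub f, b ≠ some x) ∧ Adj K a b) a none := by
      intro a ha
      rcases a with _ | g
      · exact Relation.ReflTransGen.refl
      · exact up _ g rfl (fun h => ha g h rfl)
    intro a b ha hb
    have h2 := rtg_symm (P := fun b : Option K.F => ∀ x ∈ C.sub f, b ≠ some x) (R := Adj K)
      (fun _ _ h => h.symm) hb (up2 b hb)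
    exact (up2 a ha).trans h2

/-- centroid: a balanced subtree below a large one -/
lemma centroid (Δ : ℕ) (hΔ : ∀ f : K.F, (K.bd (some f)).length ≤ Δ) (hF : 2 ≤ Fintype.card K.F)
    (hf : ∃ f, Fintype.card K.F < 2 * (C.sub f).card) :
    ∃ g f, C.par g = some f ∧ Fintype.card K.F ≤ 4 * Δ * (C.sub g).card ∧
      2 * (C.sub g).card ≤ Fintype.card K.F := by
  classical
  obtain ⟨f, hf1, hf2⟩ := Finset.exists_max_image
    (univ.filter (fun f => Fintype.card K.F < 2 * (C.sub f).card)) C.rank
    (by obtain ⟨f, hf⟩ := hf; exact ⟨f, by simp only [mem_filter, mem_univ, hf, and_self]⟩)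
  rw [Finset.mem_filter] at hf1
  have hc := card_sub C f
  have hne : (chd C (some f)).Nonempty := by
    rw [Finset.nonempty_iff_ne_empty]
    intro h
    rw [h] at hc
    simp at hc
    omega
  obtain ⟨g, hg1, hg2⟩ := Finset.exists_max_image (chd C (some f)) (fun g => (C.sub g).card) hne
  have hsum : ∑ g ∈ chd C (some f), (C.sub g).card ≤ Δ * (C.sub g).card := by
    calc ∑ g ∈ chd C (some f), (C.sub g).card ≤ ∑ _x ∈ chd C (some f), (C.sub g).card :=
          Finset.sum_le_sum (fun x hx => hg2 x hx)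
      _ = (chd C (some f)).card * (C.sub g).card := by rw [Finset.sum_const, smul_eq_mul]
      _ ≤ Δ * (C.sub g).card := Nat.mul_le_mul_right _ ((chd_card C _).trans (hΔ f))
  refine ⟨g, f, (mem_chd C).mp hg1, ?_, ?_⟩
  · have : 4 * Δ * (C.sub g).card = 4 * (Δ * (C.sub g).card) := by ring
    omega
  · by_contra h
    have h1 := hf2 g (by simp only [Finset.mem_filter, Finset.mem_univ, true_and]; omega)
    have h2 := C.dec g f ((mem_chd C).mp hg1)
    omega

end Cotree

lemma psi_sum (psi : ℕ → ℝ) (h0 : psi 0 = 0) (hsub : ∀ a b, psi (a + b) ≤ psi a + psi b)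
    {ι : Type} (s : Finset ι) (f : ι → ℕ) : psi (∑ i ∈ s, f i) ≤ ∑ i ∈ s, psi (f i) := by
  classical
  induction s using Finset.induction_on with
  | empty => simp [h0]
  | insert a s ha ih =>
    rw [Finset.sum_insert ha, Finset.sum_insert ha]
    exact (hsub _ _).trans (by linarith)

/-! ### components of a set of faces -/

section Comp

variable (S : Finset K.F)

open Classical in
/-- dual component of `x` in `S` -/
noncomputable def comp (x : K.F) : Finset K.F :=
  univ.filter (fun y => Relation.ReflTransGen (fun a b => b ∈ S ∧ Adj K (some a) (some b)) x y)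

lemma mem_comp {x y : K.F} : y ∈ comp S x ↔
    Relation.ReflTransGen (fun a b => b ∈ S ∧ Adj K (some a) (some b)) x y := by
  unfold comp
  simp only [mem_filter, mem_univ, true_and]

lemma self_mem_comp (x : K.F) : x ∈ comp S x := (mem_comp S).mpr Relation.ReflTransGen.refl

lemma comp_subset {x : K.F} (hx : x ∈ S) : comp S x ⊆ S := by
  intro y hy
  rcases Relation.ReflTransGen.cases_tail ((mem_comp S).mp hy) with h | ⟨z, _, h⟩
  · rw [h]; exact hx
  · exact h.1

lemma comp_symm {x y : K.F} (hx : x ∈ S) (h : y ∈ comp S x) : x ∈ comp S y :=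
  (mem_comp S).mpr (rtg_symm (P := fun b => b ∈ S) (R := fun a b => Adj K (some a) (some b))
    (fun _ _ h => h.symm) hx ((mem_comp S).mp h))

lemma comp_eq {x y : K.F} (hx : x ∈ S) (h : y ∈ comp S x) : comp S y = comp S x := by
  ext z
  have h2 := comp_symm S hx h
  rw [mem_comp] at *
  rw [mem_comp]
  exact ⟨fun h3 => h.trans h3, fun h3 => h2.trans h3⟩

lemma comp_adj {x y z : K.F} (hy : y ∈ comp S x) (hz : z ∈ S) (h : Adj K (some y) (some z)) :
    z ∈ comp S x := (mem_comp S).mpr (((mem_comp S).mp hy).tail ⟨hz, h⟩)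

/-- the components -/
noncomputable def comps : Finset (Finset K.F) := by
  classical
  exact S.image (comp S)

lemma mem_comps {D : Finset K.F} : D ∈ comps S ↔ ∃ x ∈ S, comp S x = D := by
  classical
  unfold comps
  simp only [mem_image]

lemma comps_disj : ∀ D ∈ comps S, ∀ D' ∈ comps S, D ≠ D' → Disjoint D D' := by
  intro D hD D' hD' hne
  obtain ⟨x, hx, rfl⟩ := (mem_comps S).mp hD
  obtain ⟨y, hy, rfl⟩ := (mem_comps S).mp hD'
  rw [Finset.disjoint_left]
  intro z h1 h2
  exact hne ((comp_eq S hx h1).symm.trans (comp_eq S hy h2))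

lemma comps_card : ∑ D ∈ comps S, D.card = S.card := by
  classical
  have h : S = (comps S).biUnion id := by
    ext x
    rw [Finset.mem_biUnion]
    constructor
    · intro hx
      exact ⟨comp S x, (mem_comps S).mpr ⟨x, hx, rfl⟩, self_mem_comp S x⟩
    · rintro ⟨D, hD, hx⟩
      obtain ⟨y, hy, rfl⟩ := (mem_comps S).mp hD
      exact comp_subset S hy hx
  conv_rhs => rw [h]
  rw [Finset.card_biUnion]
  · rfl
  · intro D hD D' hD' hne
    exact comps_disj S D hD D' hD' hne

/-- the other side of a boundary edge of a component is not in `S` -/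
lemma comp_other {D : Finset K.F} (hD : D ∈ comps S) {e : K.E} {b : Bool} (h1 : Side D (e, b))
    (h2 : ¬ Side D (e, !b)) : ¬ Side S (e, !b) := by
  obtain ⟨x, hx, rfl⟩ := (mem_comps S).mp hD
  rintro ⟨g, hg, hg2⟩
  obtain ⟨f, hf, hf2⟩ := h1
  apply h2
  refine ⟨g, comp_adj S hf hg ⟨(e, b), mem_bd_iff.mpr hf2, mem_bd_iff.mpr hg2⟩, hg2⟩

lemma side_mono {D S : Finset K.F} (h : D ⊆ S) {d : K.E × Bool} (h1 : Side D d) : Side S d := by
  obtain ⟨f, hf, hf2⟩ := h1
  exact ⟨f, h hf, hf2⟩

lemma comps_subset {D : Finset K.F} (hD : D ∈ comps S) : D ⊆ S := by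
  obtain ⟨x, hx, rfl⟩ := (mem_comps S).mp hD
  exact comp_subset S hx

lemma comps_bdry_subset {D : Finset K.F} (hD : D ∈ comps S) : K.bdry D ⊆ K.bdry S := by
  intro e he
  obtain ⟨b, h1, h2⟩ := mem_bdry.mp he
  exact mem_bdry.mpr ⟨b, side_mono (comps_subset S hD) h1, comp_other S hD h1 h2⟩

lemma comps_bdry_disj {D D' : Finset K.F} (hD : D ∈ comps S) (hD' : D' ∈ comps S) (hne : D ≠ D') :
    Disjoint (K.bdry D) (K.bdry D') := by
  rw [Finset.disjoint_left]
  intro e h1 h2
  obtain ⟨b, h3, h4⟩ := mem_bdry.mp h1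
  obtain ⟨b', h5, h6⟩ := mem_bdry.mp h2
  have h7 := comp_other S hD h3 h4
  have h8 := side_mono (comps_subset S hD') h5
  by_cases hb : b' = b
  · subst hb
    obtain ⟨f, hf, hf2⟩ := h3
    obtain ⟨g, hg, hg2⟩ := h5
    rw [hf2] at hg2
    rw [← Option.some.inj hg2] at hg
    exact (Finset.disjoint_left.mp (comps_disj S D hD D' hD' hne)) hf hg
  · have : b' = !b := by cases b <;> cases b' <;> simp_all
    rw [this] at h8
    exact h7 h8

lemma comps_bdry_sum (w : K.E → ℝ) (hw : ∀ e, 0 ≤ w e) :
    ∑ D ∈ comps S, ∑ e ∈ K.bdry D, w e ≤ ∑ e ∈ K.bdry S, w e := by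
  classical
  rw [← Finset.sum_biUnion]
  · apply Finset.sum_le_sum_of_subset_of_nonneg
    · intro e he
      obtain ⟨D, hD, h⟩ := Finset.mem_biUnion.mp he
      exact comps_bdry_subset S hD h
    · intro e _ _
      exact hw e
  · intro D hD D' hD' hne
    exact comps_bdry_disj S hD hD' hne

end Comp

/-- components of the complement of a dual connected set which touches the outer face are bonds -/
lemma comps_bond (C1 : Finset K.F) (hB : K.Bond C1) {e0 : K.E} (he0 : e0 ∈ K.bdry C1)
    (he0' : e0 ∈ K.outE) (D : Finset K.F) (hD : D ∈ comps (univ \ C1)) : K.Bond D := by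
  classical
  obtain ⟨x, hx, hxD⟩ := (mem_comps _).mp hD
  refine ⟨⟨x, hxD ▸ self_mem_comp _ x⟩, ?_, ?_⟩
  · -- inside
    have key : ∀ f ∈ D, ∀ g, Relation.ReflTransGen
        (fun a b => b ∈ univ \ C1 ∧ Adj K (some a) (some b)) f g →
        Relation.ReflTransGen (fun a b => b ∈ D ∧ Adj K (some a) (some b)) f g := by
      intro f hf g h
      induction h with
      | refl => exact Relation.ReflTransGen.refl
      | tail h1 h2 ih =>
        rename_i b c
        refine ih.tail ⟨?_, h2.2⟩
        have hb : c ∈ comp (univ \ C1) f := (mem_comp _).mpr (h1.tail h2)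
        rw [← hxD] at hf ⊢
        rwa [comp_eq _ hx hf] at hb
    intro f hf g hg
    have hf' := hf
    have hg' := hg
    rw [← hxD] at hf' hg'
    apply key f hf g
    have h1 := (mem_comp _).mp (comp_symm _ hx hf')
    exact h1.trans ((mem_comp _).mp hg')
  · -- outside
    have hDs : D ⊆ univ \ C1 := comps_subset _ hD
    obtain ⟨b, hs1, hs2⟩ := mem_bdry.mp he0
    obtain ⟨f0, hf0, hf0'⟩ := hs1
    have hnone : K.fc (e0, !b) = none := by
      obtain ⟨b', hb'⟩ := mem_outE.mp he0'
      by_cases h : b' = b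
      · rw [h, hf0'] at hb'
        exact absurd hb' (by simp)
      · have : b' = !b := by cases b <;> cases b' <;> simp_all
        rw [this] at hb'
        exact hb'
    have hC1 : ∀ y ∈ C1, Relation.ReflTransGen
        (fun a b => (∀ x ∈ D, b ≠ some x) ∧ Adj K a b) (some y) none := by
      intro y hy
      have h1 := hB.2.1 y hy f0 hf0
      have h2 : Relation.ReflTransGen
          (fun a b => (∀ x ∈ D, b ≠ some x) ∧ Adj K a b) (some y) (some f0) := by
        refine Relation.ReflTransGen.lift (p := fun a b : Option K.F => (∀ x ∈ D, b ≠ some x) ∧ Adj K a b)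
          some ?_ _ _ h1
        rintro a c ⟨hc, hadj⟩
        refine ⟨?_, hadj⟩
        intro z hz h
        have := hDs hz
        rw [← Option.some.inj h] at this
        exact (Finset.mem_sdiff.mp this).2 hc
      refine h2.tail ⟨fun x _ => by simp, ?_⟩
      exact ⟨(e0, b), mem_bd_iff.mpr hf0', mem_bd_iff.mpr hnone⟩
    have up : ∀ a : Option K.F, (∀ x ∈ D, a ≠ some x) → Relation.ReflTransGen
        (fun a b => (∀ x ∈ D, b ≠ some x) ∧ Adj K a b) a none := by
      intro a
      have h := K.dconn a none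
      induction h using Relation.ReflTransGen.head_induction_on with
      | refl => intro _; exact Relation.ReflTransGen.refl
      | head h1 h2 ih =>
        rename_i a c
        intro ha
        rcases a with _ | y
        · exact Relation.ReflTransGen.refl
        by_cases hy : y ∈ C1
        · exact hC1 y hy
        · have hcD : ∀ x ∈ D, c ≠ some x := by
            intro z hz h
            subst h
            have h3 : y ∈ univ \ C1 := by simp only [mem_sdiff, mem_univ, hy, not_false_eq_true, and_self]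
            have hz' := hz
            rw [← hxD] at hz'
            have : y ∈ comp (univ \ C1) x := comp_adj _ hz' h3 (Adj.symm h1)
            rw [hxD] at this
            exact ha y this rfl
          exact Relation.ReflTransGen.head ⟨hcD, h1⟩ (ih hcD)
    intro f g hf hg
    have h2 := rtg_symm (P := fun b : Option K.F => ∀ x ∈ D, b ≠ some x) (R := Adj K)
      (fun _ _ h => h.symm) hg (up g hg)
    exact (up f hf).trans h2

/-- **The cut lemma.** -/
theorem cut (C : K.Cotree) (w : K.E → ℝ) (hw : ∀ e, 0 ≤ w e) (psi : ℕ → ℝ) (h0 : psi 0 = 0)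
    (hsub : ∀ a b, psi (a + b) ≤ psi a + psi b)
    (hiso : ∀ D : Finset K.F, K.Bond D → D ≠ univ → psi D.card ≤ ∑ e ∈ K.bdry D, w e)
    (Δ : ℕ) (hΔ : ∀ f : K.F, (K.bd (some f)).length ≤ Δ) (z : ℝ)
    (hz : ∀ f, ∑ e ∈ K.bdry (C.sub f) \ K.outE, w e ≤ z)
    (hP1 : ∀ f, C.par f = none → K.bdry (C.sub f) ⊆ K.outE)
    (hF : 2 ≤ Fintype.card K.F) :
    psi (Fintype.card K.F) ≤ ∑ e ∈ K.bdry univ, w e ∨
      ∃ s, Fintype.card K.F ≤ 4 * Δ * s ∧ 2 * s ≤ Fintype.card K.F ∧
        (psi s ≤ z ∨ psi s + psi (Fintype.card K.F - s) ≤ ∑ e ∈ K.bdry univ, w e + 2 * z) := by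
  classical
  by_cases hbig : ∃ f, Fintype.card K.F < 2 * (C.sub f).card
  · right
    obtain ⟨g, f, hgf, hg1, hg2⟩ := centroid C Δ hΔ hF hbig
    refine ⟨(C.sub g).card, hg1, hg2, ?_⟩
    have hne : C.sub g ≠ univ := by
      intro h
      have := Finset.card_univ (α := K.F)
      rw [← h] at this
      omega
    have hi1 := hiso _ (bond_sub C g) hne
    by_cases hint : ∃ e0, e0 ∈ K.bdry (C.sub g) ∧ e0 ∈ K.outE
    · right
      obtain ⟨e0, he0, he0'⟩ := hint
      set C1 := C.sub g with hC1
      have hcard : (univ \ C1).card = Fintype.card K.F - C1.card := by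
        rw [Finset.card_sdiff_of_subset (Finset.subset_univ _), Finset.card_univ]
      have hC1ne : C1.Nonempty := ⟨g, self_mem_sub C g⟩
      have h2 : psi (Fintype.card K.F - C1.card) ≤ ∑ e ∈ K.bdry (univ \ C1), w e := by
        calc psi (Fintype.card K.F - C1.card) = psi (∑ D ∈ comps (univ \ C1), D.card) := by
              rw [comps_card, hcard]
          _ ≤ ∑ D ∈ comps (univ \ C1), psi D.card := psi_sum psi h0 hsub _ _
          _ ≤ ∑ D ∈ comps (univ \ C1), ∑ e ∈ K.bdry D, w e := by
              apply Finset.sum_le_sum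
              intro D hD
              apply hiso D (comps_bond C1 (bond_sub C g) he0 he0' D hD)
              intro h
              obtain ⟨y, hy⟩ := hC1ne
              have := comps_subset _ hD (h ▸ Finset.mem_univ y)
              exact (Finset.mem_sdiff.mp this).2 hy
          _ ≤ ∑ e ∈ K.bdry (univ \ C1), w e := comps_bdry_sum _ w hw
      have h3 : ∑ e ∈ K.bdry C1, w e = ∑ e ∈ K.bdry C1 ∩ K.outE, w e + ∑ e ∈ K.bdry C1 \ K.outE, w e :=
        (Finset.sum_inter_add_sum_sdiff _ _ _).symm
      have h4 : ∑ e ∈ K.bdry (univ \ C1), w e = ∑ e ∈ K.bdry (univ \ C1) ∩ K.outE, w e +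
          ∑ e ∈ K.bdry (univ \ C1) \ K.outE, w e :=
        (Finset.sum_inter_add_sum_sdiff _ _ _).symm
      have h5 : ∑ e ∈ K.bdry (univ \ C1) \ K.outE, w e ≤ ∑ e ∈ K.bdry C1 \ K.outE, w e := by
        apply Finset.sum_le_sum_of_subset_of_nonneg
        · intro e he
          rw [Finset.mem_sdiff] at he ⊢
          refine ⟨?_, he.2⟩
          obtain ⟨b, hb1, hb2⟩ := mem_bdry.mp he.1
          apply mem_bdry.mpr
          refine ⟨!b, ?_, ?_⟩
          · rcases hfc : K.fc (e, !b) with _ | y
            · exact absurd (mem_outE.mpr ⟨!b, hfc⟩) he.2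
            · by_cases hy : y ∈ C1
              · exact ⟨y, hy, hfc⟩
              · exact absurd ⟨y, by simp only [mem_sdiff, mem_univ, hy, not_false_eq_true, and_self], hfc⟩ hb2
          · rintro ⟨y, hy, hfc⟩
            rw [Bool.not_not] at hfc
            obtain ⟨y', hy', hfc'⟩ := hb1
            rw [hfc] at hfc'
            rw [← Option.some.inj hfc'] at hy'
            exact (Finset.mem_sdiff.mp hy').2 hy
        · intro e _ _
          exact hw e
      have h6 : ∑ e ∈ K.bdry C1 ∩ K.outE, w e + ∑ e ∈ K.bdry (univ \ C1) ∩ K.outE, w e ≤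
          ∑ e ∈ K.bdry univ, w e := by
        rw [← Finset.sum_union]
        · apply Finset.sum_le_sum_of_subset_of_nonneg
          · intro e he
            rcases Finset.mem_union.mp he with h | h
            · exact mem_bdry_univ (Finset.mem_inter.mp h).2 (Finset.mem_inter.mp h).1
            · exact mem_bdry_univ (Finset.mem_inter.mp h).2 (Finset.mem_inter.mp h).1
          · intro e _ _
            exact hw e
        · rw [Finset.disjoint_left]
          intro e h7 h8
          rw [Finset.mem_inter] at h7 h8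
          obtain ⟨b0, hb0, y, hy, hfc⟩ := outE_side h7.2 h7.1
          obtain ⟨b1, hb1, y', hy', hfc'⟩ := outE_side h8.2 h8.1
          have hbb : b1 = b0 := by
            by_contra hne
            have : b1 = !b0 := by cases b0 <;> cases b1 <;> simp_all
            rw [this, hfc] at hb1
            exact absurd hb1 (by simp)
          rw [hbb, hfc] at hfc'
          rw [← Option.some.inj hfc'] at hy'
          exact (Finset.mem_sdiff.mp hy').2 hy
      have h8 := hz g
      rw [← hC1] at h8
      linarith only [hi1, h2, h3, h4, h5, h6, h8]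
    · left
      have : K.bdry (C.sub g) \ K.outE = K.bdry (C.sub g) := by
        rw [Finset.sdiff_eq_self_iff_disjoint, Finset.disjoint_left]
        intro e h1 h2
        exact hint ⟨e, h1, h2⟩
      have h8 := hz g
      rw [this] at h8
      exact hi1.trans h8
  · left
    push Not at hbig
    calc psi (Fintype.card K.F) = psi (∑ g ∈ chd C none, (C.sub g).card) := by rw [← card_univ_eq C]
      _ ≤ ∑ g ∈ chd C none, psi (C.sub g).card := psi_sum psi h0 hsub _ _
      _ ≤ ∑ g ∈ chd C none, ∑ e ∈ K.bdry (C.sub g), w e := by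
          apply Finset.sum_le_sum
          intro g hg
          apply hiso _ (bond_sub C g)
          intro h
          have h1 := hbig g
          rw [h, Finset.card_univ] at h1
          omega
      _ ≤ ∑ e ∈ K.bdry univ, w e := by
          rw [← Finset.sum_biUnion]
          · apply Finset.sum_le_sum_of_subset_of_nonneg
            · intro e he
              obtain ⟨g, hg, h⟩ := Finset.mem_biUnion.mp he
              exact mem_bdry_univ (hP1 g ((mem_chd C).mp hg) h) h
            · intro e _ _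
              exact hw e
          · intro g hg g' hg' hne
            rw [Function.onFun, Finset.disjoint_left]
            intro e h1 h2
            have h3 := hP1 g ((mem_chd C).mp hg) h1
            obtain ⟨b0, hb0, y, hy, hfc⟩ := outE_side h3 h1
            obtain ⟨b1, hb1, y', hy', hfc'⟩ := outE_side h3 h2
            have hbb : b1 = b0 := by
              by_contra hne
              have : b1 = !b0 := by cases b0 <;> cases b1 <;> simp_all
              rw [this, hfc] at hb1
              exact absurd hb1 (by simp)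
            rw [hbb, hfc] at hfc'
            rw [← Option.some.inj hfc'] at hy'
            exact (Finset.disjoint_left.mp (sib_disj C ((mem_chd C).mp hg) ((mem_chd C).mp hg') hne))
              hy hy'

/-- the end of an outer dart is the origin of another outer dart -/
lemma outer_next {f : Option K.F} {a : K.E × Bool} (ha : a ∈ K.bd f) :
    ∃ b ∈ K.bd f, K.org b = K.org (rv a) := by
  obtain ⟨l1, l2, h⟩ := List.append_of_mem ha
  rcases l2 with _ | ⟨b, l2⟩
  · -- `a` is the last one
    have hlast : a ∈ (K.bd f).getLast? := by rw [h]; simp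
    rcases hh : (K.bd f).head? with _ | c
    · rw [List.head?_eq_none_iff] at hh
      rw [hh] at ha
      simp at ha
    · exact ⟨c, List.mem_of_head? hh, K.closed f a hlast c (by rw [hh]; simp)⟩
  · refine ⟨b, by rw [h]; simp, ?_⟩
    have hc := K.chain f
    rw [h, List.isChain_append] at hc
    have hc2 := hc.2.1
    rw [List.isChain_cons_cons] at hc2
    exact hc2.1

/-- cut lemma for a spanning tree with (P1), (P2) -/
theorem cut_tree (hT1 : StmtT1) (T : K.STree) (w : K.E → ℝ) (hw : ∀ e, 0 ≤ w e) (psi : ℕ → ℝ)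
    (h0 : psi 0 = 0) (hsub : ∀ a b, psi (a + b) ≤ psi a + psi b)
    (hiso : ∀ D : Finset K.F, K.Bond D → D ≠ univ → psi D.card ≤ ∑ e ∈ K.bdry D, w e)
    (Δ : ℕ) (hΔ : ∀ f : K.F, (K.bd (some f)).length ≤ Δ) (Y R : ℝ) (hY : ∀ e, w e ≤ Y)
    (P1 : ∀ v, (∃ d ∈ K.bd none, K.org d = v) → ∀ e, T.Anc v e → e ∈ K.outE)
    (P2 : ∀ (v : K.V) (S : Finset K.E), (∀ e ∈ S, T.Anc v e ∧ e ∉ K.outE) → ∑ e ∈ S, w e ≤ R)
    (hF : 2 ≤ Fintype.card K.F) :
    psi (Fintype.card K.F) ≤ ∑ e ∈ K.bdry univ, w e ∨
      ∃ s, Fintype.card K.F ≤ 4 * Δ * s ∧ 2 * s ≤ Fintype.card K.F ∧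
        (psi s ≤ 2 * R + Y ∨
          psi s + psi (Fintype.card K.F - s) ≤ ∑ e ∈ K.bdry univ, w e + 2 * (2 * R + Y)) := by
  classical
  obtain ⟨C, _, hC1, hC2⟩ := hT1 A K T
  refine cut C w hw psi h0 hsub hiso Δ hΔ (2 * R + Y) ?_ ?_ hF
  · intro f
    set S := K.bdry (C.sub f) \ K.outE with hS
    have hsubs : S ⊆ ({(C.dd f).1} : Finset K.E) ∪
        (S.filter (fun e => T.Anc (K.org (C.dd f)) e) ∪ S.filter (fun e => T.Anc (K.org (rv (C.dd f))) e)) := by
      intro e he
      have h1 := hC2 f e (Finset.mem_sdiff.mp he).1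
      simp only [Finset.mem_union, Finset.mem_singleton, Finset.mem_filter]
      (clear * - h1 he; tauto)
    have ha : ∑ e ∈ S.filter (fun e => T.Anc (K.org (C.dd f)) e), w e ≤ R :=
      P2 _ _ (fun e he => ⟨(Finset.mem_filter.mp he).2,
        (Finset.mem_sdiff.mp (Finset.mem_filter.mp he).1).2⟩)
    have hb : ∑ e ∈ S.filter (fun e => T.Anc (K.org (rv (C.dd f))) e), w e ≤ R :=
      P2 _ _ (fun e he => ⟨(Finset.mem_filter.mp he).2,
        (Finset.mem_sdiff.mp (Finset.mem_filter.mp he).1).2⟩)
    have hun : ∀ X Z : Finset K.E, ∑ e ∈ X ∪ Z, w e ≤ ∑ e ∈ X, w e + ∑ e ∈ Z, w e := by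
      intro X Z
      rw [← Finset.sum_union_inter]
      have : 0 ≤ ∑ e ∈ X ∩ Z, w e := Finset.sum_nonneg (fun e _ => hw e)
      linarith only [this]
    calc ∑ e ∈ S, w e ≤ ∑ e ∈ ({(C.dd f).1} : Finset K.E) ∪
        (S.filter (fun e => T.Anc (K.org (C.dd f)) e) ∪ S.filter (fun e => T.Anc (K.org (rv (C.dd f))) e)), w e :=
          Finset.sum_le_sum_of_subset_of_nonneg hsubs (fun e _ _ => hw e)
      _ ≤ ∑ e ∈ ({(C.dd f).1} : Finset K.E), w e + (∑ e ∈ S.filter (fun e => T.Anc (K.org (C.dd f)) e), w e +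
            ∑ e ∈ S.filter (fun e => T.Anc (K.org (rv (C.dd f))) e), w e) := by
          refine (hun _ _).trans ?_
          have := hun (S.filter (fun e => T.Anc (K.org (C.dd f)) e))
            (S.filter (fun e => T.Anc (K.org (rv (C.dd f))) e))
          linarith only [this]
      _ ≤ 2 * R + Y := by
          rw [Finset.sum_singleton]
          have := hY (C.dd f).1
          linarith only [ha, hb, this]
  · intro f hf e he
    have hr : rv (C.dd f) ∈ K.bd none := by
      have := C.memr f
      rwa [hf] at this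
    rcases hC2 f e he with h | h | h
    · rw [h]
      apply mem_outE.mpr
      exact ⟨!(C.dd f).2, fc_eq hr⟩
    · apply P1 (K.org (C.dd f)) _ e h
      obtain ⟨b, hb1, hb2⟩ := outer_next hr
      rw [rv_rv] at hb2
      exact ⟨b, hb1, hb2⟩
    · exact P1 (K.org (rv (C.dd f))) ⟨_, hr, rfl⟩ e h

end F5b

end Vale.Agent.P201.S
end

section

/-!
P201, part F2 + F4 + growth of F7(c) (helper476): e-vertices, stars, weighted balls.
Everything is in the namespace `Gro` and uses only PC.lean.  `Sqs` covers the disc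
(`Q = K.F`, `φ = some`) and the sphere (`Q = Option K.F`, `φ = id`).
-/

namespace Vale.Agent.P201.S.Gro

open Finset

variable {S : Sys}

theorem rv_rv' {E : Type} (d : E × Bool) : rv (rv d) = d := by
  cases d; simp [rv]

/-- a family of squares among the faces of `K` -/
structure Sqs (σ : Equiv.Perm (S.C)) (K : PC (Let S)) where
  Q : Type
  [fQ : Fintype Q]
  [dQ : DecidableEq Q]
  φ : Q → Option K.F
  inj : Function.Injective φ
  ε : Q → Port S
  sq : ∀ s : Q, (K.bd (φ s)).map (fun d => (K.lab d.1, d.2)) = relw σ (ε s)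

attribute [instance] Sqs.fQ Sqs.dQ

/-! ### raw facts on PC -/

theorem exF (K : PC (Let S)) (d : K.E × Bool) : ∃ f, d ∈ K.bd f := by
  by_contra h
  push Not at h
  have h1 := K.once d
  rw [Finset.sum_eq_zero] at h1
  · exact absurd h1 (by norm_num)
  · intro f _
    exact List.count_eq_zero_of_not_mem (h f)

theorem unF (K : PC (Let S)) {d : K.E × Bool} {f g : Option K.F} (hf : d ∈ K.bd f)
    (hg : d ∈ K.bd g) : f = g := by
  by_contra hne
  have h1 := K.once d
  have h2 : (K.bd f).count d + (K.bd g).count d ≤ ∑ x, (K.bd x).count d := by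
    rw [← Finset.sum_pair (f := fun x => (K.bd x).count d) hne]
    exact Finset.sum_le_sum_of_subset (Finset.subset_univ _)
  have h3 : 0 < (K.bd f).count d := List.count_pos_iff.2 hf
  have h4 : 0 < (K.bd g).count d := List.count_pos_iff.2 hg
  omega

/-- the next dart on a face -/
theorem exNext (K : PC (Let S)) {f : Option K.F} {d : K.E × Bool} (h : d ∈ K.bd f) :
    ∃ b ∈ K.bd f, K.org b = K.org (rv d) := by
  obtain ⟨l1, l2, hl⟩ := List.append_of_mem h
  cases l2 with
  | cons b l2 =>
    refine ⟨b, by rw [hl]; simp, ?_⟩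
    have hc := K.chain f
    rw [hl, List.isChain_append] at hc
    have := hc.2.1
    rw [List.isChain_cons_cons] at this
    exact this.1
  | nil =>
    have hlast : d ∈ (K.bd f).getLast? := by rw [hl]; simp
    cases hb : (K.bd f) with
    | nil => rw [hb] at h; simp at h
    | cons b l =>
      refine ⟨b, by simp, ?_⟩
      exact K.closed f d hlast b (by rw [hb]; simp)

/-! ### weighted reachability -/

/-- weight of a dart -/
def wt (K : PC (Let S)) (Y : ℕ) (d : K.E × Bool) : ℕ := wtl Y (K.lab d.1)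

/-- `Reach K Y r v w`: a walk from `v` to `w` of weight at most `r` -/
inductive Reach (K : PC (Let S)) (Y : ℕ) : ℕ → K.V → K.V → Prop
  | refl (r : ℕ) (v : K.V) : Reach K Y r v v
  | step (r : ℕ) (v : K.V) (d : K.E × Bool) : Reach K Y r v (K.org d) →
      Reach K Y (r + wt K Y d) v (K.org (rv d))

theorem Reach.mono {K : PC (Let S)} {Y r s : ℕ} {v w : K.V} (h : Reach K Y r v w) (hs : r ≤ s) :
    Reach K Y s v w := by
  induction h generalizing s with
  | refl r v => exact Reach.refl s v
  | step r v d h ih =>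
    obtain ⟨k, rfl⟩ := Nat.exists_eq_add_of_le hs
    have := Reach.step (r + k) v d (ih (Nat.le_add_right _ _))
    rwa [show r + wt K Y d + k = r + k + wt K Y d by ring]

theorem Reach.trans {K : PC (Let S)} {Y r s : ℕ} {u v w : K.V} (h : Reach K Y r u v)
    (h' : Reach K Y s v w) : Reach K Y (r + s) u w := by
  induction h' with
  | refl s v => exact h.mono (Nat.le_add_right _ _)
  | step s v d h' ih =>
    rw [← Nat.add_assoc]
    exact Reach.step (r + s) u d (ih h)

theorem Reach.one {K : PC (Let S)} {Y : ℕ} (d : K.E × Bool) :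
    Reach K Y (wt K Y d) (K.org d) (K.org (rv d)) := by
  have := Reach.step (Y := Y) 0 (K.org d) d (Reach.refl 0 _)
  rwa [Nat.zero_add] at this

theorem Reach.one' {K : PC (Let S)} {Y : ℕ} (d : K.E × Bool) :
    Reach K Y (wt K Y d) (K.org (rv d)) (K.org d) := by
  have := Reach.one (K := K) (Y := Y) (rv d)
  rw [rv_rv'] at this
  exact this

theorem Reach.symm {K : PC (Let S)} {Y r : ℕ} {v w : K.V} (h : Reach K Y r v w) :
    Reach K Y r w v := by
  induction h with
  | refl r v => exact Reach.refl r v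
  | step r v d h ih =>
    rw [Nat.add_comm]
    exact (Reach.one' d).trans ih

/-- list form of `Reach` -/
theorem Reach.list {K : PC (Let S)} {Y r : ℕ} {v w : K.V} (h : Reach K Y r v w) :
    ∃ l : List (K.E × Bool), l.IsChain (fun a b => K.org b = K.org (rv a)) ∧
      (l.map (wt K Y)).sum ≤ r ∧ (l = [] → v = w) ∧ (∀ a ∈ l.head?, K.org a = v) ∧
      (∀ a ∈ l.getLast?, K.org (rv a) = w) := by
  induction h with
  | refl r v => exact ⟨[], by simp, by simp, by simp, by simp, by simp⟩
  | step r v d h ih =>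
    obtain ⟨l, h1, h2, h3, h4, h5⟩ := ih
    refine ⟨l ++ [d], ?_, ?_, ?_, ?_, ?_⟩
    · rw [List.isChain_append]
      refine ⟨h1, by simp, ?_⟩
      intro a ha b hb
      have : b = d := by simpa using hb.symm
      subst this
      exact (h5 a ha).symm
    · simp only [List.map_append, List.sum_append, List.map_cons, List.map_nil, List.sum_cons,
        List.sum_nil]
      omega
    · intro h; simp at h
    · intro a ha
      cases l with
      | nil =>
        have : a = d := by simpa using ha.symm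
        subst this
        exact (h3 rfl).symm
      | cons b l => exact h4 a (by simpa using ha)
    · intro a ha
      have : a = d := by simpa using ha.symm
      subst this
      rfl

theorem reach_chain {K : PC (Let S)} {Y : ℕ} : ∀ (l : List (K.E × Bool)) (a b : K.E × Bool),
    (a :: (l ++ [b])).IsChain (fun a b => K.org b = K.org (rv a)) →
    Reach K Y (wt K Y a + (l.map (wt K Y)).sum) (K.org a) (K.org b)
  | [], a, b, h => by
    simp only [List.nil_append, List.isChain_cons_cons] at h
    rw [h.1]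
    simpa using Reach.one (K := K) (Y := Y) a
  | c :: l, a, b, h => by
    simp only [List.cons_append, List.isChain_cons_cons] at h
    have h1 := reach_chain (Y := Y) l c b (by simpa using h.2)
    have h2 := (Reach.one (K := K) (Y := Y) a)
    rw [← h.1] at h2
    simpa using h2.trans h1

/-! ### corners of squares -/

namespace Sqs

variable {σ : Equiv.Perm (S.C)} {K : PC (Let S)} (W : Sqs σ K)

/-- the decomposition of the boundary of a square -/
structure Cor (s : W.Q) where
  sx : K.E × Bool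
  sy : K.E × Bool
  ey : K.E × Bool
  ex : K.E × Bool
  T1 : List (K.E × Bool)
  T2 : List (K.E × Bool)
  eq : K.bd (W.φ s) = sx :: (T1 ++ sy :: ey :: (T2 ++ [ex]))
  lsx : (K.lab sx.1, sx.2) = (Let.x (S.rc (W.ε s)), true)
  lsy : (K.lab sy.1, sy.2) = (Let.y (S.blk (W.ε s)), true)
  ley : (K.lab ey.1, ey.2) = (Let.y (S.blk (mt σ (W.ε s))), false)
  lex : (K.lab ex.1, ex.2) = (Let.x (S.rc (mt σ (W.ε s))), false)
  lT1 : T1.map (fun d => (K.lab d.1, d.2)) = tw S (S.ht (W.ε s))
  lT2 : T2.map (fun d => (K.lab d.1, d.2)) = winv (tw S (S.ht (mt σ (W.ε s))))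

theorem nonempty_cor (s : W.Q) : Nonempty (W.Cor s) := by
  have h := W.sq s
  have hr : relw σ (W.ε s) = (Let.x (S.rc (W.ε s)), true) ::
      (tw S (S.ht (W.ε s)) ++ (Let.y (S.blk (W.ε s)), true) ::
      (Let.y (S.blk (mt σ (W.ε s))), false) :: (winv (tw S (S.ht (mt σ (W.ε s)))) ++
        [(Let.x (S.rc (mt σ (W.ε s))), false)])) := by
    simp [relw, half, winv]
  rw [hr, List.map_eq_cons_iff] at h
  obtain ⟨a, l, hl, ha, h⟩ := h
  rw [List.map_eq_append_iff] at h
  obtain ⟨T1, l2, hl2, hT1, h⟩ := h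
  rw [List.map_eq_cons_iff] at h
  obtain ⟨b, l3, hl3, hb, h⟩ := h
  rw [List.map_eq_cons_iff] at h
  obtain ⟨c, l4, hl4, hc, h⟩ := h
  rw [List.map_eq_append_iff] at h
  obtain ⟨T2, l5, hl5, hT2, h⟩ := h
  rw [List.map_eq_singleton_iff] at h
  obtain ⟨d, hd, hd2⟩ := h
  refine ⟨⟨a, b, c, d, T1, T2, ?_, ha, hb, hc, hd2, hT1, hT2⟩⟩
  rw [hl, hl2, hl3, hl4, hl5, hd]

noncomputable def cor (s : W.Q) : W.Cor s := Classical.choice (W.nonempty_cor s)

noncomputable def sx (s : W.Q) : K.E × Bool := (W.cor s).sx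
noncomputable def sy (s : W.Q) : K.E × Bool := (W.cor s).sy
noncomputable def ey (s : W.Q) : K.E × Bool := (W.cor s).ey
noncomputable def ex (s : W.Q) : K.E × Bool := (W.cor s).ex
noncomputable def T1 (s : W.Q) : List (K.E × Bool) := (W.cor s).T1
noncomputable def T2 (s : W.Q) : List (K.E × Bool) := (W.cor s).T2

/-- the e-vertex of a square -/
noncomputable def ev (s : W.Q) : K.V := K.org (W.ey s)

theorem bd_eq (s : W.Q) :
    K.bd (W.φ s) = W.sx s :: (W.T1 s ++ W.sy s :: W.ey s :: (W.T2 s ++ [W.ex s])) := (W.cor s).eq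

theorem lab_sx (s : W.Q) : K.lab (W.sx s).1 = Let.x (S.rc (W.ε s)) :=
  congrArg Prod.fst (W.cor s).lsx
theorem sx_snd (s : W.Q) : (W.sx s).2 = true := congrArg Prod.snd (W.cor s).lsx
theorem lab_sy (s : W.Q) : K.lab (W.sy s).1 = Let.y (S.blk (W.ε s)) :=
  congrArg Prod.fst (W.cor s).lsy
theorem sy_snd (s : W.Q) : (W.sy s).2 = true := congrArg Prod.snd (W.cor s).lsy
theorem lab_ey (s : W.Q) : K.lab (W.ey s).1 = Let.y (S.blk (mt σ (W.ε s))) :=
  congrArg Prod.fst (W.cor s).ley
theorem ey_snd (s : W.Q) : (W.ey s).2 = false := congrArg Prod.snd (W.cor s).ley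
theorem lab_ex (s : W.Q) : K.lab (W.ex s).1 = Let.x (S.rc (mt σ (W.ε s))) :=
  congrArg Prod.fst (W.cor s).lex
theorem ex_snd (s : W.Q) : (W.ex s).2 = false := congrArg Prod.snd (W.cor s).lex

theorem lab_T1 (s : W.Q) {d : K.E × Bool} (h : d ∈ W.T1 s) : K.lab d.1 = Let.t := by
  have h1 : (K.lab d.1, d.2) ∈ tw S (S.ht (W.ε s)) := by
    rw [← (W.cor s).lT1]; exact List.mem_map.2 ⟨d, h, rfl⟩
  have := List.eq_of_mem_replicate h1
  exact congrArg Prod.fst this

theorem lab_T2 (s : W.Q) {d : K.E × Bool} (h : d ∈ W.T2 s) : K.lab d.1 = Let.t := by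
  have h1 : (K.lab d.1, d.2) ∈ winv (tw S (S.ht (mt σ (W.ε s)))) := by
    rw [← (W.cor s).lT2]; exact List.mem_map.2 ⟨d, h, rfl⟩
  simp only [winv, List.mem_reverse, List.mem_map] at h1
  obtain ⟨a, ha, ha2⟩ := h1
  have := List.eq_of_mem_replicate ha
  rw [this] at ha2
  exact (congrArg Prod.fst ha2).symm

theorem sx_mem (s : W.Q) : W.sx s ∈ K.bd (W.φ s) := by rw [W.bd_eq]; simp
theorem sy_mem (s : W.Q) : W.sy s ∈ K.bd (W.φ s) := by rw [W.bd_eq]; simp
theorem ey_mem (s : W.Q) : W.ey s ∈ K.bd (W.φ s) := by rw [W.bd_eq]; simp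
theorem ex_mem (s : W.Q) : W.ex s ∈ K.bd (W.φ s) := by rw [W.bd_eq]; simp

theorem mem_bd (s : W.Q) {d : K.E × Bool} (h : d ∈ K.bd (W.φ s)) :
    d = W.sx s ∨ d ∈ W.T1 s ∨ d = W.sy s ∨ d = W.ey s ∨ d ∈ W.T2 s ∨ d = W.ex s := by
  rw [W.bd_eq] at h
  simpa using h

theorem eq_sx_or_ex (s : W.Q) {d : K.E × Bool} (h : d ∈ K.bd (W.φ s)) {i : S.R}
    (hl : K.lab d.1 = Let.x i) : d = W.sx s ∨ d = W.ex s := by
  rcases W.mem_bd s h with rfl | h | rfl | rfl | h | rfl
  · exact Or.inl rfl
  · rw [W.lab_T1 s h] at hl; cases hl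
  · rw [W.lab_sy] at hl; cases hl
  · rw [W.lab_ey] at hl; cases hl
  · rw [W.lab_T2 s h] at hl; cases hl
  · exact Or.inr rfl

theorem eq_sy (s : W.Q) {d : K.E × Bool} (h : d ∈ K.bd (W.φ s)) (hd : d.2 = true) {j : S.B}
    (hl : K.lab d.1 = Let.y j) : d = W.sy s := by
  rcases W.mem_bd s h with rfl | h | rfl | rfl | h | rfl
  · rw [W.lab_sx] at hl; cases hl
  · rw [W.lab_T1 s h] at hl; cases hl
  · rfl
  · rw [W.ey_snd] at hd; cases hd
  · rw [W.lab_T2 s h] at hl; cases hl
  · rw [W.lab_ex] at hl; cases hl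

theorem eq_ey (s : W.Q) {d : K.E × Bool} (h : d ∈ K.bd (W.φ s)) (hd : d.2 = false) {j : S.B}
    (hl : K.lab d.1 = Let.y j) : d = W.ey s := by
  rcases W.mem_bd s h with rfl | h | rfl | rfl | h | rfl
  · rw [W.lab_sx] at hl; cases hl
  · rw [W.lab_T1 s h] at hl; cases hl
  · rw [W.sy_snd] at hd; cases hd
  · rfl
  · rw [W.lab_T2 s h] at hl; cases hl
  · rw [W.lab_ex] at hl; cases hl

theorem eq_of_mem {s s' : W.Q} {d : K.E × Bool} (h : d ∈ K.bd (W.φ s)) (h' : d ∈ K.bd (W.φ s')) :
    s = s' := W.inj (unF K h h')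

/-! ### weights -/

theorem wt_sx (Y : ℕ) (s : W.Q) : wt K Y (W.sx s) = 1 := by
  rw [wt, W.lab_sx]; rfl
theorem wt_ex (Y : ℕ) (s : W.Q) : wt K Y (W.ex s) = 1 := by
  rw [wt, W.lab_ex]; rfl
theorem wt_sy (Y : ℕ) (s : W.Q) : wt K Y (W.sy s) = Y := by
  rw [wt, W.lab_sy]; rfl
theorem wt_ey (Y : ℕ) (s : W.Q) : wt K Y (W.ey s) = Y := by
  rw [wt, W.lab_ey]; rfl
theorem sum_T {l : List (K.E × Bool)} (h : ∀ d ∈ l, K.lab d.1 = Let.t) (Y : ℕ) :
    (l.map (wt K Y)).sum = 0 := by
  apply List.sum_eq_zero
  intro x hx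
  obtain ⟨d, hd, rfl⟩ := List.mem_map.1 hx
  rw [wt, h d hd]; rfl

theorem chain_bd (s : W.Q) : List.IsChain (fun a b => K.org b = K.org (rv a))
    (W.sx s :: (W.T1 s ++ W.sy s :: W.ey s :: (W.T2 s ++ [W.ex s]))) := by
  rw [← W.bd_eq]; exact K.chain _

theorem chain1 (s : W.Q) : List.IsChain (fun a b => K.org b = K.org (rv a))
    (W.sx s :: (W.T1 s ++ [W.sy s])) := by
  have h := W.chain_bd s
  have e : W.sx s :: (W.T1 s ++ W.sy s :: W.ey s :: (W.T2 s ++ [W.ex s])) =
      (W.sx s :: (W.T1 s ++ [W.sy s])) ++ W.ey s :: (W.T2 s ++ [W.ex s]) := by simp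
  rw [e, List.isChain_append] at h
  exact h.1

theorem chain2 (s : W.Q) : List.IsChain (fun a b => K.org b = K.org (rv a))
    (W.ey s :: (W.T2 s ++ [W.ex s])) := by
  have h := W.chain_bd s
  have e : W.sx s :: (W.T1 s ++ W.sy s :: W.ey s :: (W.T2 s ++ [W.ex s])) =
      (W.sx s :: (W.T1 s ++ [W.sy s])) ++ W.ey s :: (W.T2 s ++ [W.ex s]) := by simp
  rw [e, List.isChain_append] at h
  exact h.2.1

theorem ev_eq (s : W.Q) : K.org (rv (W.sy s)) = W.ev s := by
  have h := W.chain_bd s
  have e : W.sx s :: (W.T1 s ++ W.sy s :: W.ey s :: (W.T2 s ++ [W.ex s])) =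
      (W.sx s :: W.T1 s) ++ W.sy s :: W.ey s :: (W.T2 s ++ [W.ex s]) := by simp
  rw [e, List.isChain_append] at h
  exact ((List.isChain_cons_cons.1 h.2.1).1).symm

/-- start M-vertex -/
theorem reach_m1 (Y : ℕ) (s : W.Q) : Reach K Y 0 (K.org (rv (W.sx s))) (K.org (W.sy s)) := by
  have h := W.chain1 s
  cases hT : W.T1 s with
  | nil =>
    rw [hT] at h
    simp only [List.nil_append, List.isChain_cons_cons] at h
    rw [h.1]
    exact Reach.refl _ _
  | cons a l =>
    rw [hT] at h
    simp only [List.cons_append, List.isChain_cons_cons] at h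
    have h1 := reach_chain (Y := Y) l a (W.sy s) (by simpa using h.2)
    rw [← h.1]
    have h0 : wt K Y a + (l.map (wt K Y)).sum = 0 := by
      have := sum_T (l := W.T1 s) (fun d hd => W.lab_T1 s hd) Y
      rw [hT] at this
      simpa using this
    rw [h0] at h1
    exact h1

theorem reach_m1' (Y : ℕ) (s : W.Q) {d : K.E × Bool} (hd : d ∈ W.T1 s) :
    Reach K Y 0 (K.org d) (K.org (W.sy s)) := by
  have h := W.chain1 s
  obtain ⟨l1, l2, hl⟩ := List.append_of_mem hd
  rw [hl] at h
  have e : W.sx s :: (l1 ++ d :: l2 ++ [W.sy s]) = (W.sx s :: l1) ++ d :: (l2 ++ [W.sy s]) := by simp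
  rw [e, List.isChain_append] at h
  have h1 := reach_chain (Y := Y) l2 d (W.sy s) h.2.1
  have h0 : wt K Y d + (l2.map (wt K Y)).sum = 0 := by
    have := sum_T (l := d :: l2) (fun d' hd' => W.lab_T1 s (by
      rw [hl]; exact List.mem_append_right _ hd')) Y
    simpa using this
  rw [h0] at h1
  exact h1

/-- end M-vertex -/
theorem reach_m2 (Y : ℕ) (s : W.Q) : Reach K Y Y (W.ev s) (K.org (W.ex s)) := by
  have h1 := reach_chain (Y := Y) (W.T2 s) (W.ey s) (W.ex s) (W.chain2 s)
  rw [sum_T (fun d hd => W.lab_T2 s hd) Y, W.wt_ey] at h1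
  exact h1

theorem reach_m2' (Y : ℕ) (s : W.Q) {d : K.E × Bool} (hd : d ∈ W.T2 s) :
    Reach K Y Y (W.ev s) (K.org d) := by
  have h := W.chain2 s
  obtain ⟨l1, l2, hl⟩ := List.append_of_mem hd
  rw [hl] at h
  have e : W.ey s :: (l1 ++ d :: l2 ++ [W.ex s]) = (W.ey s :: (l1 ++ [d])) ++ (l2 ++ [W.ex s]) := by
    simp
  rw [e, List.isChain_append] at h
  have h1 := reach_chain (Y := Y) l1 (W.ey s) d h.1
  have h0 : (l1.map (wt K Y)).sum = 0 := sum_T (fun d' hd' => W.lab_T2 s (by
      rw [hl]; exact List.mem_append_left _ hd')) Y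
  rw [h0, W.wt_ey] at h1
  exact h1

/-- the head of the start x-side is within `Y` of the e-vertex -/
theorem reach_sx (Y : ℕ) (s : W.Q) : Reach K Y Y (W.ev s) (K.org (rv (W.sx s))) := by
  have h1 := W.reach_m1 Y s
  have h2 := Reach.one (K := K) (Y := Y) (W.sy s)
  rw [W.wt_sy, W.ev_eq] at h2
  have := (h1.trans h2).symm
  rwa [Nat.zero_add] at this

/-- the head of the end x-side is within `Y` of the e-vertex -/
theorem reach_ex (Y : ℕ) (s : W.Q) : Reach K Y Y (W.ev s) (K.org (W.ex s)) := W.reach_m2 Y s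

/-- every vertex of a square is within `Y + 1` of its e-vertex -/
theorem reach_all (Y : ℕ) (s : W.Q) {d : K.E × Bool} (hd : d ∈ K.bd (W.φ s)) :
    Reach K Y (Y + 1) (W.ev s) (K.org d) := by
  rcases W.mem_bd s hd with rfl | h | rfl | rfl | h | rfl
  · have h1 := (W.reach_sx Y s).trans (Reach.one' (K := K) (Y := Y) (W.sx s))
    rwa [W.wt_sx] at h1
  · have h1 := W.reach_m1' Y s h
    have h2 := Reach.one (K := K) (Y := Y) (W.sy s)
    rw [W.wt_sy, W.ev_eq] at h2
    exact (h1.trans h2).symm.mono (by omega)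
  · have h2 := Reach.one' (K := K) (Y := Y) (W.sy s)
    rw [W.wt_sy, W.ev_eq] at h2
    exact h2.mono (by omega)
  · exact Reach.refl _ _
  · exact (W.reach_m2' Y s h).mono (by omega)
  · exact (W.reach_ex Y s).mono (by omega)

/-! ### outer vertices, the star of an e-vertex -/

/-- origin of a dart of a face that is not a square -/
def Out (u : K.V) : Prop := ∃ f, (∀ s, W.φ s ≠ f) ∧ ∃ d ∈ K.bd f, K.org d = u

theorem face_of_not_out {d : K.E × Bool} (h : ¬ W.Out (K.org d)) : ∃ s, d ∈ K.bd (W.φ s) := by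
  obtain ⟨f, hf⟩ := exF K d
  by_cases hs : ∃ s, W.φ s = f
  · obtain ⟨s, rfl⟩ := hs
    exact ⟨s, hf⟩
  · push Not at hs
    exact absurd ⟨f, hs, d, hf, rfl⟩ h

theorem out_rv {d : K.E × Bool} (h : ∀ s, d ∉ K.bd (W.φ s)) : W.Out (K.org d) ∧ W.Out (K.org (rv d)) := by
  obtain ⟨f, hf⟩ := exF K d
  have hs : ∀ s, W.φ s ≠ f := by
    rintro s rfl
    exact h s hf
  obtain ⟨b, hb, hb2⟩ := exNext K hf
  exact ⟨⟨f, hs, d, hf, rfl⟩, ⟨f, hs, b, hb, hb2⟩⟩

/-- reducedness along y-sides -/
def RedY : Prop := ∀ s s', rv (W.ey s) = W.sy s' → W.ε s' ≠ mt σ (W.ε s)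

theorem nextY {s : W.Q} (h : ¬ W.Out (W.ev s)) : ∃ s', rv (W.ey s) = W.sy s' := by
  by_cases hs : ∃ s', rv (W.ey s) ∈ K.bd (W.φ s')
  · obtain ⟨s', hs'⟩ := hs
    exact ⟨s', W.eq_sy s' hs' (by simp [rv, W.ey_snd]) (W.lab_ey s)⟩
  · push Not at hs
    have := (W.out_rv hs).2
    rw [rv_rv'] at this
    exact absurd this h

theorem ev_next {s s' : W.Q} (h : rv (W.ey s) = W.sy s') : W.ev s' = W.ev s := by
  rw [← W.ev_eq s', ← h, rv_rv']
  rfl

theorem blk_next {s s' : W.Q} (h : rv (W.ey s) = W.sy s') :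
    S.blk (mt σ (W.ε s)) = S.blk (W.ε s') := by
  have h1 := W.lab_ey s
  have h2 := W.lab_sy s'
  rw [← h] at h2
  have h3 : K.lab (rv (W.ey s)).1 = K.lab (W.ey s).1 := rfl
  rw [h3, h1] at h2
  injection h2

theorem star_card {g : ℕ} (hg : Girth σ g) (hr : W.RedY) {s : W.Q} (h : ¬ W.Out (W.ev s)) :
    g ≤ (univ.filter (fun s' => W.ev s' = W.ev s)).card := by
  classical
  set u := W.ev s with hu
  let A : Type := {s' : W.Q // W.ev s' = u}
  have hex : ∀ a : A, ∃ b : A, rv (W.ey a.1) = W.sy b.1 := by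
    intro a
    obtain ⟨s', hs'⟩ := W.nextY (s := a.1) (by rw [a.2]; exact h)
    exact ⟨⟨s', (W.ev_next hs').trans a.2⟩, hs'⟩
  choose f hf using hex
  have finj : Function.Injective f := by
    intro a b hab
    have h1 := hf a
    have h2 := hf b
    rw [hab, ← h2] at h1
    have h3 : W.ey a.1 = W.ey b.1 := by
      rw [← rv_rv' (W.ey a.1), h1, rv_rv']
    exact Subtype.ext (W.eq_of_mem (W.ey_mem a.1) (h3 ▸ W.ey_mem b.1))
  have hbij : Function.Bijective f := Finite.injective_iff_bijective.1 finj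
  let e : Equiv.Perm A := Equiv.ofBijective f hbij
  let a0 : A := ⟨s, rfl⟩
  have hper : a0 ∈ Function.periodicPts f := by
    have : (e ^ orderOf e) = 1 := pow_orderOf_eq_one e
    refine Function.mem_periodicPts.2 ⟨orderOf e, orderOf_pos e, ?_⟩
    show f^[orderOf e] a0 = a0
    have h2 : (⇑(e ^ orderOf e)) = f^[orderOf e] := by
      rw [← Equiv.Perm.iterate_eq_pow]; rfl
    rw [← h2, this]; rfl
  set k := Function.minimalPeriod f a0 with hk
  have hk0 : 0 < k := Function.minimalPeriod_pos_of_mem_periodicPts hper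
  have hkA : k ≤ Fintype.card A := by
    have hinj : Function.Injective (fun i : Fin k => f^[i.1] a0) := by
      intro i j hij
      have := Function.iterate_injOn_Iio_minimalPeriod (f := f) (x := a0) (Set.mem_Iio.2 i.2)
        (Set.mem_Iio.2 j.2) hij
      exact Fin.ext this
    simpa only [ge_iff_le, Fintype.card_fin] using Fintype.card_le_of_injective _ hinj
  have hcard : Fintype.card A = (univ.filter (fun s' => W.ev s' = u)).card :=
    Fintype.card_subtype _
  rw [← hcard]
  refine le_trans ?_ hkA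
  have hrel : ∀ i, S.blk (mt σ (W.ε (f^[i] a0).1)) = S.blk (W.ε (f^[i+1] a0).1) ∧
      W.ε (f^[i+1] a0).1 ≠ mt σ (W.ε (f^[i] a0).1) := by
    intro i
    rw [Function.iterate_succ_apply']
    exact ⟨W.blk_next (hf _), hr _ _ (hf _)⟩
  have hlen := hg ((List.range k).map (fun i => W.ε (f^[i] a0).1)) ?_ ⟨?_, ?_⟩
  · simpa only [ge_iff_le, List.length_map, List.length_range] using hlen
  · intro h0
    have := congrArg List.length h0
    simp at this
    omega
  · unfold IsWalk
    rw [List.isChain_iff_getElem]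
    intro i hi
    simp only [List.getElem_map, List.getElem_range]
    exact hrel i
  · intro a ha b hb
    obtain ⟨k', hk'⟩ : ∃ k', k = k' + 1 := ⟨k - 1, by omega⟩
    have ha2 : a = W.ε (f^[k'] a0).1 := by
      rw [hk', List.range_succ, List.map_append] at ha
      simpa only [List.map_cons, List.map_nil, List.getLast?_append, List.getLast?_singleton, List.getLast?_map,     Option.some_or, Option.some.injEq] using ha.symm
    have hb2 : b = W.ε (f^[k] a0).1 := by
      have hp : f^[k] a0 = a0 := Function.iterate_minimalPeriod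
      rw [hp]
      rw [hk', List.range_succ_eq_map] at hb
      simpa only [List.map_cons, Function.iterate_zero, id_eq, List.map_map, List.head?_cons,     Option.some.injEq] using hb.symm
    rw [ha2, hb2, hk']
    exact hrel k'

/-! ### interface for F4 and F7(c) -/

theorem snd_cases (d : K.E × Bool) : (d.1, false) = d ∨ (d.1, false) = rv d := by
  obtain ⟨e, b⟩ := d
  cases b
  · exact Or.inl rfl
  · exact Or.inr rfl

/-- (I1) the head of a y-edge of a square is its e-vertex -/
theorem i1 (s : W.Q) {d : K.E × Bool} (h : d ∈ K.bd (W.φ s)) {j : S.B}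
    (hl : K.lab d.1 = Let.y j) : W.ev s = K.org (d.1, false) := by
  cases hd : d.2 with
  | true =>
    have h1 := W.eq_sy s h hd hl
    subst h1
    rw [← W.ev_eq s]
    have : rv (W.sy s) = ((W.sy s).1, false) := by simp [rv, hd]
    rw [this]
  | false =>
    have h1 := W.eq_ey s h hd hl
    subst h1
    have : ((W.ey s).1, false) = W.ey s := Prod.ext rfl hd.symm
    rw [this]
    rfl

/-- (I2) the head of an x-edge of a square is within `Y` of its e-vertex -/
theorem i2 (Y : ℕ) (s : W.Q) {d : K.E × Bool} (h : d ∈ K.bd (W.φ s)) {i : S.R}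
    (hl : K.lab d.1 = Let.x i) : Reach K Y Y (K.org (d.1, false)) (W.ev s) := by
  rcases W.eq_sx_or_ex s h hl with rfl | rfl
  · have : rv (W.sx s) = ((W.sx s).1, false) := by simp [rv, W.sx_snd]
    rw [← this]
    exact (W.reach_sx Y s).symm
  · have : ((W.ex s).1, false) = W.ex s := Prod.ext rfl (W.ex_snd s).symm
    rw [this]
    exact (W.reach_ex Y s).symm

/-- (I3) at most two x-darts per square -/
theorem i3 (s : W.Q) [DecidableEq (K.E × Bool)] {A : Finset (K.E × Bool)}
    (hA : ∀ d ∈ A, d ∈ K.bd (W.φ s) ∧ ∃ i, K.lab d.1 = Let.x i) : A.card ≤ 2 := by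
  classical
  have h1 : A ⊆ {W.sx s, W.ex s} := by
    intro d hd
    obtain ⟨h2, i, h3⟩ := hA d hd
    rcases W.eq_sx_or_ex s h2 h3 with h | h <;> simp [h]
  exact (Finset.card_le_card h1).trans (Finset.card_le_two)

/-- (I5) -/
theorem i5 (Y : ℕ) (s : W.Q) {d : K.E × Bool} (h : d ∈ K.bd (W.φ s)) :
    Reach K Y (Y + 1) (K.org d) (W.ev s) ∧ Reach K Y (Y + 1) (K.org (rv d)) (W.ev s) := by
  refine ⟨(W.reach_all Y s h).symm, ?_⟩
  obtain ⟨b, hb, hb2⟩ := exNext K h
  rw [← hb2]
  exact (W.reach_all Y s hb).symm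

end Sqs

/-- the disc -/
def discS {σ : Equiv.Perm S.C} (K : SqK σ) : Sqs σ K.toPC where
  Q := K.F
  φ := some
  inj := Option.some_injective _
  ε := K.q
  sq := K.sq

theorem mtmt (σ : Equiv.Perm S.C) (q : Port S) : mt σ (mt σ q) = q := by
  obtain ⟨c, b⟩ := q
  cases b <;> simp [mt]

theorem wiwi {A : Type} (l : List (A × Bool)) : winv (winv l) = l := by
  simp [winv, Function.comp_def]

/-- the sphere: the outer face is the square of the port `mt σ q0` -/
noncomputable def sphS {σ : Equiv.Perm S.C} (K : SqK σ) (q0 : Port S) (h : K.outw = relw σ q0) :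
    Sqs σ K.toPC where
  Q := Option K.F
  φ := id
  inj := Function.injective_id
  ε := fun f => f.elim (mt σ q0) K.q
  sq := by
    intro s
    cases s with
    | none =>
      have h1 : winv (K.toPC.wd none) = relw σ q0 := h
      have h2 := congrArg winv h1
      rw [wiwi] at h2
      have h3 : winv (relw σ q0) = relw σ (mt σ q0) := by
        unfold relw
        rw [mtmt]
        simp [winv, Function.comp_def]
      rw [h3] at h2
      exact h2
    | some f => exact K.sq f

/-- outer vertices of the disc = origins of darts of the outer face -/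
theorem discS_out {σ : Equiv.Perm S.C} (K : SqK σ) (u : K.V) :
    (discS K).Out u ↔ ∃ d ∈ K.bd none, K.org d = u := by
  constructor
  · rintro ⟨f, hf, d, hd, h⟩
    cases f with
    | none => exact ⟨d, hd, h⟩
    | some f => exact absurd rfl (hf f)
  · rintro ⟨d, hd, h⟩
    exact ⟨none, fun s => by simp [discS], d, hd, h⟩

/-- no outer vertices on the sphere -/
theorem sphS_out {σ : Equiv.Perm S.C} (K : SqK σ) (q0 : Port S) (h : K.outw = relw σ q0) (u : K.V) :
    ¬ (sphS K q0 h).Out u := by
  rintro ⟨f, hf, -⟩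
  exact hf f rfl

end Vale.Agent.P201.S.Gro
end

section

/-!
P201, part F: the linear isoperimetric inequality for all good complexes (helper643).
-/

set_option linter.all false

namespace Vale.Agent.P201.S

open Finset

variable {S : Sys} {σ : Equiv.Perm (S.C)}

namespace FIso

theorem relw_length {L : ℕ} (hH : ∀ q : Port S, (S.ht q).natAbs ≤ L) (q : Port S) :
    (relw σ q).length ≤ 4 + 2 * L := by
  have h1 := hH q
  have h2 := hH (mt σ q)
  simp only [relw, half, tw, winv, List.map_cons, Bool.not_true, List.map_append, List.map_replicate, List.map_nil, List.reverse_cons, List.reverse_append, List.reverse_nil, List.nil_append, List.reverse_replicate, List.cons_append, List.append_assoc, List.length_cons, List.length_append, List.length_replicate, List.length_nil, zero_add, Order.add_one_le_iff, gt_iff_lt]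
  omega

theorem bd_length {L : ℕ} (hH : ∀ q : Port S, (S.ht q).natAbs ≤ L) (K : SqK σ) (f : K.F) :
    (K.bd (some f)).length ≤ 4 + 2 * L := by
  have h := congrArg List.length (K.sq f)
  rw [List.length_map] at h
  rw [h]
  exact relw_length hH _

theorem exists_adj (K : PC (Let S)) (f0 : K.F) : ∃ h, K.DAdj none (some h) := by
  by_contra hcon
  push Not at hcon
  have h := K.dconn none (some f0)
  have key : ∀ x, Relation.ReflTransGen (fun a b => ∃ d, d ∈ K.bd a ∧ rv d ∈ K.bd b) none x →
      x = none := by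
    intro x hx
    induction hx with
    | refl => rfl
    | tail _ h2 ih =>
      rename_i b c _
      subst ih
      cases c with
      | none => rfl
      | some h => exact absurd h2 (hcon h)
  exact absurd (key _ h) (by simp)

theorem domc_le {T : Type} [Fintype T] (f : T ≃. T) : domc f ≤ Fintype.card T := by
  unfold domc
  exact Finset.card_le_univ _

/-- the squares of a complex -/
noncomputable def sqs (K : SqK σ) : Gro.Sqs σ K.toPC where
  Q := K.F
  φ := some
  inj := Option.some_injective _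
  ε := K.q
  sq := K.sq

theorem sqs_ev (K : SqK σ) (f : K.F) : (sqs K).ev f = K.toPC.ev (some f) := by
  obtain ⟨G⟩ := (K.isSq f).geo
  have h1 := G.ev_y ((sqs K).ey_mem f) ⟨_, (sqs K).lab_ey f⟩
  rw [← h1]
  show K.org ((sqs K).ey f) = _
  congr 1
  exact Prod.ext rfl ((sqs K).ey_snd f)

theorem star (K : SqK σ) (hK : K.RedK) {g : ℕ} (hg : Girth σ g) (f : K.F)
    (h : ∀ d ∈ K.bd none, K.org d ≠ K.toPC.ev (some f)) :
    g ≤ (univ.filter (fun f' : K.F => K.toPC.ev (some f') = K.toPC.ev (some f))).card := by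
  have h1 : ¬ (sqs K).Out ((sqs K).ev f) := by
    rintro ⟨f', hf', d, hd, hd2⟩
    cases f' with
    | none =>
      rw [sqs_ev] at hd2
      exact h d hd hd2
    | some x => exact hf' x rfl
  have h2 : (sqs K).RedY := by
    intro s s' hss
    refine hK s s' ((sqs K).ey s) ((sqs K).ey_mem s) (hss ▸ (sqs K).sy_mem s') ?_
    rw [(sqs K).lab_ey]
    simp
  have h3 := (sqs K).star_card hg h2 h1
  refine h3.trans (Finset.card_le_card_of_injOn (fun s : (sqs K).Q => (s : K.F)) ?_ ?_)
  · intro s' hs'
    have h4 : (sqs K).ev s' = (sqs K).ev f := (Finset.mem_filter.mp (Finset.mem_coe.mp hs')).2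
    exact Finset.mem_coe.mpr (Finset.mem_filter.mpr ⟨Finset.mem_univ _,
      (sqs_ev K s').symm.trans (h4.trans (sqs_ev K f))⟩)
  · intro a _ b _ hab
    exact hab

/-- the small case -/
theorem small (hL : StmtLocK) (K : SqK σ) (hK : K.Gd) {M Y : ℕ} {e1 : ℝ} (he : 0 < e1)
    (hloc : LocIso σ M Y e1) (hM : Fintype.card K.F ≤ M) :
    e1 * Fintype.card K.F ≤ K.W Y := by
  obtain ⟨G, h1, h2, h3, h4, h5⟩ := hL S σ K hK
  have h6 := hloc G h1 h2 h3 (by omega)
  have h7 := h5 Y
  have hx := domc_le G.X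
  have hy := domc_le G.Y
  rw [h4] at h6 h7 hx hy
  have h8 : (2 * ((Fintype.card K.F : ℝ) - domc G.X) + Y * (2 * ((Fintype.card K.F : ℝ) - domc G.Y)))
      ≤ K.W Y := by
    rw [← Nat.cast_sub hx, ← Nat.cast_sub hy]
    exact_mod_cast h7
  have h9 : (0 : ℝ) ≤ e1 * Fintype.card K.F := by (clear * - he; positivity)
  linarith only [h6, h8]

/-- induction step -/
theorem step (hM : StmtMerge) (hT1 : StmtT1) (K : SqK σ) (hK : K.Gd) {Lh Kc Y g : ℕ}
    (hH : ∀ q : Port S, (S.ht q).natAbs ≤ Lh) {c e1 dl : ℝ}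
    (hc : 0 < c) (he : 0 < e1) (hdl : dl = 1 / (4 * (4 + 2 * Lh : ℕ))) (hY : 1 ≤ Y) (hKc : 1 ≤ Kc)
    (hKcc : c ≤ Kc)
    (hnum : ∀ F g : ℝ, c * Y ≤ g → (Kc * Y : ℝ) ≤ F →
      (∀ s : ℝ, dl * F ≤ s → s ≤ F / 2 →
        psi e1 (dl * Kc * Y) F + 2 * (2 * (2 * Y * (Real.log (F / g) / Real.log (1 + e1 / 4) + 4)) + Y) <
          psi e1 (dl * Kc * Y) s + psi e1 (dl * Kc * Y) (F - s) ∧
        2 * (2 * Y * (Real.log (F / g) / Real.log (1 + e1 / 4) + 4)) + Y < psi e1 (dl * Kc * Y) s))
    (hgY : c * Y ≤ g) (hg : Girth σ g) (hbig : Kc * Y < Fintype.card K.F)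
    (ih : ∀ K' : SqK σ, K'.Gd → Fintype.card K'.F < Fintype.card K.F →
      psi e1 (dl * Kc * Y) (Fintype.card K'.F) ≤ K'.W Y) :
    psi e1 (dl * Kc * Y) (Fintype.card K.F) ≤ K.W Y := by
  classical
  have hdl0 : 0 < dl := by rw [hdl]; (clear * -; positivity)
  have hA : (0 : ℝ) ≤ dl * Kc * Y := by positivity
  have hKY : 1 ≤ Kc * Y := Nat.one_le_iff_ne_zero.mpr (by positivity)
  have hF2 : 2 ≤ Fintype.card K.F := by omega
  haveI hne : Nonempty K.toPC.F := Fintype.card_pos_iff.mp (by omega)
  -- bonds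
  have hiso : ∀ D : Finset K.F, K.toPC.Bond D → D ≠ univ →
      psi e1 (dl * Kc * Y) (D.card : ℝ) ≤ ∑ e ∈ K.toPC.bdry D, (K.toPC.wE Y e : ℝ) := by
    intro D hD hDne
    obtain ⟨K', h1, h2, h3⟩ := hM S σ K D hD
    have h4 : D.card < Fintype.card K.F := by
      rw [← Finset.card_univ]
      exact Finset.card_lt_card (Finset.ssubset_univ_iff.mpr hDne)
    have h5 := ih K' (h3 hK) (by omega)
    rw [h1, h2] at h5
    refine h5.trans (le_of_eq ?_)
    simp only [SqK.wS, PC.wE]
    push_cast
    rfl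
  -- radius
  set L : ℝ := Real.log ((Fintype.card K.F : ℝ) / (c * Y)) / Real.log (1 + e1 / 4) with hLdef
  have hcY : 0 < c * Y := by positivity
  have hFr : (Kc * Y : ℝ) ≤ Fintype.card K.F := by exact_mod_cast hbig.le
  have hratio : 1 ≤ (Fintype.card K.F : ℝ) / (c * Y) := by
    rw [le_div_iff₀ hcY, one_mul]
    refine le_trans ?_ hFr
    exact mul_le_mul_of_nonneg_right hKcc (by positivity)
  have hlog : 0 < Real.log (1 + e1 / 4) := Real.log_pos (by linarith only [he])
  have hL0 : 0 ≤ L := div_nonneg (Real.log_nonneg hratio) hlog.le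
  set j0 : ℕ := ⌊L⌋₊ + 1 with hj0
  have hj : (Fintype.card K.F : ℝ) < (c * Y) * (1 + (e1 / 2) / 2) ^ j0 := by
    have h1 : L < j0 := by
      rw [hj0]
      push_cast
      exact Nat.lt_floor_add_one L
    have h2 : Real.log ((Fintype.card K.F : ℝ) / (c * Y)) < j0 * Real.log (1 + e1 / 4) := by
      rw [hLdef, div_lt_iff₀ hlog] at h1
      exact h1
    rw [← Real.log_pow] at h2
    have h3 := (Real.log_lt_log_iff (by linarith only [hratio]) (by positivity)).mp h2
    rw [div_lt_iff₀ hcY] at h3
    have h4 : (1 + e1 / 2 / 2) = (1 + e1 / 4) := by ring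
    rw [h4]
    linarith only [h3]
  have hrad := PC.radius_disc (σ := σ) K.toPC (fun f => ⟨_, K.isSq f⟩) Y j0 (e1 / 2) (c * Y)
    (by positivity) hcY hj
    (fun D hD => by
      apply PC.card_le_of_bonds K.toPC D _ (fun e => by (clear * -; positivity)) _ (by positivity)
      intro C hC _ hCD
      have hCne : C ≠ univ := by
        rintro rfl
        obtain ⟨h, hh⟩ := exists_adj K.toPC hne.some
        exact hCD h (hD h hh) hh (Finset.mem_univ _)
      exact (Psi.le_psi (A := dl * Kc * Y) he.le (by (clear * -; positivity))).trans (hiso C hC hCne))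
    (fun f hf => by
      have := star K hK.1 hg f hf
      refine hgY.trans ?_
      exact_mod_cast this)
  -- tree
  have hR2 : ((2 * Y * j0 + Y + 3 : ℕ) : ℝ) ≤ 2 * Y * (L + 4) := by
    have h1 : (⌊L⌋₊ : ℝ) ≤ L := Nat.floor_le hL0
    have h2 : (1 : ℝ) ≤ Y := by exact_mod_cast hY
    rw [hj0]
    push_cast
    nlinarith only [h2, h1]
  obtain ⟨d0, hd0⟩ : ∃ d0 : K.E × Bool, d0 ∈ (K.bd none).head? := by
    obtain ⟨v⟩ : Nonempty K.V := inferInstance
    obtain ⟨d, hd, _⟩ := hrad v
    cases hh : (K.bd none) with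
    | nil => rw [hh] at hd; simp at hd
    | cons a l => exact ⟨a, by simp⟩
  obtain ⟨T, hT0, hT2, hT3⟩ := PC.exists_stree_out (K := K.toPC) (K.toPC.wE Y) (K.org d0)
    (by
      intro d hd
      have : d = d0 := Option.some.inj ((Option.mem_def.mp hd).symm.trans (Option.mem_def.mp hd0))
      rw [this])
    (2 * Y * j0 + Y + 3)
    (fun v => by
      obtain ⟨d, hd, hr⟩ := hrad v
      exact ⟨K.org d, Or.inr ⟨d, hd, rfl⟩, hr⟩)
  have hcut := F5b.cut_tree (K := K.toPC) hT1 T (fun e => (K.toPC.wE Y e : ℝ)) (fun e => by (clear * -; positivity))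
    (fun k : ℕ => psi e1 (dl * Kc * Y) (k : ℝ)) (by simp [Psi.psi_zero])
    (fun a b => by
      push_cast
      exact Psi.psi_add he.le hA (by (clear * -; positivity)) (by (clear * -; positivity)))
    hiso (4 + 2 * Lh) (fun f => bd_length hH K f) Y ((2 * Y * j0 + Y + 3 : ℕ) : ℝ)
    (fun e => by
      have : K.toPC.wE Y e ≤ Y := by
        unfold PC.wE
        cases K.lab e <;> simp only [wtl] <;> omega
      exact_mod_cast this)
    (fun v hv e he' => hT2 v hv e he')
    (fun v S hS => by
      refine le_trans ?_ (by exact_mod_cast hT3 v :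
        ((∑ e ∈ univ.filter (fun e => T.Anc v e ∧ e ∉ K.toPC.outE), K.toPC.wE Y e : ℕ) : ℝ) ≤ _)
      push_cast
      apply Finset.sum_le_sum_of_subset_of_nonneg
      · intro e he'
        exact Finset.mem_filter.mpr ⟨Finset.mem_univ _, hS e he'⟩
      · intro e _ _
        (clear * -; positivity))
    hF2
  have hW : (K.W Y : ℝ) = ∑ e ∈ K.toPC.bdry univ, (K.toPC.wE Y e : ℝ) := by
    simp only [SqK.W, SqK.wS, PC.wE]
    push_cast
    rfl
  rw [hW]
  rcases hcut with h | ⟨s, hs1, hs2, h⟩
  · exact h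
  · have hs1' : dl * (Fintype.card K.F : ℝ) ≤ s := by
      rw [hdl, div_mul_eq_mul_div, one_mul, div_le_iff₀ (by (clear * -; positivity))]
      have : ((Fintype.card K.F : ℕ) : ℝ) ≤ ((4 * (4 + 2 * Lh) * s : ℕ) : ℝ) := by exact_mod_cast hs1
      push_cast at this ⊢
      linarith only [this]
    have hs2' : (s : ℝ) ≤ (Fintype.card K.F : ℝ) / 2 := by
      have : ((2 * s : ℕ) : ℝ) ≤ ((Fintype.card K.F : ℕ) : ℝ) := by exact_mod_cast hs2
      push_cast at this
      linarith only [this]
    obtain ⟨h1, h2⟩ := hnum (Fintype.card K.F) (c * Y) le_rfl hFr s hs1' hs2'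
    rw [← hLdef] at h1 h2
    rcases h with h | h
    · linarith only [hR2, h2, h]
    · rw [Nat.cast_sub (by omega)] at h
      linarith only [hR2, h1, h]

end FIso

theorem stmtIso_of (hM : StmtMerge) (hL : StmtLocK) (hT1 : StmtT1) : StmtIso := by
  intro c e1 Lh hc he
  obtain ⟨K1, hK1, hnum⟩ := Psi.numerics c e1 (1 / (4 * (4 + 2 * Lh : ℕ))) hc he (by positivity)
  refine ⟨max K1 (max 1 ⌈c⌉₊), 1, ?_⟩
  intro S hH Y hY σ g hgY hg hloc
  set Kc : ℕ := max K1 (max 1 ⌈c⌉₊) with hKc
  have hKc1 : 1 ≤ Kc := (le_max_left 1 ⌈c⌉₊).trans (le_max_right _ _)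
  have hKc2 : c ≤ Kc := (Nat.le_ceil c).trans (by exact_mod_cast (le_max_right 1 ⌈c⌉₊).trans (le_max_right _ _))
  set dl : ℝ := 1 / (4 * (4 + 2 * Lh : ℕ)) with hdl
  have main : ∀ k : ℕ, ∀ K' : SqK σ, K'.Gd → Fintype.card K'.F = k →
      psi e1 (dl * Kc * Y) (Fintype.card K'.F) ≤ K'.W Y := by
    intro k
    induction k using Nat.strong_induction_on with
    | _ k ih =>
      intro K' hK' hk
      by_cases hs : Fintype.card K'.F ≤ Kc * Y
      · exact (Psi.psi_le he.le).trans (FIso.small hL K' hK' he hloc hs)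
      · push Not at hs
        refine FIso.step hM hT1 K' hK' hH hc he hdl hY hKc1 hKc2
          (fun F g' h1 h2 => (hnum Kc (le_max_left _ _) Y hY F g' h1 h2).1) hgY hg hs ?_
        intro K2 hK2 hlt
        exact ih _ (by omega) K2 hK2 rfl
  intro K' hK'
  exact (Psi.le_psi (A := dl * Kc * Y) he.le (by (clear * -; positivity))).trans (main _ K' hK' rfl)

end Vale.Agent.P201.S
end

section

/-! P201, part F: F1 and F6 (a),(b) (helper232). -/

namespace Vale.Agent.P201.S

open Finset

namespace FL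

variable {S : Sys} {σ : Equiv.Perm (S.C)}

lemma expr_zero {u : FreeGroup (Let S)} {z : Chn σ} (h : Expr σ 0 u z) : u = 1 ∧ z = 0 := by
  cases h
  exact ⟨rfl, rfl⟩

lemma toWord_val (l : List (Let S × Bool)) : (val l).toWord = FreeGroup.reduce l := FreeGroup.toWord_mk

lemma val_toWord (u : FreeGroup (Let S)) : val u.toWord = u := FreeGroup.mk_toWord

lemma toWord_tw (m : ℤ) : (val (tw S m)).toWord = tw S m := by
  rw [toWord_val]
  exact FreeGroup.reduce_replicate _ _

lemma tw_ne {m : ℤ} (hm : m ≠ 0) : val (tw S m) ≠ 1 := by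
  intro h
  have h1 := congrArg FreeGroup.toWord h
  rw [toWord_tw, FreeGroup.toWord_one] at h1
  have h2 := congrArg List.length h1
  simp only [tw, List.length_replicate, List.length_nil, Int.natAbs_eq_zero] at h2
  exact hm h2

lemma wt_sublist (Y : ℕ) {l l' : List (Let S × Bool)} (h : l.Sublist l') : wtw Y l ≤ wtw Y l' := by
  unfold wtw
  exact (h.map _).sum_le_sum (fun _ _ => Nat.zero_le _)

lemma toWord_sublist (l : List (Let S × Bool)) : (val l).toWord.Sublist l := by
  rw [toWord_val]
  exact FreeGroup.Red.sublist FreeGroup.reduce.red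

lemma wt_toWord (Y : ℕ) (l : List (Let S × Bool)) : wtw Y (val l).toWord ≤ wtw Y l := wt_sublist Y (toWord_sublist l)

lemma wt_tw (Y : ℕ) (m : ℤ) : wtw Y (tw S m) = 0 := wtw_tw_zero Y m

lemma mem_tw {m : ℤ} {a : Let S × Bool} (h : a ∈ tw S m) : a.1 = Let.t := by
  unfold tw at h
  rw [List.eq_of_mem_replicate h]

lemma noRed_of_minA {u : FreeGroup (Let S)} {k : ℕ} {z : Chn σ} (h : MinA σ u k) : NoRed σ u k z := by
  intro k1 z1 h1 h2 _ h4
  have := h.2 _ _ h4
  omega

lemma exists_minA {u : FreeGroup (Let S)} {k : ℕ} {z : Chn σ} (h : Expr σ k u z) : ∃ k0 ≤ k, MinA σ u k0 := by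
  classical
  have hex : ∃ k, ∃ z, Expr σ k u z := ⟨k, z, h⟩
  refine ⟨Nat.find hex, Nat.find_min' hex ⟨z, h⟩, Nat.find_spec hex, fun k' z' h' => Nat.find_min' hex ⟨z', h'⟩⟩

lemma domc_le {T : Type} [Fintype T] (f : T ≃. T) : domc f ≤ Fintype.card T := by
  classical
  exact (card_filter_le _ _).trans (le_of_eq card_univ)

/-- F1 (a): short expressions never give a power of `t` -/
theorem f1a (hVK : StmtVK) (hB : StmtBridge) {M Y : ℕ} {e1 : ℝ} (he : 0 < e1) (hL : LocIso σ M Y e1) :
    ∀ (m : ℤ) (k : ℕ) (z : Chn σ), m ≠ 0 → k ≤ M → ¬ Expr σ k (val (tw S m)) z := by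
  classical
  intro m0 k0 z0 hm0 hk0 h0
  have hex : ∃ k, ∃ (m : ℤ) (z : Chn σ), m ≠ 0 ∧ Expr σ k (val (tw S m)) z := ⟨k0, m0, z0, hm0, h0⟩
  obtain ⟨m, z, hm, hz⟩ := Nat.find_spec hex
  set F := Nat.find hex with hF
  have hFM : F ≤ M := (Nat.find_min' hex ⟨m0, z0, hm0, h0⟩).trans hk0
  have hmin : ∀ (m' : ℤ) (k' : ℕ) (z' : Chn σ), m' ≠ 0 → Expr σ k' (val (tw S m')) z' → F ≤ k' :=
    fun m' k' z' hm' h' => Nat.find_min' hex ⟨m', z', hm', h'⟩
  have hF0 : F ≠ 0 := by
    intro hF0
    rw [hF0] at hz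
    exact tw_ne hm (expr_zero hz).1
  have hMA : MinA σ (val (tw S m)) F := ⟨⟨z, hz⟩, fun k' z' h' => hmin m k' z' hm h'⟩
  obtain ⟨K0, P, hc, ho, hch⟩ := hVK S σ _ F z hz (noRed_of_minA hMA)
  rw [toWord_tw] at ho
  obtain ⟨G, hG1, hG2, hG3, hG4, hG5⟩ := hB S σ K0 P (by rw [ho, hc]; exact noRed_of_minA hMA)
    (fun m' k' z' hm' h' => Or.inr ⟨by rw [hc]; exact hmin m' k' z' hm' h', fun a ha => by
      rw [ho] at ha
      exact mem_tw ha⟩)
  have h1 := hL G hG1 hG2 hG3 (by rw [hG4, hc]; exact hFM)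
  have h2 := hG5 1
  rw [ho, wt_tw] at h2
  have hX := domc_le G.X
  have hY := domc_le G.Y
  have eX : domc G.X = Fintype.card G.Q := by omega
  have eY : domc G.Y = Fintype.card G.Q := by omega
  rw [eX, eY, sub_self, mul_zero, add_zero, hG4, hc] at h1
  have h3 : (0 : ℝ) < F := by exact_mod_cast Nat.pos_of_ne_zero hF0
  nlinarith only [h1, he, h3]

/-- the weight inequality of the bridge, over the reals -/
lemma wt_real {T : Type} [Fintype T] {X Y' : T ≃. T} {Y W : ℕ}
    (h : 2 * (Fintype.card T - domc X) + Y * (2 * (Fintype.card T - domc Y')) ≤ W) :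
    2 * (((Fintype.card T : ℝ) - domc X) + Y * ((Fintype.card T : ℝ) - domc Y')) ≤ W := by
  have h1 : ((2 * (Fintype.card T - domc X) + Y * (2 * (Fintype.card T - domc Y')) : ℕ) : ℝ) ≤ (W : ℝ) := by
    exact_mod_cast h
  rw [Nat.cast_add, Nat.cast_mul, Nat.cast_mul, Nat.cast_mul, Nat.cast_sub (domc_le X), Nat.cast_sub (domc_le Y')] at h1
  push_cast at h1
  linarith only [h1]

/-- F1 (b): local isoperimetric inequality for areas -/
theorem f1b (hVK : StmtVK) (hB : StmtBridge) {M Y : ℕ} {e1 : ℝ} (he : 0 < e1) (hL : LocIso σ M Y e1)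
    {u : FreeGroup (Let S)} {k : ℕ} (hu : MinA σ u k) (hk : k ≤ M) : e1 * k ≤ wtw Y u.toWord := by
  obtain ⟨z, hz⟩ := hu.1
  obtain ⟨K0, P, hc, ho, hch⟩ := hVK S σ _ k z hz (noRed_of_minA hu)
  obtain ⟨G, hG1, hG2, hG3, hG4, hG5⟩ := hB S σ K0 P (by rw [ho, hc, val_toWord]; exact noRed_of_minA hu)
    (fun m' k' z' hm' h' => Or.inl (by
      rw [hc]
      by_contra hcon
      exact f1a hVK hB he hL m' k' z' hm' (by omega) h'))
  have h1 := hL G hG1 hG2 hG3 (by rw [hG4, hc]; exact hk)
  have h2 := wt_real (hG5 Y)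
  rw [ho] at h2
  rw [hG4, hc] at h1 h2
  have h3 : (0 : ℝ) ≤ wtw Y u.toWord := Nat.cast_nonneg _
  linarith only [h1, h2]

/-- F6 (a): no power of `t` is trivial -/
theorem f6a {Y : ℕ} {a : ℝ} (ha : 0 < a)
    (hiso : ∀ (u : FreeGroup (Let S)) (k : ℕ), MinA σ u k → a * k ≤ wtw Y u.toWord) :
    ∀ (m : ℤ) (k : ℕ) (z : Chn σ), m ≠ 0 → ¬ Expr σ k (val (tw S m)) z := by
  intro m k z hm h
  obtain ⟨k0, _, hk0⟩ := exists_minA h
  have h1 := hiso _ _ hk0
  rw [toWord_tw, wt_tw, Nat.cast_zero] at h1
  have h2 : k0 = 0 := by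
    by_contra h0
    have : (0 : ℝ) < k0 := by exact_mod_cast Nat.pos_of_ne_zero h0
    nlinarith only [h1, ha, this]
  subst h2
  obtain ⟨z', hz'⟩ := hk0.1
  exact tw_ne hm (expr_zero hz').1

/-- a total reduced `Y` contains a closed walk of length at most the number of squares -/
lemma exists_cwalk (G : Glue σ) (hR : G.Red) (hY : domc G.Y = Fintype.card G.Q) (hne : 0 < Fintype.card G.Q) :
    ∃ l : List (Port S), l ≠ [] ∧ IsCWalk σ l ∧ l.length ≤ Fintype.card G.Q := by
  classical
  have htot : ∀ s, ∃ s', G.Y s = some s' := by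
    intro s
    have h1 : (univ.filter (fun s => (G.Y s).isSome)) = univ := by
      apply eq_univ_of_card
      exact hY
    have h2 : s ∈ univ.filter (fun s => (G.Y s).isSome) := by rw [h1]; exact mem_univ _
    exact Option.isSome_iff_exists.1 (mem_filter.1 h2).2
  choose f hf using htot
  have hinj : Function.Injective f := by
    intro a b hab
    have h1 := hf a
    have h2 := hf b
    rw [hab] at h1
    exact G.Y.inj h1 h2
  obtain ⟨s0⟩ : Nonempty G.Q := Fintype.card_pos_iff.1 hne
  obtain ⟨i, j, hij, he⟩ : ∃ i j : Fin (Fintype.card G.Q + 1), i ≠ j ∧ f^[i] s0 = f^[j] s0 := by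
    apply Fintype.exists_ne_map_eq_of_card_lt
    simp only [Fintype.card_fin, lt_add_iff_pos_right, Order.lt_one_iff]
  obtain ⟨m, hm0, hmc, hm⟩ : ∃ m, 0 < m ∧ m ≤ Fintype.card G.Q ∧ f^[m] s0 = s0 := by
    have key : ∀ a b : ℕ, a < b → b ≤ Fintype.card G.Q → f^[a] s0 = f^[b] s0 →
        ∃ m, 0 < m ∧ m ≤ Fintype.card G.Q ∧ f^[m] s0 = s0 := by
      intro a b hab hb hE
      refine ⟨b - a, by omega, by omega, ?_⟩
      have h1 : f^[a] (f^[b - a] s0) = f^[a] s0 := by
        rw [← Function.iterate_add_apply, hE]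
        congr 2
        omega
      exact hinj.iterate a h1
    rcases lt_or_gt_of_ne (fun h => hij (Fin.ext h)) with h | h
    · exact key i j h (by omega) he
    · exact key j i h (by omega) he.symm
  have hstep : ∀ s, S.blk (mt σ (G.ε s)) = S.blk (G.ε (f s)) ∧ G.ε (f s) ≠ mt σ (G.ε s) := fun s => hR.y s _ (hf s)
  refine ⟨(List.range m).map fun i => G.ε (f^[i] s0), ?_, ⟨?_, ?_⟩, ?_⟩
  · intro h
    have := congrArg List.length h
    simp at this
    omega
  · unfold IsWalk
    rw [List.isChain_map]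
    obtain ⟨m', rfl⟩ : ∃ m', m = m' + 1 := ⟨m - 1, by omega⟩
    rw [List.isChain_range_succ]
    intro i _
    rw [Nat.succ_eq_add_one, Function.iterate_succ_apply']
    exact hstep _
  · obtain ⟨m', rfl⟩ : ∃ m', m = m' + 1 := ⟨m - 1, by omega⟩
    intro a ha b hb
    rw [List.range_succ, List.map_append, List.map_singleton, List.getLast?_append_of_ne_nil _ (by simp)] at ha
    simp only [List.getLast?_singleton, Option.mem_def, Option.some.injEq] at ha
    rw [List.range_succ_eq_map, List.map_cons] at hb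
    simp only [List.head?_cons, Option.mem_def, Option.some.injEq] at hb
    subst ha hb
    have h1 := hstep (f^[m'] s0)
    rw [← Function.iterate_succ_apply' f, hm] at h1
    exact h1
  · simpa only [List.length_map, List.length_range] using hmc

/-- every element of the kernel is expressed by relators -/
theorem of_ker {u : FreeGroup (Let S)} (hu : PresentedGroup.mk (rels σ) u = 1) : ∃ k z, Expr σ k u z := by
  let N : Subgroup (FreeGroup (Let S)) :=
    { carrier := {u | ∃ k z, Expr σ k u z}
      mul_mem' := fun ⟨k, z, h⟩ ⟨k', z', h'⟩ => ⟨k + k', z + z', EX.mul h h'⟩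
      one_mem' := ⟨0, 0, Expr.nil⟩
      inv_mem' := fun ⟨k, z, h⟩ => ⟨k, -z, EX.inv h⟩ }
  have : N.Normal := ⟨fun u ⟨k, z, h⟩ w => ⟨k, _, EX.conj w h⟩⟩
  have hle : Subgroup.normalClosure (rels σ) ≤ N := by
    refine Subgroup.normalClosure_le_normal ?_
    rintro _ ⟨q, rfl⟩
    have h := EX.sq (σ := σ) 1 q
    rw [one_mul, inv_one, mul_one] at h
    exact ⟨1, _, h⟩
  exact hle (PresentedGroup.mk_eq_one_iff.mp hu)

lemma wt_no_y {l : List (Let S × Bool)} (h : ∀ a ∈ l, ∀ j, a.1 ≠ Let.y j) (Y Y' : ℕ) : wtw Y l = wtw Y' l := by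
  unfold wtw
  congr 1
  refine List.map_congr_left fun a ha => ?_
  rcases h1 : a.1 with _ | _ | j
  · rfl
  · rfl
  · exact absurd h1 (h a ha j)

/-- F6 (b): short words without `y` inject -/
theorem f6b (hVK : StmtVK) (hB : StmtBridge) {Y g : ℕ} {a : ℝ} (ha : 0 < a)
    (hiso : ∀ (u : FreeGroup (Let S)) (k : ℕ), MinA σ u k → a * k ≤ wtw Y u.toWord)
    (hg : Girth σ g) (hag : 2 < a * g) (l : List (Let S × Bool)) (hl : ∀ x ∈ l, ∀ j, x.1 ≠ Let.y j)
    (hw : wtw Y l ≤ 2) (h1 : PresentedGroup.mk (rels σ) (val l) = 1) : val l = 1 := by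
  obtain ⟨k', z', h'⟩ := of_ker h1
  obtain ⟨k, _, hk⟩ := exists_minA h'
  obtain ⟨z, hz⟩ := hk.1
  rcases Nat.eq_zero_or_pos k with rfl | hpos
  · exact (expr_zero hz).1
  exfalso
  obtain ⟨K0, P, hc, ho, hch⟩ := hVK S σ _ k z hz (noRed_of_minA hk)
  obtain ⟨G, hG1, hG2, hG3, hG4, hG5⟩ := hB S σ K0 P (by rw [ho, hc, val_toWord]; exact noRed_of_minA hk)
    (fun m' k' z' hm' h' => absurd h' (f6a ha hiso m' k' z' hm'))
  have hno : ∀ x ∈ K0.outw, ∀ j, x.1 ≠ Let.y j := by
    intro x hx
    rw [ho] at hx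
    exact hl x ((toWord_sublist l).subset hx)
  have hY : domc G.Y = Fintype.card G.Q := by
    have hle := domc_le G.Y
    by_contra hne
    have h2 : 1 ≤ Fintype.card G.Q - domc G.Y := by omega
    have h3 := hG5 (wtw 0 K0.outw + 1)
    rw [wt_no_y hno (wtw 0 K0.outw + 1) 0] at h3
    have h4 : (wtw 0 K0.outw + 1) * 2 ≤ (wtw 0 K0.outw + 1) * (2 * (Fintype.card G.Q - domc G.Y)) :=
      Nat.mul_le_mul_left _ (by omega)
    omega
  obtain ⟨w, hw1, hw2, hw3⟩ := exists_cwalk G hG1 hY (by rw [hG4, hc]; exact hpos)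
  have h5 := hg w hw1 hw2
  have h6 : g ≤ k := by rw [hG4, hc] at hw3; omega
  have h7 := hiso _ _ hk
  have h8 : (wtw Y (val l).toWord : ℝ) ≤ 2 := by exact_mod_cast (wt_toWord Y l).trans hw
  have h9 : a * g ≤ a * k := mul_le_mul_of_nonneg_left (by exact_mod_cast h6) ha.le
  linarith only [hag, h7, h8, h9]

end FL

end Vale.Agent.P201.S
end

section

/-!
P201 part F, assembly by complexes (helper631):
`StmtVK`, `StmtGd`, `StmtLocK`, `StmtBridgeS`, `StmtIso` imply `StmtGlob`.
-/

namespace Vale.Agent.P201.S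

open Finset

namespace Glob2

variable {S : Sys} {σ : Equiv.Perm (S.C)}

/-! ### weights -/

/-- the weight of the edges with exactly one inner side is at most the weight of the outer word -/
theorem W_le (K : SqK σ) (Y : ℕ) : K.W Y ≤ wtw Y K.outw := by
  classical
  have h1 : wtw Y K.outw = ((K.bd none).map (fun d => wtl Y (K.lab d.1))).sum := by
    unfold SqK.outw PC.wd winv wtw
    rw [List.map_reverse, List.sum_reverse, List.map_map, List.map_map]
    rfl
  have hnd : (K.bd none).Nodup := by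
    rw [List.nodup_iff_count_le_one]
    intro d
    have h := K.once d
    have h3 : (K.bd none).count d ≤ ∑ f, (K.bd f).count d :=
      Finset.single_le_sum (f := fun f => (K.bd f).count d) (fun _ _ => Nat.zero_le _)
        (Finset.mem_univ none)
    omega
  rw [h1]
  have h2 : ((K.bd none).map (fun d => wtl Y (K.lab d.1))).sum =
      ∑ d ∈ (K.bd none).toFinset, wtl Y (K.lab d.1) := by
    rw [List.sum_toFinset _ hnd]
  rw [h2]
  unfold SqK.W SqK.wS
  have h3 : K.bdry univ ⊆ (K.bd none).toFinset.image Prod.fst := by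
    intro e he
    rw [Finset.mem_image]
    have hcov : ∀ d : K.E × Bool, (∃ f ∈ (univ : Finset K.F), d ∈ K.bd (some f)) ∨ d ∈ K.bd none := by
      intro d
      by_contra hcon
      rw [not_or] at hcon
      have h := K.once d
      have h0 : ∑ f, (K.bd f).count d = 0 := by
        apply Finset.sum_eq_zero
        intro f _
        rw [List.count_eq_zero]
        intro hd
        cases f with
        | none => exact hcon.2 hd
        | some f => exact hcon.1 ⟨f, Finset.mem_univ f, hd⟩
      omega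
    have he2 := (Finset.mem_filter.1 he).2
    rcases hcov (e, true) with ha | ha
    · rcases hcov (e, false) with hb | hb
      · exact absurd (iff_of_true ha hb) he2
      · exact ⟨(e, false), List.mem_toFinset.2 hb, rfl⟩
    · exact ⟨(e, true), List.mem_toFinset.2 ha, rfl⟩
  calc ∑ e ∈ K.bdry univ, wtl Y (K.lab e)
      ≤ ∑ e ∈ (K.bd none).toFinset.image Prod.fst, wtl Y (K.lab e) :=
        Finset.sum_le_sum_of_subset h3
    _ ≤ ∑ d ∈ (K.bd none).toFinset, wtl Y (K.lab d.1) :=
        Finset.sum_image_le_of_nonneg (fun _ _ => Nat.zero_le _)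

/-- `StmtGd` and `StmtLocK` give the bridge -/
theorem stmtBridge_of (hGd : StmtGd) (hLK : StmtLocK) : StmtBridge := by
  intro S σ K P hN ht
  obtain ⟨G, h1, h2, h3, h4, h5⟩ := hLK S σ K (hGd S σ K P hN ht)
  exact ⟨G, h1, h2, h3, h4, fun Y => (h5 Y).trans (W_le K Y)⟩

/-! ### powers of `t` -/

/-- no power of `t` is trivial -/
theorem tpow (hVK : StmtVK) (hGd : StmtGd) {Y : ℕ} {a : ℝ} (ha : 0 < a)
    (hI : ∀ K : SqK σ, K.Gd → a * Fintype.card K.F ≤ K.W Y) :
    ∀ (m : ℤ) (k : ℕ) (z : Chn σ), m ≠ 0 → ¬ Expr σ k (val (tw S m)) z := by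
  classical
  intro m0 k0 z0 hm0 h0
  have hex : ∃ k, ∃ (m : ℤ) (z : Chn σ), m ≠ 0 ∧ Expr σ k (val (tw S m)) z := ⟨k0, m0, z0, hm0, h0⟩
  obtain ⟨m, z, hm, hz⟩ := Nat.find_spec hex
  set F := Nat.find hex with hF
  have hmin : ∀ (m' : ℤ) (k' : ℕ) (z' : Chn σ), m' ≠ 0 → Expr σ k' (val (tw S m')) z' → F ≤ k' :=
    fun m' k' z' hm' h' => Nat.find_min' hex ⟨m', z', hm', h'⟩
  have hF0 : F ≠ 0 := by
    intro hF0
    rw [hF0] at hz
    exact FL.tw_ne hm (FL.expr_zero hz).1
  have hMA : MinA σ (val (tw S m)) F := ⟨⟨z, hz⟩, fun k' z' h' => hmin m k' z' hm h'⟩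
  obtain ⟨K0, P, hc, ho, hch⟩ := hVK S σ _ F z hz (FL.noRed_of_minA hMA)
  rw [FL.toWord_tw] at ho
  have hgood : K0.Gd := hGd S σ K0 P (by rw [ho, hc]; exact FL.noRed_of_minA hMA)
    (fun m' k' z' hm' h' => Or.inr ⟨by rw [hc]; exact hmin m' k' z' hm' h', fun a ha => by
      rw [ho] at ha
      exact FL.mem_tw ha⟩)
  have h1 := hI K0 hgood
  have h2 := W_le K0 Y
  rw [ho, FL.wt_tw] at h2
  have h3 : (K0.W Y : ℝ) ≤ 0 := by exact_mod_cast h2
  rw [hc] at h1
  have h4 : (0 : ℝ) < F := by exact_mod_cast Nat.pos_of_ne_zero hF0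
  nlinarith only [h1, h3, ha, h4]

/-- isoperimetric inequality for group elements -/
theorem iso (hVK : StmtVK) (hGd : StmtGd) {Y : ℕ} {a : ℝ} (ha : 0 < a)
    (hI : ∀ K : SqK σ, K.Gd → a * Fintype.card K.F ≤ K.W Y) :
    ∀ (u : FreeGroup (Let S)) (k : ℕ), MinA σ u k → a * k ≤ wtw Y u.toWord := by
  intro u k hu
  obtain ⟨z, hz⟩ := hu.1
  obtain ⟨K0, P, hc, ho, hch⟩ := hVK S σ _ k z hz (FL.noRed_of_minA hu)
  have hgood : K0.Gd := hGd S σ K0 P (by rw [ho, hc, FL.val_toWord]; exact FL.noRed_of_minA hu)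
    (fun m' k' z' hm' h' => absurd h' (tpow hVK hGd ha hI m' k' z' hm'))
  have h1 := hI K0 hgood
  have h2 : (K0.W Y : ℝ) ≤ wtw Y K0.outw := by exact_mod_cast W_le K0 Y
  rw [ho] at h2
  rw [hc] at h1
  linarith only [h1, h2]

/-- a minimal sphere satisfies the isoperimetric inequality -/
theorem sph_le (hVK : StmtVK) (hGd : StmtGd) {Y : ℕ} {a : ℝ} (ha : 0 < a)
    (hI : ∀ K : SqK σ, K.Gd → a * Fintype.card K.F ≤ K.W Y) (T : Sph σ) :
    a * Fintype.card T.K.F ≤ 2 + 2 * Y := by
  have hNR : NoRed σ (val T.K.outw) (Fintype.card T.K.F) (T.K.chn T.P univ) := by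
    intro k1 z1 hk1 hk2 hE1 hE2
    have hz1 : z1 = 0 := T.min k1 z1 hk2 hE1
    subst hz1
    rw [sub_zero, T.out] at hE2
    have hE3 := EX.mul hE2 (EX.inv (EX.sq (σ := σ) 1 T.q0))
    rw [one_mul, inv_one, mul_one, mul_inv_cancel, map_one, ← sub_eq_add_neg] at hE3
    exact T.chn (T.min _ _ (by omega) hE3)
  have hgood : T.K.Gd := hGd S σ T.K T.P hNR
    (fun m' k' z' hm' h' => absurd h' (tpow hVK hGd ha hI m' k' z' hm'))
  have h1 := hI T.K hgood
  have h2 : (T.K.W Y : ℝ) ≤ wtw Y T.K.outw := by exact_mod_cast W_le T.K Y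
  have h3 : wtw Y T.K.outw = 2 + 2 * Y := by
    rw [T.out]
    exact wtw_relw Y _
  rw [h3] at h2
  push_cast at h2
  linarith only [h1, h2]

end Glob2

open Glob2 in
/-- assembly of part F by the route of complexes -/
theorem stmtGlob_of (hVK : StmtVK) (hGd : StmtGd) (hLK : StmtLocK) (hBS : StmtBridgeS)
    (hIso : StmtIso) : StmtGlob := by
  intro c e1 L hc he1
  obtain ⟨K, Y0, hK⟩ := hIso c e1 L hc he1
  -- constants
  obtain ⟨K2, hK2⟩ := exists_nat_gt (16 / e1)
  obtain ⟨Y2, hY2⟩ := exists_nat_gt (4 / (e1 * c))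
  obtain ⟨Y3, hY3⟩ := exists_nat_gt (2 / c)
  refine ⟨max K K2 + 1, max (max Y0 Y2) (max Y3 1), ?_⟩
  intro S hL Y hY σ g hg hgi hloc
  have hYY0 : Y0 ≤ Y := (le_max_left _ _).trans ((le_max_left _ _).trans hY)
  have hYY2 : Y2 ≤ Y := (le_max_right _ _).trans ((le_max_left _ _).trans hY)
  have hYY3 : Y3 ≤ Y := (le_max_left _ _).trans ((le_max_right _ _).trans hY)
  have hY1 : 1 ≤ Y := (le_max_right _ _).trans ((le_max_right _ _).trans hY)
  have hlocK : LocIso σ (K * Y) Y e1 := by
    intro G h1 h2 h3 h4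
    exact hloc G h1 h2 h3 (h4.trans (Nat.mul_le_mul_right Y ((le_max_left _ _).trans (Nat.le_succ _))))
  have hI := hK S hL Y hYY0 σ g hg hgi hlocK
  have ha : 0 < e1 / 2 := by positivity
  have hVKiso := iso hVK hGd ha hI
  have hY2' : 4 / (e1 * c) < Y := lt_of_lt_of_le hY2 (by exact_mod_cast hYY2)
  have hY3' : 2 / c < Y := lt_of_lt_of_le hY3 (by exact_mod_cast hYY3)
  refine ⟨?_, ?_, ?_⟩
  · intro k z hz
    by_contra hne
    have hg2 : 2 ≤ g := by
      have h1 : (2 : ℝ) < g := by
        rw [div_lt_iff₀ hc] at hY3'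
        nlinarith only [hg, hY3']
      exact_mod_cast h1.le
    obtain ⟨T⟩ := F7.exists_sph hVK hgi hg2 hz hne
    have h1 := F7.Sph.large hBS he1 hloc (tpow hVK hGd ha hI) T
    have h2 := sph_le hVK hGd ha hI T
    have h3 : ((max K K2 + 1) * Y : ℝ) < Fintype.card T.K.F + 1 := by exact_mod_cast h1
    have h4 : (16 / e1 : ℝ) < (max K K2 : ℕ) := lt_of_lt_of_le hK2 (by exact_mod_cast le_max_right _ _)
    have h5 : (1 : ℝ) ≤ Y := by exact_mod_cast hY1
    rw [div_lt_iff₀ he1] at h4
    push_cast at h4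
    have h6 : ((max (K : ℝ) (K2 : ℝ)) + 1) * Y ≤ Fintype.card T.K.F + 1 := by
      have : ((max K K2 : ℕ) : ℝ) = max (K : ℝ) (K2 : ℝ) := by push_cast; rfl
      rw [← this]
      exact_mod_cast h1.le
    set X : ℝ := max (K : ℝ) (K2 : ℝ) with hX
    have h7 : X * Y ≤ Fintype.card T.K.F := by nlinarith only [h5, h6]
    have h8 : 16 * Y ≤ e1 * Fintype.card T.K.F := by
      have : e1 * (X * Y) ≤ e1 * Fintype.card T.K.F := mul_le_mul_of_nonneg_left h7 he1.le
      nlinarith only [this, h4]
    nlinarith only [h2, h5, h8]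
  · intro l hl hw h1
    refine FL.f6b hVK (Glob2.stmtBridge_of hGd hLK) ha hVKiso hgi ?_ l hl hw h1
    rw [div_lt_iff₀ (by positivity)] at hY2'
    have : e1 * (c * Y) ≤ e1 * g := mul_le_mul_of_nonneg_left hg he1.le
    nlinarith only [hY2', this]
  · intro l h1
    obtain ⟨k', z', h'⟩ := FL.of_ker h1
    obtain ⟨k, _, hk⟩ := FL.exists_minA h'
    obtain ⟨z, hz⟩ := hk.1
    refine ⟨k, z, hz, ?_⟩
    have h2 := hVKiso _ _ hk
    have h3 : (wtw Y (val l).toWord : ℝ) ≤ wtw Y l := by exact_mod_cast FL.wt_toWord Y l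
    linarith only [h2, h3]

end Vale.Agent.P201.S
end

section

/-! P201 (general system): parts D and F, final assembly -/

namespace Vale.Agent.P201.S

theorem stmtIso : StmtIso := stmtIso_of stmtMerge stmtLocK stmtT1

theorem stmtGlob : StmtGlob := stmtGlob_of stmtVK stmtGd stmtLocK stmtBridgeS stmtIso

end Vale.Agent.P201.S
end
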