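import Mathlib.Algebra.Order.Ring.Star
import Mathlib.Algebra.Order.Star.Real
import Mathlib.Analysis.Complex.ExponentialBounds
import Mathlib.Combinatorics.SimpleGraph.Cayley
import Mathlib.Combinatorics.SimpleGraph.Metric
import Mathlib.Data.Finsupp.Pointwise
import Mathlib.Data.Int.Star
import Mathlib.Data.PEquiv
import Mathlib.Data.Rat.Star
import Mathlib.GroupTheory.FreeGroup.Reduce
import Mathlib.GroupTheory.PresentedGroup
import Mathlib.GroupTheory.ResiduallyFinite
import Mathlib.GroupTheory.SemidirectProduct
import Mathlib.LinearAlgebra.LinearIndependent.BaseChange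
import Mathlib.LinearAlgebra.Matrix.Rank
import Mathlib.ModelTheory.Graph
import Mathlib.RingTheory.Flat.TorsionFree
import Mathlib.RingTheory.Henselian
import Mathlib.RingTheory.PicardGroup
import Mathlib.RingTheory.RegularLocalRing.Defs
import Mathlib.RingTheory.SimpleRing.Principal
import Mathlib.Tactic

/-! The part of Mathlib that the development of this folder uses. -/
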